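import Vale.Agent.P100.Calib.SlabStripEndDExpr
import Vale.Agent.P100.Calib.SlabStripEndCert
import Vale.Agent.P100.Calib.SlabStripEndChart

/-!
# The bins `F` of the `D` region for `N` between seven and twenty

`x = (d, I / d, (1 - u) / d, t)`, with `v` affine in `t`.
-/

namespace Vale.Agent.P100.Calib.StripEndD

open Pack hiding ev_add ev_mul
open Pack.Ex StripMid StripEnd

local instance endSevDataFAdd : Add Ex := ⟨Ex.add⟩
local instance endSevDataFSub : Sub Ex := ⟨Ex.sub⟩
local instance endSevDataFMul : Mul Ex := ⟨Ex.mul⟩

/-- The chart of the bin `F0`. -/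
def sevBinF0 : EndChart where
  I := var 0 * var 1
  d := var 0
  w := var 0 * var 2
  den := num 100
  n₀ := (num 1 - num 2 * (var 0 * var 1) - var 0) * ((num 43) * var 1 + (num 74) * var 0 + num 8)
  n₁ := (num 1 - num 2 * (var 0 * var 1) - var 0) * ((num 116) * var 1 + (num 47) * var 0 + num (-42))
  q₀ := (26, 31, 200)
  q₁ := (325, 481, 500)
  q₂ := (0, 11, 500)
  q₃ := (0, 1, 1)
  t₀ := (0, 1)
  t₁ := (1, 1)
  mu₀ := (228, 100)
  mu₁ := (359, 100)

/-- The piece `F0a`. -/
def sevPcF0a : Piece where
  I := var 0 * var 1
  d := var 0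
  w := var 0 * var 2
  o := sevBinF0.n₀ + sevBinF0.n₁ * var 3
  den := num 100
  vn := num 2 * (((num 116) * var 1 + (num 47) * var 0 + num (-42)) * var 3 + (num 43) * var 1 + (num 74) * var 0 + num 8)
  vs := num 1
  mu := ⟨(228, 100), (359, 100)⟩
  pn := fun b => cond b
    ((((((num 916168) * var 0 + num 11600000) * var 0) * var 1 + (((num 371206) * var 0 + num 4826368) * var 0 + num 1141916) * var 0 + num (-5800000)) * var 1 + (((num 185603) * var 0 + num 1998539) * var 0 + num (-4284142)) * var 0 + num 2100000) * var 3 + ((((num 339614) * var 0 + num 4300000) * var 0) * var 1 + (((num 584452) * var 0 + num 7632991) * var 0 + num 2780193) * var 0 + num (-2150000)) * var 1 + (((num 292226) * var 0 + num 3439366) * var 0 + num (-3331592)) * var 0 + num 4600000)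
    (((((num 11600000) * var 0) * var 1 + ((num 4700000) * var 0 + num 1600000) * var 0 + num (-5800000)) * var 1 + ((num 2350000) * var 0 + num (-4450000)) * var 0 + num 2100000) * var 3 + (((num 4300000) * var 0) * var 1 + ((num 7400000) * var 0 + num 2950000) * var 0 + num (-2150000)) * var 1 + ((num 3700000) * var 0 + num (-3300000)) * var 0 + num 4600000)
  pd := num 50000
  en := fun b => cond b
    (((((num 103500) * var 0) * var 1) * var 3 + (((num (-103914000)) * var 0) * var 1 + ((num 295699500) * var 0 + num (-24529500)) * var 0) * var 1 + num 336996) * var 3 + (((num (-11695500)) * var 0) * var 1 + ((num 123165000) * var 0 + num 113229000) * var 0) * var 1 + (num 9820701) * var 0 + num 1350261)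
    (((((num 98300) * var 0) * var 1) * var 3 + (((num (-98693200)) * var 0) * var 1 + ((num 280843100) * var 0 + num (-23297100)) * var 0) * var 1) * var 3 + (((num (-11107900)) * var 0) * var 1 + ((num 116977000) * var 0 + num 107540200) * var 0) * var 1)
  kk := fun b => cond b
    (((num 306372) * var 0) * var 3 + ((num 150865) * var 0) * var 1 + ((num 11855668) * var 0 + num 826276) * var 0)
    (num 0)
  f0 := num 10000000
  wn := fun b => cond b
    ((((((num (-18560)) * var 0 * var 0) * var 1 + (((num (-7520)) * var 0 + num 11770) * var 0 + num 9280) * var 0) * var 1 + (((num (-3760)) * var 0 + num 7120) * var 0 + num (-3360)) * var 0) * var 1) * var 3 + ((((num (-6880)) * var 0 * var 0) * var 1 + (((num (-74630)) * var 0 + num 559) * var 0 + num 3440) * var 0) * var 1 + (((num (-5920)) * var 0 + num (-2720)) * var 0 + num (-7360)) * var 0) * var 1)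
    ((((((num (-18560)) * var 0 * var 0) * var 1 + (((num (-7520)) * var 0 + num 11770) * var 0 + num 9280) * var 0) * var 1 + (((num (-3760)) * var 0 + num 7120) * var 0 + num (-3360)) * var 0) * var 1) * var 3 + ((((num (-6880)) * var 0 * var 0) * var 1 + (((num (-74630)) * var 0 + num (-3273)) * var 0 + num 3440) * var 0) * var 1 + (((num (-5920)) * var 0 + num (-2720)) * var 0 + num (-7360)) * var 0) * var 1)
  wd := num 1000
  tn := fun b => cond b
    (((num 93368) * var 1 + num (-11671)) * var 3 + (num 46684) * var 1 + (num (-221749)) * var 0 + num 1237126)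
    (num 0)
  td := ((num (-50500000)) * var 1 + num 4500000) * var 3 + (num (-15500000)) * var 1 + (num 84500000) * var 0 + num 63000000
  cn := num 1 - var 0 * var 1 - var 1 * (num 1 - num 2 * (var 0 * var 1))
  cd := (num 1 - num 2 * (var 0 * var 1)) * (num 1 - num 2 * (var 0 * var 1))
  kn := var 0 * var 1 * ((((num 1330056) * var 1 + num (-774739)) * var 3 + (num (-146203)) * var 1 + (num 2104417) * var 0 + num (-518563)) * var 3 + ((num (-214052)) * var 1 + (num (-1366244)) * var 0 + num 500779) * var 1 + (num (-400553)) * var 0 + num 250909)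
  kd := ((num (-10100)) * var 1 + num 900) * var 3 + (num (-3100)) * var 1 + (num 16900) * var 0 + num 12600
  k2n := (((num 1126) * var 0) * var 3 + ((num (-3963)) * var 0) * var 1 + (num 1915) * var 0) * var 3 + ((num 3343) * var 0) * var 1 + ((num 537) * var 0 + num (-1680)) * var 0
  k2d := num 100

/-- Its ranges. -/
def sevBoxF0a : EBox :=
  ⟨(26, 31, 200), (325, 481, 500), (0, 11, 500), (0, 3, 5)⟩

/-- The piece `F0b`. -/
def sevPcF0b : Piece where
  I := var 0 * var 1
  d := var 0
  w := var 0 * var 2
  o := sevBinF0.n₀ + sevBinF0.n₁ * var 3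
  den := num 100
  vn := num 2 * (((num 116) * var 1 + (num 47) * var 0 + num (-42)) * var 3 + (num 43) * var 1 + (num 74) * var 0 + num 8)
  vs := num 1
  mu := ⟨(228, 100), (359, 100)⟩
  pn := fun b => cond b
    ((((((num 916168) * var 0 + num 11600000) * var 0) * var 1 + (((num 371206) * var 0 + num 4826368) * var 0 + num 1141916) * var 0 + num (-5800000)) * var 1 + (((num 185603) * var 0 + num 1998539) * var 0 + num (-4284142)) * var 0 + num 2100000) * var 3 + ((((num 339614) * var 0 + num 4300000) * var 0) * var 1 + (((num 584452) * var 0 + num 7632991) * var 0 + num 2780193) * var 0 + num (-2150000)) * var 1 + (((num 292226) * var 0 + num 3439366) * var 0 + num (-3331592)) * var 0 + num 4600000)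
    (((((num 11600000) * var 0) * var 1 + ((num 4700000) * var 0 + num 1600000) * var 0 + num (-5800000)) * var 1 + ((num 2350000) * var 0 + num (-4450000)) * var 0 + num 2100000) * var 3 + (((num 4300000) * var 0) * var 1 + ((num 7400000) * var 0 + num 2950000) * var 0 + num (-2150000)) * var 1 + ((num 3700000) * var 0 + num (-3300000)) * var 0 + num 4600000)
  pd := num 50000
  en := fun b => cond b
    (((((num (-3213000)) * var 0) * var 1) * var 3 + (((num (-526396500)) * var 0) * var 1 + ((num 1882818000) * var 0 + num (-180999000)) * var 0) * var 1 + num 1708245) * var 3 + (((num (-72292500)) * var 0) * var 1 + ((num 397876500) * var 0 + num 627606000) * var 0) * var 1 + (num 37027683) * var 0 + num 8965341)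
    (((((num (-2892000)) * var 0) * var 1) * var 3 + (((num (-473806000)) * var 0) * var 1 + ((num 1694712000) * var 0 + num (-162916000)) * var 0) * var 1) * var 3 + (((num (-65070000)) * var 0) * var 1 + ((num 358126000) * var 0 + num 564904000) * var 0) * var 1)
  kk := fun b => cond b
    (((num 1399200) * var 0) * var 3 + ((num 1970540) * var 0) * var 1 + ((num 63978420) * var 0 + num 2646820) * var 0)
    (num 0)
  f0 := num 50000000
  wn := fun b => cond b
    ((((((num (-9280)) * var 0 * var 0) * var 1 + (((num (-3760)) * var 0 + num 3300) * var 0 + num 4640) * var 0) * var 1 + (((num (-1880)) * var 0 + num 3560) * var 0 + num (-1680)) * var 0) * var 1) * var 3 + ((((num (-3440)) * var 0 * var 0) * var 1 + (((num (-29495)) * var 0 + num (-19)) * var 0 + num 1720) * var 0) * var 1 + (((num (-2960)) * var 0 + num (-1360)) * var 0 + num (-3680)) * var 0) * var 1)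
    ((((((num (-9280)) * var 0 * var 0) * var 1 + (((num (-3760)) * var 0 + num 3300) * var 0 + num 4640) * var 0) * var 1 + (((num (-1880)) * var 0 + num 3560) * var 0 + num (-1680)) * var 0) * var 1) * var 3 + ((((num (-3440)) * var 0 * var 0) * var 1 + (((num (-29495)) * var 0 + num (-709)) * var 0 + num 1720) * var 0) * var 1 + (((num (-2960)) * var 0 + num (-1360)) * var 0 + num (-3680)) * var 0) * var 1)
  wd := num 500
  tn := fun b => cond b
    (((num (-78221)) * var 1 + num 72204) * var 3 + (num 90255) * var 1 + (num (-258731)) * var 0 + num 613734)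
    (num 0)
  td := ((num (-21250000)) * var 1) * var 3 + (num (-10750000)) * var 1 + (num 69500000) * var 0 + num 29250000
  cn := num 1 - var 0 * var 1 - var 1 * (num 1 - num 2 * (var 0 * var 1))
  cd := (num 1 - num 2 * (var 0 * var 1)) * (num 1 - num 2 * (var 0 * var 1))
  kn := var 0 * var 1 * ((((num 4409996) * var 1 + num (-2607309)) * var 3 + (num (-5334082)) * var 1 + (num (-3334028)) * var 0 + num 4224476) * var 3 + ((num 293972) * var 1 + (num 841026) * var 0 + num 1295666) * var 1 + (num 1968015) * var 0 + num (-1471759))
  kd := ((num (-8500)) * var 1) * var 3 + (num (-4300)) * var 1 + (num 27800) * var 0 + num 11700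
  k2n := (((num 64) * var 0) * var 3 + ((num (-1054)) * var 0) * var 1 + (num 256) * var 0) * var 3 + ((num 1908) * var 0) * var 1 + ((num 2149) * var 0 + num (-868)) * var 0
  k2d := num 100

/-- Its ranges. -/
def sevBoxF0b : EBox :=
  ⟨(26, 31, 200), (325, 481, 500), (0, 11, 500), (3, 5, 5)⟩

/-- The chart of the bin `F1`. -/
def sevBinF1 : EndChart where
  I := var 0 * var 1
  d := var 0
  w := var 0 * var 2
  den := num 100
  n₀ := (num 1 - num 2 * (var 0 * var 1) - var 0) * ((num 42) * var 1 + (num 64) * var 0 + num 8)
  n₁ := (num 1 - num 2 * (var 0 * var 1) - var 0) * ((num 92) * var 1 + (num 65) * var 0 + num (-31))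
  q₀ := (26, 31, 200)
  q₁ := (325, 481, 500)
  q₂ := (11, 21, 500)
  q₃ := (0, 1, 1)
  t₀ := (0, 1)
  t₁ := (1, 1)
  mu₀ := (225, 100)
  mu₁ := (350, 100)

/-- The piece `F1a`. -/
def sevPcF1a : Piece where
  I := var 0 * var 1
  d := var 0
  w := var 0 * var 2
  o := sevBinF1.n₀ + sevBinF1.n₁ * var 3
  den := num 100
  vn := num 2 * (((num 92) * var 1 + (num 65) * var 0 + num (-31)) * var 3 + (num 42) * var 1 + (num 64) * var 0 + num 8)
  vs := num 1
  mu := ⟨(225, 100), (350, 100)⟩
  pn := fun b => cond b
    ((((((num 54096) * var 0 + num 368000) * var 0) * var 1 + (((num 38220) * var 0 + num 268820) * var 0 + num 32952) * var 0 + num (-184000)) * var 1 + (((num 19110) * var 0 + num 101776) * var 0 + num (-182886)) * var 0 + num 62000) * var 3 + ((((num 24696) * var 0 + num 168000) * var 0) * var 1 + (((num 37632) * var 0 + num 273052) * var 0 + num 103652) * var 0 + num (-84000)) * var 1 + (((num 18816) * var 0 + num 111536) * var 0 + num (-114352)) * var 0 + num 184000)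
    ((((((num 18216) * var 0 + num 368000) * var 0) * var 1 + (((num 12870) * var 0 + num 262970) * var 0 + num 50892) * var 0 + num (-184000)) * var 1 + (((num 6435) * var 0 + num 120496) * var 0 + num (-188931)) * var 0 + num 62000) * var 3 + ((((num 8316) * var 0 + num 168000) * var 0) * var 1 + (((num 12672) * var 0 + num 261742) * var 0 + num 111842) * var 0 + num (-84000)) * var 1 + (((num 6336) * var 0 + num 122456) * var 0 + num (-112792)) * var 0 + num 184000)
  pd := num 2000
  en := fun b => cond b
    ((((num (-374880000)) * var 0) * var 1 + num 12680955) * var 3 + (((num (-280095000)) * var 0) * var 1 + ((num 2176860000) * var 0 + num 592672500) * var 0) * var 1 + (num (-12882240)) * var 0 + num 22857030)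
    ((((num (-324192000)) * var 0) * var 1 + num 5744277) * var 3 + (((num (-242223000)) * var 0) * var 1 + ((num 1882524000) * var 0 + num 512536500) * var 0) * var 1 + (num (-5835456)) * var 0 + num 10353882)
  kk := fun b => cond b
    (((num 2557485) * var 0) * var 3 + ((num 1712403) * var 0) * var 1 + ((num 114753240) * var 0 + num 7383348) * var 0)
    (((num 1200485) * var 0) * var 3 + ((num 803803) * var 0) * var 1 + ((num 53865240) * var 0 + num 3465748) * var 0)
  f0 := num 50000000
  wn := fun b => cond b
    ((((((num (-3680000)) * var 0 * var 0) * var 1 + (((num (-2600000)) * var 0 + num 2689520) * var 0 + num 1840000) * var 0) * var 1 + (((num (-1328600)) * var 0 + num 1831120) * var 0 + num (-599760)) * var 0) * var 1 + (((num (-14300)) * var 0 + num 21120) * var 0 + num (-6820)) * var 0) * var 3 + ((((num (-1680000)) * var 0 * var 0) * var 1 + (((num (-21690000)) * var 0 + num 63520) * var 0 + num 840000) * var 0) * var 1 + (((num 1425450) * var 0 + num (-916806)) * var 0 + num (-1830760)) * var 0) * var 1 + (((num (-14080)) * var 0 + num 12320) * var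 0 + num 1760) * var 0)
    ((((((num (-3680000)) * var 0 * var 0) * var 1 + (((num (-2600000)) * var 0 + num 2689520) * var 0 + num 1840000) * var 0) * var 1 + (((num (-1328600)) * var 0 + num 1831120) * var 0 + num (-599760)) * var 0) * var 1 + (((num (-14300)) * var 0 + num 21120) * var 0 + num (-6820)) * var 0) * var 3 + ((((num (-1680000)) * var 0 * var 0) * var 1 + (((num (-21690000)) * var 0 + num (-760980)) * var 0 + num 840000) * var 0) * var 1 + (((num 1425450) * var 0 + num (-934945)) * var 0 + num (-1830760)) * var 0) * var 1 + (((num (-14080)) * var 0 + num 12320) * var 0 + num 1760) * var 0)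
  wd := num 250000
  tn := fun b => cond b
    (((num 5913810) * var 1 + num (-2450007)) * var 3 + (num 56322) * var 1 + (num (-5068980)) * var 0 + num 2844261)
    (((num 1935780) * var 1 + num (-801966)) * var 3 + (num 18436) * var 1 + (num (-1659240)) * var 0 + num 931018)
  td := num 50000000
  cn := num 1 - var 0 * var 1 - var 1 * (num 1 - num 2 * (var 0 * var 1))
  cd := (num 1 - num 2 * (var 0 * var 1)) * (num 1 - num 2 * (var 0 * var 1))
  kn := var 0 * var 1 * ((((num 48099) * var 1 + num (-29667)) * var 3 + (num (-20132)) * var 1 + (num (-18424)) * var 0 + num 14453) * var 3 + ((num (-983)) * var 1 + (num (-57596)) * var 0 + num 13631) * var 1 + (num 37474) * var 0 + num (-5132))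
  kd := num 100
  k2n := (((num 383) * var 0) * var 3 + ((num (-2190)) * var 0) * var 1 + (num 958) * var 0) * var 3 + ((num 2179) * var 0) * var 1 + ((num 1098) * var 0 + num (-1123)) * var 0
  k2d := num 100

/-- Its ranges. -/
def sevBoxF1a : EBox :=
  ⟨(26, 31, 200), (325, 481, 500), (11, 21, 500), (0, 1, 1)⟩

/-- The chart of the bin `F2`. -/
def sevBinF2 : EndChart where
  I := var 0 * var 1
  d := var 0
  w := var 0 * var 2
  den := num 100
  n₀ := (num 1 - num 2 * (var 0 * var 1) - var 0) * ((num 43) * var 1 + (num 65) * var 0 + num 6)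
  n₁ := (num 1 - num 2 * (var 0 * var 1) - var 0) * ((num 81) * var 1 + (num 81) * var 0 + num (-29))
  q₀ := (26, 31, 200)
  q₁ := (325, 481, 500)
  q₂ := (42, 75, 1000)
  q₃ := (0, 1, 1)
  t₀ := (0, 1)
  t₁ := (1, 1)
  mu₀ := (223, 100)
  mu₁ := (345, 100)

/-- The piece `F2a`. -/
def sevPcF2a : Piece where
  I := var 0 * var 1
  d := var 0
  w := var 0 * var 2
  o := sevBinF2.n₀ + sevBinF2.n₁ * var 3
  den := num 100
  vn := num 2 * (((num 81) * var 1 + (num 81) * var 0 + num (-29)) * var 3 + (num 43) * var 1 + (num 65) * var 0 + num 6)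
  vs := num 1
  mu := ⟨(223, 100), (345, 100)⟩
  pn := fun b => cond b
    ((((((num 4191750) * var 0 + num 16200000) * var 0) * var 1 + (((num 4191750) * var 0 + num 16795125) * var 0 + num 204125) * var 0 + num (-8100000)) * var 1 + (((num 2095875) * var 0 + num 5253750) * var 0 + num (-10249625)) * var 0 + num 2900000) * var 3 + ((((num 2225250) * var 0 + num 8600000) * var 0) * var 1 + (((num 3363750) * var 0 + num 14423125) * var 0 + num 4387375) * var 0 + num (-4300000)) * var 1 + (((num 1681875) * var 0 + num 4973375) * var 0 + num (-6055250)) * var 0 + num 9400000)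
    ((((((num 1517292) * var 0 + num 16200000) * var 0) * var 1 + (((num 1517292) * var 0 + num 16415418) * var 0 + num 1541354) * var 0 + num (-8100000)) * var 1 + (((num 758646) * var 0 + num 7069740) * var 0 + num (-10728386)) * var 0 + num 2900000) * var 3 + ((((num 805476) * var 0 + num 8600000) * var 0) * var 1 + (((num 1217580) * var 0 + num 13515130) * var 0 + num 5097262) * var 0 + num (-4300000)) * var 1 + (((num 608790) * var 0 + num 5947406) * var 0 + num (-5956196)) * var 0 + num 9400000)
  pd := num 100000
  en := fun b => cond b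
    ((((num (-670486000)) * var 0) * var 1 + num 26359200) * var 3 + (((num (-452918000)) * var 0) * var 1 + ((num 3812670000) * var 0 + num 1152692000) * var 0) * var 1 + (num 188358450) * var 0 + num 57346950)
    ((((num (-600617000)) * var 0) * var 1 + num 13222944) * var 3 + (((num (-405721000)) * var 0) * var 1 + ((num 3415365000) * var 0 + num 1032574000) * var 0) * var 1 + (num 94488954) * var 0 + num 28767774)
  kk := fun b => cond b
    (((num 8229000) * var 0) * var 3 + ((num 5380500) * var 0) * var 1 + ((num 405040875) * var 0 + num 26902500) * var 0)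
    (((num 4162704) * var 0) * var 3 + ((num 2721768) * var 0) * var 1 + ((num 204893094) * var 0 + num 13608840) * var 0)
  f0 := num 100000000
  wn := fun b => cond b
    ((((((num (-6480000)) * var 0 * var 0) * var 1 + (((num (-6480000)) * var 0 + num 5498920) * var 0 + num 3240000) * var 0) * var 1 + (((num (-3376080)) * var 0 + num 4350440) * var 0 + num (-1091960)) * var 0) * var 1 + (((num (-68040)) * var 0 + num 92400) * var 0 + num (-24360)) * var 0) * var 3 + ((((num (-3440000)) * var 0 * var 0) * var 1 + (((num (-46085000)) * var 0 + num 101760) * var 0 + num 1720000) * var 0) * var 1 + (((num 5227960) * var 0 + num (-1836812)) * var 0 + num (-3723880)) * var 0) * var 1 + (((num (-54600)) * var 0 + num 49560) * var 0 + num 5040) * var 0)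
    ((((((num (-6480000)) * var 0 * var 0) * var 1 + (((num (-6480000)) * var 0 + num 5498920) * var 0 + num 3240000) * var 0) * var 1 + (((num (-3376080)) * var 0 + num 4350440) * var 0 + num (-1091960)) * var 0) * var 1 + (((num (-68040)) * var 0 + num 92400) * var 0 + num (-24360)) * var 0) * var 3 + ((((num (-3440000)) * var 0 * var 0) * var 1 + (((num (-46085000)) * var 0 + num (-1263740)) * var 0 + num 1720000) * var 0) * var 1 + (((num 5227960) * var 0 + num (-1894163)) * var 0 + num (-3723880)) * var 0) * var 1 + (((num (-54600)) * var 0 + num 49560) * var 0 + num 5040) * var 0)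
  wd := num 500000
  tn := fun b => cond b
    (((num 14611050) * var 1 + num (-5640975)) * var 3 + (num 739800) * var 1 + (num (-12576600)) * var 0 + num 8137800)
    (((num 5826408) * var 1 + num (-2249436)) * var 3 + (num 295008) * var 1 + (num (-5015136)) * var 0 + num 3245088)
  td := num 100000000
  cn := num 1 - var 0 * var 1 - var 1 * (num 1 - num 2 * (var 0 * var 1))
  cd := (num 1 - num 2 * (var 0 * var 1)) * (num 1 - num 2 * (var 0 * var 1))
  kn := var 0 * var 1 * ((((num 38505) * var 1 + num (-21949)) * var 3 + (num (-12812)) * var 1 + (num (-15411)) * var 0 + num 9376) * var 3 + ((num (-572)) * var 1 + (num (-48236)) * var 0 + num 10758) * var 1 + (num 31882) * var 0 + num (-3279))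
  kd := num 100
  k2n := (((num 280) * var 0) * var 3 + ((num (-1713)) * var 0) * var 1 + (num 791) * var 0) * var 3 + ((num 1691) * var 0) * var 1 + ((num 992) * var 0 + num (-896)) * var 0
  k2d := num 100

/-- Its ranges. -/
def sevBoxF2a : EBox :=
  ⟨(26, 31, 200), (325, 481, 500), (42, 75, 1000), (0, 1, 1)⟩

/-- The chart of the bin `F3`. -/
def sevBinF3 : EndChart where
  I := var 0 * var 1
  d := var 0
  w := var 0 * var 2
  den := num 100
  n₀ := (num 1 - num 2 * (var 0 * var 1) - var 0) * ((num 42) * var 1 + (num 73) * var 0 + num 2)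
  n₁ := (num 1 - num 2 * (var 0 * var 1) - var 0) * ((num 71) * var 1 + (num 43) * var 0 + num (-18))
  q₀ := (26, 31, 200)
  q₁ := (325, 481, 500)
  q₂ := (15, 26, 200)
  q₃ := (0, 1, 1)
  t₀ := (0, 1)
  t₁ := (1, 1)
  mu₀ := (216, 100)
  mu₁ := (333, 100)

/-- The piece `F3a`. -/
def sevPcF3a : Piece where
  I := var 0 * var 1
  d := var 0
  w := var 0 * var 2
  o := sevBinF3.n₀ + sevBinF3.n₁ * var 3
  den := num 100
  vn := num 2 * (((num 71) * var 1 + (num 43) * var 0 + num (-18)) * var 3 + (num 42) * var 1 + (num 73) * var 0 + num 2)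
  vs := num 1
  mu := ⟨(216, 100), (333, 100)⟩
  pn := fun b => cond b
    ((((((num 614718) * var 0 + num 1420000) * var 0) * var 1 + (((num 372294) * var 0 + num 1011515) * var 0 + num 42641) * var 0 + num (-710000)) * var 1 + (((num 186147) * var 0 + num 165931) * var 0 + num (-532078)) * var 0 + num 180000) * var 3 + ((((num 363636) * var 0 + num 840000) * var 0) * var 1 + (((num 632034) * var 0 + num 1659134) * var 0 + num 278182) * var 0 + num (-420000)) * var 1 + (((num 316017) * var 0 + num 422641) * var 0 + num (-718658)) * var 0 + num 980000)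
    ((((((num 230040) * var 0 + num 1420000) * var 0) * var 1 + (((num 139320) * var 0 + num 916700) * var 0 + num 234980) * var 0 + num (-710000)) * var 1 + (((num 69660) * var 0 + num 331180) * var 0 + num (-580840)) * var 0 + num 180000) * var 3 + ((((num 136080) * var 0 + num 840000) * var 0) * var 1 + (((num 236520) * var 0 + num 1534520) * var 0 + num 391960) * var 0 + num (-420000)) * var 1 + (((num 118260) * var 0 + num 614980) * var 0 + num (-713240)) * var 0 + num 980000)
  pd := num 10000
  en := fun b => cond b
    ((((num (-118347600)) * var 0) * var 1 + num 5234684) * var 3 + (((num (-44763600)) * var 0) * var 1 + ((num 473390400) * var 0 + num 228723600) * var 0) * var 1 + (num 114020452) * var 0 + num 14455168)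
    ((((num (-111747000)) * var 0) * var 1 + num 2851575) * var 3 + (((num (-42267000)) * var 0) * var 1 + ((num 446988000) * var 0 + num 215967000) * var 0) * var 1 + (num 62112225) * var 0 + num 7874400)
  kk := fun b => cond b
    (((num 2652468) * var 0) * var 3 + ((num 784914) * var 0) * var 1 + ((num 131784354) * var 0 + num 10609872) * var 0)
    (((num 1415610) * var 0) * var 3 + ((num 418905) * var 0) * var 1 + ((num 70332705) * var 0 + num 5662440) * var 0)
  f0 := num 20000000
  wn := fun b => cond b
    ((((((num (-454400)) * var 0 * var 0) * var 1 + (((num (-275200)) * var 0 + num 480960) * var 0 + num 227200) * var 0) * var 1 + (((num (-147920)) * var 0 + num 205100) * var 0 + num (-49080)) * var 0) * var 1 + (((num (-5160)) * var 0 + num 7320) * var 0 + num (-2160)) * var 0) * var 3 + ((((num (-268800)) * var 0 * var 0) * var 1 + (((num (-4473600)) * var 0 + num 67640) * var 0 + num 134400) * var 0) * var 1 + (((num 699220) * var 0 + num (-134371)) * var 0 + num (-308560)) * var 0) * var 1 + (((num (-8760)) * var 0 + num 8520) * var 0 + num 240) * var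 0)
    ((((((num (-454400)) * var 0 * var 0) * var 1 + (((num (-275200)) * var 0 + num 480960) * var 0 + num 227200) * var 0) * var 1 + (((num (-147920)) * var 0 + num 205100) * var 0 + num (-49080)) * var 0) * var 1 + (((num (-5160)) * var 0 + num 7320) * var 0 + num (-2160)) * var 0) * var 3 + ((((num (-268800)) * var 0 * var 0) * var 1 + (((num (-4473600)) * var 0 + num (-14240)) * var 0 + num 134400) * var 0) * var 1 + (((num 699220) * var 0 + num (-140512)) * var 0 + num (-308560)) * var 0) * var 1 + (((num (-8760)) * var 0 + num 8520) * var 0 + num 240) * var 0)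
  wd := num 40000
  tn := fun b => cond b
    (((num 2249208) * var 1 + num (-583128)) * var 3 + (num 499824) * var 1 + (num (-2027064)) * var 0 + num 1915992)
    (((num 1157895) * var 1 + num (-300195)) * var 3 + (num 257310) * var 1 + (num (-1043535)) * var 0 + num 986355)
  td := num 20000000
  cn := num 1 - var 0 * var 1 - var 1 * (num 1 - num 2 * (var 0 * var 1))
  cd := (num 1 - num 2 * (var 0 * var 1)) * (num 1 - num 2 * (var 0 * var 1))
  kn := var 0 * var 1 * ((((num 10874) * var 1 + num (-5561)) * var 3 + (num 860) * var 1 + (num (-5523)) * var 0 + num 610) * var 3 + ((num (-1296)) * var 1 + (num (-24034)) * var 0 + num 6516) * var 1 + (num 15508) * var 0 + num (-1310))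
  kd := num 100
  k2n := (((num 175) * var 0) * var 3 + ((num (-1551)) * var 0) * var 1 + (num 955) * var 0) * var 3 + ((num 1352) * var 0) * var 1 + ((num 489) * var 0 + num (-756)) * var 0
  k2d := num 100

/-- Its ranges. -/
def sevBoxF3a : EBox :=
  ⟨(26, 31, 200), (325, 481, 500), (15, 26, 200), (0, 3, 5)⟩

/-- The piece `F3b`. -/
def sevPcF3b : Piece where
  I := var 0 * var 1
  d := var 0
  w := var 0 * var 2
  o := sevBinF3.n₀ + sevBinF3.n₁ * var 3
  den := num 100
  vn := num 2 * (((num 71) * var 1 + (num 43) * var 0 + num (-18)) * var 3 + (num 42) * var 1 + (num 73) * var 0 + num 2)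
  vs := num 1
  mu := ⟨(216, 100), (333, 100)⟩
  pn := fun b => cond b
    ((((((num 614718) * var 0 + num 1420000) * var 0) * var 1 + (((num 372294) * var 0 + num 1011515) * var 0 + num 42641) * var 0 + num (-710000)) * var 1 + (((num 186147) * var 0 + num 165931) * var 0 + num (-532078)) * var 0 + num 180000) * var 3 + ((((num 363636) * var 0 + num 840000) * var 0) * var 1 + (((num 632034) * var 0 + num 1659134) * var 0 + num 278182) * var 0 + num (-420000)) * var 1 + (((num 316017) * var 0 + num 422641) * var 0 + num (-718658)) * var 0 + num 980000)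
    ((((((num 230040) * var 0 + num 1420000) * var 0) * var 1 + (((num 139320) * var 0 + num 916700) * var 0 + num 234980) * var 0 + num (-710000)) * var 1 + (((num 69660) * var 0 + num 331180) * var 0 + num (-580840)) * var 0 + num 180000) * var 3 + ((((num 136080) * var 0 + num 840000) * var 0) * var 1 + (((num 236520) * var 0 + num 1534520) * var 0 + num 391960) * var 0 + num (-420000)) * var 1 + (((num 118260) * var 0 + num 614980) * var 0 + num (-713240)) * var 0 + num 980000)
  pd := num 10000
  en := fun b => cond b
    ((((num (-118540800)) * var 0) * var 1 + num 5002998) * var 3 + (((num (-91786800)) * var 0) * var 1 + ((num 800767800) * var 0 + num 229055400) * var 0) * var 1 + (num 105758562) * var 0 + num 14955486)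
    ((((num (-110476800)) * var 0) * var 1 + num 2689995) * var 3 + (((num (-85542800)) * var 0) * var 1 + ((num 746293800) * var 0 + num 213473400) * var 0) * var 1 + (num 56863905) * var 0 + num 8041215)
  kk := fun b => cond b
    (((num 2472470) * var 0) * var 3 + ((num 2390960) * var 0) * var 1 + ((num 140387390) * var 0 + num 8368360) * var 0)
    (((num 1303575) * var 0) * var 3 + ((num 1260600) * var 0) * var 1 + ((num 74017275) * var 0 + num 4412100) * var 0)
  f0 := num 20000000
  wn := fun b => cond b
    ((((((num (-454400)) * var 0 * var 0) * var 1 + (((num (-275200)) * var 0 + num 304960) * var 0 + num 227200) * var 0) * var 1 + (((num (-147920)) * var 0 + num 228680) * var 0 + num (-49080)) * var 0) * var 1 + (((num (-5160)) * var 0 + num 7320) * var 0 + num (-2160)) * var 0) * var 3 + ((((num (-268800)) * var 0 * var 0) * var 1 + (((num (-3929200)) * var 0 + num 40200) * var 0 + num 134400) * var 0) * var 1 + (((num 636070) * var 0 + num (-141079)) * var 0 + num (-308560)) * var 0) * var 1 + (((num (-8760)) * var 0 + num 8520) * var 0 + num 240) * var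 0)
    ((((((num (-454400)) * var 0 * var 0) * var 1 + (((num (-275200)) * var 0 + num 304960) * var 0 + num 227200) * var 0) * var 1 + (((num (-147920)) * var 0 + num 228680) * var 0 + num (-49080)) * var 0) * var 1 + (((num (-5160)) * var 0 + num 7320) * var 0 + num (-2160)) * var 0) * var 3 + ((((num (-268800)) * var 0 * var 0) * var 1 + (((num (-3929200)) * var 0 + num 11600) * var 0 + num 134400) * var 0) * var 1 + (((num 636070) * var 0 + num (-143224)) * var 0 + num (-308560)) * var 0) * var 1 + (((num (-8760)) * var 0 + num 8520) * var 0 + num 240) * var 0)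
  wd := num 40000
  tn := fun b => cond b
    (((num 2554656) * var 1 + num (-1062048)) * var 3 + (num (-545376)) * var 1 + (num (-3300960)) * var 0 + num 1736592)
    (((num 1268250) * var 1 + num (-527250)) * var 3 + (num (-270750)) * var 1 + (num (-1638750)) * var 0 + num 862125)
  td := num 10000000
  cn := num 1 - var 0 * var 1 - var 1 * (num 1 - num 2 * (var 0 * var 1))
  cd := (num 1 - num 2 * (var 0 * var 1)) * (num 1 - num 2 * (var 0 * var 1))
  kn := var 0 * var 1 * ((((num 79522) * var 1 + num (-47148)) * var 3 + (num (-88522)) * var 1 + (num (-42187)) * var 0 + num 59501) * var 3 + ((num 7594) * var 1 + (num (-146149)) * var 0 + num 38951) * var 1 + (num 136478) * var 0 + num (-30312))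
  kd := num 100
  k2n := (((num 137) * var 0) * var 3 + ((num (-759)) * var 0) * var 1 + (num 174) * var 0) * var 3 + ((num 959) * var 0) * var 1 + ((num 988) * var 0 + num (-428)) * var 0
  k2d := num 100

/-- Its ranges. -/
def sevBoxF3b : EBox :=
  ⟨(26, 31, 200), (325, 481, 500), (15, 26, 200), (3, 5, 5)⟩

/-- The chart of the bin `F4`. -/
def sevBinF4 : EndChart where
  I := var 0 * var 1
  d := var 0
  w := var 0 * var 2
  den := num 100
  n₀ := (num 1 - num 2 * (var 0 * var 1) - var 0) * ((num 39) * var 1 + (num 72) * var 0 + num 1)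
  n₁ := (num 1 - num 2 * (var 0 * var 1) - var 0) * ((num 61) * var 1 + (num 82) * var 0 + num (-19))
  q₀ := (26, 31, 200)
  q₁ := (325, 481, 500)
  q₂ := (13, 22, 100)
  q₃ := (0, 1, 1)
  t₀ := (0, 1)
  t₁ := (1, 1)
  mu₀ := (209, 100)
  mu₁ := (328, 100)

/-- The piece `F4a`. -/
def sevPcF4a : Piece where
  I := var 0 * var 1
  d := var 0
  w := var 0 * var 2
  o := sevBinF4.n₀ + sevBinF4.n₁ * var 3
  den := num 100
  vn := num 2 * (((num 61) * var 1 + (num 82) * var 0 + num (-19)) * var 3 + (num 39) * var 1 + (num 72) * var 0 + num 1)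
  vs := num 1
  mu := ⟨(209, 100), (328, 100)⟩
  pn := fun b => cond b
    ((((((num 880352) * var 0 + num 1220000) * var 0) * var 1 + (((num 1183424) * var 0 + num 1805968) * var 0 + num (-210176)) * var 0 + num (-610000)) * var 1 + (((num 591712) * var 0 + num 91184) * var 0 + num (-872896)) * var 0 + num 190000) * var 3 + ((((num 562848) * var 0 + num 780000) * var 0) * var 1 + (((num 1039104) * var 0 + num 1735856) * var 0 + num 128576) * var 0 + num (-390000)) * var 1 + (((num 519552) * var 0 + num 207664) * var 0 + num (-717216)) * var 0 + num 990000)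
    ((((((num 331474) * var 0 + num 1220000) * var 0) * var 1 + (((num 445588) * var 0 + num 1702491) * var 0 + num 64263) * var 0 + num (-610000)) * var 1 + (((num 222794) * var 0 + num 545583) * var 0 + num (-958377)) * var 0 + num 190000) * var 3 + ((((num 211926) * var 0 + num 780000) * var 0) * var 1 + (((num 391248) * var 0 + num 1551397) * var 0 + num 304037) * var 0 + num (-390000)) * var 1 + (((num 195624) * var 0 + num 527093) * var 0 + num (-712717)) * var 0 + num 990000)
  pd := num 10000
  en := fun b => cond b
    ((((num (-26136600)) * var 0) * var 1 + num 1460151) * var 3 + (((num (-9724050)) * var 0) * var 1 + ((num 120187200) * var 0 + num 58138500) * var 0) * var 1 + (num 53233257) * var 0 + num 5501034)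
    ((((num (-24231600)) * var 0) * var 1 + num 799929) * var 3 + (((num (-9015300)) * var 0) * var 1 + ((num 111427200) * var 0 + num 53901000) * var 0) * var 1 + (num 29163303) * var 0 + num 3013686)
  kk := fun b => cond b
    (((num 1001022) * var 0) * var 3 + ((num 414216) * var 0) * var 1 + ((num 56540484) * var 0 + num 4257220) * var 0)
    (((num 541749) * var 0) * var 3 + ((num 224172) * var 0) * var 1 + ((num 30599478) * var 0 + num 2303990) * var 0)
  f0 := num 5000000
  wn := fun b => cond b
    ((((((num (-976000)) * var 0 * var 0) * var 1 + (((num (-1312000)) * var 0 + num 1117560) * var 0 + num 488000) * var 0) * var 1 + (((num (-741280)) * var 0 + num 954640) * var 0 + num (-120280)) * var 0) * var 1 + (((num (-42640)) * var 0 + num 52520) * var 0 + num (-9880)) * var 0) * var 3 + ((((num (-624000)) * var 0 * var 0) * var 1 + (((num (-10447000)) * var 0 + num (-67460)) * var 0 + num 312000) * var 0) * var 1 + (((num 1923380) * var 0 + num (-311287)) * var 0 + num (-771720)) * var 0) * var 1 + (((num (-37440)) * var 0 + num 36920) * var 0 + num 520) *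 var 0)
    ((((((num (-976000)) * var 0 * var 0) * var 1 + (((num (-1312000)) * var 0 + num 1117560) * var 0 + num 488000) * var 0) * var 1 + (((num (-741280)) * var 0 + num 954640) * var 0 + num (-120280)) * var 0) * var 1 + (((num (-42640)) * var 0 + num 52520) * var 0 + num (-9880)) * var 0) * var 3 + ((((num (-624000)) * var 0 * var 0) * var 1 + (((num (-10447000)) * var 0 + num (-284460)) * var 0 + num 312000) * var 0) * var 1 + (((num 1923380) * var 0 + num (-339497)) * var 0 + num (-771720)) * var 0) * var 1 + (((num (-37440)) * var 0 + num 36920) * var 0 + num 520) * var 0)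
  wd := num 100000
  tn := fun b => cond b
    (((num 1712304) * var 1 + num (-428076)) * var 3 + (num 309166) * var 1 + (num (-1117754)) * var 0 + num 1522048)
    (((num 867672) * var 1 + num (-216918)) * var 3 + (num 156663) * var 1 + (num (-566397)) * var 0 + num 771264)
  td := num 10000000
  cn := num 1 - var 0 * var 1 - var 1 * (num 1 - num 2 * (var 0 * var 1))
  cd := (num 1 - num 2 * (var 0 * var 1)) * (num 1 - num 2 * (var 0 * var 1))
  kn := var 0 * var 1 * ((((num 20255) * var 1 + num (-10529)) * var 3 + (num (-5269)) * var 1 + (num 198) * var 0 + num 3508) * var 3 + ((num (-1140)) * var 1 + (num (-29131)) * var 0 + num 8208) * var 1 + (num 21275) * var 0 + num (-2364))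
  kd := num 100
  k2n := (((num 76) * var 0) * var 3 + ((num (-916)) * var 0) * var 1 + (num 530) * var 0) * var 3 + ((num 1005) * var 0) * var 1 + ((num 522) * var 0 + num (-554)) * var 0
  k2d := num 100

/-- Its ranges. -/
def sevBoxF4a : EBox :=
  ⟨(26, 31, 200), (325, 481, 500), (13, 22, 100), (0, 1, 1)⟩

/-- The chart of the bin `F5`. -/
def sevBinF5 : EndChart where
  I := var 0 * var 1
  d := var 0
  w := var 0 * var 2
  den := num 100
  n₀ := (num 1 - num 2 * (var 0 * var 1) - var 0) * ((num 35) * var 1 + (num 40) * var 0 + num 4)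
  n₁ := (num 1 - num 2 * (var 0 * var 1) - var 0) * ((num 52) * var 1 + (num 78) * var 0 + num (-15))
  q₀ := (26, 31, 200)
  q₁ := (325, 481, 500)
  q₂ := (11, 17, 50)
  q₃ := (0, 1, 1)
  t₀ := (0, 1)
  t₁ := (1, 1)
  mu₀ := (201, 100)
  mu₁ := (320, 100)

/-- The piece `F5a`. -/
def sevPcF5a : Piece where
  I := var 0 * var 1
  d := var 0
  w := var 0 * var 2
  o := sevBinF5.n₀ + sevBinF5.n₁ * var 3
  den := num 100
  vn := num 2 * (((num 52) * var 1 + (num 78) * var 0 + num (-15)) * var 3 + (num 35) * var 1 + (num 40) * var 0 + num 4)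
  vs := num 1
  mu := ⟨(201, 100), (320, 100)⟩
  pn := fun b => cond b
    ((((((num 565760) * var 0 + num 520000) * var 0) * var 1 + (((num 848640) * var 0 + num 899680) * var 0 + num (-172880)) * var 0 + num (-260000)) * var 1 + (((num 424320) * var 0 + num (-115920)) * var 0 + num (-383400)) * var 0 + num 75000) * var 3 + ((((num 380800) * var 0 + num 350000) * var 0) * var 1 + (((num 435200) * var 0 + num 633920) * var 0 + num 24600) * var 0 + num (-175000)) * var 1 + (((num 217600) * var 0 + num 4160) * var 0 + num (-201760)) * var 0 + num 480000)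
    ((((((num 229944) * var 0 + num 520000) * var 0) * var 1 + (((num 344916) * var 0 + num 828642) * var 0 + num (-4972)) * var 0 + num (-260000)) * var 1 + (((num 172458) * var 0 + num 184377) * var 0 + num (-431835)) * var 0 + num 75000) * var 3 + ((((num 154770) * var 0 + num 350000) * var 0) * var 1 + (((num 176880) * var 0 + num 495073) * var 0 + num 137615) * var 0 + num (-175000)) * var 1 + (((num 88440) * var 0 + num 120404) * var 0 + num (-188844)) * var 0 + num 480000)
  pd := num 5000
  en := fun b => cond b
    ((((num (-21814800)) * var 0) * var 1 + num 1556877) * var 3 + (((num (-2984100)) * var 0) * var 1 + ((num 103620300) * var 0 + num 56595000) * var 0) * var 1 + (num 84648627) * var 0 + num 8134245)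
    ((((num (-20352000)) * var 0) * var 1 + num 939840) * var 3 + (((num (-2784000)) * var 0) * var 1 + ((num 96672000) * var 0 + num 52800000) * var 0) * var 1 + (num 51099840) * var 0 + num 4910400)
  kk := fun b => cond b
    (((num 1363978) * var 0) * var 3 + ((num 318852) * var 0) * var 1 + ((num 83397512) * var 0 + num 7050172) * var 0)
    (((num 814814) * var 0) * var 3 + ((num 190476) * var 0) * var 1 + ((num 49820056) * var 0 + num 4211636) * var 0)
  f0 := num 5000000
  wn := fun b => cond b
    ((((((num (-208000)) * var 0 * var 0) * var 1 + (((num (-312000)) * var 0 + num 296370) * var 0 + num 104000) * var 0) * var 1 + (((num (-190320)) * var 0 + num 247545) * var 0 + num (-18560)) * var 0) * var 1 + (((num (-17160)) * var 0 + num 20460) * var 0 + num (-3300)) * var 0) * var 3 + ((((num (-140000)) * var 0 * var 0) * var 1 + (((num (-2975000)) * var 0 + num (-21500)) * var 0 + num 70000) * var 0) * var 1 + (((num 674930) * var 0 + num (-145237)) * var 0 + num (-184300)) * var 0) * var 1 + (((num (-8800)) * var 0 + num 7920) * var 0 + num 880) * var 0)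
    ((((((num (-208000)) * var 0 * var 0) * var 1 + (((num (-312000)) * var 0 + num 296370) * var 0 + num 104000) * var 0) * var 1 + (((num (-190320)) * var 0 + num 247545) * var 0 + num (-18560)) * var 0) * var 1 + (((num (-17160)) * var 0 + num 20460) * var 0 + num (-3300)) * var 0) * var 3 + ((((num (-140000)) * var 0 * var 0) * var 1 + (((num (-2975000)) * var 0 + num (-78200)) * var 0 + num 70000) * var 0) * var 1 + (((num 674930) * var 0 + num (-157711)) * var 0 + num (-184300)) * var 0) * var 1 + (((num (-8800)) * var 0 + num 7920) * var 0 + num 880) * var 0)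
  wd := num 25000
  tn := fun b => cond b
    (((num 788392) * var 1 + num (-125426)) * var 3 + (num 215016) * var 1 + (num (-662966)) * var 0 + num 1021326)
    (((num 466092) * var 1 + num (-74151)) * var 3 + (num 127116) * var 1 + (num (-391941)) * var 0 + num 603801)
  td := num 5000000
  cn := num 1 - var 0 * var 1 - var 1 * (num 1 - num 2 * (var 0 * var 1))
  cd := (num 1 - num 2 * (var 0 * var 1)) * (num 1 - num 2 * (var 0 * var 1))
  kn := var 0 * var 1 * ((((num 9799) * var 1 + num (-4696)) * var 3 + (num (-1019)) * var 1 + (num 1730) * var 0 + num 684) * var 3 + ((num (-997)) * var 1 + (num (-18408)) * var 0 + num 5832) * var 1 + (num 13701) * var 0 + num (-1318))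
  kd := num 100
  k2n := (((num 10) * var 0) * var 3 + ((num (-582)) * var 0) * var 1 + (num 393) * var 0) * var 3 + ((num 752) * var 0) * var 1 + ((num 312) * var 0 + num (-415)) * var 0
  k2d := num 100

/-- Its ranges. -/
def sevBoxF5a : EBox :=
  ⟨(26, 31, 200), (325, 481, 500), (11, 17, 50), (0, 1, 1)⟩

/-- The chart of the bin `F6`. -/
def sevBinF6 : EndChart where
  I := var 0 * var 1
  d := var 0
  w := var 0 * var 2
  den := num 100
  n₀ := (num 1 - num 2 * (var 0 * var 1) - var 0) * ((num 33) * var 1 + (num 35) * var 0 + num 4)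
  n₁ := (num 1 - num 2 * (var 0 * var 1) - var 0) * ((num 45) * var 1 + (num 43) * var 0 + num (-9))
  q₀ := (26, 31, 200)
  q₁ := (325, 481, 500)
  q₂ := (17, 20, 50)
  q₃ := (0, 1, 1)
  t₀ := (0, 1)
  t₁ := (1, 1)
  mu₀ := (192, 100)
  mu₁ := (315, 100)

/-- The piece `F6a`. -/
def sevPcF6a : Piece where
  I := var 0 * var 1
  d := var 0
  w := var 0 * var 2
  o := sevBinF6.n₀ + sevBinF6.n₁ * var 3
  den := num 100
  vn := num 2 * (((num 45) * var 1 + (num 43) * var 0 + num (-9)) * var 3 + (num 33) * var 1 + (num 35) * var 0 + num 4)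
  vs := num 1
  mu := ⟨(192, 100), (315, 100)⟩
  pn := fun b => cond b
    ((((((num 141750) * var 0 + num 112500) * var 0) * var 1 + (((num 135450) * var 0 + num 150025) * var 0 + num (-37125)) * var 0 + num (-56250)) * var 1 + (((num 67725) * var 0 + num (-28150)) * var 0 + num (-50825)) * var 0 + num 11250) * var 3 + ((((num 103950) * var 0 + num 82500) * var 0) * var 1 + (((num 110250) * var 0 + num 152075) * var 0 + num (-725)) * var 0 + num (-41250)) * var 1 + (((num 55125) * var 0 + num (-5075)) * var 0 + num (-45050)) * var 0 + num 120000)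
    ((((((num 73440) * var 0 + num 112500) * var 0) * var 1 + (((num 70176) * var 0 + num 129532) * var 0 + num (-2970)) * var 0 + num (-56250)) * var 1 + (((num 35088) * var 0 + num 11318) * var 0 + num (-57656)) * var 0 + num 11250) * var 3 + ((((num 53856) * var 0 + num 82500) * var 0) * var 1 + (((num 57120) * var 0 + num 120956) * var 0 + num 24322) * var 0 + num (-41250)) * var 1 + (((num 28560) * var 0 + num 18454) * var 0 + num (-42014)) * var 0 + num 120000)
  pd := num 1250
  en := fun b => cond b
    ((((num (-15856500)) * var 0) * var 1 + num 1166220) * var 3 + (((num 1892550) * var 0) * var 1 + ((num 89001000) * var 0 + num 54730500) * var 0) * var 1 + (num 94484280) * var 0 + num 10086780)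
    ((((num (-15081500)) * var 0) * var 1 + num 942837) * var 3 + (((num 1800050) * var 0) * var 1 + ((num 84651000) * var 0 + num 52055500) * var 0) * var 1 + (num 76386338) * var 0 + num 8154713)
  kk := fun b => cond b
    (((num 1382880) * var 0) * var 3 + ((num (-165120)) * var 0) * var 1 + ((num 92425920) * var 0 + num 9143520) * var 0)
    (((num 1102552) * var 0) * var 3 + ((num (-131648)) * var 0) * var 1 + ((num 73689968) * var 0 + num 7290008) * var 0)
  f0 := num 5000000
  wn := fun b => cond b
    ((((((num (-360000)) * var 0 * var 0) * var 1 + (((num (-344000)) * var 0 + num 815800) * var 0 + num 180000) * var 0) * var 1 + (((num (-230480)) * var 0 + num 211570) * var 0 + num (-5400)) * var 0) * var 1 + (((num (-29240)) * var 0 + num 35360) * var 0 + num (-6120)) * var 0) * var 3 + ((((num (-264000)) * var 0 * var 0) * var 1 + (((num (-8909000)) * var 0 + num 212870) * var 0 + num 132000) * var 0) * var 1 + (((num 3146780) * var 0 + num (-448295)) * var 0 + num (-361560)) * var 0) * var 1 + (((num (-23800)) * var 0 + num 21080) * var 0 + num 2720) * var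 0)
    ((((((num (-360000)) * var 0 * var 0) * var 1 + (((num (-344000)) * var 0 + num 815800) * var 0 + num 180000) * var 0) * var 1 + (((num (-230480)) * var 0 + num 211570) * var 0 + num (-5400)) * var 0) * var 1 + (((num (-29240)) * var 0 + num 35360) * var 0 + num (-6120)) * var 0) * var 3 + ((((num (-264000)) * var 0 * var 0) * var 1 + (((num (-8909000)) * var 0 + num 147720) * var 0 + num 132000) * var 0) * var 1 + (((num 3146780) * var 0 + num (-470446)) * var 0 + num (-361560)) * var 0) * var 1 + (((num (-23800)) * var 0 + num 21080) * var 0 + num 2720) * var 0)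
  wd := num 50000
  tn := fun b => cond b
    (((num 268060) * var 1 + num (-20620)) * var 3 + (num 134030) * var 1 + (num (-226820)) * var 0 + num 536120)
    (((num 212602) * var 1 + num (-16354)) * var 3 + (num 106301) * var 1 + (num (-179894)) * var 0 + num 425204)
  td := num 2500000
  cn := num 1 - var 0 * var 1 - var 1 * (num 1 - num 2 * (var 0 * var 1))
  cd := (num 1 - num 2 * (var 0 * var 1)) * (num 1 - num 2 * (var 0 * var 1))
  kn := var 0 * var 1 * ((((num 2298) * var 1 + num (-1110)) * var 3 + (num 1552) * var 1 + (num 2162) * var 0 + num (-1048)) * var 3 + ((num (-823)) * var 1 + (num (-7427)) * var 0 + num 3586) * var 1 + (num 6343) * var 0 + num (-390))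
  kd := num 100
  k2n := (((num (-69)) * var 0) * var 3 + ((num (-424)) * var 0) * var 1 + (num 413) * var 0) * var 3 + ((num 601) * var 0) * var 1 + ((num 48) * var 0 + num (-358)) * var 0
  k2d := num 100

/-- Its ranges. -/
def sevBoxF6a : EBox :=
  ⟨(26, 31, 200), (325, 481, 500), (17, 20, 50), (0, 3, 5)⟩

/-- The piece `F6b`. -/
def sevPcF6b : Piece where
  I := var 0 * var 1
  d := var 0
  w := var 0 * var 2
  o := sevBinF6.n₀ + sevBinF6.n₁ * var 3
  den := num 100
  vn := num 2 * (((num 45) * var 1 + (num 43) * var 0 + num (-9)) * var 3 + (num 33) * var 1 + (num 35) * var 0 + num 4)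
  vs := num 1
  mu := ⟨(192, 100), (315, 100)⟩
  pn := fun b => cond b
    ((((((num 141750) * var 0 + num 112500) * var 0) * var 1 + (((num 135450) * var 0 + num 150025) * var 0 + num (-37125)) * var 0 + num (-56250)) * var 1 + (((num 67725) * var 0 + num (-28150)) * var 0 + num (-50825)) * var 0 + num 11250) * var 3 + ((((num 103950) * var 0 + num 82500) * var 0) * var 1 + (((num 110250) * var 0 + num 152075) * var 0 + num (-725)) * var 0 + num (-41250)) * var 1 + (((num 55125) * var 0 + num (-5075)) * var 0 + num (-45050)) * var 0 + num 120000)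
    ((((((num 73440) * var 0 + num 112500) * var 0) * var 1 + (((num 70176) * var 0 + num 129532) * var 0 + num (-2970)) * var 0 + num (-56250)) * var 1 + (((num 35088) * var 0 + num 11318) * var 0 + num (-57656)) * var 0 + num 11250) * var 3 + ((((num 53856) * var 0 + num 82500) * var 0) * var 1 + (((num 57120) * var 0 + num 120956) * var 0 + num 24322) * var 0 + num (-41250)) * var 1 + (((num 28560) * var 0 + num 18454) * var 0 + num (-42014)) * var 0 + num 120000)
  pd := num 1250
  en := fun b => cond b
    ((((num (-16313400)) * var 0) * var 1 + num 1149120) * var 3 + (((num 923400) * var 0) * var 1 + ((num 172111500) * var 0 + num 42168600) * var 0) * var 1 + (num 94761360) * var 0 + num 10383120)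
    ((((num (-15407100)) * var 0) * var 1 + num 922488) * var 3 + (((num 872100) * var 0) * var 1 + ((num 162549750) * var 0 + num 39825900) * var 0) * var 1 + (num 76072314) * var 0 + num 8335338)
  kk := fun b => cond b
    (((num 1306620) * var 0) * var 3 + ((num 559980) * var 0) * var 1 + ((num 97353560) * var 0 + num 8026380) * var 0)
    (((num 1029231) * var 0) * var 3 + ((num 441099) * var 0) * var 1 + ((num 76685878) * var 0 + num 6322419) * var 0)
  f0 := num 5000000
  wn := fun b => cond b
    ((((((num (-360000)) * var 0 * var 0) * var 1 + (((num (-344000)) * var 0 + num 666300) * var 0 + num 180000) * var 0) * var 1 + (((num (-230480)) * var 0 + num 234690) * var 0 + num (-5400)) * var 0) * var 1 + (((num (-29240)) * var 0 + num 35360) * var 0 + num (-6120)) * var 0) * var 3 + ((((num (-264000)) * var 0 * var 0) * var 1 + (((num (-8231500)) * var 0 + num 137220) * var 0 + num 132000) * var 0) * var 1 + (((num 3172110) * var 0 + num (-462796)) * var 0 + num (-361560)) * var 0) * var 1 + (((num (-23800)) * var 0 + num 21080) * var 0 + num 2720) * var 0)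
    ((((((num (-360000)) * var 0 * var 0) * var 1 + (((num (-344000)) * var 0 + num 666300) * var 0 + num 180000) * var 0) * var 1 + (((num (-230480)) * var 0 + num 234690) * var 0 + num (-5400)) * var 0) * var 1 + (((num (-29240)) * var 0 + num 35360) * var 0 + num (-6120)) * var 0) * var 3 + ((((num (-264000)) * var 0 * var 0) * var 1 + (((num (-8231500)) * var 0 + num 95970) * var 0 + num 132000) * var 0) * var 1 + (((num 3172110) * var 0 + num (-476821)) * var 0 + num (-361560)) * var 0) * var 1 + (((num (-23800)) * var 0 + num 21080) * var 0 + num 2720) * var 0)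
  wd := num 50000
  tn := fun b => cond b
    (((num 98800) * var 1 + num (-18200)) * var 3 + (num 18200) * var 1 + (num (-163800)) * var 0 + num 156000)
    (((num 76874) * var 1 + num (-14161)) * var 3 + (num 14161) * var 1 + (num (-127449)) * var 0 + num 121380)
  td := num 625000
  cn := num 1 - var 0 * var 1 - var 1 * (num 1 - num 2 * (var 0 * var 1))
  cd := (num 1 - num 2 * (var 0 * var 1)) * (num 1 - num 2 * (var 0 * var 1))
  kn := var 0 * var 1 * ((((num 5812) * var 1 + num (-2901)) * var 3 + (num (-2383)) * var 1 + (num (-2471)) * var 0 + num 1570) * var 3 + ((num 6) * var 1 + (num (-25571)) * var 0 + num 5915) * var 1 + (num 23883) * var 0 + num (-2834))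
  kd := num 100
  k2n := (((num (-14)) * var 0) * var 3 + ((num (-310)) * var 0) * var 1 + (num 235) * var 0) * var 3 + ((num 533) * var 0) * var 1 + ((num 170) * var 0 + num (-287)) * var 0
  k2d := num 100

/-- Its ranges. -/
def sevBoxF6b : EBox :=
  ⟨(26, 31, 200), (325, 481, 500), (17, 20, 50), (3, 5, 5)⟩

/-- The chart of the bin `F7`. -/
def sevBinF7 : EndChart where
  I := var 0 * var 1
  d := var 0
  w := var 0 * var 2
  den := num 100
  n₀ := (num 1 - num 2 * (var 0 * var 1) - var 0) * ((num 34) * var 1 + (num 54) * var 0 + num (-1))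
  n₁ := (num 1 - num 2 * (var 0 * var 1) - var 0) * ((num 39) * var 1 + (num 18) * var 0 + num (-2))
  q₀ := (26, 31, 200)
  q₁ := (325, 481, 500)
  q₂ := (10, 12, 25)
  q₃ := (0, 1, 1)
  t₀ := (0, 1)
  t₁ := (1, 1)
  mu₀ := (191, 100)
  mu₁ := (307, 100)

/-- The piece `F7a`. -/
def sevPcF7a : Piece where
  I := var 0 * var 1
  d := var 0
  w := var 0 * var 2
  o := sevBinF7.n₀ + sevBinF7.n₁ * var 3
  den := num 100
  vn := num 2 * (((num 39) * var 1 + (num 18) * var 0 + num (-2)) * var 3 + (num 34) * var 1 + (num 54) * var 0 + num (-1))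
  vs := num 1
  mu := ⟨(191, 100), (307, 100)⟩
  pn := fun b => cond b
    ((((((num 143676) * var 0 + num 97500) * var 0) * var 1 + (((num 66312) * var 0 + num 109470) * var 0 + num (-28088)) * var 0 + num (-48750)) * var 1 + (((num 33156) * var 0 + num (-14340)) * var 0 + num (-21316)) * var 0 + num 2500) * var 3 + ((((num 125256) * var 0 + num 85000) * var 0) * var 1 + (((num 198936) * var 0 + num 193944) * var 0 + num (-22628)) * var 0 + num (-42500)) * var 1 + (((num 99468) * var 0 + num (-33810)) * var 0 + num (-66908)) * var 0 + num 126250)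
    ((((((num 74490) * var 0 + num 97500) * var 0) * var 1 + (((num 34380) * var 0 + num 78425) * var 0 + num 6505) * var 0 + num (-48750)) * var 1 + (((num 17190) * var 0 + num 3400) * var 0 + num (-23090)) * var 0 + num 2500) * var 3 + ((((num 64940) * var 0 + num 85000) * var 0) * var 1 + (((num 103140) * var 0 + num 165560) * var 0 + num 7530) * var 0 + num (-42500)) * var 1 + (((num 51570) * var 0 + num 14975) * var 0 + num (-67795)) * var 0 + num 126250)
  pd := num 1250
  en := fun b => cond b
    ((((num (-6636500)) * var 0) * var 1 + num 575844) * var 3 + (((num 1531500) * var 0) * var 1 + ((num 31268125) * var 0 + num 28970875) * var 0) * var 1 + (num 57461880) * var 0 + num 5856456)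
    ((((num (-6331000)) * var 0) * var 1 + num 457780) * var 3 + (((num 1461000) * var 0) * var 1 + ((num 29828750) * var 0 + num 27637250) * var 0) * var 1 + (num 45680600) * var 0 + num 4655720)
  kk := fun b => cond b
    (((num 777924) * var 0) * var 3 + ((num (-135828)) * var 0) * var 1 + ((num 55022688) * var 0 + num 5470164) * var 0)
    (((num 611730) * var 0) * var 3 + ((num (-106810)) * var 0) * var 1 + ((num 43267760) * var 0 + num 4301530) * var 0)
  f0 := num 2500000
  wn := fun b => cond b
    ((((((num (-31200)) * var 0 * var 0) * var 1 + (((num (-14400)) * var 0 + num 69260) * var 0 + num 15600) * var 0) * var 1 + (((num (-10080)) * var 0 + num 18360) * var 0 + num 2320) * var 0) * var 1 + (((num (-1440)) * var 0 + num 1600) * var 0 + num (-160)) * var 0) * var 3 + ((((num (-27200)) * var 0 * var 0) * var 1 + (((num (-926300)) * var 0 + num 30135) * var 0 + num 13600) * var 0) * var 1 + (((num 336900) * var 0 + num (-43030)) * var 0 + num (-37680)) * var 0) * var 1 + (((num (-4320)) * var 0 + num 4400) * var 0 + num (-80)) * var 0)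
    ((((((num (-31200)) * var 0 * var 0) * var 1 + (((num (-14400)) * var 0 + num 69260) * var 0 + num 15600) * var 0) * var 1 + (((num (-10080)) * var 0 + num 18360) * var 0 + num 2320) * var 0) * var 1 + (((num (-1440)) * var 0 + num 1600) * var 0 + num (-160)) * var 0) * var 3 + ((((num (-27200)) * var 0 * var 0) * var 1 + (((num (-926300)) * var 0 + num 23195) * var 0 + num 13600) * var 0) * var 1 + (((num 336900) * var 0 + num (-45806)) * var 0 + num (-37680)) * var 0) * var 1 + (((num (-4320)) * var 0 + num 4400) * var 0 + num (-80)) * var 0)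
  wd := num 5000
  tn := fun b => cond b
    (((num 61980) * var 1) * var 3 + (num 40287) * var 1 + (num (-21693)) * var 0 + num 145653)
    (((num 49000) * var 1) * var 3 + (num 31850) * var 1 + (num (-17150)) * var 0 + num 115150)
  td := num 625000
  cn := num 1 - var 0 * var 1 - var 1 * (num 1 - num 2 * (var 0 * var 1))
  cd := (num 1 - num 2 * (var 0 * var 1)) * (num 1 - num 2 * (var 0 * var 1))
  kn := var 0 * var 1 * ((((num 1922) * var 1 + num (-870)) * var 3 + (num 1561) * var 1 + (num 2356) * var 0 + num (-1116)) * var 3 + ((num (-690)) * var 1 + (num (-4592)) * var 0 + num 2997) * var 1 + (num 4834) * var 0 + num (-158))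
  kd := num 100
  k2n := (((num (-77)) * var 0) * var 3 + ((num (-342)) * var 0) * var 1 + (num 365) * var 0) * var 3 + ((num 551) * var 0) * var 1 + ((num 8) * var 0 + num (-324)) * var 0
  k2d := num 100

/-- Its ranges. -/
def sevBoxF7a : EBox :=
  ⟨(26, 31, 200), (325, 481, 500), (10, 12, 25), (0, 3, 5)⟩

/-- The piece `F7b`. -/
def sevPcF7b : Piece where
  I := var 0 * var 1
  d := var 0
  w := var 0 * var 2
  o := sevBinF7.n₀ + sevBinF7.n₁ * var 3
  den := num 100
  vn := num 2 * (((num 39) * var 1 + (num 18) * var 0 + num (-2)) * var 3 + (num 34) * var 1 + (num 54) * var 0 + num (-1))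
  vs := num 1
  mu := ⟨(191, 100), (307, 100)⟩
  pn := fun b => cond b
    ((((((num 143676) * var 0 + num 97500) * var 0) * var 1 + (((num 66312) * var 0 + num 109470) * var 0 + num (-28088)) * var 0 + num (-48750)) * var 1 + (((num 33156) * var 0 + num (-14340)) * var 0 + num (-21316)) * var 0 + num 2500) * var 3 + ((((num 125256) * var 0 + num 85000) * var 0) * var 1 + (((num 198936) * var 0 + num 193944) * var 0 + num (-22628)) * var 0 + num (-42500)) * var 1 + (((num 99468) * var 0 + num (-33810)) * var 0 + num (-66908)) * var 0 + num 126250)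
    ((((((num 74490) * var 0 + num 97500) * var 0) * var 1 + (((num 34380) * var 0 + num 78425) * var 0 + num 6505) * var 0 + num (-48750)) * var 1 + (((num 17190) * var 0 + num 3400) * var 0 + num (-23090)) * var 0 + num 2500) * var 3 + ((((num 64940) * var 0 + num 85000) * var 0) * var 1 + (((num 103140) * var 0 + num 165560) * var 0 + num 7530) * var 0 + num (-42500)) * var 1 + (((num 51570) * var 0 + num 14975) * var 0 + num (-67795)) * var 0 + num 126250)
  pd := num 1250
  en := fun b => cond b
    ((((num (-3443200)) * var 0) * var 1 + num 282624) * var 3 + (((num 883200) * var 0) * var 1 + ((num 34816000) * var 0 + num 11097600) * var 0) * var 1 + (num 29165568) * var 0 + num 2979840)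
    ((((num (-3261625)) * var 0) * var 1 + num 223100) * var 3 + (((num 836625) * var 0) * var 1 + ((num 32980000) * var 0 + num 10512375) * var 0) * var 1 + (num 23022950) * var 0 + num 2352250)
  kk := fun b => cond b
    (((num 365682) * var 0) * var 3 + ((num 111564) * var 0) * var 1 + ((num 28727730) * var 0 + num 2460606) * var 0)
    (((num 284675) * var 0) * var 3 + ((num 86850) * var 0) * var 1 + ((num 22363875) * var 0 + num 1915525) * var 0)
  f0 := num 1250000
  wn := fun b => cond b
    ((((((num (-31200)) * var 0 * var 0) * var 1 + (((num (-14400)) * var 0 + num 57860) * var 0 + num 15600) * var 0) * var 1 + (((num (-10080)) * var 0 + num 18400) * var 0 + num 2320) * var 0) * var 1 + (((num (-1440)) * var 0 + num 1600) * var 0 + num (-160)) * var 0) * var 3 + ((((num (-27200)) * var 0 * var 0) * var 1 + (((num (-863700)) * var 0 + num 21205) * var 0 + num 13600) * var 0) * var 1 + (((num 317060) * var 0 + num (-40002)) * var 0 + num (-37680)) * var 0) * var 1 + (((num (-4320)) * var 0 + num 4400) * var 0 + num (-80)) * var 0)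
    ((((((num (-31200)) * var 0 * var 0) * var 1 + (((num (-14400)) * var 0 + num 57860) * var 0 + num 15600) * var 0) * var 1 + (((num (-10080)) * var 0 + num 18400) * var 0 + num 2320) * var 0) * var 1 + (((num (-1440)) * var 0 + num 1600) * var 0 + num (-160)) * var 0) * var 3 + ((((num (-27200)) * var 0 * var 0) * var 1 + (((num (-863700)) * var 0 + num 16380) * var 0 + num 13600) * var 0) * var 1 + (((num 317060) * var 0 + num (-41932)) * var 0 + num (-37680)) * var 0) * var 1 + (((num (-4320)) * var 0 + num 4400) * var 0 + num (-80)) * var 0)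
  wd := num 5000
  tn := fun b => cond b
    (((num 87276) * var 1 + num (-9351)) * var 3 + (num 31170) * var 1 + (num (-143382)) * var 0 + num 165201)
    (((num 68040) * var 1 + num (-7290)) * var 3 + (num 24300) * var 1 + (num (-111780)) * var 0 + num 128790)
  td := num 625000
  cn := num 1 - var 0 * var 1 - var 1 * (num 1 - num 2 * (var 0 * var 1))
  cd := (num 1 - num 2 * (var 0 * var 1)) * (num 1 - num 2 * (var 0 * var 1))
  kn := var 0 * var 1 * ((((num 4483) * var 1 + num (-2094)) * var 3 + (num (-1234)) * var 1 + (num (-1937)) * var 0 + num 771) * var 3 + ((num (-176)) * var 1 + (num (-19749)) * var 0 + num 5049) * var 1 + (num 19791) * var 0 + num (-2222))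
  kd := num 100
  k2n := (((num (-23)) * var 0) * var 3 + ((num (-270)) * var 0) * var 1 + (num 230) * var 0) * var 3 + ((num 500) * var 0) * var 1 + ((num 93) * var 0 + num (-267)) * var 0
  k2d := num 100

/-- Its ranges. -/
def sevBoxF7b : EBox :=
  ⟨(26, 31, 200), (325, 481, 500), (10, 12, 25), (3, 5, 5)⟩

/-- The chart of the bin `F8`. -/
def sevBinF8 : EndChart where
  I := var 0 * var 1
  d := var 0
  w := var 0 * var 2
  den := num 100
  n₀ := (num 1 - num 2 * (var 0 * var 1) - var 0) * ((num 33) * var 1 + (num 36) * var 0)
  n₁ := (num 1 - num 2 * (var 0 * var 1) - var 0) * ((num 38) * var 1 + (num 51) * var 0 + num (-8))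
  q₀ := (26, 31, 200)
  q₁ := (325, 481, 500)
  q₂ := (12, 14, 25)
  q₃ := (0, 1, 1)
  t₀ := (0, 1)
  t₁ := (1, 1)
  mu₀ := (181, 100)
  mu₁ := (305, 100)

/-- The piece `F8a`. -/
def sevPcF8a : Piece where
  I := var 0 * var 1
  d := var 0
  w := var 0 * var 2
  o := sevBinF8.n₀ + sevBinF8.n₁ * var 3
  den := num 100
  vn := num 2 * (((num 38) * var 1 + (num 51) * var 0 + num (-8)) * var 3 + (num 33) * var 1 + (num 36) * var 0)
  vs := num 1
  mu := ⟨(181, 100), (305, 100)⟩
  pn := fun b => cond b
    ((((((num 162260) * var 0 + num 95000) * var 0) * var 1 + (((num 217770) * var 0 + num 174470) * var 0 + num (-53630)) * var 0 + num (-47500)) * var 1 + (((num 108885) * var 0 + num (-62215)) * var 0 + num (-56670)) * var 0 + num 10000) * var 3 + ((((num 140910) * var 0 + num 82500) * var 0) * var 1 + (((num 153720) * var 0 + num 160455) * var 0 + num (-29205)) * var 0 + num (-41250)) * var 1 + (((num 76860) * var 0 + num (-31860)) * var 0 + num (-45000)) * var 0 + num 125000)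
    ((((((num 82536) * var 0 + num 95000) * var 0) * var 1 + (((num 110772) * var 0 + num 151392) * var 0 + num (-13768)) * var 0 + num (-47500)) * var 1 + (((num 55386) * var 0 + num (-324)) * var 0 + num (-65062)) * var 0 + num 10000) * var 3 + ((((num 71676) * var 0 + num 82500) * var 0) * var 1 + (((num 78192) * var 0 + num 125838) * var 0 + num 5412) * var 0 + num (-41250)) * var 1 + (((num 39096) * var 0 + num 5904) * var 0 + num (-45000)) * var 0 + num 125000)
  pd := num 1250
  en := fun b => cond b
    ((((num (-5181575)) * var 0) * var 1 + num 528878) * var 3 + (((num 2067525) * var 0) * var 1 + ((num 25499475) * var 0 + num 29940825) * var 0) * var 1 + (num 66252690) * var 0 + num 6832532)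
    ((((num (-4943050)) * var 0) * var 1 + num 432456) * var 3 + (((num 1972350) * var 0) * var 1 + ((num 24325650) * var 0 + num 28562550) * var 0) * var 1 + (num 54173880) * var 0 + num 5586864)
  kk := fun b => cond b
    (((num 821142) * var 0) * var 3 + ((num (-201684)) * var 0) * var 1 + ((num 62997438) * var 0 + num 6482700) * var 0)
    (((num 663480) * var 0) * var 3 + ((num (-162960)) * var 0) * var 1 + ((num 50901720) * var 0 + num 5238000) * var 0)
  f0 := num 2500000
  wn := fun b => cond b
    ((((((num (-76000)) * var 0 * var 0) * var 1 + (((num (-102000)) * var 0 + num 203760) * var 0 + num 38000) * var 0) * var 1 + (((num (-75480)) * var 0 + num 80840) * var 0 + num 1120) * var 0) * var 1 + (((num (-12240)) * var 0 + num 14160) * var 0 + num (-1920)) * var 0) * var 3 + ((((num (-66000)) * var 0 * var 0) * var 1 + (((num (-2390000)) * var 0 + num 81810) * var 0 + num 33000) * var 0) * var 1 + (((num 889980) * var 0 + num (-135388)) * var 0 + num (-92080)) * var 0) * var 1 + ((num (-8640)) * var 0 + num 8640) * var 0 * var 0)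
    ((((((num (-76000)) * var 0 * var 0) * var 1 + (((num (-102000)) * var 0 + num 203760) * var 0 + num 38000) * var 0) * var 1 + (((num (-75480)) * var 0 + num 80840) * var 0 + num 1120) * var 0) * var 1 + (((num (-12240)) * var 0 + num 14160) * var 0 + num (-1920)) * var 0) * var 3 + ((((num (-66000)) * var 0 * var 0) * var 1 + (((num (-2390000)) * var 0 + num 61435) * var 0 + num 33000) * var 0) * var 1 + (((num 889980) * var 0 + num (-145168)) * var 0 + num (-92080)) * var 0) * var 1 + ((num (-8640)) * var 0 + num 8640) * var 0 * var 0)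
  wd := num 12500
  tn := fun b => cond b
    (((num 60571) * var 1) * var 3 + (num 46319) * var 1 + (num (-3563)) * var 0 + num 156772)
    (((num 49317) * var 1) * var 3 + (num 37713) * var 1 + (num (-2901)) * var 0 + num 127644)
  td := num 625000
  cn := num 1 - var 0 * var 1 - var 1 * (num 1 - num 2 * (var 0 * var 1))
  cd := (num 1 - num 2 * (var 0 * var 1)) * (num 1 - num 2 * (var 0 * var 1))
  kn := var 0 * var 1 * ((((num 1535) * var 1 + num (-740)) * var 3 + (num 1439) * var 1 + (num 3342) * var 0 + num (-1245)) * var 3 + ((num (-544)) * var 1 + (num (-2824)) * var 0 + num 2475) * var 1 + (num 3270) * var 0 + num 113)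
  kd := num 100
  k2n := (((num (-47)) * var 0) * var 3 + ((num (-201)) * var 0) * var 1 + (num 244) * var 0) * var 3 + ((num 444) * var 0) * var 1 + ((num (-505)) * var 0 + num (-174)) * var 0
  k2d := num 100

/-- Its ranges. -/
def sevBoxF8a : EBox :=
  ⟨(26, 31, 200), (325, 481, 500), (12, 14, 25), (0, 3, 5)⟩

/-- The piece `F8b`. -/
def sevPcF8b : Piece where
  I := var 0 * var 1
  d := var 0
  w := var 0 * var 2
  o := sevBinF8.n₀ + sevBinF8.n₁ * var 3
  den := num 100
  vn := num 2 * (((num 38) * var 1 + (num 51) * var 0 + num (-8)) * var 3 + (num 33) * var 1 + (num 36) * var 0)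
  vs := num 1
  mu := ⟨(181, 100), (305, 100)⟩
  pn := fun b => cond b
    ((((((num 162260) * var 0 + num 95000) * var 0) * var 1 + (((num 217770) * var 0 + num 174470) * var 0 + num (-53630)) * var 0 + num (-47500)) * var 1 + (((num 108885) * var 0 + num (-62215)) * var 0 + num (-56670)) * var 0 + num 10000) * var 3 + ((((num 140910) * var 0 + num 82500) * var 0) * var 1 + (((num 153720) * var 0 + num 160455) * var 0 + num (-29205)) * var 0 + num (-41250)) * var 1 + (((num 76860) * var 0 + num (-31860)) * var 0 + num (-45000)) * var 0 + num 125000)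
    ((((((num 82536) * var 0 + num 95000) * var 0) * var 1 + (((num 110772) * var 0 + num 151392) * var 0 + num (-13768)) * var 0 + num (-47500)) * var 1 + (((num 55386) * var 0 + num (-324)) * var 0 + num (-65062)) * var 0 + num 10000) * var 3 + ((((num 71676) * var 0 + num 82500) * var 0) * var 1 + (((num 78192) * var 0 + num 125838) * var 0 + num 5412) * var 0 + num (-41250)) * var 1 + (((num 39096) * var 0 + num 5904) * var 0 + num (-45000)) * var 0 + num 125000)
  pd := num 1250
  en := fun b => cond b
    ((((num (-5489100)) * var 0) * var 1 + num 517104) * var 3 + (((num 3001050) * var 0) * var 1 + ((num 59482350) * var 0 + num 22854150) * var 0) * var 1 + (num 67898628) * var 0 + num 6909084)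
    ((((num (-5194850)) * var 0) * var 1 + num 419472) * var 3 + (((num 2840175) * var 0) * var 1 + ((num 56293725) * var 0 + num 21629025) * var 0) * var 1 + (num 55079004) * var 0 + num 5604612)
  kk := fun b => cond b
    (((num 766486) * var 0) * var 3 + ((num 202468) * var 0) * var 1 + ((num 66033492) * var 0 + num 5828186) * var 0)
    (((num 613740) * var 0) * var 3 + ((num 162120) * var 0) * var 1 + ((num 52874280) * var 0 + num 4666740) * var 0)
  f0 := num 2500000
  wn := fun b => cond b
    ((((((num (-152000)) * var 0 * var 0) * var 1 + (((num (-204000)) * var 0 + num 355520) * var 0 + num 76000) * var 0) * var 1 + (((num (-150960)) * var 0 + num 160600) * var 0 + num 2240) * var 0) * var 1 + (((num (-24480)) * var 0 + num 28320) * var 0 + num (-3840)) * var 0) * var 3 + ((((num (-132000)) * var 0 * var 0) * var 1 + (((num (-4511500)) * var 0 + num 119645) * var 0 + num 66000) * var 0) * var 1 + (((num 1942920) * var 0 + num (-289124)) * var 0 + num (-184160)) * var 0) * var 1 + ((num (-17280)) * var 0 + num 17280) * var 0 * var 0)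
    ((((((num (-152000)) * var 0 * var 0) * var 1 + (((num (-204000)) * var 0 + num 355520) * var 0 + num 76000) * var 0) * var 1 + (((num (-150960)) * var 0 + num 160600) * var 0 + num 2240) * var 0) * var 1 + (((num (-24480)) * var 0 + num 28320) * var 0 + num (-3840)) * var 0) * var 3 + ((((num (-132000)) * var 0 * var 0) * var 1 + (((num (-4511500)) * var 0 + num 87295) * var 0 + num 66000) * var 0) * var 1 + (((num 1942920) * var 0 + num (-304652)) * var 0 + num (-184160)) * var 0) * var 1 + ((num (-17280)) * var 0 + num 17280) * var 0 * var 0)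
  wd := num 25000
  tn := fun b => cond b
    (((num 82271) * var 1 + num (-7154)) * var 3 + (num 35770) * var 1 + (num (-82271)) * var 0 + num 171696)
    (((num 65964) * var 1 + num (-5736)) * var 3 + (num 28680) * var 1 + (num (-65964)) * var 0 + num 137664)
  td := num 625000
  cn := num 1 - var 0 * var 1 - var 1 * (num 1 - num 2 * (var 0 * var 1))
  cd := (num 1 - num 2 * (var 0 * var 1)) * (num 1 - num 2 * (var 0 * var 1))
  kn := var 0 * var 1 * ((((num 3641) * var 1 + num (-1853)) * var 3 + (num (-1043)) * var 1 + (num 2540) * var 0 + num 203) * var 3 + ((num (-148)) * var 1 + (num (-10908)) * var 0 + num 3742) * var 1 + (num 10289) * var 0 + num (-1024))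
  kd := num 100
  k2n := (((num (-33)) * var 0) * var 3 + ((num (-247)) * var 0) * var 1 + (num 245) * var 0) * var 3 + ((num 489) * var 0) * var 1 + ((num (-69)) * var 0 + num (-258)) * var 0
  k2d := num 100

/-- Its ranges. -/
def sevBoxF8b : EBox :=
  ⟨(26, 31, 200), (325, 481, 500), (12, 14, 25), (3, 5, 5)⟩

/-- The chart of the bin `F9`. -/
def sevBinF9 : EndChart where
  I := var 0 * var 1
  d := var 0
  w := var 0 * var 2
  den := num 100
  n₀ := (num 1 - num 2 * (var 0 * var 1) - var 0) * ((num 27) * var 1 + (num 35) * var 0 + num (-1))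
  n₁ := (num 1 - num 2 * (var 0 * var 1) - var 0) * ((num 43) * var 1 + (num 83) * var 0 + num (-14))
  q₀ := (26, 31, 200)
  q₁ := (325, 481, 500)
  q₂ := (28, 45, 50)
  q₃ := (0, 1, 1)
  t₀ := (0, 1)
  t₁ := (1, 1)
  mu₀ := (148, 100)
  mu₁ := (316, 100)

/-- The piece `F9a`. -/
def sevPcF9a : Piece where
  I := var 0 * var 1
  d := var 0
  w := var 0 * var 2
  o := sevBinF9.n₀ + sevBinF9.n₁ * var 3
  den := num 100
  vn := num 2 * (((num 43) * var 1 + (num 83) * var 0 + num (-14)) * var 3 + (num 27) * var 1 + (num 35) * var 0 + num (-1))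
  vs := num 1
  mu := ⟨(148, 100), (316, 100)⟩
  pn := fun b => cond b
    ((((((num 305730) * var 0 + num 107500) * var 0) * var 1 + (((num 590130) * var 0 + num 260825) * var 0 + num (-134115)) * var 0 + num (-53750)) * var 1 + (((num 295065) * var 0 + num (-241085)) * var 0 + num (-71480)) * var 0 + num 17500) * var 3 + ((((num 191970) * var 0 + num 67500) * var 0) * var 1 + (((num 248850) * var 0 + num 176375) * var 0 + num (-64735)) * var 0 + num (-33750)) * var 1 + (((num 124425) * var 0 + num (-84230)) * var 0 + num (-41445)) * var 0 + num 126250)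
    ((((((num 89096) * var 0 + num 107500) * var 0) * var 1 + (((num 171976) * var 0 + num 223040) * var 0 + num (-25798)) * var 0 + num (-53750)) * var 1 + (((num 85988) * var 0 + num 3258) * var 0 + num (-106746)) * var 0 + num 17500) * var 3 + ((((num 55944) * var 0 + num 67500) * var 0) * var 1 + (((num 72520) * var 0 + num 113400) * var 0 + num 3278) * var 0 + num (-33750)) * var 1 + (((num 36260) * var 0 + num 6454) * var 0 + num (-43964)) * var 0 + num 126250)
  pd := num 1250
  en := fun b => cond b
    ((((num (-11931150)) * var 0) * var 1 + num 2138310) * var 3 + (((num 9193700) * var 0) * var 1 + ((num (-5784800)) * var 0 + num 66886750) * var 0) * var 1 + (num 222616665) * var 0 + num 20499885)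
    ((((num (-11088000)) * var 0) * var 1 + num 1236480) * var 3 + (((num 8544000) * var 0) * var 1 + ((num (-5376000)) * var 0 + num 62160000) * var 0) * var 1 + (num 128728320) * var 0 + num 11854080)
  kk := fun b => cond b
    (((num 2672730) * var 0) * var 3 + ((num (-515790)) * var 0) * var 1 + ((num 203783940) * var 0 + num 20397150) * var 0)
    (((num 1530564) * var 0) * var 3 + ((num (-295372)) * var 0) * var 1 + ((num 116698792) * var 0 + num 11680620) * var 0)
  f0 := num 5000000
  wn := fun b => cond b
    ((((((num (-172000)) * var 0 * var 0) * var 1 + (((num (-332000)) * var 0 + num 310840) * var 0 + num 86000) * var 0) * var 1 + (((num (-258960)) * var 0 + num 409740) * var 0 + num (-3920)) * var 0) * var 1 + (((num (-46480)) * var 0 + num 54320) * var 0 + num (-7840)) * var 0) * var 3 + ((((num (-108000)) * var 0 * var 0) * var 1 + (((num (-3305000)) * var 0 + num (-74640)) * var 0 + num 54000) * var 0) * var 1 + (((num 885500) * var 0 + num (-185904)) * var 0 + num (-186880)) * var 0) * var 1 + (((num (-19600)) * var 0 + num 20160) * var 0 + num (-560))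 * var 0)
    ((((((num (-172000)) * var 0 * var 0) * var 1 + (((num (-332000)) * var 0 + num 310840) * var 0 + num 86000) * var 0) * var 1 + (((num (-258960)) * var 0 + num 409740) * var 0 + num (-3920)) * var 0) * var 1 + (((num (-46480)) * var 0 + num 54320) * var 0 + num (-7840)) * var 0) * var 3 + ((((num (-108000)) * var 0 * var 0) * var 1 + (((num (-3305000)) * var 0 + num (-188315)) * var 0 + num 54000) * var 0) * var 1 + (((num 885500) * var 0 + num (-249562)) * var 0 + num (-186880)) * var 0) * var 1 + (((num (-19600)) * var 0 + num 20160) * var 0 + num (-560)) * var 0)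
  wd := num 25000
  tn := fun b => cond b
    (((num 671625) * var 1) * var 3 + (num 447750) * var 1 + (num 895500) * var 0 + num 1656675)
    (((num 422520) * var 1) * var 3 + (num 281680) * var 1 + (num 563360) * var 0 + num 1042216)
  td := num 5000000
  cn := num 1 - var 0 * var 1 - var 1 * (num 1 - num 2 * (var 0 * var 1))
  cd := (num 1 - num 2 * (var 0 * var 1)) * (num 1 - num 2 * (var 0 * var 1))
  kn := var 0 * var 1 * ((((num 3208) * var 1 + num (-1255)) * var 3 + (num 1146) * var 1 + (num 5963) * var 0 + num (-1356)) * var 3 + ((num (-476)) * var 1 + (num (-6372)) * var 0 + num 2739) * var 1 + (num 5721) * var 0 + num 59)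
  kd := num 100
  k2n := (((num 4) * var 0) * var 3 + ((num (-73)) * var 0) * var 1 + (num 57) * var 0) * var 3 + ((num 349) * var 0) * var 1 + ((num (-377)) * var 0 + num (-50)) * var 0
  k2d := num 100

/-- Its ranges. -/
def sevBoxF9a : EBox :=
  ⟨(26, 31, 200), (325, 481, 500), (28, 45, 50), (0, 1, 1)⟩

/-- The chart of the bin `F10`. -/
def sevBinF10 : EndChart where
  I := var 0 * var 1
  d := var 0
  w := var 0 * var 2
  den := num 100
  n₀ := (num 1 - num 2 * (var 0 * var 1) - var 0) * ((num 27) * var 1 + (num 29) * var 0 + num (-2))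
  n₁ := (num 1 - num 2 * (var 0 * var 1) - var 0) * ((num 25) * var 1 + (num 18) * var 0 + num 4)
  q₀ := (26, 31, 200)
  q₁ := (325, 481, 500)
  q₂ := (9, 10, 10)
  q₃ := (0, 1, 1)
  t₀ := (0, 1)
  t₁ := (1, 1)
  mu₀ := (145, 100)
  mu₁ := (312, 100)

/-- The piece `F10a`. -/
def sevPcF10a : Piece where
  I := var 0 * var 1
  d := var 0
  w := var 0 * var 2
  o := sevBinF10.n₀ + sevBinF10.n₁ * var 3
  den := num 100
  vn := num 2 * (((num 25) * var 1 + (num 18) * var 0 + num 4) * var 3 + (num 27) * var 1 + (num 29) * var 0 + num (-2))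
  vs := num 1
  mu := ⟨(145, 100), (312, 100)⟩
  pn := fun b => cond b
    ((((((num 31200) * var 0 + num 10000) * var 0) * var 1 + (((num 22464) * var 0 + num 27792) * var 0 + num (-9000)) * var 0 + num (-5000)) * var 1 + (((num 11232) * var 0 + num (-5136)) * var 0 + num (-5296)) * var 0 + num (-800)) * var 3 + ((((num 33696) * var 0 + num 10800) * var 0) * var 1 + (((num 36192) * var 0 + num 25952) * var 0 + num (-12248)) * var 0 + num (-5400)) * var 1 + (((num 18096) * var 0 + num (-13544)) * var 0 + num (-4952)) * var 0 + num 20400)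
    ((((((num 13050) * var 0 + num 10000) * var 0) * var 1 + (((num 9396) * var 0 + num 15813) * var 0 + num 75) * var 0 + num (-5000)) * var 1 + (((num 4698) * var 0 + num (-54)) * var 0 + num (-3844)) * var 0 + num (-800)) * var 3 + ((((num 14094) * var 0 + num 10800) * var 0) * var 1 + (((num 15138) * var 0 + num 17603) * var 0 + num (-2447)) * var 0 + num (-5400)) * var 1 + (((num 7569) * var 0 + num (-2291)) * var 0 + num (-5678)) * var 0 + num 20400)
  pd := num 200
  en := fun b => cond b
    ((((num (-82240)) * var 0) * var 1 + num 185040) * var 3 + (((num 1757880) * var 0) * var 1 + ((num 10680920) * var 0 + num 11565000) * var 0) * var 1 + (num 45499280) * var 0 + num 5026920)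
    ((((num (-77360)) * var 0) * var 1 + num 156654) * var 3 + (((num 1653570) * var 0) * var 1 + ((num 10047130) * var 0 + num 10878750) * var 0) * var 1 + (num 38519478) * var 0 + num 4255767)
  kk := fun b => cond b
    (((num 466200) * var 0) * var 3 + ((num (-290080)) * var 0) * var 1 + ((num 43449840) * var 0 + num 4817400) * var 0)
    (((num 389610) * var 0) * var 3 + ((num (-242424)) * var 0) * var 1 + ((num 36311652) * var 0 + num 4025970) * var 0)
  f0 := num 1000000
  wn := fun b => cond b
    ((((((num (-20000)) * var 0 * var 0) * var 1 + (((num (-14400)) * var 0 + num 61300) * var 0 + num 10000) * var 0) * var 1 + (((num (-13680)) * var 0 + num 54740) * var 0 + num 6100) * var 0) * var 1 + (((num (-3240)) * var 0 + num 2520) * var 0 + num 720) * var 0) * var 3 + ((((num (-21600)) * var 0 * var 0) * var 1 + (((num (-932200)) * var 0 + num 20150) * var 0 + num 10800) * var 0) * var 1 + (((num 250975) * var 0 + num (-48057)) * var 0 + num (-35940)) * var 0) * var 1 + (((num (-5220)) * var 0 + num 5580) * var 0 + num (-360)) * var 0)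
    ((((((num (-20000)) * var 0 * var 0) * var 1 + (((num (-14400)) * var 0 + num 61300) * var 0 + num 10000) * var 0) * var 1 + (((num (-13680)) * var 0 + num 54740) * var 0 + num 6100) * var 0) * var 1 + (((num (-3240)) * var 0 + num 2520) * var 0 + num 720) * var 0) * var 3 + ((((num (-21600)) * var 0 * var 0) * var 1 + (((num (-932200)) * var 0 + num 2780) * var 0 + num 10800) * var 0) * var 1 + (((num 250975) * var 0 + num (-63690)) * var 0 + num (-35940)) * var 0) * var 1 + (((num (-5220)) * var 0 + num 5580) * var 0 + num (-360)) * var 0)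
  wd := num 5000
  tn := fun b => cond b
    (((num 73220) * var 1 + num 20920) * var 3 + (num 104600) * var 1 + (num 135980) * var 0 + num 355640)
    (((num 61047) * var 1 + num 17442) * var 3 + (num 87210) * var 1 + (num 113373) * var 0 + num 296514)
  td := num 1000000
  cn := num 1 - var 0 * var 1 - var 1 * (num 1 - num 2 * (var 0 * var 1))
  cd := (num 1 - num 2 * (var 0 * var 1)) * (num 1 - num 2 * (var 0 * var 1))
  kn := var 0 * var 1 * ((((num 905) * var 1 + num (-382)) * var 3 + (num 1049) * var 1 + (num 3470) * var 0 + num (-1231)) * var 3 + ((num (-417)) * var 1 + (num (-621)) * var 0 + num 1730) * var 1 + (num 1819) * var 0 + num 410)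
  kd := num 100
  k2n := (((num 40) * var 0) * var 3 + ((num 193) * var 0) * var 1 + (num (-147)) * var 0) * var 3 + ((num 182) * var 0) * var 1 + ((num (-791)) * var 0 + num 91) * var 0
  k2d := num 100

/-- Its ranges. -/
def sevBoxF10a : EBox :=
  ⟨(26, 31, 200), (325, 481, 500), (9, 10, 10), (0, 1, 1)⟩

end Vale.Agent.P100.Calib.StripEndD
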