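import Vale.Agent.P100.Calib.SlabStripEndDExpr
import Vale.Agent.P100.Calib.SlabStripEndCert
import Vale.Agent.P100.Calib.SlabStripEndChart

/-!
# The bins `G` of the `D` region for `N` between seven and twenty

`x = (d, I / d, (1 - u) / d, t)`, with `v` affine in `t`.
-/

namespace Vale.Agent.P100.Calib.StripEndD

open Pack hiding ev_add ev_mul
open Pack.Ex StripMid StripEnd

local instance endSevDataGAdd : Add Ex := ⟨Ex.add⟩
local instance endSevDataGSub : Sub Ex := ⟨Ex.sub⟩
local instance endSevDataGMul : Mul Ex := ⟨Ex.mul⟩

/-- The chart of the bin `G0`. -/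
def sevBinG0 : EndChart where
  I := var 0 * var 1
  d := var 0
  w := var 0 * var 2
  den := num 100
  n₀ := (num 1 - num 2 * (var 0 * var 1) - var 0) * ((num 62) * var 1 + (num 64) * var 0 + num (-5))
  n₁ := (num 1 - num 2 * (var 0 * var 1) - var 0) * ((num 73) * var 1 + (num 15) * var 0 + num (-12))
  q₀ := (13, 17, 100)
  q₁ := (147, 325, 500)
  q₂ := (0, 11, 200)
  q₃ := (0, 1, 1)
  t₀ := (0, 1)
  t₁ := (1, 1)
  mu₀ := (208, 100)
  mu₁ := (310, 100)

/-- The piece `G0a`. -/
def sevPcG0a : Piece where
  I := var 0 * var 1
  d := var 0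
  w := var 0 * var 2
  o := sevBinG0.n₀ + sevBinG0.n₁ * var 3
  den := num 100
  vn := num 2 * (((num 73) * var 1 + (num 15) * var 0 + num (-12)) * var 3 + (num 62) * var 1 + (num 64) * var 0 + num (-5))
  vs := num 1
  mu := ⟨(208, 100), (310, 100)⟩
  pn := fun b => cond b
    ((((((num 49786) * var 0 + num 292000) * var 0) * var 1 + (((num 10230) * var 0 + num 76709) * var 0 + num 73107) * var 0 + num (-146000)) * var 1 + (((num 5115) * var 0 + num 20793) * var 0 + num (-49908)) * var 0 + num 24000) * var 3 + ((((num 42284) * var 0 + num 248000) * var 0) * var 1 + (((num 43648) * var 0 + num 273732) * var 0 + num 82858) * var 0 + num (-124000)) * var 1 + (((num 21824) * var 0 + num 104471) * var 0 + num (-136295)) * var 0 + num 210000)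
    (((((num 292000) * var 0) * var 1 + ((num 60000) * var 0 + num 98000) * var 0 + num (-146000)) * var 1 + ((num 30000) * var 0 + num (-54000)) * var 0 + num 24000) * var 3 + (((num 248000) * var 0) * var 1 + ((num 256000) * var 0 + num 104000) * var 0 + num (-124000)) * var 1 + ((num 128000) * var 0 + num (-138000)) * var 0 + num 210000)
  pd := num 2000
  en := fun b => cond b
    ((((num (-67795000)) * var 0) * var 1 + num 1548855) * var 3 + (((num (-106386000)) * var 0) * var 1 + ((num 110140800) * var 0 + num 304138800) * var 0) * var 1 + (num 47830937) * var 0 + num 5770919)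
    ((((num (-60515000)) * var 0) * var 1) * var 3 + (((num (-94962000)) * var 0) * var 1 + ((num 98313600) * var 0 + num 271479600) * var 0) * var 1)
  kk := fun b => cond b
    (((num 660330) * var 0) * var 3 + ((num 3153645) * var 0) * var 1 + ((num 49866300) * var 0 + num 3757050) * var 0)
    (num 0)
  f0 := num 20000000
  wn := fun b => cond b
    ((((((num (-11680)) * var 0 * var 0) * var 1 + (((num (-2400)) * var 0 + num 7260) * var 0 + num 5840) * var 0) * var 1 + (((num (-1200)) * var 0 + num 2160) * var 0 + num (-960)) * var 0) * var 1) * var 3 + ((((num (-9920)) * var 0 * var 0) * var 1 + (((num (-41510)) * var 0 + num (-761)) * var 0 + num 4960) * var 0) * var 1 + (((num (-5120)) * var 0 + num (-2480)) * var 0 + num (-8400)) * var 0) * var 1)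
    ((((((num (-11680)) * var 0 * var 0) * var 1 + (((num (-2400)) * var 0 + num 7260) * var 0 + num 5840) * var 0) * var 1 + (((num (-1200)) * var 0 + num 2160) * var 0 + num (-960)) * var 0) * var 1) * var 3 + ((((num (-9920)) * var 0 * var 0) * var 1 + (((num (-41510)) * var 0 + num (-4834)) * var 0 + num 4960) * var 0) * var 1 + (((num (-5120)) * var 0 + num (-2480)) * var 0 + num (-8400)) * var 0) * var 1)
  wd := num 1000
  tn := fun b => cond b
    (((num 31218) * var 1 + num (-6534)) * var 3 + (num 14157) * var 1 + (num 1815) * var 0 + num 18513)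
    (num 0)
  td := num 625000
  cn := num 1 - var 0 * var 1 - var 1 * (num 1 - num 2 * (var 0 * var 1))
  cd := (num 1 - num 2 * (var 0 * var 1)) * (num 1 - num 2 * (var 0 * var 1))
  kn := var 0 * var 1 * ((((num 5167) * var 1 + num (-1650)) * var 3 + (num 1359) * var 1 + (num (-8155)) * var 0 + num 324) * var 3 + ((num 110) * var 1 + (num (-21634)) * var 0 + num 4409) * var 1 + (num 2906) * var 0 + num 1249)
  kd := num 100
  k2n := (((num 1723) * var 0) * var 3 + ((num 4999) * var 0) * var 1 + (num (-4374)) * var 0) * var 3 + ((num (-1706)) * var 0) * var 1 + ((num 393) * var 0 + num 1767) * var 0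
  k2d := num 100

/-- Its ranges. -/
def sevBoxG0a : EBox :=
  ⟨(13, 17, 100), (147, 325, 500), (0, 11, 200), (0, 3, 5)⟩

/-- The piece `G0b`. -/
def sevPcG0b : Piece where
  I := var 0 * var 1
  d := var 0
  w := var 0 * var 2
  o := sevBinG0.n₀ + sevBinG0.n₁ * var 3
  den := num 100
  vn := num 2 * (((num 73) * var 1 + (num 15) * var 0 + num (-12)) * var 3 + (num 62) * var 1 + (num 64) * var 0 + num (-5))
  vs := num 1
  mu := ⟨(208, 100), (310, 100)⟩
  pn := fun b => cond b
    ((((((num 49786) * var 0 + num 292000) * var 0) * var 1 + (((num 10230) * var 0 + num 76709) * var 0 + num 73107) * var 0 + num (-146000)) * var 1 + (((num 5115) * var 0 + num 20793) * var 0 + num (-49908)) * var 0 + num 24000) * var 3 + ((((num 42284) * var 0 + num 248000) * var 0) * var 1 + (((num 43648) * var 0 + num 273732) * var 0 + num 82858) * var 0 + num (-124000)) * var 1 + (((num 21824) * var 0 + num 104471) * var 0 + num (-136295)) * var 0 + num 210000)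
    (((((num 292000) * var 0) * var 1 + ((num 60000) * var 0 + num 98000) * var 0 + num (-146000)) * var 1 + ((num 30000) * var 0 + num (-54000)) * var 0 + num 24000) * var 3 + (((num 248000) * var 0) * var 1 + ((num 256000) * var 0 + num 104000) * var 0 + num (-124000)) * var 1 + ((num 128000) * var 0 + num (-138000)) * var 0 + num 210000)
  pd := num 2000
  en := fun b => cond b
    ((((num (-34465800)) * var 0) * var 1 + num 782595) * var 3 + (((num (-91803400)) * var 0) * var 1 + ((num 104873000) * var 0 + num 166005000) * var 0) * var 1 + (num 24527107) * var 0 + num 2672417)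
    ((((num (-30214800)) * var 0) * var 1) * var 3 + (((num (-80480400)) * var 0) * var 1 + ((num 91938000) * var 0 + num 145530000) * var 0) * var 1)
  kk := fun b => cond b
    (((num 313995) * var 0) * var 3 + ((num 2032404) * var 0) * var 1 + ((num 26050167) * var 0 + num 1530012) * var 0)
    (num 0)
  f0 := num 10000000
  wn := fun b => cond b
    ((((((num (-11680)) * var 0 * var 0) * var 1 + (((num (-2400)) * var 0 + num 4980) * var 0 + num 5840) * var 0) * var 1 + (((num (-1200)) * var 0 + num 2160) * var 0 + num (-960)) * var 0) * var 1) * var 3 + ((((num (-9920)) * var 0 * var 0) * var 1 + (((num (-37710)) * var 0 + num (-1549)) * var 0 + num 4960) * var 0) * var 1 + (((num (-5120)) * var 0 + num (-2480)) * var 0 + num (-8400)) * var 0) * var 1)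
    ((((((num (-11680)) * var 0 * var 0) * var 1 + (((num (-2400)) * var 0 + num 4980) * var 0 + num 5840) * var 0) * var 1 + (((num (-1200)) * var 0 + num 2160) * var 0 + num (-960)) * var 0) * var 1) * var 3 + ((((num (-9920)) * var 0 * var 0) * var 1 + (((num (-37710)) * var 0 + num (-3722)) * var 0 + num 4960) * var 0) * var 1 + (((num (-5120)) * var 0 + num (-2480)) * var 0 + num (-8400)) * var 0) * var 1)
  wd := num 1000
  tn := fun b => cond b
    (((num 809336) * var 1 + num (-196383)) * var 3 + (num 59510) * var 1 + (num (-119020)) * var 0 + num 380864)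
    (num 0)
  td := num 10000000
  cn := num 1 - var 0 * var 1 - var 1 * (num 1 - num 2 * (var 0 * var 1))
  cd := (num 1 - num 2 * (var 0 * var 1)) * (num 1 - num 2 * (var 0 * var 1))
  kn := var 0 * var 1 * ((((num 9266) * var 1 + num 3690) * var 3 + (num 2221) * var 1 + (num (-10515)) * var 0 + num (-9964)) * var 3 + ((num 13865) * var 1 + (num (-70805)) * var 0 + num (-3383)) * var 1 + (num 31119) * var 0 + num 4575)
  kd := num 100
  k2n := (((num (-72)) * var 0) * var 3 + ((num (-2216)) * var 0) * var 1 + (num 1298) * var 0) * var 3 + ((num 2255) * var 0) * var 1 + ((num 1993) * var 0 + num (-1145)) * var 0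
  k2d := num 100

/-- Its ranges. -/
def sevBoxG0b : EBox :=
  ⟨(13, 17, 100), (147, 325, 500), (0, 11, 200), (3, 5, 5)⟩

/-- The chart of the bin `G1`. -/
def sevBinG1 : EndChart where
  I := var 0 * var 1
  d := var 0
  w := var 0 * var 2
  den := num 100
  n₀ := (num 1 - num 2 * (var 0 * var 1) - var 0) * ((num 58) * var 1 + (num 62) * var 0 + num (-7))
  n₁ := (num 1 - num 2 * (var 0 * var 1) - var 0) * ((num 59) * var 1 + (num 58) * var 0 + num (-13))
  q₀ := (13, 17, 100)
  q₁ := (147, 325, 500)
  q₂ := (11, 26, 200)
  q₃ := (0, 1, 1)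
  t₀ := (0, 1)
  t₁ := (1, 1)
  mu₀ := (197, 100)
  mu₁ := (303, 100)

/-- The piece `G1a`. -/
def sevPcG1a : Piece where
  I := var 0 * var 1
  d := var 0
  w := var 0 * var 2
  o := sevBinG1.n₀ + sevBinG1.n₁ * var 3
  den := num 100
  vn := num 2 * (((num 59) * var 1 + (num 58) * var 0 + num (-13)) * var 3 + (num 58) * var 1 + (num 62) * var 0 + num (-7))
  vs := num 1
  mu := ⟨(197, 100), (303, 100)⟩
  pn := fun b => cond b
    ((((((num 929604) * var 0 + num 2360000) * var 0) * var 1 + (((num 913848) * var 0 + num 2579974) * var 0 + num 195198) * var 0 + num (-1180000)) * var 1 + (((num 456924) * var 0 + num 600662) * var 0 + num (-1317586)) * var 0 + num 260000) * var 3 + ((((num 913848) * var 0 + num 2320000) * var 0) * var 1 + (((num 976872) * var 0 + num 2826632) * var 0 + num 423076) * var 0 + num (-1160000)) * var 1 + (((num 488436) * var 0 + num 696418) * var 0 + num (-1324854)) * var 0 + num 2140000)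
    ((((((num 255706) * var 0 + num 2360000) * var 0) * var 1 + (((num 251372) * var 0 + num 2391511) * var 0 + num 532147) * var 0 + num (-1180000)) * var 1 + (((num 125686) * var 0 + num 1006143) * var 0 + num (-1391829)) * var 0 + num 260000) * var 3 + ((((num 251372) * var 0 + num 2320000) * var 0) * var 1 + (((num 268708) * var 0 + num 2575348) * var 0 + num 754314) * var 0 + num (-1160000)) * var 1 + (((num 134354) * var 0 + num 1090477) * var 0 + num (-1364831)) * var 0 + num 2140000)
  pd := num 20000
  en := fun b => cond b
    ((((num (-76277600)) * var 0) * var 1 + num 3287544) * var 3 + (((num (-42148000)) * var 0) * var 1 + ((num 133640000) * var 0 + num 284756000) * var 0) * var 1 + (num 113032712) * var 0 + num 12588888)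
    ((((num (-69673800)) * var 0) * var 1 + num 1270467) * var 3 + (((num (-38499000)) * var 0) * var 1 + ((num 122070000) * var 0 + num 260103000) * var 0) * var 1 + (num 43681341) * var 0 + num 4864959)
  kk := fun b => cond b
    (((num 1434498) * var 0) * var 3 + ((num 7470216) * var 0) * var 1 + ((num 118738542) * var 0 + num 8552856) * var 0)
    (((num 560263) * var 0) * var 3 + ((num 2917596) * var 0) * var 1 + ((num 46374977) * var 0 + num 3340436) * var 0)
  f0 := num 20000000
  wn := fun b => cond b
    ((((((num (-1888000)) * var 0 * var 0) * var 1 + (((num (-1856000)) * var 0 + num 1726080) * var 0 + num 944000) * var 0) * var 1 + (((num (-979040)) * var 0 + num 1227630) * var 0 + num (-182040)) * var 0) * var 1 + (((num (-25520)) * var 0 + num 31240) * var 0 + num (-5720)) * var 0) * var 3 + ((((num (-1856000)) * var 0 * var 0) * var 1 + (((num (-12610000)) * var 0 + num (-293240)) * var 0 + num 928000) * var 0) * var 1 + (((num 1680450) * var 0 + num (-781131)) * var 0 + num (-1686480)) * var 0) * var 1 + (((num (-27280)) * var 0 + num 30360) * var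 0 + num (-3080)) * var 0)
    ((((((num (-1888000)) * var 0 * var 0) * var 1 + (((num (-1856000)) * var 0 + num 1726080) * var 0 + num 944000) * var 0) * var 1 + (((num (-979040)) * var 0 + num 1227630) * var 0 + num (-182040)) * var 0) * var 1 + (((num (-25520)) * var 0 + num 31240) * var 0 + num (-5720)) * var 0) * var 3 + ((((num (-1856000)) * var 0 * var 0) * var 1 + (((num (-12610000)) * var 0 + num (-833640)) * var 0 + num 928000) * var 0) * var 1 + (((num 1680450) * var 0 + num (-810853)) * var 0 + num (-1686480)) * var 0) * var 1 + (((num (-27280)) * var 0 + num 30360) * var 0 + num (-3080)) * var 0)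
  wd := num 200000
  tn := fun b => cond b
    (((num 939692) * var 1 + num (-165828)) * var 3 + (num 414570) * var 1 + (num 359294) * var 0 + num 635674)
    (((num 360910) * var 1 + num (-63690)) * var 3 + (num 159225) * var 1 + (num 137995) * var 0 + num 244145)
  td := num 10000000
  cn := num 1 - var 0 * var 1 - var 1 * (num 1 - num 2 * (var 0 * var 1))
  cd := (num 1 - num 2 * (var 0 * var 1)) * (num 1 - num 2 * (var 0 * var 1))
  kn := var 0 * var 1 * ((((num 7243) * var 1 + num (-2015)) * var 3 + (num 380) * var 1 + (num 2660) * var 0 + num (-663)) * var 3 + ((num 288) * var 1 + (num (-11435)) * var 0 + num 4045) * var 1 + (num 2437) * var 0 + num 679)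
  kd := num 100
  k2n := (((num 1011) * var 0) * var 3 + ((num 2360) * var 0) * var 1 + (num (-2479)) * var 0) * var 3 + ((num (-1353)) * var 0) * var 1 + ((num 670) * var 0 + num 1265) * var 0
  k2d := num 100

/-- Its ranges. -/
def sevBoxG1a : EBox :=
  ⟨(13, 17, 100), (147, 325, 500), (11, 26, 200), (0, 1, 1)⟩

/-- The chart of the bin `G2`. -/
def sevBinG2 : EndChart where
  I := var 0 * var 1
  d := var 0
  w := var 0 * var 2
  den := num 100
  n₀ := (num 1 - num 2 * (var 0 * var 1) - var 0) * ((num 48) * var 1 + (num 48) * var 0 + num (-4))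
  n₁ := (num 1 - num 2 * (var 0 * var 1) - var 0) * ((num 52) * var 1 + (num 56) * var 0 + num (-11))
  q₀ := (13, 17, 100)
  q₁ := (147, 325, 500)
  q₂ := (13, 28, 100)
  q₃ := (0, 1, 1)
  t₀ := (0, 1)
  t₁ := (1, 1)
  mu₀ := (190, 100)
  mu₁ := (296, 100)

/-- The piece `G2a`. -/
def sevPcG2a : Piece where
  I := var 0 * var 1
  d := var 0
  w := var 0 * var 2
  o := sevBinG2.n₀ + sevBinG2.n₁ * var 3
  den := num 100
  vn := num 2 * (((num 52) * var 1 + (num 56) * var 0 + num (-11)) * var 3 + (num 48) * var 1 + (num 48) * var 0 + num (-4))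
  vs := num 1
  mu := ⟨(190, 100), (296, 100)⟩
  pn := fun b => cond b
    ((((((num 430976) * var 0 + num 520000) * var 0) * var 1 + (((num 464128) * var 0 + num 684320) * var 0 + num (-65488)) * var 0 + num (-260000)) * var 1 + (((num 232064) * var 0 + num 2352) * var 0 + num (-289416)) * var 0 + num 55000) * var 3 + ((((num 397824) * var 0 + num 480000) * var 0) * var 1 + (((num 397824) * var 0 + num 645760) * var 0 + num 1088) * var 0 + num (-240000)) * var 1 + (((num 198912) * var 0 + num 24512) * var 0 + num (-243424)) * var 0 + num 520000)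
    ((((((num 128440) * var 0 + num 520000) * var 0) * var 1 + (((num 138320) * var 0 + num 597050) * var 0 + num 85780) * var 0 + num (-260000)) * var 1 + (((num 69160) * var 0 + num 197255) * var 0 + num (-321415)) * var 0 + num 55000) * var 3 + ((((num 118560) * var 0 + num 480000) * var 0) * var 1 + (((num 118560) * var 0 + num 529400) * var 0 + num 140720) * var 0 + num (-240000)) * var 1 + (((num 59280) * var 0 + num 175780) * var 0 + num (-255060)) * var 0 + num 520000)
  pd := num 5000
  en := fun b => cond b
    ((((num (-32404800)) * var 0) * var 1 + num 1993824) * var 3 + (((num 39525600) * var 0) * var 1 + ((num 825600) * var 0 + num 127452000) * var 0) * var 1 + (num 130436544) * var 0 + num 12743136)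
    ((((num (-29547400)) * var 0) * var 1 + num 844077) * var 3 + (((num 36040300) * var 0) * var 1 + ((num 752800) * var 0 + num 116213500) * var 0) * var 1 + (num 55219762) * var 0 + num 5394753)
  kk := fun b => cond b
    (((num 1392384) * var 0) * var 3 + ((num 6932912) * var 0) * var 1 + ((num 123167968) * var 0 + num 9920736) * var 0)
    (((num 601536) * var 0) * var 3 + ((num 2995148) * var 0) * var 1 + ((num 53210872) * var 0 + num 4285944) * var 0)
  f0 := num 10000000
  wn := fun b => cond b
    ((((((num (-832000)) * var 0 * var 0) * var 1 + (((num (-896000)) * var 0 + num 967920) * var 0 + num 416000) * var 0) * var 1 + (((num (-506240)) * var 0 + num 655340) * var 0 + num (-60960)) * var 0) * var 1 + (((num (-29120)) * var 0 + num 34840) * var 0 + num (-5720)) * var 0) * var 3 + ((((num (-768000)) * var 0 * var 0) * var 1 + (((num (-7421000)) * var 0 + num (-210620)) * var 0 + num 384000) * var 0) * var 1 + (((num 1419880) * var 0 + num (-556601)) * var 0 + num (-807040)) * var 0) * var 1 + (((num (-24960)) * var 0 + num 27040) * var 0 + num (-2080))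 * var 0)
    ((((((num (-832000)) * var 0 * var 0) * var 1 + (((num (-896000)) * var 0 + num 967920) * var 0 + num 416000) * var 0) * var 1 + (((num (-506240)) * var 0 + num 655340) * var 0 + num (-60960)) * var 0) * var 1 + (((num (-29120)) * var 0 + num 34840) * var 0 + num (-5720)) * var 0) * var 3 + ((((num (-768000)) * var 0 * var 0) * var 1 + (((num (-7421000)) * var 0 + num (-491920)) * var 0 + num 384000) * var 0) * var 1 + (((num 1419880) * var 0 + num (-593170)) * var 0 + num (-807040)) * var 0) * var 1 + (((num (-24960)) * var 0 + num 27040) * var 0 + num (-2080)) * var 0)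
  wd := num 100000
  tn := fun b => cond b
    (((num 622160) * var 1 + num (-70700)) * var 3 + (num 325220) * var 1 + (num 339360) * var 0 + num 622160)
    (((num 281996) * var 1 + num (-32045)) * var 3 + (num 147407) * var 1 + (num 153816) * var 0 + num 281996)
  td := num 5000000
  cn := num 1 - var 0 * var 1 - var 1 * (num 1 - num 2 * (var 0 * var 1))
  cd := (num 1 - num 2 * (var 0 * var 1)) * (num 1 - num 2 * (var 0 * var 1))
  kn := var 0 * var 1 * ((((num 5475) * var 1 + num (-1347)) * var 3 + (num 1535) * var 1 + (num 6035) * var 0 + num (-1296)) * var 3 + ((num (-664)) * var 1 + (num (-6921)) * var 0 + num 4159) * var 1 + (num 2355) * var 0 + num 466)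
  kd := num 100
  k2n := (((num 533) * var 0) * var 3 + ((num 1947) * var 0) * var 1 + (num (-1731)) * var 0) * var 3 + ((num (-1218)) * var 0) * var 1 + ((num 669) * var 0 + num 988) * var 0
  k2d := num 100

/-- Its ranges. -/
def sevBoxG2a : EBox :=
  ⟨(13, 17, 100), (147, 325, 500), (13, 28, 100), (0, 1, 1)⟩

/-- The chart of the bin `G3`. -/
def sevBinG3 : EndChart where
  I := var 0 * var 1
  d := var 0
  w := var 0 * var 2
  den := num 100
  n₀ := (num 1 - num 2 * (var 0 * var 1) - var 0) * ((num 45) * var 1 + (num 41) * var 0 + num (-5))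
  n₁ := (num 1 - num 2 * (var 0 * var 1) - var 0) * ((num 40) * var 1 + (num 38) * var 0 + num (-6))
  q₀ := (13, 17, 100)
  q₁ := (147, 325, 500)
  q₂ := (7, 10, 25)
  q₃ := (0, 1, 1)
  t₀ := (0, 1)
  t₁ := (1, 1)
  mu₀ := (181, 100)
  mu₁ := (287, 100)

/-- The piece `G3a`. -/
def sevPcG3a : Piece where
  I := var 0 * var 1
  d := var 0
  w := var 0 * var 2
  o := sevBinG3.n₀ + sevBinG3.n₁ * var 3
  den := num 100
  vn := num 2 * (((num 40) * var 1 + (num 38) * var 0 + num (-6)) * var 3 + (num 45) * var 1 + (num 41) * var 0 + num (-5))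
  vs := num 1
  mu := ⟨(181, 100), (287, 100)⟩
  pn := fun b => cond b
    ((((((num 229600) * var 0 + num 200000) * var 0) * var 1 + (((num 218120) * var 0 + num 270360) * var 0 + num (-44800)) * var 0 + num (-100000)) * var 1 + (((num 109060) * var 0 + num (-31280)) * var 0 + num (-92780)) * var 0 + num 15000) * var 3 + ((((num 258300) * var 0 + num 225000) * var 0) * var 1 + (((num 235340) * var 0 + num 305450) * var 0 + num (-41650)) * var 0 + num (-112500)) * var 1 + (((num 117670) * var 0 + num (-29520)) * var 0 + num (-100650)) * var 0 + num 262500)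
    ((((((num 101360) * var 0 + num 200000) * var 0) * var 1 + (((num 96292) * var 0 + num 225476) * var 0 + num 19320) * var 0 + num (-100000)) * var 1 + (((num 48146) * var 0 + num 39252) * var 0 + num (-102398)) * var 0 + num 15000) * var 3 + ((((num 114030) * var 0 + num 225000) * var 0) * var 1 + (((num 103894) * var 0 + num 249345) * var 0 + num 30485) * var 0 + num (-112500)) * var 1 + (((num 51947) * var 0 + num 44218) * var 0 + num (-108665)) * var 0 + num 262500)
  pd := num 2500
  en := fun b => cond b
    ((((num (-5335425)) * var 0) * var 1 + num 402090) * var 3 + (((num 19202375) * var 0) * var 1 + ((num (-3428075)) * var 0 + num 31445500) * var 0) * var 1 + (num 43240140) * var 0 + num 4783840)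
    ((((num (-4936950)) * var 0) * var 1 + num 260442) * var 3 + (((num 17768250) * var 0) * var 1 + ((num (-3172050)) * var 0 + num 29097000) * var 0) * var 1 + (num 28007532) * var 0 + num 3098592)
  kk := fun b => cond b
    (((num 402090) * var 0) * var 3 + ((num 2185720) * var 0) * var 1 + ((num 42219450) * var 0 + num 3763150) * var 0)
    (((num 264264) * var 0) * var 3 + ((num 1436512) * var 0) * var 1 + ((num 27747720) * var 0 + num 2473240) * var 0)
  f0 := num 2500000
  wn := fun b => cond b
    ((((((num (-160000)) * var 0 * var 0) * var 1 + (((num (-152000)) * var 0 + num 259850) * var 0 + num 80000) * var 0) * var 1 + (((num (-97280)) * var 0 + num 137980) * var 0 + num (-800)) * var 0) * var 1 + (((num (-10640)) * var 0 + num 12320) * var 0 + num (-1680)) * var 0) * var 3 + ((((num (-180000)) * var 0 * var 0) * var 1 + (((num (-2786500)) * var 0 + num 73375) * var 0 + num 90000) * var 0) * var 1 + (((num 794750) * var 0 + num (-224599)) * var 0 + num (-197400)) * var 0) * var 1 + (((num (-11480)) * var 0 + num 12880) * var 0 + num (-1400)) * var 0)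
    ((((((num (-160000)) * var 0 * var 0) * var 1 + (((num (-152000)) * var 0 + num 259850) * var 0 + num 80000) * var 0) * var 1 + (((num (-97280)) * var 0 + num 137980) * var 0 + num (-800)) * var 0) * var 1 + (((num (-10640)) * var 0 + num 12320) * var 0 + num (-1680)) * var 0) * var 3 + ((((num (-180000)) * var 0 * var 0) * var 1 + (((num (-2786500)) * var 0 + num 19300) * var 0 + num 90000) * var 0) * var 1 + (((num 794750) * var 0 + num (-239740)) * var 0 + num (-197400)) * var 0) * var 1 + (((num (-11480)) * var 0 + num 12880) * var 0 + num (-1400)) * var 0)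
  wd := num 25000
  tn := fun b => cond b
    (((num 128000) * var 1 + num (-10240)) * var 3 + (num 102400) * var 1 + (num 102400) * var 0 + num 209920)
    (((num 86975) * var 1 + num (-6958)) * var 3 + (num 69580) * var 1 + (num 69580) * var 0 + num 142639)
  td := num 1250000
  cn := num 1 - var 0 * var 1 - var 1 * (num 1 - num 2 * (var 0 * var 1))
  cd := (num 1 - num 2 * (var 0 * var 1)) * (num 1 - num 2 * (var 0 * var 1))
  kn := var 0 * var 1 * ((((num 1722) * var 1 + num (-436)) * var 3 + (num 1607) * var 1 + (num 1784) * var 0 + num (-974)) * var 3 + ((num (-194)) * var 1 + (num 5490) * var 0 + num 1346) * var 1 + (num (-1933)) * var 0 + num 977)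
  kd := num 100
  k2n := (((num 296) * var 0) * var 3 + ((num 1665) * var 0) * var 1 + (num (-1293)) * var 0) * var 3 + ((num (-1067)) * var 0) * var 1 + ((num (-1253)) * var 0 + num 1060) * var 0
  k2d := num 100

/-- Its ranges. -/
def sevBoxG3a : EBox :=
  ⟨(13, 17, 100), (147, 325, 500), (7, 10, 25), (0, 1, 1)⟩

/-- The chart of the bin `G4`. -/
def sevBinG4 : EndChart where
  I := var 0 * var 1
  d := var 0
  w := var 0 * var 2
  den := num 100
  n₀ := (num 1 - num 2 * (var 0 * var 1) - var 0) * ((num 43) * var 1 + (num 50) * var 0 + num (-7))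
  n₁ := (num 1 - num 2 * (var 0 * var 1) - var 0) * ((num 35) * var 1 + (num 27) * var 0 + num (-3))
  q₀ := (13, 17, 100)
  q₁ := (147, 325, 500)
  q₂ := (10, 12, 25)
  q₃ := (0, 1, 1)
  t₀ := (0, 1)
  t₁ := (1, 1)
  mu₀ := (174, 100)
  mu₁ := (284, 100)

/-- The piece `G4a`. -/
def sevPcG4a : Piece where
  I := var 0 * var 1
  d := var 0
  w := var 0 * var 2
  o := sevBinG4.n₀ + sevBinG4.n₁ * var 3
  den := num 100
  vn := num 2 * (((num 35) * var 1 + (num 27) * var 0 + num (-3)) * var 3 + (num 43) * var 1 + (num 50) * var 0 + num (-7))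
  vs := num 1
  mu := ⟨(174, 100), (284, 100)⟩
  pn := fun b => cond b
    ((((((num 59640) * var 0 + num 43750) * var 0) * var 1 + (((num 46008) * var 0 + num 58458) * var 0 + num (-11695)) * var 0 + num (-21875)) * var 1 + (((num 23004) * var 0 + num (-8685)) * var 0 + num (-16194)) * var 0 + num 1875) * var 3 + ((((num 73272) * var 0 + num 53750) * var 0) * var 1 + (((num 85200) * var 0 + num 87208) * var 0 + num (-18511)) * var 0 + num (-26875)) * var 1 + (((num 42600) * var 0 + num (-17314)) * var 0 + num (-29661)) * var 0 + num 66875)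
    ((((((num 30450) * var 0 + num 43750) * var 0) * var 1 + (((num 23490) * var 0 + num 46365) * var 0 + num 2900) * var 0 + num (-21875)) * var 1 + (((num 11745) * var 0 + num 3825) * var 0 + num (-17445)) * var 0 + num 1875) * var 3 + ((((num 37410) * var 0 + num 53750) * var 0) * var 1 + (((num 43500) * var 0 + num 75115) * var 0 + num (-580)) * var 0 + num (-26875)) * var 1 + (((num 21750) * var 0 + num 6455) * var 0 + num (-32580)) * var 0 + num 66875)
  pd := num 625
  en := fun b => cond b
    ((((num (-3283200)) * var 0) * var 1 + num 320112) * var 3 + (((num 8413200) * var 0) * var 1 + ((num (-11568150)) * var 0 + num 47349900) * var 0) * var 1 + (num 45911448) * var 0 + num 5897448)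
    ((((num (-3088000)) * var 0) * var 1 + num 250900) * var 3 + (((num 7913000) * var 0) * var 1 + ((num (-10880375)) * var 0 + num 44534750) * var 0) * var 1 + (num 35984850) * var 0 + num 4622350)
  kk := fun b => cond b
    (((num 442368) * var 0) * var 3 + ((num 2273280) * var 0) * var 1 + ((num 49078272) * var 0 + num 4767744) * var 0)
    (((num 349200) * var 0) * var 3 + ((num 1794500) * var 0) * var 1 + ((num 38741800) * var 0 + num 3763600) * var 0)
  f0 := num 2500000
  wn := fun b => cond b
    ((((((num (-28000)) * var 0 * var 0) * var 1 + (((num (-21600)) * var 0 + num 55100) * var 0 + num 14000) * var 0) * var 1 + (((num (-15120)) * var 0 + num 26740) * var 0 + num 1600) * var 0) * var 1 + (((num (-2160)) * var 0 + num 2400) * var 0 + num (-240)) * var 0) * var 3 + ((((num (-34400)) * var 0 * var 0) * var 1 + (((num (-682600)) * var 0 + num 35590) * var 0 + num 17200) * var 0) * var 1 + (((num 227840) * var 0 + num (-54092)) * var 0 + num (-39360)) * var 0) * var 1 + (((num (-4000)) * var 0 + num 4560) * var 0 + num (-560)) * var 0)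
    ((((((num (-28000)) * var 0 * var 0) * var 1 + (((num (-21600)) * var 0 + num 55100) * var 0 + num 14000) * var 0) * var 1 + (((num (-15120)) * var 0 + num 26740) * var 0 + num 1600) * var 0) * var 1 + (((num (-2160)) * var 0 + num 2400) * var 0 + num (-240)) * var 0) * var 3 + ((((num (-34400)) * var 0 * var 0) * var 1 + (((num (-682600)) * var 0 + num 28785) * var 0 + num 17200) * var 0) * var 1 + (((num 227840) * var 0 + num (-56814)) * var 0 + num (-39360)) * var 0) * var 1 + (((num (-4000)) * var 0 + num 4560) * var 0 + num (-560)) * var 0)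
  wd := num 5000
  tn := fun b => cond b
    (((num 51663) * var 1) * var 3 + (num 54702) * var 1 + (num 72936) * var 0 + num 118521)
    (((num 41820) * var 1) * var 3 + (num 44280) * var 1 + (num 59040) * var 0 + num 95940)
  td := num 625000
  cn := num 1 - var 0 * var 1 - var 1 * (num 1 - num 2 * (var 0 * var 1))
  cd := (num 1 - num 2 * (var 0 * var 1)) * (num 1 - num 2 * (var 0 * var 1))
  kn := var 0 * var 1 * ((((num 744) * var 1 + num (-202)) * var 3 + (num 1595) * var 1 + (num 1298) * var 0 + num (-1021)) * var 3 + ((num (-2)) * var 1 + (num 7946) * var 0 + num 474) * var 1 + (num (-2994)) * var 0 + num 1165)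
  kd := num 100
  k2n := (((num 417) * var 0) * var 3 + ((num 1900) * var 0) * var 1 + (num (-1413)) * var 0) * var 3 + ((num (-1060)) * var 0) * var 1 + ((num (-1910)) * var 0 + num 1108) * var 0
  k2d := num 100

/-- Its ranges. -/
def sevBoxG4a : EBox :=
  ⟨(13, 17, 100), (147, 325, 500), (10, 12, 25), (0, 3, 5)⟩

/-- The piece `G4b`. -/
def sevPcG4b : Piece where
  I := var 0 * var 1
  d := var 0
  w := var 0 * var 2
  o := sevBinG4.n₀ + sevBinG4.n₁ * var 3
  den := num 100
  vn := num 2 * (((num 35) * var 1 + (num 27) * var 0 + num (-3)) * var 3 + (num 43) * var 1 + (num 50) * var 0 + num (-7))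
  vs := num 1
  mu := ⟨(174, 100), (284, 100)⟩
  pn := fun b => cond b
    ((((((num 59640) * var 0 + num 43750) * var 0) * var 1 + (((num 46008) * var 0 + num 58458) * var 0 + num (-11695)) * var 0 + num (-21875)) * var 1 + (((num 23004) * var 0 + num (-8685)) * var 0 + num (-16194)) * var 0 + num 1875) * var 3 + ((((num 73272) * var 0 + num 53750) * var 0) * var 1 + (((num 85200) * var 0 + num 87208) * var 0 + num (-18511)) * var 0 + num (-26875)) * var 1 + (((num 42600) * var 0 + num (-17314)) * var 0 + num (-29661)) * var 0 + num 66875)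
    ((((((num 30450) * var 0 + num 43750) * var 0) * var 1 + (((num 23490) * var 0 + num 46365) * var 0 + num 2900) * var 0 + num (-21875)) * var 1 + (((num 11745) * var 0 + num 3825) * var 0 + num (-17445)) * var 0 + num 1875) * var 3 + ((((num 37410) * var 0 + num 53750) * var 0) * var 1 + (((num 43500) * var 0 + num 75115) * var 0 + num (-580)) * var 0 + num (-26875)) * var 1 + (((num 21750) * var 0 + num 6455) * var 0 + num (-32580)) * var 0 + num 66875)
  pd := num 625
  en := fun b => cond b
    ((((num (-4013100)) * var 0) * var 1 + num 358092) * var 3 + (((num 8206275) * var 0) * var 1 + ((num (-540225)) * var 0 + num 46407900) * var 0) * var 1 + (num 46996488) * var 0 + num 5754168)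
    ((((num (-3751800)) * var 0) * var 1 + num 278980) * var 3 + (((num 7671950) * var 0) * var 1 + ((num (-505050)) * var 0 + num 43386200) * var 0) * var 1 + (num 36613720) * var 0 + num 4482920)
  kk := fun b => cond b
    (((num 431340) * var 0) * var 3 + ((num 2698956) * var 0) * var 1 + ((num 50824176) * var 0 + num 4362696) * var 0)
    (((num 337750) * var 0) * var 3 + ((num 2113350) * var 0) * var 1 + ((num 39796600) * var 0 + num 3416100) * var 0)
  f0 := num 2500000
  wn := fun b => cond b
    ((((((num (-28000)) * var 0 * var 0) * var 1 + (((num (-21600)) * var 0 + num 47400) * var 0 + num 14000) * var 0) * var 1 + (((num (-15120)) * var 0 + num 26880) * var 0 + num 1600) * var 0) * var 1 + (((num (-2160)) * var 0 + num 2400) * var 0 + num (-240)) * var 0) * var 3 + ((((num (-34400)) * var 0 * var 0) * var 1 + (((num (-696150)) * var 0 + num 36915) * var 0 + num 17200) * var 0) * var 1 + (((num 265820) * var 0 + num (-60182)) * var 0 + num (-39360)) * var 0) * var 1 + (((num (-4000)) * var 0 + num 4560) * var 0 + num (-560)) * var 0)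
    ((((((num (-28000)) * var 0 * var 0) * var 1 + (((num (-21600)) * var 0 + num 47400) * var 0 + num 14000) * var 0) * var 1 + (((num (-15120)) * var 0 + num 26880) * var 0 + num 1600) * var 0) * var 1 + (((num (-2160)) * var 0 + num 2400) * var 0 + num (-240)) * var 0) * var 3 + ((((num (-34400)) * var 0 * var 0) * var 1 + (((num (-696150)) * var 0 + num 31840) * var 0 + num 17200) * var 0) * var 1 + (((num 265820) * var 0 + num (-62212)) * var 0 + num (-39360)) * var 0) * var 1 + (((num (-4000)) * var 0 + num 4560) * var 0 + num (-560)) * var 0)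
  wd := num 5000
  tn := fun b => cond b
    (((num 6426) * var 1 + num (-306)) * var 3 + (num 5202) * var 1 + (num 6732) * var 0 + num 11934)
    (((num 5145) * var 1 + num (-245)) * var 3 + (num 4165) * var 1 + (num 5390) * var 0 + num 9555)
  td := num 62500
  cn := num 1 - var 0 * var 1 - var 1 * (num 1 - num 2 * (var 0 * var 1))
  cd := (num 1 - num 2 * (var 0 * var 1)) * (num 1 - num 2 * (var 0 * var 1))
  kn := var 0 * var 1 * ((((num 1339) * var 1 + num (-355)) * var 3 + (num 996) * var 1 + (num 1240) * var 0 + num (-861)) * var 3 + ((num 618) * var 1 + (num 10370) * var 0 + num (-217)) * var 1 + (num (-3671)) * var 0 + num 1319)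
  kd := num 100
  k2n := (((num 172) * var 0) * var 3 + ((num 904) * var 0) * var 1 + (num (-829)) * var 0) * var 3 + ((num (-624)) * var 0) * var 1 + ((num (-1152)) * var 0 + num 787) * var 0
  k2d := num 100

/-- Its ranges. -/
def sevBoxG4b : EBox :=
  ⟨(13, 17, 100), (147, 325, 500), (10, 12, 25), (3, 5, 5)⟩

/-- The chart of the bin `G5`. -/
def sevBinG5 : EndChart where
  I := var 0 * var 1
  d := var 0
  w := var 0 * var 2
  den := num 100
  n₀ := (num 1 - num 2 * (var 0 * var 1) - var 0) * ((num 40) * var 1 + (num 40) * var 0 + num (-5))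
  n₁ := (num 1 - num 2 * (var 0 * var 1) - var 0) * ((num 31) * var 1 + (num 24) * var 0 + num (-2))
  q₀ := (13, 17, 100)
  q₁ := (147, 325, 500)
  q₂ := (12, 14, 25)
  q₃ := (0, 1, 1)
  t₀ := (0, 1)
  t₁ := (1, 1)
  mu₀ := (174, 100)
  mu₁ := (282, 100)

/-- The piece `G5a`. -/
def sevPcG5a : Piece where
  I := var 0 * var 1
  d := var 0
  w := var 0 * var 2
  o := sevBinG5.n₀ + sevBinG5.n₁ * var 3
  den := num 100
  vn := num 2 * (((num 31) * var 1 + (num 24) * var 0 + num (-2)) * var 3 + (num 40) * var 1 + (num 40) * var 0 + num (-5))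
  vs := num 1
  mu := ⟨(174, 100), (282, 100)⟩
  pn := fun b => cond b
    ((((((num 61194) * var 0 + num 38750) * var 0) * var 1 + (((num 47376) * var 0 + num 56649) * var 0 + num (-13722)) * var 0 + num (-19375)) * var 1 + (((num 23688) * var 0 + num (-10662)) * var 0 + num (-14276)) * var 0 + num 1250) * var 3 + ((((num 78960) * var 0 + num 50000) * var 0) * var 1 + (((num 78960) * var 0 + num 79610) * var 0 + num (-20730)) * var 0 + num (-25000)) * var 1 + (((num 39480) * var 0 + num (-19415)) * var 0 + num (-23190)) * var 0 + num 65625)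
    ((((((num 32364) * var 0 + num 38750) * var 0) * var 1 + (((num 25056) * var 0 + num 44094) * var 0 + num 693) * var 0 + num (-19375)) * var 1 + (((num 12528) * var 0 + num 1428) * var 0 + num (-15206)) * var 0 + num 1250) * var 3 + ((((num 41760) * var 0 + num 50000) * var 0) * var 1 + (((num 41760) * var 0 + num 65660) * var 0 + num (-2130)) * var 0 + num (-25000)) * var 1 + (((num 20880) * var 0 + num 1510) * var 0 + num (-25515)) * var 0 + num 65625)
  pd := num 625
  en := fun b => cond b
    ((((num (-1921875)) * var 0) * var 1 + num 272650) * var 3 + (((num 4023125) * var 0) * var 1 + ((num (-16656250)) * var 0 + num 55606250) * var 0) * var 1 + (num 51588250) * var 0 + num 6916700)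
    ((((num (-1815000)) * var 0) * var 1 + num 220704) * var 3 + (((num 3799400) * var 0) * var 1 + ((num (-15730000)) * var 0 + num 52514000) * var 0) * var 1 + (num 41759520) * var 0 + num 5598912)
  kk := fun b => cond b
    (((num 472626) * var 0) * var 3 + ((num 2506350) * var 0) * var 1 + ((num 56471646) * var 0 + num 5685834) * var 0)
    (((num 384912) * var 0) * var 3 + ((num 2041200) * var 0) * var 1 + ((num 45991152) * var 0 + num 4630608) * var 0)
  f0 := num 2500000
  wn := fun b => cond b
    ((((((num (-124000)) * var 0 * var 0) * var 1 + (((num (-96000)) * var 0 + num 259990) * var 0 + num 62000) * var 0) * var 1 + (((num (-71040)) * var 0 + num 144520) * var 0 + num 10880) * var 0) * var 1 + (((num (-11520)) * var 0 + num 12480) * var 0 + num (-960)) * var 0) * var 3 + ((((num (-160000)) * var 0 * var 0) * var 1 + (((num (-3487750)) * var 0 + num 171300) * var 0 + num 80000) * var 0) * var 1 + (((num 1104520) * var 0 + num (-280424)) * var 0 + num (-190800)) * var 0) * var 1 + (((num (-19200)) * var 0 + num 21600) * var 0 + num (-2400)) * var 0)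
    ((((((num (-124000)) * var 0 * var 0) * var 1 + (((num (-96000)) * var 0 + num 259990) * var 0 + num 62000) * var 0) * var 1 + (((num (-71040)) * var 0 + num 144520) * var 0 + num 10880) * var 0) * var 1 + (((num (-11520)) * var 0 + num 12480) * var 0 + num (-960)) * var 0) * var 3 + ((((num (-160000)) * var 0 * var 0) * var 1 + (((num (-3487750)) * var 0 + num 135175) * var 0 + num 80000) * var 0) * var 1 + (((num 1104520) * var 0 + num (-297764)) * var 0 + num (-190800)) * var 0) * var 1 + (((num (-19200)) * var 0 + num 21600) * var 0 + num (-2400)) * var 0)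
  wd := num 25000
  tn := fun b => cond b
    (((num 98882) * var 1) * var 3 + (num 120071) * var 1 + (num 148323) * var 0 + num 268394)
    (((num 82656) * var 1) * var 3 + (num 100368) * var 1 + (num 123984) * var 0 + num 224352)
  td := num 1250000
  cn := num 1 - var 0 * var 1 - var 1 * (num 1 - num 2 * (var 0 * var 1))
  cd := (num 1 - num 2 * (var 0 * var 1)) * (num 1 - num 2 * (var 0 * var 1))
  kn := var 0 * var 1 * ((((num 514) * var 1 + num (-138)) * var 3 + (num 1495) * var 1 + (num 1278) * var 0 + num (-1019)) * var 3 + ((num (-142)) * var 1 + (num 6967) * var 0 + num 677) * var 1 + (num (-2422)) * var 0 + num 1031)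
  kd := num 100
  k2n := (((num 338) * var 0) * var 3 + ((num 1675) * var 0) * var 1 + (num (-1215)) * var 0) * var 3 + ((num (-980)) * var 0) * var 1 + ((num (-1500)) * var 0 + num 964) * var 0
  k2d := num 100

/-- Its ranges. -/
def sevBoxG5a : EBox :=
  ⟨(13, 17, 100), (147, 325, 500), (12, 14, 25), (0, 3, 5)⟩

/-- The piece `G5b`. -/
def sevPcG5b : Piece where
  I := var 0 * var 1
  d := var 0
  w := var 0 * var 2
  o := sevBinG5.n₀ + sevBinG5.n₁ * var 3
  den := num 100
  vn := num 2 * (((num 31) * var 1 + (num 24) * var 0 + num (-2)) * var 3 + (num 40) * var 1 + (num 40) * var 0 + num (-5))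
  vs := num 1
  mu := ⟨(174, 100), (282, 100)⟩
  pn := fun b => cond b
    ((((((num 61194) * var 0 + num 38750) * var 0) * var 1 + (((num 47376) * var 0 + num 56649) * var 0 + num (-13722)) * var 0 + num (-19375)) * var 1 + (((num 23688) * var 0 + num (-10662)) * var 0 + num (-14276)) * var 0 + num 1250) * var 3 + ((((num 78960) * var 0 + num 50000) * var 0) * var 1 + (((num 78960) * var 0 + num 79610) * var 0 + num (-20730)) * var 0 + num (-25000)) * var 1 + (((num 39480) * var 0 + num (-19415)) * var 0 + num (-23190)) * var 0 + num 65625)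
    ((((((num 32364) * var 0 + num 38750) * var 0) * var 1 + (((num 25056) * var 0 + num 44094) * var 0 + num 693) * var 0 + num (-19375)) * var 1 + (((num 12528) * var 0 + num 1428) * var 0 + num (-15206)) * var 0 + num 1250) * var 3 + ((((num 41760) * var 0 + num 50000) * var 0) * var 1 + (((num 41760) * var 0 + num 65660) * var 0 + num (-2130)) * var 0 + num (-25000)) * var 1 + (((num 20880) * var 0 + num 1510) * var 0 + num (-25515)) * var 0 + num 65625)
  pd := num 625
  en := fun b => cond b
    ((((num (-2492900)) * var 0) * var 1 + num 302232) * var 3 + (((num 3983500) * var 0) * var 1 + ((num (-6425000)) * var 0 + num 54458300) * var 0) * var 1 + (num 52689112) * var 0 + num 6793024)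
    ((((num (-2340125)) * var 0) * var 1 + num 243180) * var 3 + (((num 3739375) * var 0) * var 1 + ((num (-6031250)) * var 0 + num 51120875) * var 0) * var 1 + (num 42394380) * var 0 + num 5465760)
  kk := fun b => cond b
    (((num 459200) * var 0) * var 3 + ((num 2941750) * var 0) * var 1 + ((num 58275350) * var 0 + num 5266450) * var 0)
    (((num 371328) * var 0) * var 3 + ((num 2378820) * var 0) * var 1 + ((num 47123844) * var 0 + num 4258668) * var 0)
  f0 := num 2500000
  wn := fun b => cond b
    ((((((num (-124000)) * var 0 * var 0) * var 1 + (((num (-96000)) * var 0 + num 229240) * var 0 + num 62000) * var 0) * var 1 + (((num (-71040)) * var 0 + num 143200) * var 0 + num 10880) * var 0) * var 1 + (((num (-11520)) * var 0 + num 12480) * var 0 + num (-960)) * var 0) * var 3 + ((((num (-160000)) * var 0 * var 0) * var 1 + (((num (-3544000)) * var 0 + num 173325) * var 0 + num 80000) * var 0) * var 1 + (((num 1307200) * var 0 + num (-311492)) * var 0 + num (-190800)) * var 0) * var 1 + (((num (-19200)) * var 0 + num 21600) * var 0 + num (-2400)) * var 0)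
    ((((((num (-124000)) * var 0 * var 0) * var 1 + (((num (-96000)) * var 0 + num 229240) * var 0 + num 62000) * var 0) * var 1 + (((num (-71040)) * var 0 + num 143200) * var 0 + num 10880) * var 0) * var 1 + (((num (-11520)) * var 0 + num 12480) * var 0 + num (-960)) * var 0) * var 3 + ((((num (-160000)) * var 0 * var 0) * var 1 + (((num (-3544000)) * var 0 + num 144025) * var 0 + num 80000) * var 0) * var 1 + (((num 1307200) * var 0 + num (-325556)) * var 0 + num (-190800)) * var 0) * var 1 + (((num (-19200)) * var 0 + num 21600) * var 0 + num (-2400)) * var 0)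
  wd := num 25000
  tn := fun b => cond b
    (((num 112112) * var 1) * var 3 + (num 112112) * var 1 + (num 133133) * var 0 + num 273273)
    (((num 92736) * var 1) * var 3 + (num 92736) * var 1 + (num 110124) * var 0 + num 226044)
  td := num 1250000
  cn := num 1 - var 0 * var 1 - var 1 * (num 1 - num 2 * (var 0 * var 1))
  cd := (num 1 - num 2 * (var 0 * var 1)) * (num 1 - num 2 * (var 0 * var 1))
  kn := var 0 * var 1 * ((((num 919) * var 1 + num (-241)) * var 3 + (num 1105) * var 1 + (num 1275) * var 0 + num (-922)) * var 3 + ((num 193) * var 1 + (num 8909) * var 0 + num 247) * var 1 + (num (-3111)) * var 0 + num 1152)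
  kd := num 100
  k2n := (((num 150) * var 0) * var 3 + ((num 857) * var 0) * var 1 + (num (-754)) * var 0) * var 3 + ((num (-617)) * var 0) * var 1 + ((num (-907)) * var 0 + num 712) * var 0
  k2d := num 100

/-- Its ranges. -/
def sevBoxG5b : EBox :=
  ⟨(13, 17, 100), (147, 325, 500), (12, 14, 25), (3, 5, 5)⟩

/-- The chart of the bin `G6`. -/
def sevBinG6 : EndChart where
  I := var 0 * var 1
  d := var 0
  w := var 0 * var 2
  den := num 100
  n₀ := (num 1 - num 2 * (var 0 * var 1) - var 0) * ((num 36) * var 1 + (num 8) * var 0)
  n₁ := (num 1 - num 2 * (var 0 * var 1) - var 0) * ((num 34) * var 1 + (num 62) * var 0 + num (-9))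
  q₀ := (13, 17, 100)
  q₁ := (147, 325, 500)
  q₂ := (28, 33, 50)
  q₃ := (0, 1, 1)
  t₀ := (0, 1)
  t₁ := (1, 1)
  mu₀ := (164, 100)
  mu₁ := (279, 100)

/-- The piece `G6a`. -/
def sevPcG6a : Piece where
  I := var 0 * var 1
  d := var 0
  w := var 0 * var 2
  o := sevBinG6.n₀ + sevBinG6.n₁ * var 3
  den := num 100
  vn := num 2 * (((num 34) * var 1 + (num 62) * var 0 + num (-9)) * var 3 + (num 36) * var 1 + (num 8) * var 0)
  vs := num 1
  mu := ⟨(164, 100), (279, 100)⟩
  pn := fun b => cond b
    ((((((num 626076) * var 0 + num 340000) * var 0) * var 1 + (((num 1141668) * var 0 + num 767312) * var 0 + num (-233038)) * var 0 + num (-170000)) * var 1 + (((num 570834) * var 0 + num (-343697)) * var 0 + num (-272137)) * var 0 + num 45000) * var 3 + ((((num 662904) * var 0 + num 360000) * var 0) * var 1 + (((num 147312) * var 0 + num 411452) * var 0 + num (-151452)) * var 0 + num (-180000)) * var 1 + (((num 73656) * var 0 + num (-33656)) * var 0 + num (-40000)) * var 0 + num 500000)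
    ((((((num 312256) * var 0 + num 340000) * var 0) * var 1 + (((num 569408) * var 0 + num 693472) * var 0 + num (-76128)) * var 0 + num (-170000)) * var 1 + (((num 284704) * var 0 + num (-16032)) * var 0 + num (-313672)) * var 0 + num 45000) * var 3 + ((((num 330624) * var 0 + num 360000) * var 0) * var 1 + (((num 73472) * var 0 + num 245312) * var 0 + num 14688) * var 0 + num (-180000)) * var 1 + (((num 36736) * var 0 + num 3264) * var 0 + num (-40000)) * var 0 + num 500000)
  pd := num 5000
  en := fun b => cond b
    ((((num (-1691250)) * var 0) * var 1 + num 541200) * var 3 + (((num 16810000) * var 0) * var 1 + ((num (-47765000)) * var 0 + num 112135000) * var 0) * var 1 + (num 121871475) * var 0 + num 16405125)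
    ((((num (-1595550)) * var 0) * var 1 + num 433216) * var 3 + (((num 15858800) * var 0) * var 1 + ((num (-45062200)) * var 0 + num 105789800) * var 0) * var 1 + (num 97554828) * var 0 + num 13131860)
  kk := fun b => cond b
    (((num 1080288) * var 0) * var 3 + ((num 5570235) * var 0) * var 1 + ((num 130275981) * var 0 + num 13807431) * var 0)
    (((num 870912) * var 0) * var 3 + ((num 4490640) * var 0) * var 1 + ((num 105026544) * var 0 + num 11131344) * var 0)
  f0 := num 5000000
  wn := fun b => cond b
    ((((((num (-136000)) * var 0 * var 0) * var 1 + (((num (-248000)) * var 0 + num 364920) * var 0 + num 68000) * var 0) * var 1 + (((num (-193440)) * var 0 + num 233560) * var 0 + num 1040) * var 0) * var 1 + (((num (-34720)) * var 0 + num 39760) * var 0 + num (-5040)) * var 0) * var 3 + ((((num (-144000)) * var 0 * var 0) * var 1 + (((num (-3217750)) * var 0 + num 101605) * var 0 + num 72000) * var 0) * var 1 + (((num 790820) * var 0 + num (-297162)) * var 0 + num (-179840)) * var 0) * var 1 + ((num (-4480)) * var 0 + num 4480) * var 0 * var 0)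
    ((((((num (-136000)) * var 0 * var 0) * var 1 + (((num (-248000)) * var 0 + num 364920) * var 0 + num 68000) * var 0) * var 1 + (((num (-193440)) * var 0 + num 233560) * var 0 + num 1040) * var 0) * var 1 + (((num (-34720)) * var 0 + num 39760) * var 0 + num (-5040)) * var 0) * var 3 + ((((num (-144000)) * var 0 * var 0) * var 1 + (((num (-3217750)) * var 0 + num 49805) * var 0 + num 72000) * var 0) * var 1 + (((num 790820) * var 0 + num (-326170)) * var 0 + num (-179840)) * var 0) * var 1 + ((num (-4480)) * var 0 + num 4480) * var 0 * var 0)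
  wd := num 25000
  tn := fun b => cond b
    (((num 431145) * var 1) * var 3 + (num 464310) * var 1 + (num 530640) * var 0 + num 1260270)
    (((num 359996) * var 1) * var 3 + (num 387688) * var 1 + (num 443072) * var 0 + num 1052296)
  td := num 5000000
  cn := num 1 - var 0 * var 1 - var 1 * (num 1 - num 2 * (var 0 * var 1))
  cd := (num 1 - num 2 * (var 0 * var 1)) * (num 1 - num 2 * (var 0 * var 1))
  kn := var 0 * var 1 * ((((num 691) * var 1 + num (-158)) * var 3 + (num 1287) * var 1 + (num 593) * var 0 + num (-873)) * var 3 + ((num (-222)) * var 1 + (num 4141) * var 0 + num 1068) * var 1 + (num (-798)) * var 0 + num 814)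
  kd := num 100
  k2n := (((num 272) * var 0) * var 3 + ((num 1548) * var 0) * var 1 + (num (-1077)) * var 0) * var 3 + ((num (-968)) * var 0) * var 1 + ((num (-1300)) * var 0 + num 907) * var 0
  k2d := num 100

/-- Its ranges. -/
def sevBoxG6a : EBox :=
  ⟨(13, 17, 100), (147, 325, 500), (28, 33, 50), (0, 3, 5)⟩

/-- The piece `G6b`. -/
def sevPcG6b : Piece where
  I := var 0 * var 1
  d := var 0
  w := var 0 * var 2
  o := sevBinG6.n₀ + sevBinG6.n₁ * var 3
  den := num 100
  vn := num 2 * (((num 34) * var 1 + (num 62) * var 0 + num (-9)) * var 3 + (num 36) * var 1 + (num 8) * var 0)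
  vs := num 1
  mu := ⟨(164, 100), (279, 100)⟩
  pn := fun b => cond b
    ((((((num 626076) * var 0 + num 340000) * var 0) * var 1 + (((num 1141668) * var 0 + num 767312) * var 0 + num (-233038)) * var 0 + num (-170000)) * var 1 + (((num 570834) * var 0 + num (-343697)) * var 0 + num (-272137)) * var 0 + num 45000) * var 3 + ((((num 662904) * var 0 + num 360000) * var 0) * var 1 + (((num 147312) * var 0 + num 411452) * var 0 + num (-151452)) * var 0 + num (-180000)) * var 1 + (((num 73656) * var 0 + num (-33656)) * var 0 + num (-40000)) * var 0 + num 500000)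
    ((((((num 312256) * var 0 + num 340000) * var 0) * var 1 + (((num 569408) * var 0 + num 693472) * var 0 + num (-76128)) * var 0 + num (-170000)) * var 1 + (((num 284704) * var 0 + num (-16032)) * var 0 + num (-313672)) * var 0 + num 45000) * var 3 + ((((num 330624) * var 0 + num 360000) * var 0) * var 1 + (((num 73472) * var 0 + num 245312) * var 0 + num 14688) * var 0 + num (-180000)) * var 1 + (((num 36736) * var 0 + num 3264) * var 0 + num (-40000)) * var 0 + num 500000)
  pd := num 5000
  en := fun b => cond b
    ((((num (-3238200)) * var 0) * var 1 + num 610632) * var 3 + (((num 18247000) * var 0) * var 1 + ((num (-36134200)) * var 0 + num 110098800) * var 0) * var 1 + (num 125654496) * var 0 + num 15978204)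
    ((((num (-3036600)) * var 0) * var 1 + num 485856) * var 3 + (((num 17111000) * var 0) * var 1 + ((num (-33884600)) * var 0 + num 103244400) * var 0) * var 1 + (num 99978368) * var 0 + num 12713232)
  kk := fun b => cond b
    (((num 1048575) * var 0) * var 3 + ((num 6663525) * var 0) * var 1 + ((num 135604425) * var 0 + num 12616725) * var 0)
    (((num 839356) * var 0) * var 3 + ((num 5333972) * var 0) * var 1 + ((num 108547684) * var 0 + num 10099348) * var 0)
  f0 := num 5000000
  wn := fun b => cond b
    ((((((num (-136000)) * var 0 * var 0) * var 1 + (((num (-248000)) * var 0 + num 330170) * var 0 + num 68000) * var 0) * var 1 + (((num (-193440)) * var 0 + num 232440) * var 0 + num 1040) * var 0) * var 1 + (((num (-34720)) * var 0 + num 39760) * var 0 + num (-5040)) * var 0) * var 3 + ((((num (-144000)) * var 0 * var 0) * var 1 + (((num (-3619500)) * var 0 + num 147380) * var 0 + num 72000) * var 0) * var 1 + (((num 1516720) * var 0 + num (-408168)) * var 0 + num (-179840)) * var 0) * var 1 + ((num (-4480)) * var 0 + num 4480) * var 0 * var 0)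
    ((((((num (-136000)) * var 0 * var 0) * var 1 + (((num (-248000)) * var 0 + num 330170) * var 0 + num 68000) * var 0) * var 1 + (((num (-193440)) * var 0 + num 232440) * var 0 + num 1040) * var 0) * var 1 + (((num (-34720)) * var 0 + num 39760) * var 0 + num (-5040)) * var 0) * var 3 + ((((num (-144000)) * var 0 * var 0) * var 1 + (((num (-3619500)) * var 0 + num 105405) * var 0 + num 72000) * var 0) * var 1 + (((num 1516720) * var 0 + num (-431674)) * var 0 + num (-179840)) * var 0) * var 1 + ((num (-4480)) * var 0 + num 4480) * var 0 * var 0)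
  wd := num 25000
  tn := fun b => cond b
    (((num 495495) * var 1) * var 3 + (num 462462) * var 1 + (num 660660) * var 0 + num 1222221)
    (((num 409080) * var 1) * var 3 + (num 381808) * var 1 + (num 545440) * var 0 + num 1009064)
  td := num 5000000
  cn := num 1 - var 0 * var 1 - var 1 * (num 1 - num 2 * (var 0 * var 1))
  cd := (num 1 - num 2 * (var 0 * var 1)) * (num 1 - num 2 * (var 0 * var 1))
  kn := var 0 * var 1 * ((((num 973) * var 1 + num (-206)) * var 3 + (num 819) * var 1 + (num 1247) * var 0 + num (-903)) * var 3 + ((num 423) * var 1 + (num 10567) * var 0 + num (-193)) * var 1 + (num (-3750)) * var 0 + num 1312)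
  kd := num 100
  k2n := (((num 130) * var 0) * var 3 + ((num 840) * var 0) * var 1 + (num (-706)) * var 0) * var 3 + ((num (-626)) * var 0) * var 1 + ((num (-1061)) * var 0 + num 727) * var 0
  k2d := num 100

/-- Its ranges. -/
def sevBoxG6b : EBox :=
  ⟨(13, 17, 100), (147, 325, 500), (28, 33, 50), (3, 5, 5)⟩

/-- The chart of the bin `G7`. -/
def sevBinG7 : EndChart where
  I := var 0 * var 1
  d := var 0
  w := var 0 * var 2
  den := num 100
  n₀ := (num 1 - num 2 * (var 0 * var 1) - var 0) * ((num 29) * var 1 + (num 9) * var 0)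
  n₁ := (num 1 - num 2 * (var 0 * var 1) - var 0) * ((num 37) * var 1 + (num 35) * var 0 + num (-5))
  q₀ := (13, 17, 100)
  q₁ := (147, 325, 500)
  q₂ := (33, 50, 50)
  q₃ := (0, 1, 1)
  t₀ := (0, 1)
  t₁ := (1, 1)
  mu₀ := (138, 100)
  mu₁ := (288, 100)

/-- The piece `G7a`. -/
def sevPcG7a : Piece where
  I := var 0 * var 1
  d := var 0
  w := var 0 * var 2
  o := sevBinG7.n₀ + sevBinG7.n₁ * var 3
  den := num 100
  vn := num 2 * (((num 37) * var 1 + (num 35) * var 0 + num (-5)) * var 3 + (num 29) * var 1 + (num 9) * var 0)
  vs := num 1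
  mu := ⟨(138, 100), (288, 100)⟩
  pn := fun b => cond b
    ((((((num 532800) * var 0 + num 185000) * var 0) * var 1 + (((num 504000) * var 0 + num 369400) * var 0 + num (-198900)) * var 0 + num (-92500)) * var 1 + (((num 252000) * var 0 + num (-200500)) * var 0 + num (-64000)) * var 0 + num 12500) * var 3 + ((((num 417600) * var 0 + num 145000) * var 0) * var 1 + (((num 129600) * var 0 + num 253800) * var 0 + num (-136300)) * var 0 + num (-72500)) * var 1 + (((num 64800) * var 0 + num (-42300)) * var 0 + num (-22500)) * var 0 + num 250000)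
    ((((((num 168498) * var 0 + num 185000) * var 0) * var 1 + (((num 159390) * var 0 + num 236479) * var 0 + num (-16749)) * var 0 + num (-92500)) * var 1 + (((num 79695) * var 0 + num (-3580)) * var 0 + num (-88615)) * var 0 + num 12500) * var 3 + ((((num 132066) * var 0 + num 145000) * var 0) * var 1 + (((num 40986) * var 0 + num 111033) * var 0 + num 6467) * var 0 + num (-72500)) * var 1 + (((num 20493) * var 0 + num 2007) * var 0 + num (-22500)) * var 0 + num 250000)
  pd := num 2500
  en := fun b => cond b
    ((((num (-2169300)) * var 0) * var 1 + num 1084650) * var 3 + (((num 110531000) * var 0) * var 1 + ((num (-132895450)) * var 0 + num 53251150) * var 0) * var 1 + (num 214192550) * var 0 + num 23913950)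
    ((((num (-1997100)) * var 0) * var 1 + num 659043) * var 3 + (((num 101757000) * var 0) * var 1 + ((num (-122346150)) * var 0 + num 49024050) * var 0) * var 1 + (num 130145301) * var 0 + num 14530329)
  kk := fun b => cond b
    (((num 1646400) * var 0) * var 3 + ((num 8283450) * var 0) * var 1 + ((num 196847700) * var 0 + num 20940150) * var 0)
    (((num 1020096) * var 0) * var 3 + ((num 5132358) * var 0) * var 1 + ((num 121965228) * var 0 + num 12974346) * var 0)
  f0 := num 5000000
  wn := fun b => cond b
    ((((((num (-29600)) * var 0 * var 0) * var 1 + (((num (-28000)) * var 0 + num 70282) * var 0 + num 14800) * var 0) * var 1 + (((num (-23240)) * var 0 + num 47779) * var 0 + num 2884) * var 0) * var 1 + (((num (-4620)) * var 0 + num 5280) * var 0 + num (-660)) * var 0) * var 3 + ((((num (-23200)) * var 0 * var 0) * var 1 + (((num (-587050)) * var 0 + num (-4356)) * var 0 + num 11600) * var 0) * var 1 + (((num 114870) * var 0 + num (-53560)) * var 0 + num (-36172)) * var 0) * var 1 + ((num (-1188)) * var 0 + num 1188) * var 0 * var 0)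
    ((((((num (-29600)) * var 0 * var 0) * var 1 + (((num (-28000)) * var 0 + num 70282) * var 0 + num 14800) * var 0) * var 1 + (((num (-23240)) * var 0 + num 47779) * var 0 + num 2884) * var 0) * var 1 + (((num (-4620)) * var 0 + num 5280) * var 0 + num (-660)) * var 0) * var 3 + ((((num (-23200)) * var 0 * var 0) * var 1 + (((num (-587050)) * var 0 + num (-27056)) * var 0 + num 11600) * var 0) * var 1 + (((num 114870) * var 0 + num (-68542)) * var 0 + num (-36172)) * var 0) * var 1 + ((num (-1188)) * var 0 + num 1188) * var 0 * var 0)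
  wd := num 5000
  tn := fun b => cond b
    (((num 543400) * var 1) * var 3 + (num 543400) * var 1 + (num 988000) * var 0 + num 1679600)
    (((num 374979) * var 1) * var 3 + (num 374979) * var 1 + (num 681780) * var 0 + num 1159026)
  td := num 5000000
  cn := num 1 - var 0 * var 1 - var 1 * (num 1 - num 2 * (var 0 * var 1))
  cd := (num 1 - num 2 * (var 0 * var 1)) * (num 1 - num 2 * (var 0 * var 1))
  kn := var 0 * var 1 * ((((num 1229) * var 1 + num (-266)) * var 3 + (num 1473) * var 1 + (num 1611) * var 0 + num (-1019)) * var 3 + ((num (-461)) * var 1 + (num 3345) * var 0 + num 1246) * var 1 + (num (-649)) * var 0 + num 910)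
  kd := num 100
  k2n := (((num 314) * var 0) * var 3 + ((num 1654) * var 0) * var 1 + (num (-1308)) * var 0) * var 3 + ((num (-1154)) * var 0) * var 1 + ((num (-476)) * var 0 + num 991) * var 0
  k2d := num 100

/-- Its ranges. -/
def sevBoxG7a : EBox :=
  ⟨(13, 17, 100), (147, 325, 500), (33, 50, 50), (0, 1, 1)⟩

end Vale.Agent.P100.Calib.StripEndD
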