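import Vale.Agent.P100.Calib.SlabStripEndDExpr
import Vale.Agent.P100.Calib.SlabStripEndCert
import Vale.Agent.P100.Calib.SlabStripEndChart

/-!
# The bins `H` of the `D` region for `N` between seven and twenty

`x = (d, I / d, (1 - u) / d, t)`, with `v` affine in `t`.
-/

namespace Vale.Agent.P100.Calib.StripEndD

open Pack hiding ev_add ev_mul
open Pack.Ex StripMid StripEnd

local instance endSevDataHAdd : Add Ex := ⟨Ex.add⟩
local instance endSevDataHSub : Sub Ex := ⟨Ex.sub⟩
local instance endSevDataHMul : Mul Ex := ⟨Ex.mul⟩

/-- The chart of the bin `H0`. -/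
def sevBinH0 : EndChart where
  I := var 0 * var 1
  d := var 0
  w := var 0 * var 2
  den := num 100
  n₀ := (num 1 - num 2 * (var 0 * var 1) - var 0) * ((num 76) * var 1 + num 3)
  n₁ := (num 1 - num 2 * (var 0 * var 1) - var 0) * ((num 62) * var 1 + num (-9))
  q₀ := (17, 20, 100)
  q₁ := (5, 9, 20)
  q₂ := (0, 1, 100)
  q₃ := (0, 1, 1)
  t₀ := (0, 1)
  t₁ := (1, 1)
  mu₀ := (220, 100)
  mu₁ := (290, 100)

/-- The piece `H0a`. -/
def sevPcH0a : Piece where
  I := var 0 * var 1
  d := var 0
  w := var 0 * var 2
  o := sevBinH0.n₀ + sevBinH0.n₁ * var 3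
  den := num 100
  vn := num 2 * (((num 62) * var 1 + num (-9)) * var 3 + (num 76) * var 1 + num 3)
  vs := num 1
  mu := ⟨(220, 100), (290, 100)⟩
  pn := fun b => cond b
    ((((((num 3596) * var 0 + num 124000) * var 0) * var 1 + ((num 1276) * var 0 + num 42202) * var 0 + num (-62000)) * var 1 + ((num (-261)) * var 0 + num (-8739)) * var 0 + num 9000) * var 3 + ((((num 4408) * var 0 + num 152000) * var 0) * var 1 + ((num 2378) * var 0 + num 79796) * var 0 + num (-76000)) * var 1 + ((num 87) * var 0 + num 2913) * var 0 + num 97000)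
    (((((num 124000) * var 0) * var 1 + (num 44000) * var 0 + num (-62000)) * var 1 + (num (-9000)) * var 0 + num 9000) * var 3 + (((num 152000) * var 0) * var 1 + (num 82000) * var 0 + num (-76000)) * var 1 + (num 3000) * var 0 + num 97000)
  pd := num 1000
  en := fun b => cond b
    ((((num (-16099200)) * var 0) * var 1 + num 201240) * var 3 + (((num (-76780800)) * var 0) * var 1 + ((num 71827200) * var 0 + num 149330400) * var 0) * var 1 + (num 1673904) * var 0 + num 892680)
    ((((num (-15069600)) * var 0) * var 1) * var 3 + (((num (-71870400)) * var 0) * var 1 + ((num 67233600) * var 0 + num 139780200) * var 0) * var 1)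
  kk := fun b => cond b
    (((num 37925) * var 0) * var 3 + ((num 544275) * var 0) * var 1 + ((num 3408125) * var 0 + num 431525) * var 0)
    (num 0)
  f0 := num 10000000
  wn := fun b => cond b
    ((((((num (-9920)) * var 0 * var 0) * var 1 + ((num 3820) * var 0 + num 4960) * var 0) * var 1 + ((num 720) * var 0 + num (-720)) * var 0) * var 1) * var 3 + ((((num (-12160)) * var 0 * var 0) * var 1 + (((num (-50010)) * var 0 + num 1848) * var 0 + num 6080) * var 0) * var 1 + ((num (-8240)) * var 0 + num (-7760)) * var 0) * var 1)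
    ((((((num (-9920)) * var 0 * var 0) * var 1 + ((num 3820) * var 0 + num 4960) * var 0) * var 1 + ((num 720) * var 0 + num (-720)) * var 0) * var 1) * var 3 + ((((num (-12160)) * var 0 * var 0) * var 1 + (((num (-50010)) * var 0 + num (-697)) * var 0 + num 6080) * var 0) * var 1 + ((num (-8240)) * var 0 + num (-7760)) * var 0) * var 1)
  wd := num 1000
  tn := fun b => cond b
    (((num 64953) * var 1 + num (-11341)) * var 3 + (num 47426) * var 1 + (num (-44333)) * var 0 + num 61860)
    (num 0)
  td := num 10000000
  cn := num 1 - var 0 * var 1 - var 1 * (num 1 - num 2 * (var 0 * var 1))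
  cd := (num 1 - num 2 * (var 0 * var 1)) * (num 1 - num 2 * (var 0 * var 1))
  kn := var 0 * var 1 * (((num 1908) * var 3 + (num 5589) * var 1 + num (-3112)) * var 3 + (num 991) * var 1 + (num (-2165)) * var 0 + num 1092)
  kd := num 100
  k2n := (((num 858) * var 0) * var 3 + ((num 3033) * var 0) * var 1 + (num (-1802)) * var 0) * var 3 + ((num (-1449)) * var 0) * var 1 + (num 913) * var 0
  k2d := num 100

/-- Its ranges. -/
def sevBoxH0a : EBox :=
  ⟨(17, 20, 100), (5, 9, 20), (0, 1, 100), (0, 1, 1)⟩

/-- The chart of the bin `H1`. -/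
def sevBinH1 : EndChart where
  I := var 0 * var 1
  d := var 0
  w := var 0 * var 2
  den := num 100
  n₀ := (num 1 - num 2 * (var 0 * var 1) - var 0) * ((num 68) * var 1 + num 2)
  n₁ := (num 1 - num 2 * (var 0 * var 1) - var 0) * ((num 60) * var 1 + num (-5))
  q₀ := (17, 20, 100)
  q₁ := (5, 9, 20)
  q₂ := (2, 15, 200)
  q₃ := (0, 1, 1)
  t₀ := (0, 1)
  t₁ := (1, 1)
  mu₀ := (209, 100)
  mu₁ := (289, 100)

/-- The piece `H1a`. -/
def sevPcH1a : Piece where
  I := var 0 * var 1
  d := var 0
  w := var 0 * var 2
  o := sevBinH1.n₀ + sevBinH1.n₁ * var 3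
  den := num 100
  vn := num 2 * (((num 60) * var 1 + num (-5)) * var 3 + (num 68) * var 1 + num 2)
  vs := num 1
  mu := ⟨(209, 100), (289, 100)⟩
  pn := fun b => cond b
    ((((((num 520200) * var 0 + num 2400000) * var 0) * var 1 + ((num 216750) * var 0 + num 739900) * var 0 + num (-1200000)) * var 1 + ((num (-21675)) * var 0 + num (-78325)) * var 0 + num 100000) * var 3 + ((((num 589560) * var 0 + num 2720000) * var 0) * var 1 + ((num 312120) * var 0 + num 1145220) * var 0 + num (-1360000)) * var 1 + ((num 8670) * var 0 + num 31330) * var 0 + num 1960000)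
    ((((((num 50160) * var 0 + num 2400000) * var 0) * var 1 + ((num 20900) * var 0 + num 974920) * var 0 + num (-1200000)) * var 1 + ((num (-2090)) * var 0 + num (-97910)) * var 0 + num 100000) * var 3 + ((((num 56848) * var 0 + num 2720000) * var 0) * var 1 + ((num 30096) * var 0 + num 1411576) * var 0 + num (-1360000)) * var 1 + ((num 836) * var 0 + num 39164) * var 0 + num 1960000)
  pd := num 20000
  en := fun b => cond b
    ((((num (-39886400)) * var 0) * var 1 + num 1125660) * var 3 + (((num (-71960000)) * var 0) * var 1 + ((num 90258400) * var 0 + num 287840000) * var 0) * var 1 + (num 54756420) * var 0 + num 8820240)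
    ((((num (-36898800)) * var 0) * var 1 + num 138846) * var 3 + (((num (-66570000)) * var 0) * var 1 + ((num 83497800) * var 0 + num 266280000) * var 0) * var 1 + (num 6754002) * var 0 + num 1087944)
  kk := fun b => cond b
    (((num 707250) * var 0) * var 3 + ((num 7641375) * var 0) * var 1 + ((num 50368500) * var 0 + num 6580500) * var 0)
    (((num 89516) * var 0) * var 3 + ((num 967162) * var 0) * var 1 + ((num 6375096) * var 0 + num 832888) * var 0)
  f0 := num 20000000
  wn := fun b => cond b
    ((((((num (-960000)) * var 0 * var 0) * var 1 + ((num 562200) * var 0 + num 480000) * var 0) * var 1 + ((num 48280) * var 0 + num (-37600)) * var 0) * var 1 + ((num 200) * var 0 + num (-200)) * var 0) * var 3 + ((((num (-1088000)) * var 0 * var 0) * var 1 + (((num (-5259000)) * var 0 + num 4160) * var 0 + num 544000) * var 0) * var 1 + (((num 14290) * var 0 + num (-807304)) * var 0 + num (-781280)) * var 0) * var 1 + ((num (-80)) * var 0 + num 80) * var 0)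
    ((((((num (-960000)) * var 0 * var 0) * var 1 + ((num 562200) * var 0 + num 480000) * var 0) * var 1 + ((num 48280) * var 0 + num (-37600)) * var 0) * var 1 + ((num 200) * var 0 + num (-200)) * var 0) * var 3 + ((((num (-1088000)) * var 0 * var 0) * var 1 + (((num (-5259000)) * var 0 + num (-181340)) * var 0 + num 544000) * var 0) * var 1 + (((num 14290) * var 0 + num (-809159)) * var 0 + num (-781280)) * var 0) * var 1 + ((num (-80)) * var 0 + num 80) * var 0)
  wd := num 100000
  tn := fun b => cond b
    (((num 855960) * var 1 + num (-106995)) * var 3 + (num 565545) * var 1 + (num (-504405)) * var 0 + num 871245)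
    (((num 109984) * var 1 + num (-13748)) * var 3 + (num 72668) * var 1 + (num (-64812)) * var 0 + num 111948)
  td := num 20000000
  cn := num 1 - var 0 * var 1 - var 1 * (num 1 - num 2 * (var 0 * var 1))
  cd := (num 1 - num 2 * (var 0 * var 1)) * (num 1 - num 2 * (var 0 * var 1))
  kn := var 0 * var 1 * (((num 266) * var 3 + (num 3553) * var 1 + num (-1539)) * var 3 + (num 1451) * var 1 + (num (-2693)) * var 0 + num 1852)
  kd := num 100
  k2n := (((num 786) * var 0) * var 3 + ((num 4546) * var 0) * var 1 + (num (-2592)) * var 0) * var 3 + ((num (-3587)) * var 0) * var 1 + (num 1916) * var 0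
  k2d := num 100

/-- Its ranges. -/
def sevBoxH1a : EBox :=
  ⟨(17, 20, 100), (5, 9, 20), (2, 15, 200), (0, 1, 1)⟩

/-- The chart of the bin `H2`. -/
def sevBinH2 : EndChart where
  I := var 0 * var 1
  d := var 0
  w := var 0 * var 2
  den := num 100
  n₀ := (num 1 - num 2 * (var 0 * var 1) - var 0) * ((num 58) * var 1 + num 1)
  n₁ := (num 1 - num 2 * (var 0 * var 1) - var 0) * ((num 58) * var 1 + num (-3))
  q₀ := (17, 20, 100)
  q₁ := (5, 9, 20)
  q₂ := (15, 44, 200)
  q₃ := (0, 1, 1)
  t₀ := (0, 1)
  t₁ := (1, 1)
  mu₀ := (191, 100)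
  mu₁ := (285, 100)

/-- The piece `H2a`. -/
def sevPcH2a : Piece where
  I := var 0 * var 1
  d := var 0
  w := var 0 * var 2
  o := sevBinH2.n₀ + sevBinH2.n₁ * var 3
  den := num 100
  vn := num 2 * (((num 58) * var 1 + num (-3)) * var 3 + (num 58) * var 1 + num 1)
  vs := num 1
  mu := ⟨(191, 100), (285, 100)⟩
  pn := fun b => cond b
    ((((((num 290928) * var 0 + num 464000) * var 0) * var 1 + ((num 130416) * var 0 + num 62536) * var 0 + num (-232000)) * var 1 + ((num (-7524)) * var 0 + num (-4476)) * var 0 + num 12000) * var 3 + ((((num 290928) * var 0 + num 464000) * var 0) * var 1 + ((num 150480) * var 0 + num 94536) * var 0 + num (-232000)) * var 1 + ((num 2508) * var 0 + num 1492) * var 0 + num 396000)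
    ((((((num 66468) * var 0 + num 464000) * var 0) * var 1 + ((num 29796) * var 0 + num 174766) * var 0 + num (-232000)) * var 1 + ((num (-1719)) * var 0 + num (-10281)) * var 0 + num 12000) * var 3 + ((((num 66468) * var 0 + num 464000) * var 0) * var 1 + ((num 34380) * var 0 + num 206766) * var 0 + num (-232000)) * var 1 + ((num 573) * var 0 + num 3427) * var 0 + num 396000)
  pd := num 4000
  en := fun b => cond b
    ((((num (-43579800)) * var 0) * var 1 + num 2700720) * var 3 + (((num 121327800) * var 0) * var 1 + ((num (-71200800)) * var 0 + num 258819000) * var 0) * var 1 + (num 166229316) * var 0 + num 24216456)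
    ((((num (-40512600)) * var 0) * var 1 + num 855900) * var 3 + (((num 112788600) * var 0) * var 1 + ((num (-66189600)) * var 0 + num 240603000) * var 0) * var 1 + (num 52680645) * var 0 + num 7674570)
  kk := fun b => cond b
    (((num 2123836) * var 0) * var 3 + ((num 20424976) * var 0) * var 1 + ((num 144059344) * var 0 + num 19927908) * var 0)
    (((num 687375) * var 0) * var 3 + ((num 6610500) * var 0) * var 1 + ((num 46624500) * var 0 + num 6449625) * var 0)
  f0 := num 20000000
  wn := fun b => cond b
    ((((((num (-371200)) * var 0 * var 0) * var 1 + ((num 282880) * var 0 + num 185600) * var 0) * var 1 + ((num 41460) * var 0 + num (-2640)) * var 0) * var 1 + ((num 360) * var 0 + num (-360)) * var 0) * var 3 + ((((num (-371200)) * var 0 * var 0) * var 1 + (((num (-2298000)) * var 0 + num (-102360)) * var 0 + num 185600) * var 0) * var 1 + (((num 720) * var 0 + num (-306973)) * var 0 + num (-309840)) * var 0) * var 1 + ((num (-120)) * var 0 + num 120) * var 0)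
    ((((((num (-371200)) * var 0 * var 0) * var 1 + ((num 282880) * var 0 + num 185600) * var 0) * var 1 + ((num 41460) * var 0 + num (-2640)) * var 0) * var 1 + ((num 360) * var 0 + num (-360)) * var 0) * var 3 + ((((num (-371200)) * var 0 * var 0) * var 1 + (((num (-2298000)) * var 0 + num (-160800)) * var 0 + num 185600) * var 0) * var 1 + (((num 720) * var 0 + num (-311356)) * var 0 + num (-309840)) * var 0) * var 1 + ((num (-120)) * var 0 + num 120) * var 0)
  wd := num 40000
  tn := fun b => cond b
    (((num 467082) * var 1 + num (-44484)) * var 3 + (num 311388) * var 1 + (num (-200178)) * var 0 + num 567171)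
    (((num 159390) * var 1 + num (-15180)) * var 3 + (num 106260) * var 1 + (num (-68310)) * var 0 + num 193545)
  td := num 5000000
  cn := num 1 - var 0 * var 1 - var 1 * (num 1 - num 2 * (var 0 * var 1))
  cd := (num 1 - num 2 * (var 0 * var 1)) * (num 1 - num 2 * (var 0 * var 1))
  kn := var 0 * var 1 * (((num 1025) * var 3 + (num 7348) * var 1 + num (-2492)) * var 3 + (num 1762) * var 1 + (num (-1197)) * var 0 + num 1597)
  kd := num 100
  k2n := (((num 554) * var 0) * var 3 + ((num 3404) * var 0) * var 1 + (num (-2174)) * var 0) * var 3 + ((num (-2829)) * var 0) * var 1 + (num 1621) * var 0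
  k2d := num 100

/-- Its ranges. -/
def sevBoxH2a : EBox :=
  ⟨(17, 20, 100), (5, 9, 20), (15, 44, 200), (0, 1, 1)⟩

/-- The chart of the bin `H3`. -/
def sevBinH3 : EndChart where
  I := var 0 * var 1
  d := var 0
  w := var 0 * var 2
  den := num 100
  n₀ := (num 1 - num 2 * (var 0 * var 1) - var 0) * ((num 46) * var 1 + num 2)
  n₁ := (num 1 - num 2 * (var 0 * var 1) - var 0) * ((num 52) * var 1 + num (-3))
  q₀ := (17, 20, 100)
  q₁ := (5, 9, 20)
  q₂ := (11, 20, 50)
  q₃ := (0, 1, 1)
  t₀ := (0, 1)
  t₁ := (1, 1)
  mu₀ := (180, 100)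
  mu₁ := (278, 100)

/-- The piece `H3a`. -/
def sevPcH3a : Piece where
  I := var 0 * var 1
  d := var 0
  w := var 0 * var 2
  o := sevBinH3.n₀ + sevBinH3.n₁ * var 3
  den := num 100
  vn := num 2 * (((num 52) * var 1 + num (-3)) * var 3 + (num 46) * var 1 + num 2)
  vs := num 1
  mu := ⟨(180, 100), (278, 100)⟩
  pn := fun b => cond b
    ((((((num 28912) * var 0 + num 26000) * var 0) * var 1 + ((num 12788) * var 0 + num (-2956)) * var 0 + num (-13000)) * var 1 + ((num (-834)) * var 0 + num 84) * var 0 + num 750) * var 3 + ((((num 25576) * var 0 + num 23000) * var 0) * var 1 + ((num 13900) * var 0 + num (-288)) * var 0 + num (-11500)) * var 1 + ((num 556) * var 0 + num (-56)) * var 0 + num 24500)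
    ((((((num 10296) * var 0 + num 26000) * var 0) * var 1 + ((num 4554) * var 0 + num 6352) * var 0 + num (-13000)) * var 1 + ((num (-297)) * var 0 + num (-453)) * var 0 + num 750) * var 3 + ((((num 9108) * var 0 + num 23000) * var 0) * var 1 + ((num 4950) * var 0 + num 7946) * var 0 + num (-11500)) * var 1 + ((num 198) * var 0 + num 302) * var 0 + num 24500)
  pd := num 250
  en := fun b => cond b
    ((((num (-8073800)) * var 0) * var 1 + num 817600) * var 3 + (((num 97703200) * var 0) * var 1 + ((num (-74452700)) * var 0 + num 52939600) * var 0) * var 1 + (num 73767960) * var 0 + num 11119360)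
    ((((num (-7591900)) * var 0) * var 1 + num 422840) * var 3 + (((num 91871600) * var 0) * var 1 + ((num (-70008850)) * var 0 + num 49779800) * var 0) * var 1 + (num 38150739) * var 0 + num 5750624)
  kk := fun b => cond b
    (((num 797940) * var 0) * var 3 + ((num 8143080) * var 0) * var 1 + ((num 63507840) * var 0 + num 9472980) * var 0)
    (((num 419562) * var 0) * var 3 + ((num 4281684) * var 0) * var 1 + ((num 33392832) * var 0 + num 4980954) * var 0)
  f0 := num 5000000
  wn := fun b => cond b
    ((((((num (-416000)) * var 0 * var 0) * var 1 + ((num 460240) * var 0 + num 208000) * var 0) * var 1 + ((num 94830) * var 0 + num 10880) * var 0) * var 1 + ((num 1320) * var 0 + num (-1320)) * var 0) * var 3 + ((((num (-368000)) * var 0 * var 0) * var 1 + (((num (-3180000)) * var 0 + num (-211280)) * var 0 + num 184000) * var 0) * var 1 + (((num (-74910)) * var 0 + num (-351086)) * var 0 + num (-371760)) * var 0) * var 1 + ((num (-880)) * var 0 + num 880) * var 0)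
    ((((((num (-416000)) * var 0 * var 0) * var 1 + ((num 460240) * var 0 + num 208000) * var 0) * var 1 + ((num 94830) * var 0 + num 10880) * var 0) * var 1 + ((num 1320) * var 0 + num (-1320)) * var 0) * var 3 + ((((num (-368000)) * var 0 * var 0) * var 1 + (((num (-3180000)) * var 0 + num (-330630)) * var 0 + num 184000) * var 0) * var 1 + (((num (-74910)) * var 0 + num (-377343)) * var 0 + num (-371760)) * var 0) * var 1 + ((num (-880)) * var 0 + num 880) * var 0)
  wd := num 50000
  tn := fun b => cond b
    (((num 135405) * var 1 + num (-10030)) * var 3 + (num 100300) * var 1 + (num (-30090)) * var 0 + num 230690)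
    (((num 76032) * var 1 + num (-5632)) * var 3 + (num 56320) * var 1 + (num (-16896)) * var 0 + num 129536)
  td := num 1250000
  cn := num 1 - var 0 * var 1 - var 1 * (num 1 - num 2 * (var 0 * var 1))
  cd := (num 1 - num 2 * (var 0 * var 1)) * (num 1 - num 2 * (var 0 * var 1))
  kn := var 0 * var 1 * (((num 464) * var 3 + (num 4749) * var 1 + num (-1730)) * var 3 + (num 1836) * var 1 + (num 620) * var 0 + num 876)
  kd := num 100
  k2n := (((num 353) * var 0) * var 3 + ((num 1809) * var 0) * var 1 + (num (-1311)) * var 0) * var 3 + ((num (-1530)) * var 0) * var 1 + (num 952) * var 0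
  k2d := num 100

/-- Its ranges. -/
def sevBoxH3a : EBox :=
  ⟨(17, 20, 100), (5, 9, 20), (11, 20, 50), (0, 1, 1)⟩

/-- The chart of the bin `H4`. -/
def sevBinH4 : EndChart where
  I := var 0 * var 1
  d := var 0
  w := var 0 * var 2
  den := num 100
  n₀ := (num 1 - num 2 * (var 0 * var 1) - var 0) * ((num 42) * var 1 + num 2)
  n₁ := (num 1 - num 2 * (var 0 * var 1) - var 0) * ((num 42) * var 1 + num (-2))
  q₀ := (17, 20, 100)
  q₁ := (5, 9, 20)
  q₂ := (10, 12, 25)
  q₃ := (0, 1, 1)
  t₀ := (0, 1)
  t₁ := (1, 1)
  mu₀ := (174, 100)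
  mu₁ := (273, 100)

/-- The piece `H4a`. -/
def sevPcH4a : Piece where
  I := var 0 * var 1
  d := var 0
  w := var 0 * var 2
  o := sevBinH4.n₀ + sevBinH4.n₁ * var 3
  den := num 100
  vn := num 2 * (((num 42) * var 1 + num (-2)) * var 3 + (num 42) * var 1 + num 2)
  vs := num 1
  mu := ⟨(174, 100), (273, 100)⟩
  pn := fun b => cond b
    ((((((num 68796) * var 0 + num 52500) * var 0) * var 1 + ((num 31122) * var 0 + num (-10648)) * var 0 + num (-26250)) * var 1 + ((num (-1638)) * var 0 + num 388) * var 0 + num 1250) * var 3 + ((((num 68796) * var 0 + num 52500) * var 0) * var 1 + ((num 37674) * var 0 + num (-5648)) * var 0 + num (-26250)) * var 1 + ((num 1638) * var 0 + num (-388)) * var 0 + num 61250)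
    ((((((num 36540) * var 0 + num 52500) * var 0) * var 1 + ((num 16530) * var 0 + num 5480) * var 0 + num (-26250)) * var 1 + ((num (-870)) * var 0 + num (-380)) * var 0 + num 1250) * var 3 + ((((num 36540) * var 0 + num 52500) * var 0) * var 1 + ((num 20010) * var 0 + num 10480) * var 0 + num (-26250)) * var 1 + ((num 870) * var 0 + num 380) * var 0 + num 61250)
  pd := num 625
  en := fun b => cond b
    ((((num (-1374300)) * var 0) * var 1 + num 256536) * var 3 + (((num 55251950) * var 0) * var 1 + ((num (-38556750)) * var 0 + num 30005550) * var 0) * var 1 + (num 39262224) * var 0 + num 7097496)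
    ((((num (-1316250)) * var 0) * var 1 + num 204750) * var 3 + (((num 52918125) * var 0) * var 1 + ((num (-36928125)) * var 0 + num 28738125) * var 0) * var 1 + (num 31336500) * var 0 + num 5664750)
  kk := fun b => cond b
    (((num 390528) * var 0) * var 3 + ((num 4234788) * var 0) * var 1 + ((num 36953712) * var 0 + num 5955552) * var 0)
    (((num 313920) * var 0) * var 3 + ((num 3404070) * var 0) * var 1 + ((num 29704680) * var 0 + num 4787280) * var 0)
  f0 := num 2500000
  wn := fun b => cond b
    ((((((num (-33600)) * var 0 * var 0) * var 1 + ((num 71180) * var 0 + num 16800) * var 0) * var 1 + ((num 6520) * var 0 + num 2560) * var 0) * var 1 + ((num 160) * var 0 + num (-160)) * var 0) * var 3 + ((((num (-33600)) * var 0 * var 0) * var 1 + (((num (-409800)) * var 0 + num (-9965)) * var 0 + num 16800) * var 0) * var 1 + (((num (-1680)) * var 0 + num (-34738)) * var 0 + num (-35840)) * var 0) * var 1 + ((num (-160)) * var 0 + num 160) * var 0)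
    ((((((num (-33600)) * var 0 * var 0) * var 1 + ((num 71180) * var 0 + num 16800) * var 0) * var 1 + ((num 6520) * var 0 + num 2560) * var 0) * var 1 + ((num 160) * var 0 + num (-160)) * var 0) * var 3 + ((((num (-33600)) * var 0 * var 0) * var 1 + (((num (-409800)) * var 0 + num (-16485)) * var 0 + num 16800) * var 0) * var 1 + (((num (-1680)) * var 0 + num (-37346)) * var 0 + num (-35840)) * var 0) * var 1 + ((num (-160)) * var 0 + num 160) * var 0)
  wd := num 5000
  tn := fun b => cond b
    (((num 51306) * var 1 + num (-3018)) * var 3 + (num 54324) * var 1 + (num 3018) * var 0 + num 129774)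
    (((num 42245) * var 1 + num (-2485)) * var 3 + (num 44730) * var 1 + (num 2485) * var 0 + num 106855)
  td := num 625000
  cn := num 1 - var 0 * var 1 - var 1 * (num 1 - num 2 * (var 0 * var 1))
  cd := (num 1 - num 2 * (var 0 * var 1)) * (num 1 - num 2 * (var 0 * var 1))
  kn := var 0 * var 1 * (((num 82) * var 3 + (num 1874) * var 1 + num (-917)) * var 3 + (num 1894) * var 1 + (num 1288) * var 0 + num 405)
  kd := num 100
  k2n := (((num 245) * var 0) * var 3 + ((num 790) * var 0) * var 1 + (num (-754)) * var 0) * var 3 + ((num (-1057)) * var 0) * var 1 + (num 658) * var 0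
  k2d := num 100

/-- Its ranges. -/
def sevBoxH4a : EBox :=
  ⟨(17, 20, 100), (5, 9, 20), (10, 12, 25), (0, 3, 5)⟩

/-- The piece `H4b`. -/
def sevPcH4b : Piece where
  I := var 0 * var 1
  d := var 0
  w := var 0 * var 2
  o := sevBinH4.n₀ + sevBinH4.n₁ * var 3
  den := num 100
  vn := num 2 * (((num 42) * var 1 + num (-2)) * var 3 + (num 42) * var 1 + num 2)
  vs := num 1
  mu := ⟨(174, 100), (273, 100)⟩
  pn := fun b => cond b
    ((((((num 68796) * var 0 + num 52500) * var 0) * var 1 + ((num 31122) * var 0 + num (-10648)) * var 0 + num (-26250)) * var 1 + ((num (-1638)) * var 0 + num 388) * var 0 + num 1250) * var 3 + ((((num 68796) * var 0 + num 52500) * var 0) * var 1 + ((num 37674) * var 0 + num (-5648)) * var 0 + num (-26250)) * var 1 + ((num 1638) * var 0 + num (-388)) * var 0 + num 61250)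
    ((((((num 36540) * var 0 + num 52500) * var 0) * var 1 + ((num 16530) * var 0 + num 5480) * var 0 + num (-26250)) * var 1 + ((num (-870)) * var 0 + num (-380)) * var 0 + num 1250) * var 3 + ((((num 36540) * var 0 + num 52500) * var 0) * var 1 + ((num 20010) * var 0 + num 10480) * var 0 + num (-26250)) * var 1 + ((num 870) * var 0 + num 380) * var 0 + num 61250)
  pd := num 625
  en := fun b => cond b
    ((((num (-1262250)) * var 0) * var 1 + num 165240) * var 3 + (((num 29592750) * var 0) * var 1 + ((num (-16549500)) * var 0 + num 13935750) * var 0) * var 1 + (num 20061360) * var 0 + num 3482280)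
    ((((num (-1202850)) * var 0) * var 1 + num 131220) * var 3 + (((num 28200150) * var 0) * var 1 + ((num (-15770700)) * var 0 + num 13279950) * var 0) * var 1 + (num 15931080) * var 0 + num 2765340)
  kk := fun b => cond b
    (((num 183420) * var 0) * var 3 + ((num 2433372) * var 0) * var 1 + ((num 18873918) * var 0 + num 2818554) * var 0)
    (((num 146550) * var 0) * var 3 + ((num 1944230) * var 0) * var 1 + ((num 15079995) * var 0 + num 2251985) * var 0)
  f0 := num 1250000
  wn := fun b => cond b
    ((((((num (-33600)) * var 0 * var 0) * var 1 + ((num 65430) * var 0 + num 16800) * var 0) * var 1 + ((num 6420) * var 0 + num 2560) * var 0) * var 1 + ((num 160) * var 0 + num (-160)) * var 0) * var 3 + ((((num (-33600)) * var 0 * var 0) * var 1 + (((num (-394550)) * var 0 + num (-15635)) * var 0 + num 16800) * var 0) * var 1 + (((num (-2940)) * var 0 + num (-34766)) * var 0 + num (-35840)) * var 0) * var 1 + ((num (-160)) * var 0 + num 160) * var 0)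
    ((((((num (-33600)) * var 0 * var 0) * var 1 + ((num 65430) * var 0 + num 16800) * var 0) * var 1 + ((num 6420) * var 0 + num 2560) * var 0) * var 1 + ((num 160) * var 0 + num (-160)) * var 0) * var 3 + ((((num (-33600)) * var 0 * var 0) * var 1 + (((num (-394550)) * var 0 + num (-20755)) * var 0 + num 16800) * var 0) * var 1 + (((num (-2940)) * var 0 + num (-36814)) * var 0 + num (-35840)) * var 0) * var 1 + ((num (-160)) * var 0 + num 160) * var 0)
  wd := num 5000
  tn := fun b => cond b
    (((num 110268) * var 1 + num (-6126)) * var 3 + (num 104142) * var 1 + (num (-36756)) * var 0 + num 269544)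
    (((num 90270) * var 1 + num (-5015)) * var 3 + (num 85255) * var 1 + (num (-30090)) * var 0 + num 220660)
  td := num 1250000
  cn := num 1 - var 0 * var 1 - var 1 * (num 1 - num 2 * (var 0 * var 1))
  cd := (num 1 - num 2 * (var 0 * var 1)) * (num 1 - num 2 * (var 0 * var 1))
  kn := var 0 * var 1 * (((num 178) * var 3 + (num 2565) * var 1 + num (-1300)) * var 3 + (num 1503) * var 1 + (num 1651) * var 0 + num 530)
  kd := num 100
  k2n := (((num 109) * var 0) * var 3 + ((num 1570) * var 0) * var 1 + (num (-792)) * var 0) * var 3 + ((num (-1553)) * var 0) * var 1 + (num 735) * var 0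
  k2d := num 100

/-- Its ranges. -/
def sevBoxH4b : EBox :=
  ⟨(17, 20, 100), (5, 9, 20), (10, 12, 25), (3, 5, 5)⟩

/-- The chart of the bin `H5`. -/
def sevBinH5 : EndChart where
  I := var 0 * var 1
  d := var 0
  w := var 0 * var 2
  den := num 100
  n₀ := (num 1 - num 2 * (var 0 * var 1) - var 0) * ((num 42) * var 1 + num 1)
  n₁ := (num 1 - num 2 * (var 0 * var 1) - var 0) * ((num 38) * var 1 + num (-1))
  q₀ := (17, 20, 100)
  q₁ := (5, 9, 20)
  q₂ := (12, 14, 25)
  q₃ := (0, 1, 1)
  t₀ := (0, 1)
  t₁ := (1, 1)
  mu₀ := (168, 100)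
  mu₁ := (272, 100)

/-- The piece `H5a`. -/
def sevPcH5a : Piece where
  I := var 0 * var 1
  d := var 0
  w := var 0 * var 2
  o := sevBinH5.n₀ + sevBinH5.n₁ * var 3
  den := num 100
  vn := num 2 * (((num 38) * var 1 + num (-1)) * var 3 + (num 42) * var 1 + num 1)
  vs := num 1
  mu := ⟨(168, 100), (272, 100)⟩
  pn := fun b => cond b
    ((((((num 72352) * var 0 + num 47500) * var 0) * var 1 + ((num 34272) * var 0 + num (-13676)) * var 0 + num (-23750)) * var 1 + ((num (-952)) * var 0 + num 327) * var 0 + num 625) * var 3 + ((((num 79968) * var 0 + num 52500) * var 0) * var 1 + ((num 41888) * var 0 + num (-12484)) * var 0 + num (-26250)) * var 1 + ((num 952) * var 0 + num (-327)) * var 0 + num 61875)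
    ((((((num 38304) * var 0 + num 47500) * var 0) * var 1 + ((num 18144) * var 0 + num 3348) * var 0 + num (-23750)) * var 1 + ((num (-504)) * var 0 + num (-121)) * var 0 + num 625) * var 3 + ((((num 42336) * var 0 + num 52500) * var 0) * var 1 + ((num 22176) * var 0 + num 6332) * var 0 + num (-26250)) * var 1 + ((num 504) * var 0 + num 121) * var 0 + num 61875)
  pd := num 625
  en := fun b => cond b
    ((((num (-433075)) * var 0) * var 1 + num 242522) * var 3 + (((num 58439650) * var 0) * var 1 + ((num (-46211650)) * var 0 + num 33881750) * var 0) * var 1 + (num 44538452) * var 0 + num 8317078)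
    ((((num (-414800)) * var 0) * var 1 + num 199104) * var 3 + (((num 55973600) * var 0) * var 1 + ((num (-44261600)) * var 0 + num 32452000) * var 0) * var 1 + (num 36564864) * var 0 + num 6828096)
  kk := fun b => cond b
    (((num 426720) * var 0) * var 3 + ((num 4836160) * var 0) * var 1 + ((num 42728896) * var 0 + num 6983984) * var 0)
    (((num 353160) * var 0) * var 3 + ((num 4002480) * var 0) * var 1 + ((num 35363088) * var 0 + num 5780052) * var 0)
  f0 := num 2500000
  wn := fun b => cond b
    ((((((num (-152000)) * var 0 * var 0) * var 1 + ((num 343270) * var 0 + num 76000) * var 0) * var 1 + ((num 53960) * var 0 + num 16240) * var 0) * var 1 + ((num 480) * var 0 + num (-480)) * var 0) * var 3 + ((((num (-168000)) * var 0 * var 0) * var 1 + (((num (-2112750)) * var 0 + num (-11795)) * var 0 + num 84000) * var 0) * var 1 + (((num (-43200)) * var 0 + num (-184828)) * var 0 + num (-177840)) * var 0) * var 1 + ((num (-480)) * var 0 + num 480) * var 0)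
    ((((((num (-152000)) * var 0 * var 0) * var 1 + ((num 343270) * var 0 + num 76000) * var 0) * var 1 + ((num 53960) * var 0 + num 16240) * var 0) * var 1 + ((num 480) * var 0 + num (-480)) * var 0) * var 3 + ((((num (-168000)) * var 0 * var 0) * var 1 + (((num (-2112750)) * var 0 + num (-48045)) * var 0 + num 84000) * var 0) * var 1 + (((num (-43200)) * var 0 + num (-202228)) * var 0 + num (-177840)) * var 0) * var 1 + ((num (-480)) * var 0 + num 480) * var 0)
  wd := num 25000
  tn := fun b => cond b
    (((num 98098) * var 1) * var 3 + (num 119119) * var 1 + (num 28028) * var 0 + num 287287)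
    (((num 82992) * var 1) * var 3 + (num 100776) * var 1 + (num 23712) * var 0 + num 243048)
  td := num 1250000
  cn := num 1 - var 0 * var 1 - var 1 * (num 1 - num 2 * (var 0 * var 1))
  cd := (num 1 - num 2 * (var 0 * var 1)) * (num 1 - num 2 * (var 0 * var 1))
  kn := var 0 * var 1 * (((num 76) * var 3 + (num 1832) * var 1 + num (-935)) * var 3 + (num 1722) * var 1 + (num 1407) * var 0 + num 419)
  kd := num 100
  k2n := (((num 242) * var 0) * var 3 + ((num 937) * var 0) * var 1 + (num (-800)) * var 0) * var 3 + ((num (-1156)) * var 0) * var 1 + (num 697) * var 0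
  k2d := num 100

/-- Its ranges. -/
def sevBoxH5a : EBox :=
  ⟨(17, 20, 100), (5, 9, 20), (12, 14, 25), (0, 3, 5)⟩

/-- The piece `H5b`. -/
def sevPcH5b : Piece where
  I := var 0 * var 1
  d := var 0
  w := var 0 * var 2
  o := sevBinH5.n₀ + sevBinH5.n₁ * var 3
  den := num 100
  vn := num 2 * (((num 38) * var 1 + num (-1)) * var 3 + (num 42) * var 1 + num 1)
  vs := num 1
  mu := ⟨(168, 100), (272, 100)⟩
  pn := fun b => cond b
    ((((((num 72352) * var 0 + num 47500) * var 0) * var 1 + ((num 34272) * var 0 + num (-13676)) * var 0 + num (-23750)) * var 1 + ((num (-952)) * var 0 + num 327) * var 0 + num 625) * var 3 + ((((num 79968) * var 0 + num 52500) * var 0) * var 1 + ((num 41888) * var 0 + num (-12484)) * var 0 + num (-26250)) * var 1 + ((num 952) * var 0 + num (-327)) * var 0 + num 61875)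
    ((((((num 38304) * var 0 + num 47500) * var 0) * var 1 + ((num 18144) * var 0 + num 3348) * var 0 + num (-23750)) * var 1 + ((num (-504)) * var 0 + num (-121)) * var 0 + num 625) * var 3 + ((((num 42336) * var 0 + num 52500) * var 0) * var 1 + ((num 22176) * var 0 + num 6332) * var 0 + num (-26250)) * var 1 + ((num 504) * var 0 + num 121) * var 0 + num 61875)
  pd := num 625
  en := fun b => cond b
    ((((num (-791275)) * var 0) * var 1 + num 157234) * var 3 + (((num 31497850) * var 0) * var 1 + ((num (-20522100)) * var 0 + num 15672350) * var 0) * var 1 + (num 22713166) * var 0 + num 4102378)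
    ((((num (-754075)) * var 0) * var 1 + num 128436) * var 3 + (((num 30017050) * var 0) * var 1 + ((num (-19557300)) * var 0 + num 14935550) * var 0) * var 1 + (num 18553164) * var 0 + num 3351012)
  kk := fun b => cond b
    (((num 206654) * var 0) * var 3 + ((num 2743510) * var 0) * var 1 + ((num 21791308) * var 0 + num 3327842) * var 0)
    (((num 169998) * var 0) * var 3 + ((num 2256870) * var 0) * var 1 + ((num 17925996) * var 0 + num 2737554) * var 0)
  f0 := num 1250000
  wn := fun b => cond b
    ((((((num (-152000)) * var 0 * var 0) * var 1 + ((num 319020) * var 0 + num 76000) * var 0) * var 1 + ((num 51560) * var 0 + num 16240) * var 0) * var 1 + ((num 480) * var 0 + num (-480)) * var 0) * var 3 + ((((num (-168000)) * var 0 * var 0) * var 1 + (((num (-2001500)) * var 0 + num (-49645)) * var 0 + num 84000) * var 0) * var 1 + (((num (-56640)) * var 0 + num (-182116)) * var 0 + num (-177840)) * var 0) * var 1 + ((num (-480)) * var 0 + num 480) * var 0)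
    ((((((num (-152000)) * var 0 * var 0) * var 1 + ((num 319020) * var 0 + num 76000) * var 0) * var 1 + ((num 51560) * var 0 + num 16240) * var 0) * var 1 + ((num 480) * var 0 + num (-480)) * var 0) * var 3 + ((((num (-168000)) * var 0 * var 0) * var 1 + (((num (-2001500)) * var 0 + num (-80170)) * var 0 + num 84000) * var 0) * var 1 + (((num (-56640)) * var 0 + num (-196768)) * var 0 + num (-177840)) * var 0) * var 1 + ((num (-480)) * var 0 + num 480) * var 0)
  wd := num 25000
  tn := fun b => cond b
    (((num 2625) * var 1) * var 3 + (num 2975) * var 1 + (num (-350)) * var 0 + num 7350)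
    (((num 2205) * var 1) * var 3 + (num 2499) * var 1 + (num (-294)) * var 0 + num 6174)
  td := num 31250
  cn := num 1 - var 0 * var 1 - var 1 * (num 1 - num 2 * (var 0 * var 1))
  cd := (num 1 - num 2 * (var 0 * var 1)) * (num 1 - num 2 * (var 0 * var 1))
  kn := var 0 * var 1 * (((num 127) * var 3 + (num 2443) * var 1 + num (-1225)) * var 3 + (num 1346) * var 1 + (num 1757) * var 0 + num 517)
  kd := num 100
  k2n := (((num 120) * var 0) * var 3 + ((num 1445) * var 0) * var 1 + (num (-779)) * var 0) * var 3 + ((num (-1514)) * var 0) * var 1 + (num 742) * var 0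
  k2d := num 100

/-- Its ranges. -/
def sevBoxH5b : EBox :=
  ⟨(17, 20, 100), (5, 9, 20), (12, 14, 25), (3, 5, 5)⟩

/-- The chart of the bin `H6`. -/
def sevBinH6 : EndChart where
  I := var 0 * var 1
  d := var 0
  w := var 0 * var 2
  den := num 100
  n₀ := (num 1 - num 2 * (var 0 * var 1) - var 0) * ((num 36) * var 1)
  n₁ := (num 1 - num 2 * (var 0 * var 1) - var 0) * ((num 40) * var 1)
  q₀ := (17, 20, 100)
  q₁ := (5, 9, 20)
  q₂ := (28, 39, 50)
  q₃ := (0, 1, 1)
  t₀ := (0, 1)
  t₁ := (1, 1)
  mu₀ := (140, 100)
  mu₁ := (280, 100)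

/-- The piece `H6a`. -/
def sevPcH6a : Piece where
  I := var 0 * var 1
  d := var 0
  w := var 0 * var 2
  o := sevBinH6.n₀ + sevBinH6.n₁ * var 3
  den := num 100
  vn := num 2 * (((num 40) * var 1) * var 3 + (num 36) * var 1)
  vs := num 1
  mu := ⟨(140, 100), (280, 100)⟩
  pn := fun b => cond b
    ((((((num 21840) * var 0 + num 10000) * var 0) * var 1 + ((num 10920) * var 0 + num (-5920)) * var 0 + num (-5000)) * var 1) * var 3 + ((((num 19656) * var 0 + num 9000) * var 0) * var 1 + ((num 9828) * var 0 + num (-5328)) * var 0 + num (-4500)) * var 1 + num 12500)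
    ((((((num 7840) * var 0 + num 10000) * var 0) * var 1 + ((num 3920) * var 0 + num 1080) * var 0 + num (-5000)) * var 1) * var 3 + ((((num 7056) * var 0 + num 9000) * var 0) * var 1 + ((num 3528) * var 0 + num 972) * var 0 + num (-4500)) * var 1 + num 12500)
  pd := num 125
  en := fun b => cond b
    ((((num (-511500)) * var 0) * var 1 + num 837837) * var 3 + (((num 204344250) * var 0) * var 1 + ((num (-167413950)) * var 0 + num 37441800) * var 0) * var 1 + (num 135091242) * var 0 + num 22422114)
    ((((num (-482000)) * var 0) * var 1 + num 566832) * var 3 + (((num 192559000) * var 0) * var 1 + ((num (-157758600)) * var 0 + num 35282400) * var 0) * var 1 + (num 91394912) * var 0 + num 15169504)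
  kk := fun b => cond b
    (((num 1236807) * var 0) * var 3 + ((num 13445289) * var 0) * var 1 + ((num 118773369) * var 0 + num 19429839) * var 0)
    (((num 847168) * var 0) * var 3 + ((num 9209536) * var 0) * var 1 + ((num 81355456) * var 0 + num 13308736) * var 0)
  f0 := num 5000000
  wn := fun b => cond b
    ((((((num (-80000)) * var 0 * var 0) * var 1 + ((num 149975) * var 0 + num 40000) * var 0) * var 1 + ((num 62580) * var 0 + num 11200) * var 0) * var 1) * var 3 + ((((num (-72000)) * var 0 * var 0) * var 1 + (((num (-846125)) * var 0 + num (-64785)) * var 0 + num 36000) * var 0) * var 1 + (((num (-121170)) * var 0 + num (-88870)) * var 0 + num (-89920)) * var 0) * var 1)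
    ((((((num (-80000)) * var 0 * var 0) * var 1 + ((num 149975) * var 0 + num 40000) * var 0) * var 1 + ((num 62580) * var 0 + num 11200) * var 0) * var 1) * var 3 + ((((num (-72000)) * var 0 * var 0) * var 1 + (((num (-846125)) * var 0 + num (-105985)) * var 0 + num 36000) * var 0) * var 1 + (((num (-121170)) * var 0 + num (-111942)) * var 0 + num (-89920)) * var 0) * var 1)
  wd := num 12500
  tn := fun b => cond b
    (((num 232362) * var 1) * var 3 + (num 271089) * var 1 + (num 154908) * var 0 + num 735813)
    (((num 169680) * var 1) * var 3 + (num 197960) * var 1 + (num 113120) * var 0 + num 537320)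
  td := num 2500000
  cn := num 1 - var 0 * var 1 - var 1 * (num 1 - num 2 * (var 0 * var 1))
  cd := (num 1 - num 2 * (var 0 * var 1)) * (num 1 - num 2 * (var 0 * var 1))
  kn := var 0 * var 1 * (((num 193) * var 3 + (num 2705) * var 1 + num (-1237)) * var 3 + (num 1258) * var 1 + (num 1278) * var 0 + num 726)
  kd := num 100
  k2n := (((num 310) * var 0) * var 3 + ((num 1618) * var 0) * var 1 + (num (-1224)) * var 0) * var 3 + ((num (-1706)) * var 0) * var 1 + (num 1027) * var 0
  k2d := num 100

/-- Its ranges. -/
def sevBoxH6a : EBox :=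
  ⟨(17, 20, 100), (5, 9, 20), (28, 39, 50), (0, 1, 1)⟩

/-- The chart of the bin `H7`. -/
def sevBinH7 : EndChart where
  I := var 0 * var 1
  d := var 0
  w := var 0 * var 2
  den := num 100
  n₀ := (num 1 - num 2 * (var 0 * var 1) - var 0) * ((num 32) * var 1)
  n₁ := (num 1 - num 2 * (var 0 * var 1) - var 0) * ((num 32) * var 1 + num 2)
  q₀ := (17, 20, 100)
  q₁ := (5, 9, 20)
  q₂ := (39, 50, 50)
  q₃ := (0, 1, 1)
  t₀ := (0, 1)
  t₁ := (1, 1)
  mu₀ := (128, 100)
  mu₁ := (282, 100)

/-- The piece `H7a`. -/
def sevPcH7a : Piece where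
  I := var 0 * var 1
  d := var 0
  w := var 0 * var 2
  o := sevBinH7.n₀ + sevBinH7.n₁ * var 3
  den := num 100
  vn := num 2 * (((num 32) * var 1 + num 2) * var 3 + (num 32) * var 1)
  vs := num 1
  mu := ⟨(128, 100), (282, 100)⟩
  pn := fun b => cond b
    ((((((num 112800) * var 0 + num 40000) * var 0) * var 1 + ((num 63450) * var 0 + num (-33900)) * var 0 + num (-20000)) * var 1 + ((num 3525) * var 0 + num (-2275)) * var 0 + num (-1250)) * var 3 + ((((num 112800) * var 0 + num 40000) * var 0) * var 1 + ((num 56400) * var 0 + num (-36400)) * var 0 + num (-20000)) * var 1 + num 62500)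
    ((((((num 39936) * var 0 + num 40000) * var 0) * var 1 + ((num 22464) * var 0 + num 2532) * var 0 + num (-20000)) * var 1 + ((num 1248) * var 0 + num 2) * var 0 + num (-1250)) * var 3 + ((((num 39936) * var 0 + num 40000) * var 0) * var 1 + ((num 19968) * var 0 + num 32) * var 0 + num (-20000)) * var 1 + num 62500)
  pd := num 625
  en := fun b => cond b
    ((((num 1484800) * var 0) * var 1 + num 409600) * var 3 + (((num 122726400) * var 0) * var 1 + ((num (-101222400)) * var 0 + num 18329600) * var 0) * var 1 + (num 83507200) * var 0 + num 14617600)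
    ((((num 1403600) * var 0) * var 1 + num 302016) * var 3 + (((num 116014800) * var 0) * var 1 + ((num (-95686800)) * var 0 + num 17327200) * var 0) * var 1 + (num 61573512) * var 0 + num 10778196)
  kk := fun b => cond b
    (((num 714700) * var 0) * var 3 + ((num 7963800) * var 0) * var 1 + ((num 74992450) * var 0 + num 12711450) * var 0)
    (((num 532350) * var 0) * var 3 + ((num 5931900) * var 0) * var 1 + ((num 55858725) * var 0 + num 9468225) * var 0)
  f0 := num 2500000
  wn := fun b => cond b
    ((((((num (-256000)) * var 0 * var 0) * var 1 + ((num 476160) * var 0 + num 128000) * var 0) * var 1 + ((num 428410) * var 0 + num 57920) * var 0) * var 1 + ((num (-3120)) * var 0 + num 3120) * var 0) * var 3 + ((((num (-256000)) * var 0 * var 0) * var 1 + (((num (-3167000)) * var 0 + num (-335790)) * var 0 + num 128000) * var 0) * var 1 + (((num (-912600)) * var 0 + num (-321961)) * var 0 + num (-350080)) * var 0) * var 1)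
    ((((((num (-256000)) * var 0 * var 0) * var 1 + ((num 476160) * var 0 + num 128000) * var 0) * var 1 + ((num 428410) * var 0 + num 57920) * var 0) * var 1 + ((num (-3120)) * var 0 + num 3120) * var 0) * var 3 + ((((num (-256000)) * var 0 * var 0) * var 1 + (((num (-3167000)) * var 0 + num (-510290)) * var 0 + num 128000) * var 0) * var 1 + (((num (-912600)) * var 0 + num (-458071)) * var 0 + num (-350080)) * var 0) * var 1)
  wd := num 50000
  tn := fun b => cond b
    (((num 351050) * var 1 + num 50150) * var 3 + (num 601800) * var 1 + (num 601800) * var 0 + num 1705100)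
    (((num 276549) * var 1 + num 39507) * var 3 + (num 474084) * var 1 + (num 474084) * var 0 + num 1343238)
  td := num 5000000
  cn := num 1 - var 0 * var 1 - var 1 * (num 1 - num 2 * (var 0 * var 1))
  cd := (num 1 - num 2 * (var 0 * var 1)) * (num 1 - num 2 * (var 0 * var 1))
  kn := var 0 * var 1 * (((num 110) * var 3 + (num 2323) * var 1 + num (-1163)) * var 3 + (num 1145) * var 1 + (num 1552) * var 0 + num 670)
  kd := num 100
  k2n := (((num 292) * var 0) * var 3 + ((num 1503) * var 0) * var 1 + (num (-1148)) * var 0) * var 3 + ((num (-1610)) * var 0) * var 1 + (num 972) * var 0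
  k2d := num 100

/-- Its ranges. -/
def sevBoxH7a : EBox :=
  ⟨(17, 20, 100), (5, 9, 20), (39, 50, 50), (0, 1, 1)⟩

end Vale.Agent.P100.Calib.StripEndD
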