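import Vale.Agent.P100.Calib.SlabStripEndDExpr
import Vale.Agent.P100.Calib.SlabStripEndCert
import Vale.Agent.P100.Calib.SlabStripEndChart

/-!
# The bins `J` of the `D` region for `N` between seven and twenty

`x = (d, I / d, (1 - u) / d, t)`, with `v` affine in `t`.
-/

namespace Vale.Agent.P100.Calib.StripEndD

open Pack hiding ev_add ev_mul
open Pack.Ex StripMid StripEnd

local instance endSevDataJAdd : Add Ex := ⟨Ex.add⟩
local instance endSevDataJSub : Sub Ex := ⟨Ex.sub⟩
local instance endSevDataJMul : Mul Ex := ⟨Ex.mul⟩

/-- The chart of the bin `J0`. -/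
def sevBinJ0 : EndChart where
  I := var 0 * var 1
  d := var 0
  w := var 0 * var 2
  den := num 100
  n₀ := (num 1 - num 2 * (var 0 * var 1) - var 0) * ((num 62) * var 1 + num 7)
  n₁ := (num 1 - num 2 * (var 0 * var 1) - var 0) * ((num 72) * var 1 + num (-7))
  q₀ := (17, 20, 100)
  q₁ := (45, 62, 100)
  q₂ := (0, 21, 500)
  q₃ := (0, 1, 1)
  t₀ := (0, 1)
  t₁ := (1, 1)
  mu₀ := (229, 100)
  mu₁ := (337, 100)

/-- The piece `J0a`. -/
def sevPcJ0a : Piece where
  I := var 0 * var 1
  d := var 0
  w := var 0 * var 2
  o := sevBinJ0.n₀ + sevBinJ0.n₁ * var 3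
  den := num 100
  vn := num 2 * (((num 72) * var 1 + num (-7)) * var 3 + (num 62) * var 1 + num 7)
  vs := num 1
  mu := ⟨(229, 100), (337, 100)⟩
  pn := fun b => cond b
    ((((((num 1019088) * var 0 + num 7200000) * var 0) * var 1 + ((num 410466) * var 0 + num 2390456) * var 0 + num (-3600000)) * var 1 + ((num (-49539)) * var 0 + num (-300461)) * var 0 + num 350000) * var 3 + ((((num 877548) * var 0 + num 6200000) * var 0) * var 1 + ((num 537852) * var 0 + num 3361226) * var 0 + num (-3100000)) * var 1 + ((num 49539) * var 0 + num 300461) * var 0 + num 4650000)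
    (((((num 7200000) * var 0) * var 1 + (num 2900000) * var 0 + num (-3600000)) * var 1 + (num (-350000)) * var 0 + num 350000) * var 3 + (((num 6200000) * var 0) * var 1 + (num 3800000) * var 0 + num (-3100000)) * var 1 + (num 350000) * var 0 + num 4650000)
  pd := num 50000
  en := fun b => cond b
    ((((num (-83812750)) * var 0) * var 1 + num 1262541) * var 3 + (((num (-92983750)) * var 0) * var 1 + ((num 303662000) * var 0 + num 316654250) * var 0) * var 1 + (num 40230120) * var 0 + num 6911877)
    ((((num (-79700250)) * var 0) * var 1) * var 3 + (((num (-88421250)) * var 0) * var 1 + ((num 288762000) * var 0 + num 301116750) * var 0) * var 1)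
  kk := fun b => cond b
    (((num 1042272) * var 0) * var 3 + ((num 3300528) * var 0) * var 1 + ((num 39486909) * var 0 + num 4907364) * var 0)
    (num 0)
  f0 := num 25000000
  wn := fun b => cond b
    ((((((num (-11520)) * var 0 * var 0) * var 1 + ((num 7320) * var 0 + num 5760) * var 0) * var 1 + ((num 560) * var 0 + num (-560)) * var 0) * var 1) * var 3 + ((((num (-9920)) * var 0 * var 0) * var 1 + (((num (-67660)) * var 0 + num 2305) * var 0 + num 4960) * var 0) * var 1 + ((num (-8560)) * var 0 + num (-7440)) * var 0) * var 1)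
    ((((((num (-11520)) * var 0 * var 0) * var 1 + ((num 7320) * var 0 + num 5760) * var 0) * var 1 + ((num 560) * var 0 + num (-560)) * var 0) * var 1) * var 3 + ((((num (-9920)) * var 0 * var 0) * var 1 + (((num (-67660)) * var 0 + num (-164)) * var 0 + num 4960) * var 0) * var 1 + ((num (-8560)) * var 0 + num (-7440)) * var 0) * var 1)
  wd := num 1000
  tn := fun b => cond b
    (((num 206325) * var 1 + num (-33012)) * var 3 + (num 90783) * var 1 + (num (-275100)) * var 0 + num 203574)
    (num 0)
  td := num 6250000
  cn := num 1 - var 0 * var 1 - var 1 * (num 1 - num 2 * (var 0 * var 1))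
  cd := (num 1 - num 2 * (var 0 * var 1)) * (num 1 - num 2 * (var 0 * var 1))
  kn := var 0 * var 1 * (((num 59) * var 3 + (num 2575) * var 1 + num (-1942)) * var 3 + (num 409) * var 1 + (num (-5173)) * var 0 + num 2546)
  kd := num 100
  k2n := (((num 272) * var 0) * var 3 + ((num (-670)) * var 0) * var 1 + (num 334) * var 0) * var 3 + ((num 1561) * var 0) * var 1 + (num (-516)) * var 0
  k2d := num 100

/-- Its ranges. -/
def sevBoxJ0a : EBox :=
  ⟨(17, 20, 100), (45, 62, 100), (0, 21, 500), (0, 3, 5)⟩

/-- The piece `J0b`. -/
def sevPcJ0b : Piece where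
  I := var 0 * var 1
  d := var 0
  w := var 0 * var 2
  o := sevBinJ0.n₀ + sevBinJ0.n₁ * var 3
  den := num 100
  vn := num 2 * (((num 72) * var 1 + num (-7)) * var 3 + (num 62) * var 1 + num 7)
  vs := num 1
  mu := ⟨(229, 100), (337, 100)⟩
  pn := fun b => cond b
    ((((((num 1019088) * var 0 + num 7200000) * var 0) * var 1 + ((num 410466) * var 0 + num 2390456) * var 0 + num (-3600000)) * var 1 + ((num (-49539)) * var 0 + num (-300461)) * var 0 + num 350000) * var 3 + ((((num 877548) * var 0 + num 6200000) * var 0) * var 1 + ((num 537852) * var 0 + num 3361226) * var 0 + num (-3100000)) * var 1 + ((num 49539) * var 0 + num 300461) * var 0 + num 4650000)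
    (((((num 7200000) * var 0) * var 1 + (num 2900000) * var 0 + num (-3600000)) * var 1 + (num (-350000)) * var 0 + num 350000) * var 3 + (((num 6200000) * var 0) * var 1 + (num 3800000) * var 0 + num (-3100000)) * var 1 + (num 350000) * var 0 + num 4650000)
  pd := num 50000
  en := fun b => cond b
    ((((num (-168283500)) * var 0) * var 1 + num 2363130) * var 3 + (((num (-325825500)) * var 0) * var 1 + ((num 931441500) * var 0 + num 650628000) * var 0) * var 1 + (num 85266027) * var 0 + num 13061664)
    ((((num (-159400500)) * var 0) * var 1) * var 3 + (((num (-308626500)) * var 0) * var 1 + ((num 882274500) * var 0 + num 616284000) * var 0) * var 1)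
  kk := fun b => cond b
    (((num 1940022) * var 0) * var 3 + ((num 8610210) * var 0) * var 1 + ((num 82701612) * var 0 + num 8261442) * var 0)
    (num 0)
  f0 := num 50000000
  wn := fun b => cond b
    ((((((num (-11520)) * var 0 * var 0) * var 1 + ((num 4780) * var 0 + num 5760) * var 0) * var 1 + ((num 560) * var 0 + num (-560)) * var 0) * var 1) * var 3 + ((((num (-9920)) * var 0 * var 0) * var 1 + (((num (-60830)) * var 0 + num 2169) * var 0 + num 4960) * var 0) * var 1 + ((num (-8560)) * var 0 + num (-7440)) * var 0) * var 1)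
    ((((((num (-11520)) * var 0 * var 0) * var 1 + ((num 4780) * var 0 + num 5760) * var 0) * var 1 + ((num 560) * var 0 + num (-560)) * var 0) * var 1) * var 3 + ((((num (-9920)) * var 0 * var 0) * var 1 + (((num (-60830)) * var 0 + num 308) * var 0 + num 4960) * var 0) * var 1 + ((num (-8560)) * var 0 + num (-7440)) * var 0) * var 1)
  wd := num 1000
  tn := fun b => cond b
    (((num 679329) * var 1 + num (-154644)) * var 3 + (num 38661) * var 1 + (num (-1060416)) * var 0 + num 552300)
    (num 0)
  td := num 12500000
  cn := num 1 - var 0 * var 1 - var 1 * (num 1 - num 2 * (var 0 * var 1))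
  cd := (num 1 - num 2 * (var 0 * var 1)) * (num 1 - num 2 * (var 0 * var 1))
  kn := var 0 * var 1 * (((num 13742) * var 3 + (num 13036) * var 1 + num (-22774)) * var 3 + (num (-6160)) * var 1 + (num (-12420)) * var 0 + num 11825)
  kd := num 100
  k2n := (((num (-143)) * var 0) * var 3 + ((num (-1171)) * var 0) * var 1 + (num 902) * var 0) * var 3 + ((num 1628) * var 0) * var 1 + (num (-603)) * var 0
  k2d := num 100

/-- Its ranges. -/
def sevBoxJ0b : EBox :=
  ⟨(17, 20, 100), (45, 62, 100), (0, 21, 500), (3, 5, 5)⟩

/-- The chart of the bin `J1`. -/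
def sevBinJ1 : EndChart where
  I := var 0 * var 1
  d := var 0
  w := var 0 * var 2
  den := num 100
  n₀ := (num 1 - num 2 * (var 0 * var 1) - var 0) * ((num 54) * var 1 + num 7)
  n₁ := (num 1 - num 2 * (var 0 * var 1) - var 0) * ((num 66) * var 1 + num (-5))
  q₀ := (17, 20, 100)
  q₁ := (45, 62, 100)
  q₂ := (21, 65, 500)
  q₃ := (0, 1, 1)
  t₀ := (0, 1)
  t₁ := (1, 1)
  mu₀ := (219, 100)
  mu₁ := (331, 100)

/-- The piece `J1a`. -/
def sevPcJ1a : Piece where
  I := var 0 * var 1
  d := var 0
  w := var 0 * var 2
  o := sevBinJ1.n₀ + sevBinJ1.n₁ * var 3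
  den := num 100
  vn := num 2 * (((num 66) * var 1 + num (-5)) * var 3 + (num 54) * var 1 + num 7)
  vs := num 1
  mu := ⟨(219, 100), (331, 100)⟩
  pn := fun b => cond b
    ((((((num 2839980) * var 0 + num 6600000) * var 0) * var 1 + ((num 1204840) * var 0 + num 1380010) * var 0 + num (-3300000)) * var 1 + ((num (-107575)) * var 0 + num (-142425)) * var 0 + num 250000) * var 3 + ((((num 2323620) * var 0 + num 5400000) * var 0) * var 1 + ((num 1463020) * var 0 + num 2238190) * var 0 + num (-2700000)) * var 1 + ((num 150605) * var 0 + num 199395) * var 0 + num 4650000)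
    ((((((num 607068) * var 0 + num 6600000) * var 0) * var 1 + ((num 257544) * var 0 + num 2496466) * var 0 + num (-3300000)) * var 1 + ((num (-22995)) * var 0 + num (-227005)) * var 0 + num 250000) * var 3 + ((((num 496692) * var 0 + num 5400000) * var 0) * var 1 + ((num 312732) * var 0 + num 3151654) * var 0 + num (-2700000)) * var 1 + ((num 32193) * var 0 + num 317807) * var 0 + num 4650000)
  pd := num 50000
  en := fun b => cond b
    ((((num (-163840000)) * var 0) * var 1 + num 6988800) * var 3 + (((num (-70656000)) * var 0) * var 1 + ((num 606208000) * var 0 + num 598016000) * var 0) * var 1 + (num 262113280) * var 0 + num 39669760)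
    ((((num (-152960000)) * var 0) * var 1 + num 2107980) * var 3 + (((num (-65964000)) * var 0) * var 1 + ((num 565952000) * var 0 + num 558304000) * var 0) * var 1 + (num 79059288) * var 0 + num 11965296)
  kk := fun b => cond b
    (((num 5999045) * var 0) * var 3 + ((num 20423715) * var 0) * var 1 + ((num 243197240) * var 0 + num 29658200) * var 0)
    (((num 1801716) * var 0) * var 3 + ((num 6133932) * var 0) * var 1 + ((num 73040352) * var 0 + num 8907360) * var 0)
  f0 := num 50000000
  wn := fun b => cond b
    ((((((num (-5280000)) * var 0 * var 0) * var 1 + ((num 3409120) * var 0 + num 2640000) * var 0) * var 1 + ((num 532430) * var 0 + num (-144560)) * var 0) * var 1 + ((num 4200) * var 0 + num (-4200)) * var 0) * var 3 + ((((num (-4320000)) * var 0 * var 0) * var 1 + (((num (-35325000)) * var 0 + num 397280) * var 0 + num 2160000) * var 0) * var 1 + (((num (-151620)) * var 0 + num (-3922874)) * var 0 + num (-3674640)) * var 0) * var 1 + ((num (-5880)) * var 0 + num 5880) * var 0)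
    ((((((num (-5280000)) * var 0 * var 0) * var 1 + ((num 3409120) * var 0 + num 2640000) * var 0) * var 1 + ((num 532430) * var 0 + num (-144560)) * var 0) * var 1 + ((num 4200) * var 0 + num (-4200)) * var 0) * var 3 + ((((num (-4320000)) * var 0 * var 0) * var 1 + (((num (-35325000)) * var 0 + num (-694220)) * var 0 + num 2160000) * var 0) * var 1 + (((num (-151620)) * var 0 + num (-3968717)) * var 0 + num (-3674640)) * var 0) * var 1 + ((num (-5880)) * var 0 + num 5880) * var 0)
  wd := num 500000
  tn := fun b => cond b
    (((num 445315) * var 1 + num (-61659)) * var 3 + (num 164424) * var 1 + (num (-623441)) * var 0 + num 486421)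
    (((num 132405) * var 1 + num (-18333)) * var 3 + (num 48888) * var 1 + (num (-185367)) * var 0 + num 144627)
  td := num 5000000
  cn := num 1 - var 0 * var 1 - var 1 * (num 1 - num 2 * (var 0 * var 1))
  cd := (num 1 - num 2 * (var 0 * var 1)) * (num 1 - num 2 * (var 0 * var 1))
  kn := var 0 * var 1 * (((num 3089) * var 3 + (num 13514) * var 1 + num (-7597)) * var 3 + (num (-1316)) * var 1 + (num (-5280)) * var 0 + num 4247)
  kd := num 100
  k2n := (((num 107) * var 0) * var 3 + ((num 282) * var 0) * var 1 + (num (-239)) * var 0) * var 3 + ((num 361) * var 0) * var 1 + (num 64) * var 0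
  k2d := num 100

/-- Its ranges. -/
def sevBoxJ1a : EBox :=
  ⟨(17, 20, 100), (45, 62, 100), (21, 65, 500), (0, 1, 1)⟩

/-- The chart of the bin `J2`. -/
def sevBinJ2 : EndChart where
  I := var 0 * var 1
  d := var 0
  w := var 0 * var 2
  den := num 100
  n₀ := (num 1 - num 2 * (var 0 * var 1) - var 0) * ((num 50) * var 1 + num 3)
  n₁ := (num 1 - num 2 * (var 0 * var 1) - var 0) * ((num 54) * var 1)
  q₀ := (17, 20, 100)
  q₁ := (45, 62, 100)
  q₂ := (13, 28, 100)
  q₃ := (0, 1, 1)
  t₀ := (0, 1)
  t₁ := (1, 1)
  mu₀ := (196, 100)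
  mu₁ := (318, 100)

/-- The piece `J2a`. -/
def sevPcJ2a : Piece where
  I := var 0 * var 1
  d := var 0
  w := var 0 * var 2
  o := sevBinJ2.n₀ + sevBinJ2.n₁ * var 3
  den := num 100
  vn := num 2 * (((num 54) * var 1) * var 3 + (num 50) * var 1 + num 3)
  vs := num 1
  mu := ⟨(196, 100), (318, 100)⟩
  pn := fun b => cond b
    ((((((num 240408) * var 0 + num 270000) * var 0) * var 1 + ((num 120204) * var 0 + num 14796) * var 0 + num (-135000)) * var 1) * var 3 + ((((num 222600) * var 0 + num 250000) * var 0) * var 1 + ((num 124656) * var 0 + num 28700) * var 0 + num (-125000)) * var 1 + ((num 6678) * var 0 + num 822) * var 0 + num 242500)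
    ((((((num 68796) * var 0 + num 270000) * var 0) * var 1 + ((num 34398) * var 0 + num 100602) * var 0 + num (-135000)) * var 1) * var 3 + ((((num 63700) * var 0 + num 250000) * var 0) * var 1 + ((num 35672) * var 0 + num 108150) * var 0 + num (-125000)) * var 1 + ((num 1911) * var 0 + num 5589) * var 0 + num 242500)
  pd := num 2500
  en := fun b => cond b
    ((((num (-7368725)) * var 0) * var 1 + num 589498) * var 3 + (((num 8780850) * var 0) * var 1 + ((num 10141625) * var 0 + num 28499250) * var 0) * var 1 + (num 28590653) * var 0 + num 4076163)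
    ((((num (-6888000)) * var 0) * var 1 + num 255840) * var 3 + (((num 8208000) * var 0) * var 1 + ((num 9480000) * var 0 + num 26640000) * var 0) * var 1 + (num 12408240) * var 0 + num 1769040)
  kk := fun b => cond b
    (((num 572355) * var 0) * var 3 + ((num 1905435) * var 0) * var 1 + ((num 25118415) * var 0 + num 3325455) * var 0)
    (((num 247507) * var 0) * var 3 + ((num 823979) * var 0) * var 1 + ((num 10862111) * var 0 + num 1438047) * var 0)
  f0 := num 2500000
  wn := fun b => cond b
    ((((((num (-216000)) * var 0 * var 0) * var 1 + ((num 180960) * var 0 + num 108000) * var 0) * var 1 + ((num 54665) * var 0 + num 7020) * var 0) * var 1) * var 3 + ((((num (-200000)) * var 0 * var 0) * var 1 + (((num (-1954000)) * var 0 + num (-34500)) * var 0 + num 100000) * var 0) * var 1 + (((num (-26000)) * var 0 + num (-170705)) * var 0 + num (-187500)) * var 0) * var 1 + ((num (-390)) * var 0 + num 390) * var 0)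
    ((((((num (-216000)) * var 0 * var 0) * var 1 + ((num 180960) * var 0 + num 108000) * var 0) * var 1 + ((num 54665) * var 0 + num 7020) * var 0) * var 1) * var 3 + ((((num (-200000)) * var 0 * var 0) * var 1 + (((num (-1954000)) * var 0 + num (-65400)) * var 0 + num 100000) * var 0) * var 1 + (((num (-26000)) * var 0 + num (-174722)) * var 0 + num (-187500)) * var 0) * var 1 + ((num (-390)) * var 0 + num 390) * var 0)
  wd := num 25000
  tn := fun b => cond b
    (((num 264439) * var 1 + num (-7147)) * var 3 + (num 150087) * var 1 + (num (-378791)) * var 0 + num 421673)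
    (((num 118326) * var 1 + num (-3198)) * var 3 + (num 67158) * var 1 + (num (-169494)) * var 0 + num 188682)
  td := num 2500000
  cn := num 1 - var 0 * var 1 - var 1 * (num 1 - num 2 * (var 0 * var 1))
  cd := (num 1 - num 2 * (var 0 * var 1)) * (num 1 - num 2 * (var 0 * var 1))
  kn := var 0 * var 1 * (((num 2174) * var 3 + (num 9540) * var 1 + num (-4894)) * var 3 + (num 294) * var 1 + (num (-1679)) * var 0 + num 2430)
  kd := num 100
  k2n := (((num 275) * var 0) * var 3 + ((num 808) * var 0) * var 1 + (num (-769)) * var 0) * var 3 + ((num (-148)) * var 0) * var 1 + (num 349) * var 0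
  k2d := num 100

/-- Its ranges. -/
def sevBoxJ2a : EBox :=
  ⟨(17, 20, 100), (45, 62, 100), (13, 28, 100), (0, 1, 1)⟩

/-- The chart of the bin `J3`. -/
def sevBinJ3 : EndChart where
  I := var 0 * var 1
  d := var 0
  w := var 0 * var 2
  den := num 100
  n₀ := (num 1 - num 2 * (var 0 * var 1) - var 0) * ((num 46) * var 1 + num 3)
  n₁ := (num 1 - num 2 * (var 0 * var 1) - var 0) * ((num 32) * var 1 + num 7)
  q₀ := (17, 20, 100)
  q₁ := (45, 62, 100)
  q₂ := (14, 17, 50)
  q₃ := (0, 1, 1)
  t₀ := (0, 1)
  t₁ := (1, 1)
  mu₀ := (189, 100)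
  mu₁ := (310, 100)

/-- The piece `J3a`. -/
def sevPcJ3a : Piece where
  I := var 0 * var 1
  d := var 0
  w := var 0 * var 2
  o := sevBinJ3.n₀ + sevBinJ3.n₁ * var 3
  den := num 100
  vn := num 2 * (((num 32) * var 1 + num 7) * var 3 + (num 46) * var 1 + num 3)
  vs := num 1
  mu := ⟨(189, 100), (310, 100)⟩
  pn := fun b => cond b
    ((((((num 168640) * var 0 + num 160000) * var 0) * var 1 + ((num 121210) * var 0 + num 30680) * var 0 + num (-80000)) * var 1 + ((num 18445) * var 0 + num (-945)) * var 0 + num (-17500)) * var 3 + ((((num 242420) * var 0 + num 230000) * var 0) * var 1 + ((num 137020) * var 0 + num 8790) * var 0 + num (-115000)) * var 1 + ((num 7905) * var 0 + num (-405)) * var 0 + num 242500)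
    ((((((num 84672) * var 0 + num 160000) * var 0) * var 1 + ((num 60858) * var 0 + num 72664) * var 0 + num (-80000)) * var 1 + ((num 9261) * var 0 + num 8239) * var 0 + num (-17500)) * var 3 + ((((num 121716) * var 0 + num 230000) * var 0) * var 1 + ((num 68796) * var 0 + num 69142) * var 0 + num (-115000)) * var 1 + ((num 3969) * var 0 + num 3531) * var 0 + num 242500)
  pd := num 2500
  en := fun b => cond b
    ((((num (-3799500)) * var 0) * var 1 + num 346800) * var 3 + (((num 19456500) * var 0) * var 1 + ((num (-18921000)) * var 0 + num 27565500) * var 0) * var 1 + (num 34506600) * var 0 + num 4907220)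
    ((((num (-3628150)) * var 0) * var 1 + num 272720) * var 3 + (((num 18579050) * var 0) * var 1 + ((num (-18067700)) * var 0 + num 26322350) * var 0) * var 1 + (num 27135640) * var 0 + num 3858988)
  kk := fun b => cond b
    (((num 566865) * var 0) * var 3 + ((num 1770363) * var 0) * var 1 + ((num 29197908) * var 0 + num 4377942) * var 0)
    (((num 441805) * var 0) * var 3 + ((num 1379791) * var 0) * var 1 + ((num 22756356) * var 0 + num 3412094) * var 0)
  f0 := num 2500000
  wn := fun b => cond b
    ((((((num (-128000)) * var 0 * var 0) * var 1 + ((num 177080) * var 0 + num 64000) * var 0) * var 1 + ((num 90510) * var 0 + num 22960) * var 0) * var 1 + ((num (-1960)) * var 0 + num 1960) * var 0) * var 3 + ((((num (-184000)) * var 0 * var 0) * var 1 + (((num (-2953750)) * var 0 + num 72465) * var 0 + num 92000) * var 0) * var 1 + (((num 328860) * var 0 + num (-201457)) * var 0 + num (-181120)) * var 0) * var 1 + ((num (-840)) * var 0 + num 840) * var 0)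
    ((((((num (-128000)) * var 0 * var 0) * var 1 + ((num 177080) * var 0 + num 64000) * var 0) * var 1 + ((num 90510) * var 0 + num 22960) * var 0) * var 1 + ((num (-1960)) * var 0 + num 1960) * var 0) * var 3 + ((((num (-184000)) * var 0 * var 0) * var 1 + (((num (-2953750)) * var 0 + num 50615) * var 0 + num 92000) * var 0) * var 1 + (((num 328860) * var 0 + num (-207575)) * var 0 + num (-181120)) * var 0) * var 1 + ((num (-840)) * var 0 + num 840) * var 0)
  wd := num 25000
  tn := fun b => cond b
    (((num 130815) * var 1 + num 34884) * var 3 + (num 165699) * var 1 + (num (-244188)) * var 0 + num 453492)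
    (((num 102585) * var 1 + num 27356) * var 3 + (num 129941) * var 1 + (num (-191492)) * var 0 + num 355628)
  td := num 2500000
  cn := num 1 - var 0 * var 1 - var 1 * (num 1 - num 2 * (var 0 * var 1))
  cd := (num 1 - num 2 * (var 0 * var 1)) * (num 1 - num 2 * (var 0 * var 1))
  kn := var 0 * var 1 * (((num 329) * var 3 + (num 2577) * var 1 + num (-1251)) * var 3 + (num 1724) * var 1 + (num 847) * var 0 + num 617)
  kd := num 100
  k2n := (((num 473) * var 0) * var 3 + ((num 1800) * var 0) * var 1 + (num (-1322)) * var 0) * var 3 + ((num (-474)) * var 0) * var 1 + (num 392) * var 0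
  k2d := num 100

/-- Its ranges. -/
def sevBoxJ3a : EBox :=
  ⟨(17, 20, 100), (45, 62, 100), (14, 17, 50), (0, 3, 5)⟩

/-- The piece `J3b`. -/
def sevPcJ3b : Piece where
  I := var 0 * var 1
  d := var 0
  w := var 0 * var 2
  o := sevBinJ3.n₀ + sevBinJ3.n₁ * var 3
  den := num 100
  vn := num 2 * (((num 32) * var 1 + num 7) * var 3 + (num 46) * var 1 + num 3)
  vs := num 1
  mu := ⟨(189, 100), (310, 100)⟩
  pn := fun b => cond b
    ((((((num 168640) * var 0 + num 160000) * var 0) * var 1 + ((num 121210) * var 0 + num 30680) * var 0 + num (-80000)) * var 1 + ((num 18445) * var 0 + num (-945)) * var 0 + num (-17500)) * var 3 + ((((num 242420) * var 0 + num 230000) * var 0) * var 1 + ((num 137020) * var 0 + num 8790) * var 0 + num (-115000)) * var 1 + ((num 7905) * var 0 + num (-405)) * var 0 + num 242500)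
    ((((((num 84672) * var 0 + num 160000) * var 0) * var 1 + ((num 60858) * var 0 + num 72664) * var 0 + num (-80000)) * var 1 + ((num 9261) * var 0 + num 8239) * var 0 + num (-17500)) * var 3 + ((((num 121716) * var 0 + num 230000) * var 0) * var 1 + ((num 68796) * var 0 + num 69142) * var 0 + num (-115000)) * var 1 + ((num 3969) * var 0 + num 3531) * var 0 + num 242500)
  pd := num 2500
  en := fun b => cond b
    ((((num (-7519050)) * var 0) * var 1 + num 626076) * var 3 + (((num 41943000) * var 0) * var 1 + ((num (-4143150)) * var 0 + num 44347050) * var 0) * var 1 + (num 71007453) * var 0 + num 9878088)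
    ((((num (-7144200)) * var 0) * var 1 + num 489888) * var 3 + (((num 39852000) * var 0) * var 1 + ((num (-3936600)) * var 0 + num 42136200) * var 0) * var 1 + (num 55561464) * var 0 + num 7729344)
  kk := fun b => cond b
    (((num 1052640) * var 0) * var 3 + ((num 4175472) * var 0) * var 1 + ((num 60526800) * var 0 + num 8193048) * var 0)
    (((num 812280) * var 0) * var 3 + ((num 3222044) * var 0) * var 1 + ((num 46706100) * var 0 + num 6322246) * var 0)
  f0 := num 5000000
  wn := fun b => cond b
    ((((((num (-64000)) * var 0 * var 0) * var 1 + ((num 71540) * var 0 + num 32000) * var 0) * var 1 + ((num 40985) * var 0 + num 11480) * var 0) * var 1 + ((num (-980)) * var 0 + num 980) * var 0) * var 3 + ((((num (-92000)) * var 0 * var 0) * var 1 + (((num (-1350375)) * var 0 + num 7070) * var 0 + num 46000) * var 0) * var 1 + (((num 123305) * var 0 + num (-90204)) * var 0 + num (-90560)) * var 0) * var 1 + ((num (-420)) * var 0 + num 420) * var 0)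
    ((((((num (-64000)) * var 0 * var 0) * var 1 + ((num 71540) * var 0 + num 32000) * var 0) * var 1 + ((num 40985) * var 0 + num 11480) * var 0) * var 1 + ((num (-980)) * var 0 + num 980) * var 0) * var 3 + ((((num (-92000)) * var 0 * var 0) * var 1 + (((num (-1350375)) * var 0 + num 3345) * var 0 + num 46000) * var 0) * var 1 + (((num 123305) * var 0 + num (-91247)) * var 0 + num (-90560)) * var 0) * var 1 + ((num (-420)) * var 0 + num 420) * var 0)
  wd := num 12500
  tn := fun b => cond b
    (((num 165053) * var 1 + num 34748) * var 3 + (num 156366) * var 1 + (num (-486472)) * var 0 + num 495159)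
    (((num 128212) * var 1 + num 26992) * var 3 + (num 121464) * var 1 + (num (-377888)) * var 0 + num 384636)
  td := num 2500000
  cn := num 1 - var 0 * var 1 - var 1 * (num 1 - num 2 * (var 0 * var 1))
  cd := (num 1 - num 2 * (var 0 * var 1)) * (num 1 - num 2 * (var 0 * var 1))
  kn := var 0 * var 1 * (((num 699) * var 3 + (num 4528) * var 1 + num (-2705)) * var 3 + (num 652) * var 1 + (num 978) * var 0 + num 1301)
  kd := num 100
  k2n := (((num (-59)) * var 0) * var 3 + ((num (-360)) * var 0) * var 1 + (num 344) * var 0) * var 3 + ((num 557) * var 0) * var 1 + (num (-296)) * var 0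
  k2d := num 100

/-- Its ranges. -/
def sevBoxJ3b : EBox :=
  ⟨(17, 20, 100), (45, 62, 100), (14, 17, 50), (3, 5, 5)⟩

/-- The chart of the bin `J4`. -/
def sevBinJ4 : EndChart where
  I := var 0 * var 1
  d := var 0
  w := var 0 * var 2
  den := num 100
  n₀ := (num 1 - num 2 * (var 0 * var 1) - var 0) * ((num 44) * var 1 + num 3)
  n₁ := (num 1 - num 2 * (var 0 * var 1) - var 0) * ((num 34) * var 1 + num 4)
  q₀ := (17, 20, 100)
  q₁ := (45, 62, 100)
  q₂ := (17, 20, 50)
  q₃ := (0, 1, 1)
  t₀ := (0, 1)
  t₁ := (1, 1)
  mu₀ := (187, 100)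
  mu₁ := (308, 100)

/-- The piece `J4a`. -/
def sevPcJ4a : Piece where
  I := var 0 * var 1
  d := var 0
  w := var 0 * var 2
  o := sevBinJ4.n₀ + sevBinJ4.n₁ * var 3
  den := num 100
  vn := num 2 * (((num 34) * var 1 + num 4) * var 3 + (num 44) * var 1 + num 3)
  vs := num 1
  mu := ⟨(187, 100), (308, 100)⟩
  pn := fun b => cond b
    ((((((num 418880) * var 0 + num 340000) * var 0) * var 1 + ((num 258720) * var 0 + num 560) * var 0 + num (-170000)) * var 1 + ((num 24640) * var 0 + num (-4640)) * var 0 + num (-20000)) * var 3 + ((((num 542080) * var 0 + num 440000) * var 0) * var 1 + ((num 308000) * var 0 + num (-21040)) * var 0 + num (-220000)) * var 1 + ((num 18480) * var 0 + num (-3480)) * var 0 + num 485000)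
    ((((((num 216172) * var 0 + num 340000) * var 0) * var 1 + ((num 133518) * var 0 + num 101914) * var 0 + num (-170000)) * var 1 + ((num 12716) * var 0 + num 7284) * var 0 + num (-20000)) * var 3 + ((((num 279752) * var 0 + num 440000) * var 0) * var 1 + ((num 158950) * var 0 + num 110124) * var 0 + num (-220000)) * var 1 + ((num 9537) * var 0 + num 5463) * var 0 + num 485000)
  pd := num 5000
  en := fun b => cond b
    ((((num (-5406000)) * var 0) * var 1 + num 652800) * var 3 + (((num 47328000) * var 0) * var 1 + ((num (-59466000)) * var 0 + num 54876000) * var 0) * var 1 + (num 80967600) * var 0 + num 11464800)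
    ((((num (-5172800)) * var 0) * var 1 + num 530944) * var 3 + (((num 45286400) * var 0) * var 1 + ((num (-56900800)) * var 0 + num 52508800) * var 0) * var 1 + (num 65853648) * var 0 + num 9324704)
  kk := fun b => cond b
    (((num 1190160) * var 0) * var 3 + ((num 4042440) * var 0) * var 1 + ((num 68105880) * var 0 + num 10383120) * var 0)
    (((num 959378) * var 0) * var 3 + ((num 3258577) * var 0) * var 1 + ((num 54899579) * var 0 + num 8369746) * var 0)
  f0 := num 5000000
  wn := fun b => cond b
    ((((((num (-272000)) * var 0 * var 0) * var 1 + ((num 443760) * var 0 + num 136000) * var 0) * var 1 + ((num 166070) * var 0 + num 39120) * var 0) * var 1 + ((num (-2720)) * var 0 + num 2720) * var 0) * var 3 + ((((num (-352000)) * var 0 * var 0) * var 1 + (((num (-6115500)) * var 0 + num 152860) * var 0 + num 176000) * var 0) * var 1 + (((num 654330) * var 0 + num (-392212)) * var 0 + num (-358080)) * var 0) * var 1 + ((num (-2040)) * var 0 + num 2040) * var 0)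
    ((((((num (-272000)) * var 0 * var 0) * var 1 + ((num 443760) * var 0 + num 136000) * var 0) * var 1 + ((num 166070) * var 0 + num 39120) * var 0) * var 1 + ((num (-2720)) * var 0 + num 2720) * var 0) * var 3 + ((((num (-352000)) * var 0 * var 0) * var 1 + (((num (-6115500)) * var 0 + num 102010) * var 0 + num 176000) * var 0) * var 1 + (((num 654330) * var 0 + num (-409501)) * var 0 + num (-358080)) * var 0) * var 1 + ((num (-2040)) * var 0 + num 2040) * var 0)
  wd := num 50000
  tn := fun b => cond b
    (((num 61920) * var 1 + num 8256) * var 3 + (num 74304) * var 1 + (num (-86688)) * var 0 + num 202272)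
    (((num 50235) * var 1 + num 6698) * var 3 + (num 60282) * var 1 + (num (-70329)) * var 0 + num 164101)
  td := num 1000000
  cn := num 1 - var 0 * var 1 - var 1 * (num 1 - num 2 * (var 0 * var 1))
  cd := (num 1 - num 2 * (var 0 * var 1)) * (num 1 - num 2 * (var 0 * var 1))
  kn := var 0 * var 1 * (((num 259) * var 3 + (num 2277) * var 1 + num (-1139)) * var 3 + (num 1735) * var 1 + (num 1194) * var 0 + num 501)
  kd := num 100
  k2n := (((num 335) * var 0) * var 3 + ((num 1798) * var 0) * var 1 + (num (-1237)) * var 0) * var 3 + ((num (-539)) * var 0) * var 1 + (num 410) * var 0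
  k2d := num 100

/-- Its ranges. -/
def sevBoxJ4a : EBox :=
  ⟨(17, 20, 100), (45, 62, 100), (17, 20, 50), (0, 3, 5)⟩

/-- The piece `J4b`. -/
def sevPcJ4b : Piece where
  I := var 0 * var 1
  d := var 0
  w := var 0 * var 2
  o := sevBinJ4.n₀ + sevBinJ4.n₁ * var 3
  den := num 100
  vn := num 2 * (((num 34) * var 1 + num 4) * var 3 + (num 44) * var 1 + num 3)
  vs := num 1
  mu := ⟨(187, 100), (308, 100)⟩
  pn := fun b => cond b
    ((((((num 418880) * var 0 + num 340000) * var 0) * var 1 + ((num 258720) * var 0 + num 560) * var 0 + num (-170000)) * var 1 + ((num 24640) * var 0 + num (-4640)) * var 0 + num (-20000)) * var 3 + ((((num 542080) * var 0 + num 440000) * var 0) * var 1 + ((num 308000) * var 0 + num (-21040)) * var 0 + num (-220000)) * var 1 + ((num 18480) * var 0 + num (-3480)) * var 0 + num 485000)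
    ((((((num 216172) * var 0 + num 340000) * var 0) * var 1 + ((num 133518) * var 0 + num 101914) * var 0 + num (-170000)) * var 1 + ((num 12716) * var 0 + num 7284) * var 0 + num (-20000)) * var 3 + ((((num 279752) * var 0 + num 440000) * var 0) * var 1 + ((num 158950) * var 0 + num 110124) * var 0 + num (-220000)) * var 1 + ((num 9537) * var 0 + num 5463) * var 0 + num 485000)
  pd := num 5000
  en := fun b => cond b
    ((((num (-1366925)) * var 0) * var 1 + num 153300) * var 3 + (((num 12928300) * var 0) * var 1 + ((num (-6924050)) * var 0 + num 10782100) * var 0) * var 1 + (num 20787480) * var 0 + num 2887150)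
    ((((num (-1300050)) * var 0) * var 1 + num 123930) * var 3 + (((num 12295800) * var 0) * var 1 + ((num (-6585300)) * var 0 + num 10254600) * var 0) * var 1 + (num 16804908) * var 0 + num 2334015)
  kk := fun b => cond b
    (((num 283250) * var 0) * var 3 + ((num 1210250) * var 0) * var 1 + ((num 17566650) * var 0 + num 2425650) * var 0)
    (((num 226270) * var 0) * var 3 + ((num 966790) * var 0) * var 1 + ((num 14032854) * var 0 + num 1937694) * var 0)
  f0 := num 1250000
  wn := fun b => cond b
    ((((((num (-272000)) * var 0 * var 0) * var 1 + ((num 384760) * var 0 + num 136000) * var 0) * var 1 + ((num 149240) * var 0 + num 39120) * var 0) * var 1 + ((num (-2720)) * var 0 + num 2720) * var 0) * var 3 + ((((num (-352000)) * var 0 * var 0) * var 1 + (((num (-5606000)) * var 0 + num 23610) * var 0 + num 176000) * var 0) * var 1 + (((num 481270) * var 0 + num (-346567)) * var 0 + num (-358080)) * var 0) * var 1 + ((num (-2040)) * var 0 + num 2040) * var 0)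
    ((((((num (-272000)) * var 0 * var 0) * var 1 + ((num 384760) * var 0 + num 136000) * var 0) * var 1 + ((num 149240) * var 0 + num 39120) * var 0) * var 1 + ((num (-2720)) * var 0 + num 2720) * var 0) * var 3 + ((((num (-352000)) * var 0 * var 0) * var 1 + (((num (-5606000)) * var 0 + num (-3240)) * var 0 + num 176000) * var 0) * var 1 + (((num 481270) * var 0 + num (-355696)) * var 0 + num (-358080)) * var 0) * var 1 + ((num (-2040)) * var 0 + num 2040) * var 0)
  wd := num 50000
  tn := fun b => cond b
    (((num 186300) * var 1 + num 20700) * var 3 + (num 175950) * var 1 + (num (-455400)) * var 0 + num 548550)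
    (((num 149634) * var 1 + num 16626) * var 3 + (num 141321) * var 1 + (num (-365772)) * var 0 + num 440589)
  td := num 2500000
  cn := num 1 - var 0 * var 1 - var 1 * (num 1 - num 2 * (var 0 * var 1))
  cd := (num 1 - num 2 * (var 0 * var 1)) * (num 1 - num 2 * (var 0 * var 1))
  kn := var 0 * var 1 * (((num 518) * var 3 + (num 3936) * var 1 + num (-2314)) * var 3 + (num 911) * var 1 + (num 1527) * var 0 + num 979)
  kd := num 100
  k2n := (((num (-60)) * var 0) * var 3 + ((num (-337)) * var 0) * var 1 + (num 334) * var 0) * var 3 + ((num 559) * var 0) * var 1 + (num (-308)) * var 0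
  k2d := num 100

/-- Its ranges. -/
def sevBoxJ4b : EBox :=
  ⟨(17, 20, 100), (45, 62, 100), (17, 20, 50), (3, 5, 5)⟩

/-- The chart of the bin `J5`. -/
def sevBinJ5 : EndChart where
  I := var 0 * var 1
  d := var 0
  w := var 0 * var 2
  den := num 1000
  n₀ := (num 1 - num 2 * (var 0 * var 1) - var 0) * ((num 414) * var 1 + num 34)
  n₁ := (num 1 - num 2 * (var 0 * var 1) - var 0) * ((num 483) * var 1 + num (-75))
  q₀ := (34, 37, 200)
  q₁ := (45, 62, 100)
  q₂ := (10, 12, 25)
  q₃ := (0, 1, 1)
  t₀ := (0, 1)
  t₁ := (1, 1)
  mu₀ := (185, 100)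
  mu₁ := (292, 100)

/-- The piece `J5a`. -/
def sevPcJ5a : Piece where
  I := var 0 * var 1
  d := var 0
  w := var 0 * var 2
  o := sevBinJ5.n₀ + sevBinJ5.n₁ * var 3
  den := num 1000
  vn := num 2 * (((num 483) * var 1 + num (-75)) * var 3 + (num 414) * var 1 + num 34)
  vs := num 1
  mu := ⟨(185, 100), (292, 100)⟩
  pn := fun b => cond b
    ((((((num 1692432) * var 0 + num 1207500) * var 0) * var 1 + ((num 583416) * var 0 + num (-429966)) * var 0 + num (-603750)) * var 1 + ((num (-131400)) * var 0 + num 37650) * var 0 + num 93750) * var 3 + ((((num 1450656) * var 0 + num 1035000) * var 0) * var 1 + ((num 844464) * var 0 + num (-122828)) * var 0 + num (-517500)) * var 1 + ((num 59568) * var 0 + num (-17068)) * var 0 + num 1207500)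
    ((((((num 893550) * var 0 + num 1207500) * var 0) * var 1 + ((num 308025) * var 0 + num (-30525)) * var 0 + num (-603750)) * var 1 + ((num (-69375)) * var 0 + num (-24375)) * var 0 + num 93750) * var 3 + ((((num 765900) * var 0 + num 1035000) * var 0) * var 1 + ((num 445850) * var 0 + num 219550) * var 0 + num (-517500)) * var 1 + ((num 31450) * var 0 + num 11050) * var 0 + num 1207500)
  pd := num 1250
  en := fun b => cond b
    ((((num (-711200)) * var 0) * var 1 + num 97536) * var 3 + (((num 6915150) * var 0) * var 1 + ((num (-3079750)) * var 0 + num 5651500) * var 0) * var 1 + (num 11679936) * var 0 + num 1758696)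
    ((((num (-686000)) * var 0) * var 1 + num 78400) * var 3 + (((num 6670125) * var 0) * var 1 + ((num (-2970625)) * var 0 + num 5451250) * var 0) * var 1 + (num 9388400) * var 0 + num 1413650)
  kk := fun b => cond b
    (((num 137835) * var 0) * var 3 + ((num 572781) * var 0) * var 1 + ((num 10438704) * var 0 + num 1497807) * var 0)
    (((num 110250) * var 0) * var 3 + ((num 458150) * var 0) * var 1 + ((num 8349600) * var 0 + num 1198050) * var 0)
  f0 := num 625000
  wn := fun b => cond b
    ((((((num (-38640)) * var 0 * var 0) * var 1 + ((num 80452) * var 0 + num 19320) * var 0) * var 1 + ((num (-304)) * var 0 + num 864) * var 0) * var 1 + ((num 600) * var 0 + num (-600)) * var 0) * var 3 + ((((num (-33120)) * var 0 * var 0) * var 1 + (((num (-477300)) * var 0 + num (-11389)) * var 0 + num 16560) * var 0) * var 1 + (((num (-10560)) * var 0 + num (-24890)) * var 0 + num (-35328)) * var 0) * var 1 + ((num (-272)) * var 0 + num 272) * var 0)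
    ((((((num (-38640)) * var 0 * var 0) * var 1 + ((num 80452) * var 0 + num 19320) * var 0) * var 1 + ((num (-304)) * var 0 + num 864) * var 0) * var 1 + ((num 600) * var 0 + num (-600)) * var 0) * var 3 + ((((num (-33120)) * var 0 * var 0) * var 1 + (((num (-477300)) * var 0 + num (-18569)) * var 0 + num 16560) * var 0) * var 1 + (((num (-10560)) * var 0 + num (-27762)) * var 0 + num (-35328)) * var 0) * var 1 + ((num (-272)) * var 0 + num 272) * var 0)
  wd := num 5000
  tn := fun b => cond b
    (((num 61020) * var 1 + num (-9153)) * var 3 + (num 51867) * var 1 + (num (-36612)) * var 0 + num 140346)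
    (((num 49700) * var 1 + num (-7455)) * var 3 + (num 42245) * var 1 + (num (-29820)) * var 0 + num 114310)
  td := num 625000
  cn := num 1 - var 0 * var 1 - var 1 * (num 1 - num 2 * (var 0 * var 1))
  cd := (num 1 - num 2 * (var 0 * var 1)) * (num 1 - num 2 * (var 0 * var 1))
  kn := var 0 * var 1 * (((num 179) * var 3 + (num 2336) * var 1 + num (-1198)) * var 3 + (num 1653) * var 1 + (num 1381) * var 0 + num 487)
  kd := num 100
  k2n := (((num 121) * var 0) * var 3 + ((num 1748) * var 0) * var 1 + (num (-1071)) * var 0) * var 3 + ((num (-648)) * var 0) * var 1 + (num 449) * var 0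
  k2d := num 100

/-- Its ranges. -/
def sevBoxJ5a : EBox :=
  ⟨(34, 37, 200), (45, 62, 100), (10, 12, 25), (0, 3, 5)⟩

/-- The piece `J5b`. -/
def sevPcJ5b : Piece where
  I := var 0 * var 1
  d := var 0
  w := var 0 * var 2
  o := sevBinJ5.n₀ + sevBinJ5.n₁ * var 3
  den := num 1000
  vn := num 2 * (((num 483) * var 1 + num (-75)) * var 3 + (num 414) * var 1 + num 34)
  vs := num 1
  mu := ⟨(185, 100), (292, 100)⟩
  pn := fun b => cond b
    ((((((num 1692432) * var 0 + num 1207500) * var 0) * var 1 + ((num 583416) * var 0 + num (-429966)) * var 0 + num (-603750)) * var 1 + ((num (-131400)) * var 0 + num 37650) * var 0 + num 93750) * var 3 + ((((num 1450656) * var 0 + num 1035000) * var 0) * var 1 + ((num 844464) * var 0 + num (-122828)) * var 0 + num (-517500)) * var 1 + ((num 59568) * var 0 + num (-17068)) * var 0 + num 1207500)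
    ((((((num 893550) * var 0 + num 1207500) * var 0) * var 1 + ((num 308025) * var 0 + num (-30525)) * var 0 + num (-603750)) * var 1 + ((num (-69375)) * var 0 + num (-24375)) * var 0 + num 93750) * var 3 + ((((num 765900) * var 0 + num 1035000) * var 0) * var 1 + ((num 445850) * var 0 + num 219550) * var 0 + num (-517500)) * var 1 + ((num 31450) * var 0 + num 11050) * var 0 + num 1207500)
  pd := num 1250
  en := fun b => cond b
    ((((num (-3337225)) * var 0) * var 1 + num 415752) * var 3 + (((num 30289775) * var 0) * var 1 + ((num (-2445600)) * var 0 + num 18724125) * var 0) * var 1 + (num 48190548) * var 0 + num 6921048)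
    ((((num (-3202950)) * var 0) * var 1 + num 332520) * var 3 + (((num 29071050) * var 0) * var 1 + ((num (-2347200)) * var 0 + num 17970750) * var 0) * var 1 + (num 38542980) * var 0 + num 5535480)
  kk := fun b => cond b
    (((num 528384) * var 0) * var 3 + ((num 2973696) * var 0) * var 1 + ((num 42774528) * var 0 + num 5517312) * var 0)
    (((num 419250) * var 0) * var 3 + ((num 2359500) * var 0) * var 1 + ((num 33939750) * var 0 + num 4377750) * var 0)
  f0 := num 2500000
  wn := fun b => cond b
    ((((((num (-38640)) * var 0 * var 0) * var 1 + ((num 75602) * var 0 + num 19320) * var 0) * var 1 + ((num (-1264)) * var 0 + num 864) * var 0) * var 1 + ((num 600) * var 0 + num (-600)) * var 0) * var 3 + ((((num (-33120)) * var 0 * var 0) * var 1 + (((num (-472400)) * var 0 + num (-17469)) * var 0 + num 16560) * var 0) * var 1 + (((num (-5940)) * var 0 + num (-24322)) * var 0 + num (-35328)) * var 0) * var 1 + ((num (-272)) * var 0 + num 272) * var 0)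
    ((((((num (-38640)) * var 0 * var 0) * var 1 + ((num 75602) * var 0 + num 19320) * var 0) * var 1 + ((num (-1264)) * var 0 + num 864) * var 0) * var 1 + ((num 600) * var 0 + num (-600)) * var 0) * var 3 + ((((num (-33120)) * var 0 * var 0) * var 1 + (((num (-472400)) * var 0 + num (-23579)) * var 0 + num 16560) * var 0) * var 1 + (((num (-5940)) * var 0 + num (-26766)) * var 0 + num (-35328)) * var 0) * var 1 + ((num (-272)) * var 0 + num 272) * var 0)
  wd := num 5000
  tn := fun b => cond b
    (((num 144288) * var 1 + num (-24048)) * var 3 + (num 96192) * var 1 + (num (-174348)) * var 0 + num 300600)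
    (((num 116760) * var 1 + num (-19460)) * var 3 + (num 77840) * var 1 + (num (-141085)) * var 0 + num 243250)
  td := num 1250000
  cn := num 1 - var 0 * var 1 - var 1 * (num 1 - num 2 * (var 0 * var 1))
  cd := (num 1 - num 2 * (var 0 * var 1)) * (num 1 - num 2 * (var 0 * var 1))
  kn := var 0 * var 1 * (((num 440) * var 3 + (num 3820) * var 1 + num (-2321)) * var 3 + (num 864) * var 1 + (num 2004) * var 0 + num 925)
  kd := num 100
  k2n := (((num 58) * var 0) * var 3 + ((num 125) * var 0) * var 1 + (num (-115)) * var 0) * var 3 + ((num 256) * var 0) * var 1 + (num (-71)) * var 0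
  k2d := num 100

/-- Its ranges. -/
def sevBoxJ5b : EBox :=
  ⟨(34, 37, 200), (45, 62, 100), (10, 12, 25), (3, 5, 5)⟩

/-- The chart of the bin `J6`. -/
def sevBinJ6 : EndChart where
  I := var 0 * var 1
  d := var 0
  w := var 0 * var 2
  den := num 1000
  n₀ := (num 1 - num 2 * (var 0 * var 1) - var 0) * ((num 393) * var 1 + num 10)
  n₁ := (num 1 - num 2 * (var 0 * var 1) - var 0) * ((num 456) * var 1 + num (-48))
  q₀ := (34, 37, 200)
  q₁ := (45, 62, 100)
  q₂ := (24, 33, 50)
  q₃ := (0, 1, 1)
  t₀ := (0, 1)
  t₁ := (1, 1)
  mu₀ := (168, 100)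
  mu₁ := (290, 100)

/-- The piece `J6a`. -/
def sevPcJ6a : Piece where
  I := var 0 * var 1
  d := var 0
  w := var 0 * var 2
  o := sevBinJ6.n₀ + sevBinJ6.n₁ * var 3
  den := num 1000
  vn := num 2 * (((num 456) * var 1 + num (-48)) * var 3 + (num 393) * var 1 + num 10)
  vs := num 1
  mu := ⟨(168, 100), (290, 100)⟩
  pn := fun b => cond b
    ((((((num 4363920) * var 0 + num 2280000) * var 0) * var 1 + ((num 1722600) * var 0 + num (-1281960)) * var 0 + num (-1140000)) * var 1 + ((num (-229680)) * var 0 + num 109680) * var 0 + num 120000) * var 3 + ((((num 3761010) * var 0 + num 1965000) * var 0) * var 1 + ((num 1976205) * var 0 + num (-848005)) * var 0 + num (-982500)) * var 1 + ((num 47850) * var 0 + num (-22850)) * var 0 + num 2475000)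
    ((((((num 1838592) * var 0 + num 2280000) * var 0) * var 1 + ((num 725760) * var 0 + num (-19296)) * var 0 + num (-1140000)) * var 1 + ((num (-96768)) * var 0 + num (-23232)) * var 0 + num 120000) * var 3 + ((((num 1584576) * var 0 + num 1965000) * var 0) * var 1 + ((num 832608) * var 0 + num 240212) * var 0 + num (-982500)) * var 1 + ((num 20160) * var 0 + num 4840) * var 0 + num 2475000)
  pd := num 2500
  en := fun b => cond b
    ((((num (-5564450)) * var 0) * var 1 + num 1145562) * var 3 + (((num 73818300) * var 0) * var 1 + ((num (-92145250)) * var 0 + num 48752750) * var 0) * var 1 + (num 133828596) * var 0 + num 18194220)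
    ((((num (-5302850)) * var 0) * var 1 + num 793968) * var 3 + (((num 70347900) * var 0) * var 1 + ((num (-87813250)) * var 0 + num 46460750) * var 0) * var 1 + (num 92754144) * var 0 + num 12610080)
  kk := fun b => cond b
    (((num 1522125) * var 0) * var 3 + ((num 6562050) * var 0) * var 1 + ((num 114159375) * var 0 + num 16202175) * var 0)
    (((num 1053000) * var 0) * var 3 + ((num 4539600) * var 0) * var 1 + ((num 78975000) * var 0 + num 11208600) * var 0)
  f0 := num 5000000
  wn := fun b => cond b
    ((((((num (-182400)) * var 0 * var 0) * var 1 + ((num 272724) * var 0 + num 91200) * var 0) * var 1 + ((num 101520) * var 0 + num 12288) * var 0) * var 1 + ((num 2304) * var 0 + num (-2304)) * var 0) * var 3 + ((((num (-157200)) * var 0 * var 0) * var 1 + (((num (-1935250)) * var 0 + num (-147878)) * var 0 + num 78600) * var 0) * var 1 + (((num (-332760)) * var 0 + num (-99928)) * var 0 + num (-179136)) * var 0) * var 1 + ((num (-480)) * var 0 + num 480) * var 0)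
    ((((((num (-182400)) * var 0 * var 0) * var 1 + ((num 272724) * var 0 + num 91200) * var 0) * var 1 + ((num 101520) * var 0 + num 12288) * var 0) * var 1 + ((num 2304) * var 0 + num (-2304)) * var 0) * var 3 + ((((num (-157200)) * var 0 * var 0) * var 1 + (((num (-1935250)) * var 0 + num (-219953)) * var 0 + num 78600) * var 0) * var 1 + (((num (-332760)) * var 0 + num (-134524)) * var 0 + num (-179136)) * var 0) * var 1 + ((num (-480)) * var 0 + num 480) * var 0)
  wd := num 25000
  tn := fun b => cond b
    (((num 557073) * var 1 + num (-32769)) * var 3 + (num 491535) * var 1 + (num (-163845)) * var 0 + num 1376298)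
    (((num 405960) * var 1 + num (-23880)) * var 3 + (num 358200) * var 1 + (num (-119400)) * var 0 + num 1002960)
  td := num 5000000
  cn := num 1 - var 0 * var 1 - var 1 * (num 1 - num 2 * (var 0 * var 1))
  cd := (num 1 - num 2 * (var 0 * var 1)) * (num 1 - num 2 * (var 0 * var 1))
  kn := var 0 * var 1 * (((num 437) * var 3 + (num 3386) * var 1 + num (-1806)) * var 3 + (num 1287) * var 1 + (num 1579) * var 0 + num 740)
  kd := num 100
  k2n := (((num 263) * var 0) * var 3 + ((num 1264) * var 0) * var 1 + (num (-1005)) * var 0) * var 3 + ((num (-519)) * var 0) * var 1 + (num 469) * var 0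
  k2d := num 100

/-- Its ranges. -/
def sevBoxJ6a : EBox :=
  ⟨(34, 37, 200), (45, 62, 100), (24, 33, 50), (0, 1, 1)⟩

/-- The chart of the bin `J7`. -/
def sevBinJ7 : EndChart where
  I := var 0 * var 1
  d := var 0
  w := var 0 * var 2
  den := num 1000
  n₀ := (num 1 - num 2 * (var 0 * var 1) - var 0) * ((num 294) * var 1 + num 20)
  n₁ := (num 1 - num 2 * (var 0 * var 1) - var 0) * ((num 417) * var 1 + num (-21))
  q₀ := (34, 37, 200)
  q₁ := (45, 62, 100)
  q₂ := (33, 50, 50)
  q₃ := (0, 1, 1)
  t₀ := (0, 1)
  t₁ := (1, 1)
  mu₀ := (139, 100)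
  mu₁ := (296, 100)

/-- The piece `J7a`. -/
def sevPcJ7a : Piece where
  I := var 0 * var 1
  d := var 0
  w := var 0 * var 2
  o := sevBinJ7.n₀ + sevBinJ7.n₁ * var 3
  den := num 1000
  vn := num 2 * (((num 417) * var 1 + num (-21)) * var 3 + (num 294) * var 1 + num 20)
  vs := num 1
  mu := ⟨(139, 100), (296, 100)⟩
  pn := fun b => cond b
    ((((((num 12343200) * var 0 + num 4170000) * var 0) * var 1 + ((num 5550000) * var 0 + num (-4296600)) * var 0 + num (-2085000)) * var 1 + ((num (-310800)) * var 0 + num 205800) * var 0 + num 105000) * var 3 + ((((num 8702400) * var 0 + num 2940000) * var 0) * var 1 + ((num 4943200) * var 0 + num (-2681200)) * var 0 + num (-1470000)) * var 1 + ((num 296000) * var 0 + num (-196000)) * var 0 + num 4900000)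
    ((((((num 3825558) * var 0 + num 4170000) * var 0) * var 1 + ((num 1720125) * var 0 + num (-37779)) * var 0 + num (-2085000)) * var 1 + ((num (-96327)) * var 0 + num (-8673)) * var 0 + num 105000) * var 3 + ((((num 2697156) * var 0 + num 2940000) * var 0) * var 1 + ((num 1532058) * var 0 + num 321422) * var 0 + num (-1470000)) * var 1 + ((num 91740) * var 0 + num 8260) * var 0 + num 4900000)
  pd := num 5000
  en := fun b => cond b
    ((((num (-3635200)) * var 0) * var 1 + num 1638400) * var 3 + (((num 100505600) * var 0) * var 1 + ((num (-172902400)) * var 0 + num 51302400) * var 0) * var 1 + (num 199680000) * var 0 + num 27392000)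
    ((((num (-3439950)) * var 0) * var 1 + num 1023264) * var 3 + (((num 95107350) * var 0) * var 1 + ((num (-163615650)) * var 0 + num 48546900) * var 0) * var 1 + (num 124710300) * var 0 + num 17107695)
  kk := fun b => cond b
    (((num 2156700) * var 0) * var 3 + ((num 8164650) * var 0) * var 1 + ((num 168633400) * var 0 + num 25572300) * var 0)
    (((num 1348578) * var 0) * var 3 + ((num 5105331) * var 0) * var 1 + ((num 105445956) * var 0 + num 15990282) * var 0)
  f0 := num 5000000
  wn := fun b => cond b
    ((((((num (-166800)) * var 0 * var 0) * var 1 + ((num 184706) * var 0 + num 83400) * var 0) * var 1 + ((num 227280) * var 0 + num 23322) * var 0) * var 1 + ((num 1386) * var 0 + num (-1386)) * var 0) * var 3 + ((((num (-117600)) * var 0 * var 0) * var 1 + (((num (-1887250)) * var 0 + num (-248608)) * var 0 + num 58800) * var 0) * var 1 + (((num (-571725)) * var 0 + num (-64014)) * var 0 + num (-176596)) * var 0) * var 1 + ((num (-1320)) * var 0 + num 1320) * var 0)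
    ((((((num (-166800)) * var 0 * var 0) * var 1 + ((num 184706) * var 0 + num 83400) * var 0) * var 1 + ((num 227280) * var 0 + num 23322) * var 0) * var 1 + ((num 1386) * var 0 + num (-1386)) * var 0) * var 3 + ((((num (-117600)) * var 0 * var 0) * var 1 + (((num (-1887250)) * var 0 + num (-349058)) * var 0 + num 58800) * var 0) * var 1 + (((num (-571725)) * var 0 + num (-130311)) * var 0 + num (-176596)) * var 0) * var 1 + ((num (-1320)) * var 0 + num 1320) * var 0)
  wd := num 25000
  tn := fun b => cond b
    (((num 218475) * var 1 + num 24275) * var 3 + (num 291300) * var 1 + (num 267025) * var 0 + num 873900)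
    (((num 150282) * var 1 + num 16698) * var 3 + (num 200376) * var 1 + (num 183678) * var 0 + num 601128)
  td := num 2500000
  cn := num 1 - var 0 * var 1 - var 1 * (num 1 - num 2 * (var 0 * var 1))
  cd := (num 1 - num 2 * (var 0 * var 1)) * (num 1 - num 2 * (var 0 * var 1))
  kn := var 0 * var 1 * (((num 437) * var 3 + (num 3138) * var 1 + num (-1666)) * var 3 + (num 961) * var 1 + (num 1584) * var 0 + num 848)
  kd := num 100
  k2n := (((num 316) * var 0) * var 3 + ((num 1260) * var 0) * var 1 + (num (-1082)) * var 0) * var 3 + ((num (-507)) * var 0) * var 1 + (num 505) * var 0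
  k2d := num 100

/-- Its ranges. -/
def sevBoxJ7a : EBox :=
  ⟨(34, 37, 200), (45, 62, 100), (33, 50, 50), (0, 1, 1)⟩

end Vale.Agent.P100.Calib.StripEndD
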