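import Vale.Agent.P100.Calib.SlabStripEndDExpr
import Vale.Agent.P100.Calib.SlabStripEndCert
import Vale.Agent.P100.Calib.SlabStripEndChart

/-!
# The bins `L` of the `D` region for `N` between seven and twenty

`x = (d, I / d, (1 - u) / d, t)`, with `v` affine in `t`.
-/

namespace Vale.Agent.P100.Calib.StripEndD

open Pack hiding ev_add ev_mul
open Pack.Ex StripMid StripEnd

local instance endSevDataLAdd : Add Ex := ⟨Ex.add⟩
local instance endSevDataLSub : Sub Ex := ⟨Ex.sub⟩
local instance endSevDataLMul : Mul Ex := ⟨Ex.mul⟩

/-- The chart of the bin `L0`. -/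
def sevBinL0 : EndChart where
  I := var 0 * var 1
  d := var 0
  w := var 0 * var 2
  den := num 100
  n₀ := (num 1 - num 2 * (var 0 * var 1) - var 0) * ((num 76) * var 1 + num 2)
  n₁ := (num 1 - num 2 * (var 0 * var 1) - var 0) * ((num 56) * var 1 + num (-6))
  q₀ := (5, 6, 25)
  q₁ := (26, 40, 125)
  q₂ := (0, 3, 100)
  q₃ := (0, 1, 1)
  t₀ := (0, 1)
  t₁ := (1, 1)
  mu₀ := (216, 100)
  mu₁ := (280, 100)

/-- The piece `L0a`. -/
def sevPcL0a : Piece where
  I := var 0 * var 1
  d := var 0
  w := var 0 * var 2
  o := sevBinL0.n₀ + sevBinL0.n₁ * var 3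
  den := num 100
  vn := num 2 * (((num 56) * var 1 + num (-6)) * var 3 + (num 76) * var 1 + num 2)
  vs := num 1
  mu := ⟨(216, 100), (280, 100)⟩
  pn := fun b => cond b
    ((((((num 1176) * var 0 + num 14000) * var 0) * var 1 + ((num 462) * var 0 + num 4912) * var 0 + num (-7000)) * var 1 + ((num (-63)) * var 0 + num (-687)) * var 0 + num 750) * var 3 + ((((num 1596) * var 0 + num 19000) * var 0) * var 1 + ((num 840) * var 0 + num 9202) * var 0 + num (-9500)) * var 1 + ((num 21) * var 0 + num 229) * var 0 + num 12250)
    (((((num 14000) * var 0) * var 1 + (num 5500) * var 0 + num (-7000)) * var 1 + (num (-750)) * var 0 + num 750) * var 3 + (((num 19000) * var 0) * var 1 + (num 10000) * var 0 + num (-9500)) * var 1 + (num 250) * var 0 + num 12250)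
  pd := num 125
  en := fun b => cond b
    ((((num (-9531600)) * var 0) * var 1 + num 124722) * var 3 + (((num (-38532000)) * var 0) * var 1 + ((num (-6793800)) * var 0 + num 149362200) * var 0) * var 1 + (num 8036964) * var 0 + num 2184156)
    ((((num (-9212000)) * var 0) * var 1) * var 3 + (((num (-37240000)) * var 0) * var 1 + ((num (-6566000)) * var 0 + num 144354000) * var 0) * var 1)
  kk := fun b => cond b
    (((num 91350) * var 0) * var 3 + ((num 2058420) * var 0) * var 1 + ((num 7499835) * var 0 + num 1677795) * var 0)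
    (num 0)
  f0 := num 10000000
  wn := fun b => cond b
    ((((((num (-8960)) * var 0 * var 0) * var 1 + ((num 3920) * var 0 + num 4480) * var 0) * var 1 + ((num 480) * var 0 + num (-480)) * var 0) * var 1) * var 3 + ((((num (-12160)) * var 0 * var 0) * var 1 + (((num (-46260)) * var 0 + num 1263) * var 0 + num 6080) * var 0) * var 1 + ((num (-8160)) * var 0 + num (-7840)) * var 0) * var 1)
    ((((((num (-8960)) * var 0 * var 0) * var 1 + ((num 3920) * var 0 + num 4480) * var 0) * var 1 + ((num 480) * var 0 + num (-480)) * var 0) * var 1) * var 3 + ((((num (-12160)) * var 0 * var 0) * var 1 + (((num (-46260)) * var 0 + num (-621)) * var 0 + num 6080) * var 0) * var 1 + ((num (-8160)) * var 0 + num (-7840)) * var 0) * var 1)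
  wd := num 1000
  tn := fun b => cond b
    (((num 121080) * var 1 + num (-15135)) * var 3 + (num 127134) * var 1 + (num (-63567)) * var 0 + num 169512)
    (num 0)
  td := num 10000000
  cn := num 1 - var 0 * var 1 - var 1 * (num 1 - num 2 * (var 0 * var 1))
  cd := (num 1 - num 2 * (var 0 * var 1)) * (num 1 - num 2 * (var 0 * var 1))
  kn := var 0 * var 1 * (((num (-120)) * var 3 + (num (-2440)) * var 1 + num (-176)) * var 3 + (num 1576) * var 1 + (num (-1227)) * var 0 + num 918)
  kd := num 100
  k2n := (((num 1485) * var 0) * var 3 + ((num 5224) * var 0) * var 1 + (num (-3087)) * var 0) * var 3 + ((num (-3163)) * var 0) * var 1 + (num 1466) * var 0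
  k2d := num 100

/-- Its ranges. -/
def sevBoxL0a : EBox :=
  ⟨(5, 6, 25), (26, 40, 125), (0, 3, 100), (0, 3, 5)⟩

/-- The piece `L0b`. -/
def sevPcL0b : Piece where
  I := var 0 * var 1
  d := var 0
  w := var 0 * var 2
  o := sevBinL0.n₀ + sevBinL0.n₁ * var 3
  den := num 100
  vn := num 2 * (((num 56) * var 1 + num (-6)) * var 3 + (num 76) * var 1 + num 2)
  vs := num 1
  mu := ⟨(216, 100), (280, 100)⟩
  pn := fun b => cond b
    ((((((num 1176) * var 0 + num 14000) * var 0) * var 1 + ((num 462) * var 0 + num 4912) * var 0 + num (-7000)) * var 1 + ((num (-63)) * var 0 + num (-687)) * var 0 + num 750) * var 3 + ((((num 1596) * var 0 + num 19000) * var 0) * var 1 + ((num 840) * var 0 + num 9202) * var 0 + num (-9500)) * var 1 + ((num 21) * var 0 + num 229) * var 0 + num 12250)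
    (((((num 14000) * var 0) * var 1 + (num 5500) * var 0 + num (-7000)) * var 1 + (num (-750)) * var 0 + num 750) * var 3 + (((num 19000) * var 0) * var 1 + (num 10000) * var 0 + num (-9500)) * var 1 + (num 250) * var 0 + num 12250)
  pd := num 125
  en := fun b => cond b
    ((((num (-9430200)) * var 0) * var 1 + num 115596) * var 3 + (((num (-63780600)) * var 0) * var 1 + ((num 6185400) * var 0 + num 153215400) * var 0) * var 1 + (num 8222526) * var 0 + num 2135484)
    ((((num (-9114000)) * var 0) * var 1) * var 3 + (((num (-61642000)) * var 0) * var 1 + ((num 5978000) * var 0 + num 148078000) * var 0) * var 1)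
  kk := fun b => cond b
    (((num 88305) * var 0) * var 3 + ((num 2338560) * var 0) * var 1 + ((num 7633815) * var 0 + num 1577310) * var 0)
    (num 0)
  f0 := num 10000000
  wn := fun b => cond b
    ((((((num (-8960)) * var 0 * var 0) * var 1 + ((num 3320) * var 0 + num 4480) * var 0) * var 1 + ((num 480) * var 0 + num (-480)) * var 0) * var 1) * var 3 + ((((num (-12160)) * var 0 * var 0) * var 1 + (((num (-43420)) * var 0 + num 177) * var 0 + num 6080) * var 0) * var 1 + ((num (-8160)) * var 0 + num (-7840)) * var 0) * var 1)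
    ((((((num (-8960)) * var 0 * var 0) * var 1 + ((num 3320) * var 0 + num 4480) * var 0) * var 1 + ((num 480) * var 0 + num (-480)) * var 0) * var 1) * var 3 + ((((num (-12160)) * var 0 * var 0) * var 1 + (((num (-43420)) * var 0 + num (-536)) * var 0 + num 6080) * var 0) * var 1 + ((num (-8160)) * var 0 + num (-7840)) * var 0) * var 1)
  wd := num 1000
  tn := fun b => cond b
    (((num 69255) * var 1 + num (-9234)) * var 3 + (num 61560) * var 1 + (num (-43092)) * var 0 + num 87723)
    (num 0)
  td := num 5000000
  cn := num 1 - var 0 * var 1 - var 1 * (num 1 - num 2 * (var 0 * var 1))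
  cd := (num 1 - num 2 * (var 0 * var 1)) * (num 1 - num 2 * (var 0 * var 1))
  kn := var 0 * var 1 * (((num 5419) * var 3 + (num 12674) * var 1 + num (-10862)) * var 3 + (num (-7749)) * var 1 + (num (-2688)) * var 0 + num 5819)
  kd := num 100
  k2n := (((num (-135)) * var 0) * var 3 + ((num (-1845)) * var 0) * var 1 + (num 1260) * var 0) * var 3 + ((num 1825) * var 0) * var 1 + (num (-802)) * var 0
  k2d := num 100

/-- Its ranges. -/
def sevBoxL0b : EBox :=
  ⟨(5, 6, 25), (26, 40, 125), (0, 3, 100), (3, 5, 5)⟩

/-- The chart of the bin `L1`. -/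
def sevBinL1 : EndChart where
  I := var 0 * var 1
  d := var 0
  w := var 0 * var 2
  den := num 100
  n₀ := (num 1 - num 2 * (var 0 * var 1) - var 0) * ((num 68) * var 1 + num 1)
  n₁ := (num 1 - num 2 * (var 0 * var 1) - var 0) * ((num 50) * var 1 + num (-2))
  q₀ := (5, 6, 25)
  q₁ := (26, 40, 125)
  q₂ := (3, 13, 100)
  q₃ := (0, 1, 1)
  t₀ := (0, 1)
  t₁ := (1, 1)
  mu₀ := (201, 100)
  mu₁ := (279, 100)

/-- The piece `L1a`. -/
def sevPcL1a : Piece where
  I := var 0 * var 1
  d := var 0
  w := var 0 * var 2
  o := sevBinL1.n₀ + sevBinL1.n₁ * var 3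
  den := num 100
  vn := num 2 * (((num 50) * var 1 + num (-2)) * var 3 + (num 68) * var 1 + num 1)
  vs := num 1
  mu := ⟨(201, 100), (279, 100)⟩
  pn := fun b => cond b
    ((((((num 362700) * var 0 + num 1000000) * var 0) * var 1 + ((num 166842) * var 0 + num 278650) * var 0 + num (-500000)) * var 1 + ((num (-7254)) * var 0 + num (-12746)) * var 0 + num 20000) * var 3 + ((((num 493272) * var 0 + num 1360000) * var 0) * var 1 + ((num 253890) * var 0 + num 453364) * var 0 + num (-680000)) * var 1 + ((num 3627) * var 0 + num 6373) * var 0 + num 990000)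
    ((((((num 60300) * var 0 + num 1000000) * var 0) * var 1 + ((num 27738) * var 0 + num 429850) * var 0 + num (-500000)) * var 1 + ((num (-1206)) * var 0 + num (-18794)) * var 0 + num 20000) * var 3 + ((((num 82008) * var 0 + num 1360000) * var 0) * var 1 + ((num 42210) * var 0 + num 658996) * var 0 + num (-680000)) * var 1 + ((num 603) * var 0 + num 9397) * var 0 + num 990000)
  pd := num 10000
  en := fun b => cond b
    ((((num (-6108000)) * var 0) * var 1 + num 271297) * var 3 + (((num 19392900) * var 0) * var 1 + ((num (-17306000)) * var 0 + num 69427600) * var 0) * var 1 + (num 18395260) * var 0 + num 4473092)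
    ((((num (-5796000)) * var 0) * var 1 + num 59409) * var 3 + (((num 18402300) * var 0) * var 1 + ((num (-16422000)) * var 0 + num 65881200) * var 0) * var 1 + (num 4028220) * var 0 + num 979524)
  kk := fun b => cond b
    (((num 244829) * var 0) * var 3 + ((num 4387071) * var 0) * var 1 + ((num 16145480) * var 0 + num 3606265) * var 0)
    (((num 54501) * var 0) * var 3 + ((num 976599) * var 0) * var 1 + ((num 3594120) * var 0 + num 802785) * var 0)
  f0 := num 5000000
  wn := fun b => cond b
    ((((((num (-200000)) * var 0 * var 0) * var 1 + ((num 143000) * var 0 + num 100000) * var 0) * var 1 + ((num 10450) * var 0 + num (-2500)) * var 0) * var 1 + ((num 60) * var 0 + num (-60)) * var 0) * var 3 + ((((num (-272000)) * var 0 * var 0) * var 1 + (((num (-1205000)) * var 0 + num (-30430)) * var 0 + num 136000) * var 0) * var 1 + (((num (-4530)) * var 0 + num (-196003)) * var 0 + num (-195960)) * var 0) * var 1 + ((num (-30)) * var 0 + num 30) * var 0)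
    ((((((num (-200000)) * var 0 * var 0) * var 1 + ((num 143000) * var 0 + num 100000) * var 0) * var 1 + ((num 10450) * var 0 + num (-2500)) * var 0) * var 1 + ((num 60) * var 0 + num (-60)) * var 0) * var 3 + ((((num (-272000)) * var 0 * var 0) * var 1 + (((num (-1205000)) * var 0 + num (-56630)) * var 0 + num 136000) * var 0) * var 1 + (((num (-4530)) * var 0 + num (-196789)) * var 0 + num (-195960)) * var 0) * var 1 + ((num (-30)) * var 0 + num 30) * var 0)
  wd := num 25000
  tn := fun b => cond b
    (((num 429858) * var 1 + num (-26052)) * var 3 + (num 442884) * var 1 + (num (-208416)) * var 0 + num 690378)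
    (((num 99297) * var 1 + num (-6018)) * var 3 + (num 102306) * var 1 + (num (-48144)) * var 0 + num 159477)
  td := num 10000000
  cn := num 1 - var 0 * var 1 - var 1 * (num 1 - num 2 * (var 0 * var 1))
  cd := (num 1 - num 2 * (var 0 * var 1)) * (num 1 - num 2 * (var 0 * var 1))
  kn := var 0 * var 1 * (((num 204) * var 3 + (num 3754) * var 1 + num (-1084)) * var 3 + (num 1964) * var 1 + (num (-1711)) * var 0 + num 1503)
  kd := num 100
  k2n := (((num 816) * var 0) * var 3 + ((num 3317) * var 0) * var 1 + (num (-2272)) * var 0) * var 3 + ((num (-3427)) * var 0) * var 1 + (num 1720) * var 0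
  k2d := num 100

/-- Its ranges. -/
def sevBoxL1a : EBox :=
  ⟨(5, 6, 25), (26, 40, 125), (3, 13, 100), (0, 1, 1)⟩

/-- The chart of the bin `L2`. -/
def sevBinL2 : EndChart where
  I := var 0 * var 1
  d := var 0
  w := var 0 * var 2
  den := num 100
  n₀ := (num 1 - num 2 * (var 0 * var 1) - var 0) * ((num 52) * var 1 + num 1)
  n₁ := (num 1 - num 2 * (var 0 * var 1) - var 0) * ((num 56) * var 1 + num (-2))
  q₀ := (5, 6, 25)
  q₁ := (26, 40, 125)
  q₂ := (13, 34, 100)
  q₃ := (0, 1, 1)
  t₀ := (0, 1)
  t₁ := (1, 1)
  mu₀ := (171, 100)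
  mu₁ := (276, 100)

/-- The piece `L2a`. -/
def sevPcL2a : Piece where
  I := var 0 * var 1
  d := var 0
  w := var 0 * var 2
  o := sevBinL2.n₀ + sevBinL2.n₁ * var 3
  den := num 100
  vn := num 2 * (((num 56) * var 1 + num (-2)) * var 3 + (num 52) * var 1 + num 1)
  vs := num 1
  mu := ⟨(171, 100), (276, 100)⟩
  pn := fun b => cond b
    ((((((num 1051008) * var 0 + num 1120000) * var 0) * var 1 + ((num 487968) * var 0 + num (-5504)) * var 0 + num (-560000)) * var 1 + ((num (-18768)) * var 0 + num (-1232)) * var 0 + num 20000) * var 3 + ((((num 975936) * var 0 + num 1040000) * var 0) * var 1 + ((num 506736) * var 0 + num 52032) * var 0 + num (-520000)) * var 1 + ((num 9384) * var 0 + num 616) * var 0 + num 990000)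
    ((((((num 248976) * var 0 + num 1120000) * var 0) * var 1 + ((num 115596) * var 0 + num 395512) * var 0 + num (-560000)) * var 1 + ((num (-4446)) * var 0 + num (-15554)) * var 0 + num 20000) * var 3 + ((((num 231192) * var 0 + num 1040000) * var 0) * var 1 + ((num 120042) * var 0 + num 424404) * var 0 + num (-520000)) * var 1 + ((num 2223) * var 0 + num 7777) * var 0 + num 990000)
  pd := num 10000
  en := fun b => cond b
    ((((num (-12264000)) * var 0) * var 1 + num 1320424) * var 3 + (((num 227701600) * var 0) * var 1 + ((num (-134393000)) * var 0 + num 114975000) * var 0) * var 1 + (num 96390952) * var 0 + num 22968428)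
    ((((num (-11556000)) * var 0) * var 1 + num 475722) * var 3 + (((num 214556400) * var 0) * var 1 + ((num (-126634500)) * var 0 + num 108337500) * var 0) * var 1 + (num 34727706) * var 0 + num 8275059)
  kk := fun b => cond b
    (((num 1319132) * var 0) * var 3 + ((num 20724258) * var 0) * var 1 + ((num 82202752) * var 0 + num 19405126) * var 0)
    (((num 484120) * var 0) * var 3 + ((num 7605780) * var 0) * var 1 + ((num 30168320) * var 0 + num 7121660) * var 0)
  f0 := num 10000000
  wn := fun b => cond b
    ((((((num (-896000)) * var 0 * var 0) * var 1 + ((num 678760) * var 0 + num 448000) * var 0) * var 1 + ((num 157830) * var 0 + num 13120) * var 0) * var 1 + ((num 1040) * var 0 + num (-1040)) * var 0) * var 3 + ((((num (-832000)) * var 0 * var 0) * var 1 + (((num (-5172000)) * var 0 + num (-453980)) * var 0 + num 416000) * var 0) * var 1 + (((num (-147160)) * var 0 + num (-739217)) * var 0 + num (-764960)) * var 0) * var 1 + ((num (-520)) * var 0 + num 520) * var 0)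
    ((((((num (-896000)) * var 0 * var 0) * var 1 + ((num 678760) * var 0 + num 448000) * var 0) * var 1 + ((num 157830) * var 0 + num 13120) * var 0) * var 1 + ((num 1040) * var 0 + num (-1040)) * var 0) * var 3 + ((((num (-832000)) * var 0 * var 0) * var 1 + (((num (-5172000)) * var 0 + num (-620980)) * var 0 + num 416000) * var 0) * var 1 + (((num (-147160)) * var 0 + num (-760927)) * var 0 + num (-764960)) * var 0) * var 1 + ((num (-520)) * var 0 + num 520) * var 0)
  wd := num 100000
  tn := fun b => cond b
    (((num 220558) * var 1 + num (-8483)) * var 3 + (num 195109) * var 1 + (num (-42415)) * var 0 + num 398701)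
    (((num 87542) * var 1 + num (-3367)) * var 3 + (num 77441) * var 1 + (num (-16835)) * var 0 + num 158249)
  td := num 2500000
  cn := num 1 - var 0 * var 1 - var 1 * (num 1 - num 2 * (var 0 * var 1))
  cd := (num 1 - num 2 * (var 0 * var 1)) * (num 1 - num 2 * (var 0 * var 1))
  kn := var 0 * var 1 * (((num 467) * var 3 + (num 6007) * var 1 + num (-1588)) * var 3 + (num 2055) * var 1 + (num (-9)) * var 0 + num 1048)
  kd := num 100
  k2n := (((num 715) * var 0) * var 3 + ((num 3213) * var 0) * var 1 + (num (-2228)) * var 0) * var 3 + ((num (-2800)) * var 0) * var 1 + (num 1509) * var 0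
  k2d := num 100

/-- Its ranges. -/
def sevBoxL2a : EBox :=
  ⟨(5, 6, 25), (26, 40, 125), (13, 34, 100), (0, 1, 1)⟩

/-- The chart of the bin `L3`. -/
def sevBinL3 : EndChart where
  I := var 0 * var 1
  d := var 0
  w := var 0 * var 2
  den := num 100
  n₀ := (num 1 - num 2 * (var 0 * var 1) - var 0) * ((num 48) * var 1 + num 2)
  n₁ := (num 1 - num 2 * (var 0 * var 1) - var 0) * ((num 44) * var 1 + num (-3))
  q₀ := (5, 6, 25)
  q₁ := (26, 40, 125)
  q₂ := (17, 20, 50)
  q₃ := (0, 1, 1)
  t₀ := (0, 1)
  t₁ := (1, 1)
  mu₀ := (180, 100)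
  mu₁ := (270, 100)

/-- The piece `L3a`. -/
def sevPcL3a : Piece where
  I := var 0 * var 1
  d := var 0
  w := var 0 * var 2
  o := sevBinL3.n₀ + sevBinL3.n₁ * var 3
  den := num 100
  vn := num 2 * (((num 44) * var 1 + num (-3)) * var 3 + (num 48) * var 1 + num 2)
  vs := num 1
  mu := ⟨(180, 100), (270, 100)⟩
  pn := fun b => cond b
    ((((((num 23760) * var 0 + num 22000) * var 0) * var 1 + ((num 10260) * var 0 + num (-2380)) * var 0 + num (-11000)) * var 1 + ((num (-810)) * var 0 + num 60) * var 0 + num 750) * var 3 + ((((num 25920) * var 0 + num 24000) * var 0) * var 1 + ((num 14040) * var 0 + num 40) * var 0 + num (-12000)) * var 1 + ((num 540) * var 0 + num (-40)) * var 0 + num 24500)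
    ((((((num 13464) * var 0 + num 22000) * var 0) * var 1 + ((num 5814) * var 0 + num 2768) * var 0 + num (-11000)) * var 1 + ((num (-459)) * var 0 + num (-291)) * var 0 + num 750) * var 3 + ((((num 14688) * var 0 + num 24000) * var 0) * var 1 + ((num 7956) * var 0 + num 5656) * var 0 + num (-12000)) * var 1 + ((num 306) * var 0 + num 194) * var 0 + num 24500)
  pd := num 250
  en := fun b => cond b
    ((((num 253250) * var 0) * var 1 + num 243120) * var 3 + (((num 186392000) * var 0) * var 1 + ((num (-139794000)) * var 0 + num 56272150) * var 0) * var 1 + (num 55816300) * var 0 + num 13270300)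
    ((((num 245500) * var 0) * var 1 + num 200328) * var 3 + (((num 180688000) * var 0) * var 1 + ((num (-135516000)) * var 0 + num 54550100) * var 0) * var 1 + (num 45991970) * var 0 + num 10934570)
  kk := fun b => cond b
    (((num 507000) * var 0) * var 3 + ((num 10829520) * var 0) * var 1 + ((num 47130720) * var 0 + num 11823240) * var 0)
    (((num 418625) * var 0) * var 3 + ((num 8941830) * var 0) * var 1 + ((num 38915380) * var 0 + num 9762335) * var 0)
  f0 := num 5000000
  wn := fun b => cond b
    ((((((num (-176000)) * var 0 * var 0) * var 1 + ((num 372080) * var 0 + num 88000) * var 0) * var 1 + ((num 7275) * var 0 + num 8960) * var 0) * var 1 + ((num 1020) * var 0 + num (-1020)) * var 0) * var 3 + ((((num (-192000)) * var 0 * var 0) * var 1 + (((num (-1724000)) * var 0 + num (-71190)) * var 0 + num 96000) * var 0) * var 1 + (((num (-44115)) * var 0 + num (-160242)) * var 0 + num (-179680)) * var 0) * var 1 + ((num (-680)) * var 0 + num 680) * var 0)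
    ((((((num (-176000)) * var 0 * var 0) * var 1 + ((num 372080) * var 0 + num 88000) * var 0) * var 1 + ((num 7275) * var 0 + num 8960) * var 0) * var 1 + ((num 1020) * var 0 + num (-1020)) * var 0) * var 3 + ((((num (-192000)) * var 0 * var 0) * var 1 + (((num (-1724000)) * var 0 + num (-100190)) * var 0 + num 96000) * var 0) * var 1 + (((num (-44115)) * var 0 + num (-170102)) * var 0 + num (-179680)) * var 0) * var 1 + ((num (-680)) * var 0 + num 680) * var 0)
  wd := num 25000
  tn := fun b => cond b
    (((num 340000) * var 1 + num (-20000)) * var 3 + (num 400000) * var 1 + num 900000)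
    (((num 285821) * var 1 + num (-16813)) * var 3 + (num 336260) * var 1 + num 756585)
  td := num 5000000
  cn := num 1 - var 0 * var 1 - var 1 * (num 1 - num 2 * (var 0 * var 1))
  cd := (num 1 - num 2 * (var 0 * var 1)) * (num 1 - num 2 * (var 0 * var 1))
  kn := var 0 * var 1 * (((num 39) * var 3 + (num 1344) * var 1 + num (-689)) * var 3 + (num 2448) * var 1 + (num 1164) * var 0 + num 221)
  kd := num 100
  k2n := (((num 203) * var 0) * var 3 + ((num 548) * var 0) * var 1 + (num (-592)) * var 0) * var 3 + ((num (-1004)) * var 0) * var 1 + (num 579) * var 0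
  k2d := num 100

/-- Its ranges. -/
def sevBoxL3a : EBox :=
  ⟨(5, 6, 25), (26, 40, 125), (17, 20, 50), (0, 3, 5)⟩

/-- The piece `L3b`. -/
def sevPcL3b : Piece where
  I := var 0 * var 1
  d := var 0
  w := var 0 * var 2
  o := sevBinL3.n₀ + sevBinL3.n₁ * var 3
  den := num 100
  vn := num 2 * (((num 44) * var 1 + num (-3)) * var 3 + (num 48) * var 1 + num 2)
  vs := num 1
  mu := ⟨(180, 100), (270, 100)⟩
  pn := fun b => cond b
    ((((((num 23760) * var 0 + num 22000) * var 0) * var 1 + ((num 10260) * var 0 + num (-2380)) * var 0 + num (-11000)) * var 1 + ((num (-810)) * var 0 + num 60) * var 0 + num 750) * var 3 + ((((num 25920) * var 0 + num 24000) * var 0) * var 1 + ((num 14040) * var 0 + num 40) * var 0 + num (-12000)) * var 1 + ((num 540) * var 0 + num (-40)) * var 0 + num 24500)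
    ((((((num 13464) * var 0 + num 22000) * var 0) * var 1 + ((num 5814) * var 0 + num 2768) * var 0 + num (-11000)) * var 1 + ((num (-459)) * var 0 + num (-291)) * var 0 + num 750) * var 3 + ((((num 14688) * var 0 + num 24000) * var 0) * var 1 + ((num 7956) * var 0 + num 5656) * var 0 + num (-12000)) * var 1 + ((num 306) * var 0 + num 194) * var 0 + num 24500)
  pd := num 250
  en := fun b => cond b
    ((((num (-634375)) * var 0) * var 1 + num 162400) * var 3 + (((num 99698375) * var 0) * var 1 + ((num (-68893125)) * var 0 + num 25704875) * var 0) * var 1 + (num 28521500) * var 0 + num 6567050)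
    ((((num (-612500)) * var 0) * var 1 + num 133280) * var 3 + (((num 96260500) * var 0) * var 1 + ((num (-66517500)) * var 0 + num 24818500) * var 0) * var 1 + (num 23407300) * var 0 + num 5389510)
  kk := fun b => cond b
    (((num 243600) * var 0) * var 3 + ((num 6079850) * var 0) * var 1 + ((num 23923550) * var 0 + num 5684000) * var 0)
    (((num 200328) * var 0) * var 3 + ((num 4999853) * var 0) * var 1 + ((num 19673879) * var 0 + num 4674320) * var 0)
  f0 := num 2500000
  wn := fun b => cond b
    ((((((num (-352000)) * var 0 * var 0) * var 1 + ((num 720660) * var 0 + num 176000) * var 0) * var 1 + ((num 10130) * var 0 + num 17920) * var 0) * var 1 + ((num 2040) * var 0 + num (-2040)) * var 0) * var 3 + ((((num (-384000)) * var 0 * var 0) * var 1 + (((num (-3417000)) * var 0 + num (-196930)) * var 0 + num 192000) * var 0) * var 1 + (((num (-74630)) * var 0 + num (-320841)) * var 0 + num (-359360)) * var 0) * var 1 + ((num (-1360)) * var 0 + num 1360) * var 0)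
    ((((((num (-352000)) * var 0 * var 0) * var 1 + ((num 720660) * var 0 + num 176000) * var 0) * var 1 + ((num 10130) * var 0 + num 17920) * var 0) * var 1 + ((num 2040) * var 0 + num (-2040)) * var 0) * var 3 + ((((num (-384000)) * var 0 * var 0) * var 1 + (((num (-3417000)) * var 0 + num (-245280)) * var 0 + num 192000) * var 0) * var 1 + (((num (-74630)) * var 0 + num (-337280)) * var 0 + num (-359360)) * var 0) * var 1 + ((num (-1360)) * var 0 + num 1360) * var 0)
  wd := num 50000
  tn := fun b => cond b
    (((num 181620) * var 1 + num (-10090)) * var 3 + (num 211890) * var 1 + (num (-40360)) * var 0 + num 454050)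
    (((num 152082) * var 1 + num (-8449)) * var 3 + (num 177429) * var 1 + (num (-33796)) * var 0 + num 380205)
  td := num 2500000
  cn := num 1 - var 0 * var 1 - var 1 * (num 1 - num 2 * (var 0 * var 1))
  cd := (num 1 - num 2 * (var 0 * var 1)) * (num 1 - num 2 * (var 0 * var 1))
  kn := var 0 * var 1 * (((num 48) * var 3 + (num 1749) * var 1 + num (-815)) * var 3 + (num 2173) * var 1 + (num 1408) * var 0 + num 250)
  kd := num 100
  k2n := (((num 145) * var 0) * var 3 + ((num 584) * var 0) * var 1 + (num (-570)) * var 0) * var 3 + ((num (-1070)) * var 0) * var 1 + (num 598) * var 0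
  k2d := num 100

/-- Its ranges. -/
def sevBoxL3b : EBox :=
  ⟨(5, 6, 25), (26, 40, 125), (17, 20, 50), (3, 5, 5)⟩

/-- The chart of the bin `L4`. -/
def sevBinL4 : EndChart where
  I := var 0 * var 1
  d := var 0
  w := var 0 * var 2
  den := num 100
  n₀ := (num 1 - num 2 * (var 0 * var 1) - var 0) * ((num 48) * var 1)
  n₁ := (num 1 - num 2 * (var 0 * var 1) - var 0) * ((num 40) * var 1 + num (-1))
  q₀ := (5, 6, 25)
  q₁ := (26, 40, 125)
  q₂ := (10, 12, 25)
  q₃ := (0, 1, 1)
  t₀ := (0, 1)
  t₁ := (1, 1)
  mu₀ := (153, 100)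
  mu₁ := (271, 100)

/-- The piece `L4a`. -/
def sevPcL4a : Piece where
  I := var 0 * var 1
  d := var 0
  w := var 0 * var 2
  o := sevBinL4.n₀ + sevBinL4.n₁ * var 3
  den := num 100
  vn := num 2 * (((num 40) * var 1 + num (-1)) * var 3 + (num 48) * var 1)
  vs := num 1
  mu := ⟨(153, 100), (271, 100)⟩
  pn := fun b => cond b
    ((((((num 130080) * var 0 + num 100000) * var 0) * var 1 + ((num 61788) * var 0 + num (-17540)) * var 0 + num (-50000)) * var 1 + ((num (-1626)) * var 0 + num 376) * var 0 + num 1250) * var 3 + ((((num 156096) * var 0 + num 120000) * var 0) * var 1 + ((num 78048) * var 0 + num (-18048)) * var 0 + num (-60000)) * var 1 + num 125000)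
    ((((((num 61200) * var 0 + num 100000) * var 0) * var 1 + ((num 29070) * var 0 + num 16900) * var 0 + num (-50000)) * var 1 + ((num (-765)) * var 0 + num (-485)) * var 0 + num 1250) * var 3 + ((((num 73440) * var 0 + num 120000) * var 0) * var 1 + ((num 36720) * var 0 + num 23280) * var 0 + num (-60000)) * var 1 + num 125000)
  pd := num 1250
  en := fun b => cond b
    ((((num 279125) * var 0) * var 1 + num 170520) * var 3 + (((num 112208250) * var 0) * var 1 + ((num (-83230000)) * var 0 + num 26110875) * var 0) * var 1 + (num 33348840) * var 0 + num 7953540)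
    ((((num 269225) * var 0) * var 1 + num 137060) * var 3 + (((num 108228450) * var 0) * var 1 + ((num (-80278000)) * var 0 + num 25184775) * var 0) * var 1 + (num 26805020) * var 0 + num 6392870)
  kk := fun b => cond b
    (((num 316992) * var 0) * var 3 + ((num 6339840) * var 0) * var 1 + ((num 27944064) * var 0 + num 7132320) * var 0)
    (((num 255320) * var 0) * var 3 + ((num 5106400) * var 0) * var 1 + ((num 22507440) * var 0 + num 5744700) * var 0)
  f0 := num 2500000
  wn := fun b => cond b
    ((((((num (-6400)) * var 0 * var 0) * var 1 + ((num 13020) * var 0 + num 3200) * var 0) * var 1 + ((num 1832) * var 0 + num 560) * var 0) * var 1 + ((num 16) * var 0 + num (-16)) * var 0) * var 3 + ((((num (-7680)) * var 0 * var 0) * var 1 + (((num (-68320)) * var 0 + num (-1051)) * var 0 + num 3840) * var 0) * var 1 + (((num (-3608)) * var 0 + num (-7518)) * var 0 + num (-7232)) * var 0) * var 1)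
    ((((((num (-6400)) * var 0 * var 0) * var 1 + ((num 13020) * var 0 + num 3200) * var 0) * var 1 + ((num 1832) * var 0 + num 560) * var 0) * var 1 + ((num 16) * var 0 + num (-16)) * var 0) * var 3 + ((((num (-7680)) * var 0 * var 0) * var 1 + (((num (-68320)) * var 0 + num (-2586)) * var 0 + num 3840) * var 0) * var 1 + (((num (-3608)) * var 0 + num (-8132)) * var 0 + num (-7232)) * var 0) * var 1)
  wd := num 1000
  tn := fun b => cond b
    (((num 39429) * var 1) * var 3 + (num 57627) * var 1 + (num 9099) * var 0 + num 127386)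
    (((num 32500) * var 1) * var 3 + (num 47500) * var 1 + (num 7500) * var 0 + num 105000)
  td := num 625000
  cn := num 1 - var 0 * var 1 - var 1 * (num 1 - num 2 * (var 0 * var 1))
  cd := (num 1 - num 2 * (var 0 * var 1)) * (num 1 - num 2 * (var 0 * var 1))
  kn := var 0 * var 1 * (((num 46) * var 3 + (num 1827) * var 1 + num (-832)) * var 3 + (num 1865) * var 1 + (num 1066) * var 0 + num 472)
  kd := num 100
  k2n := (((num 301) * var 0) * var 3 + ((num 1527) * var 0) * var 1 + (num (-998)) * var 0) * var 3 + ((num (-1676)) * var 0) * var 1 + (num 841) * var 0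
  k2d := num 100

/-- Its ranges. -/
def sevBoxL4a : EBox :=
  ⟨(5, 6, 25), (26, 40, 125), (10, 12, 25), (0, 3, 5)⟩

/-- The piece `L4b`. -/
def sevPcL4b : Piece where
  I := var 0 * var 1
  d := var 0
  w := var 0 * var 2
  o := sevBinL4.n₀ + sevBinL4.n₁ * var 3
  den := num 100
  vn := num 2 * (((num 40) * var 1 + num (-1)) * var 3 + (num 48) * var 1)
  vs := num 1
  mu := ⟨(153, 100), (271, 100)⟩
  pn := fun b => cond b
    ((((((num 130080) * var 0 + num 100000) * var 0) * var 1 + ((num 61788) * var 0 + num (-17540)) * var 0 + num (-50000)) * var 1 + ((num (-1626)) * var 0 + num 376) * var 0 + num 1250) * var 3 + ((((num 156096) * var 0 + num 120000) * var 0) * var 1 + ((num 78048) * var 0 + num (-18048)) * var 0 + num (-60000)) * var 1 + num 125000)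
    ((((((num 61200) * var 0 + num 100000) * var 0) * var 1 + ((num 29070) * var 0 + num 16900) * var 0 + num (-50000)) * var 1 + ((num (-765)) * var 0 + num (-485)) * var 0 + num 1250) * var 3 + ((((num 73440) * var 0 + num 120000) * var 0) * var 1 + ((num 36720) * var 0 + num 23280) * var 0 + num (-60000)) * var 1 + num 125000)
  pd := num 1250
  en := fun b => cond b
    ((((num (-483075)) * var 0) * var 1 + num 207468) * var 3 + (((num 120361950) * var 0) * var 1 + ((num (-82554975)) * var 0 + num 22984200) * var 0) * var 1 + (num 34146792) * var 0 + num 7871580)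
    ((((num (-464075)) * var 0) * var 1 + num 166090) * var 3 + (((num 115627950) * var 0) * var 1 + ((num (-79307975)) * var 0 + num 22080200) * var 0) * var 1 + (num 27336460) * var 0 + num 6301650)
  kk := fun b => cond b
    (((num 305100) * var 0) * var 3 + ((num 7017300) * var 0) * var 1 + ((num 28362096) * var 0 + num 6895260) * var 0)
    (((num 244750) * var 0) * var 3 + ((num 5629250) * var 0) * var 1 + ((num 22751960) * var 0 + num 5531350) * var 0)
  f0 := num 2500000
  wn := fun b => cond b
    ((((((num (-32000)) * var 0 * var 0) * var 1 + ((num 64850) * var 0 + num 16000) * var 0) * var 1 + ((num 7860) * var 0 + num 2800) * var 0) * var 1 + ((num 80) * var 0 + num (-80)) * var 0) * var 3 + ((((num (-38400)) * var 0 * var 0) * var 1 + (((num (-330400)) * var 0 + num (-15475)) * var 0 + num 19200) * var 0) * var 1 + (((num (-17480)) * var 0 + num (-36578)) * var 0 + num (-36160)) * var 0) * var 1)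
    ((((((num (-32000)) * var 0 * var 0) * var 1 + ((num 64850) * var 0 + num 16000) * var 0) * var 1 + ((num 7860) * var 0 + num 2800) * var 0) * var 1 + ((num 80) * var 0 + num (-80)) * var 0) * var 3 + ((((num (-38400)) * var 0 * var 0) * var 1 + (((num (-330400)) * var 0 + num (-22525)) * var 0 + num 19200) * var 0) * var 1 + (((num (-17480)) * var 0 + num (-39398)) * var 0 + num (-36160)) * var 0) * var 1)
  wd := num 5000
  tn := fun b => cond b
    (((num 42252) * var 1) * var 3 + (num 60360) * var 1 + (num (-6036)) * var 0 + num 129774)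
    (((num 34650) * var 1) * var 3 + (num 49500) * var 1 + (num (-4950)) * var 0 + num 106425)
  td := num 625000
  cn := num 1 - var 0 * var 1 - var 1 * (num 1 - num 2 * (var 0 * var 1))
  cd := (num 1 - num 2 * (var 0 * var 1)) * (num 1 - num 2 * (var 0 * var 1))
  kn := var 0 * var 1 * (((num 61) * var 3 + (num 2328) * var 1 + num (-998)) * var 3 + (num 1525) * var 1 + (num 1351) * var 0 + num 517)
  kd := num 100
  k2n := (((num 130) * var 0) * var 3 + ((num 754) * var 0) * var 1 + (num (-629)) * var 0) * var 3 + ((num (-1316)) * var 0) * var 1 + (num 704) * var 0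
  k2d := num 100

/-- Its ranges. -/
def sevBoxL4b : EBox :=
  ⟨(5, 6, 25), (26, 40, 125), (10, 12, 25), (3, 5, 5)⟩

/-- The chart of the bin `L5`. -/
def sevBinL5 : EndChart where
  I := var 0 * var 1
  d := var 0
  w := var 0 * var 2
  den := num 100
  n₀ := (num 1 - num 2 * (var 0 * var 1) - var 0) * ((num 40) * var 1 + num 2)
  n₁ := (num 1 - num 2 * (var 0 * var 1) - var 0) * ((num 40) * var 1 + num (-2))
  q₀ := (5, 6, 25)
  q₁ := (26, 40, 125)
  q₂ := (12, 14, 25)
  q₃ := (0, 1, 1)
  t₀ := (0, 1)
  t₁ := (1, 1)
  mu₀ := (162, 100)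
  mu₁ := (271, 100)

/-- The piece `L5a`. -/
def sevPcL5a : Piece where
  I := var 0 * var 1
  d := var 0
  w := var 0 * var 2
  o := sevBinL5.n₀ + sevBinL5.n₁ * var 3
  den := num 100
  vn := num 2 * (((num 40) * var 1 + num (-2)) * var 3 + (num 40) * var 1 + num 2)
  vs := num 1
  mu := ⟨(162, 100), (271, 100)⟩
  pn := fun b => cond b
    ((((((num 75880) * var 0 + num 50000) * var 0) * var 1 + ((num 34146) * var 0 + num (-15440)) * var 0 + num (-25000)) * var 1 + ((num (-1897)) * var 0 + num 647) * var 0 + num 1250) * var 3 + ((((num 75880) * var 0 + num 50000) * var 0) * var 1 + ((num 41734) * var 0 + num (-10440)) * var 0 + num (-25000)) * var 1 + ((num 1897) * var 0 + num (-647)) * var 0 + num 61250)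
    ((((((num 38880) * var 0 + num 50000) * var 0) * var 1 + ((num 17496) * var 0 + num 3060) * var 0 + num (-25000)) * var 1 + ((num (-972)) * var 0 + num (-278)) * var 0 + num 1250) * var 3 + ((((num 38880) * var 0 + num 50000) * var 0) * var 1 + ((num 21384) * var 0 + num 8060) * var 0 + num (-25000)) * var 1 + ((num 972) * var 0 + num 278) * var 0 + num 61250)
  pd := num 625
  en := fun b => cond b
    ((((num 1470300) * var 0) * var 1 + num 127764) * var 3 + (((num 125761350) * var 0) * var 1 + ((num (-97014450)) * var 0 + num 26668200) * var 0) * var 1 + (num 38442768) * var 0 + num 9298380)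
    ((((num 1422450) * var 0) * var 1 + num 105948) * var 3 + (((num 121668525) * var 0) * var 1 + ((num (-93857175)) * var 0 + num 25800300) * var 0) * var 1 + (num 31878576) * var 0 + num 7710660)
  kk := fun b => cond b
    (((num 326508) * var 0) * var 3 + ((num 7055412) * var 0) * var 1 + ((num 32466252) * var 0 + num 8404032) * var 0)
    (((num 271860) * var 0) * var 3 + ((num 5874540) * var 0) * var 1 + ((num 27032340) * var 0 + num 6997440) * var 0)
  f0 := num 2500000
  wn := fun b => cond b
    ((((((num (-80000)) * var 0 * var 0) * var 1 + ((num 205425) * var 0 + num 40000) * var 0) * var 1 + ((num 15440) * var 0 + num 7600) * var 0) * var 1 + ((num 480) * var 0 + num (-480)) * var 0) * var 3 + ((((num (-80000)) * var 0 * var 0) * var 1 + (((num (-860000)) * var 0 + num (-70550)) * var 0 + num 40000) * var 0) * var 1 + (((num (-68820)) * var 0 + num (-70668)) * var 0 + num (-88400)) * var 0) * var 1 + ((num (-480)) * var 0 + num 480) * var 0)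
    ((((((num (-80000)) * var 0 * var 0) * var 1 + ((num 205425) * var 0 + num 40000) * var 0) * var 1 + ((num 15440) * var 0 + num 7600) * var 0) * var 1 + ((num 480) * var 0 + num (-480)) * var 0) * var 3 + ((((num (-80000)) * var 0 * var 0) * var 1 + (((num (-860000)) * var 0 + num (-90675)) * var 0 + num 40000) * var 0) * var 1 + (((num (-68820)) * var 0 + num (-80328)) * var 0 + num (-88400)) * var 0) * var 1 + ((num (-480)) * var 0 + num 480) * var 0)
  wd := num 12500
  tn := fun b => cond b
    (((num 42252) * var 1) * var 3 + (num 56336) * var 1 + (num 17605) * var 0 + num 144361)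
    (((num 35928) * var 1) * var 3 + (num 47904) * var 1 + (num 14970) * var 0 + num 122754)
  td := num 625000
  cn := num 1 - var 0 * var 1 - var 1 * (num 1 - num 2 * (var 0 * var 1))
  cd := (num 1 - num 2 * (var 0 * var 1)) * (num 1 - num 2 * (var 0 * var 1))
  kn := var 0 * var 1 * (((num 44) * var 3 + (num 1467) * var 1 + num (-751)) * var 3 + (num 2159) * var 1 + (num 1265) * var 0 + num 297)
  kd := num 100
  k2n := (((num 204) * var 0) * var 3 + ((num 651) * var 0) * var 1 + (num (-632)) * var 0) * var 3 + ((num (-1057)) * var 0) * var 1 + (num 622) * var 0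
  k2d := num 100

/-- Its ranges. -/
def sevBoxL5a : EBox :=
  ⟨(5, 6, 25), (26, 40, 125), (12, 14, 25), (0, 3, 5)⟩

/-- The piece `L5b`. -/
def sevPcL5b : Piece where
  I := var 0 * var 1
  d := var 0
  w := var 0 * var 2
  o := sevBinL5.n₀ + sevBinL5.n₁ * var 3
  den := num 100
  vn := num 2 * (((num 40) * var 1 + num (-2)) * var 3 + (num 40) * var 1 + num 2)
  vs := num 1
  mu := ⟨(162, 100), (271, 100)⟩
  pn := fun b => cond b
    ((((((num 75880) * var 0 + num 50000) * var 0) * var 1 + ((num 34146) * var 0 + num (-15440)) * var 0 + num (-25000)) * var 1 + ((num (-1897)) * var 0 + num 647) * var 0 + num 1250) * var 3 + ((((num 75880) * var 0 + num 50000) * var 0) * var 1 + ((num 41734) * var 0 + num (-10440)) * var 0 + num (-25000)) * var 1 + ((num 1897) * var 0 + num (-647)) * var 0 + num 61250)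
    ((((((num 38880) * var 0 + num 50000) * var 0) * var 1 + ((num 17496) * var 0 + num 3060) * var 0 + num (-25000)) * var 1 + ((num (-972)) * var 0 + num (-278)) * var 0 + num 1250) * var 3 + ((((num 38880) * var 0 + num 50000) * var 0) * var 1 + ((num 21384) * var 0 + num 8060) * var 0 + num (-25000)) * var 1 + ((num 972) * var 0 + num 278) * var 0 + num 61250)
  pd := num 625
  en := fun b => cond b
    ((((num 583625) * var 0) * var 1 + num 170520) * var 3 + (((num 135502500) * var 0) * var 1 + ((num (-97668375)) * var 0 + num 23142000) * var 0) * var 1 + (num 39248020) * var 0 + num 9222290)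
    ((((num 562925) * var 0) * var 1 + num 140976) * var 3 + (((num 130696500) * var 0) * var 1 + ((num (-94204275)) * var 0 + num 22321200) * var 0) * var 1 + (num 32447976) * var 0 + num 7624452)
  kk := fun b => cond b
    (((num 312928) * var 0) * var 3 + ((num 7851648) * var 0) * var 1 + ((num 32914336) * var 0 + num 8136128) * var 0)
    (((num 259248) * var 0) * var 3 + ((num 6504768) * var 0) * var 1 + ((num 27268176) * var 0 + num 6740448) * var 0)
  f0 := num 2500000
  wn := fun b => cond b
    ((((((num (-160000)) * var 0 * var 0) * var 1 + ((num 411100) * var 0 + num 80000) * var 0) * var 1 + ((num 24640) * var 0 + num 15200) * var 0) * var 1 + ((num 960) * var 0 + num (-960)) * var 0) * var 3 + ((((num (-160000)) * var 0 * var 0) * var 1 + (((num (-1678750)) * var 0 + num (-190675)) * var 0 + num 80000) * var 0) * var 1 + (((num (-128160)) * var 0 + num (-139092)) * var 0 + num (-176800)) * var 0) * var 1 + ((num (-960)) * var 0 + num 960) * var 0)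
    ((((((num (-160000)) * var 0 * var 0) * var 1 + ((num 411100) * var 0 + num 80000) * var 0) * var 1 + ((num 24640) * var 0 + num 15200) * var 0) * var 1 + ((num 960) * var 0 + num (-960)) * var 0) * var 3 + ((((num (-160000)) * var 0 * var 0) * var 1 + (((num (-1678750)) * var 0 + num (-227150)) * var 0 + num 80000) * var 0) * var 1 + (((num (-128160)) * var 0 + num (-156600)) * var 0 + num (-176800)) * var 0) * var 1 + ((num (-960)) * var 0 + num 960) * var 0)
  wd := num 25000
  tn := fun b => cond b
    (((num 83916) * var 1) * var 3 + (num 118881) * var 1 + (num 6993) * var 0 + num 293706)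
    (((num 71064) * var 1) * var 3 + (num 100674) * var 1 + (num 5922) * var 0 + num 248724)
  td := num 1250000
  cn := num 1 - var 0 * var 1 - var 1 * (num 1 - num 2 * (var 0 * var 1))
  cd := (num 1 - num 2 * (var 0 * var 1)) * (num 1 - num 2 * (var 0 * var 1))
  kn := var 0 * var 1 * (((num 63) * var 3 + (num 1803) * var 1 + num (-891)) * var 3 + (num 1898) * var 1 + (num 1605) * var 0 + num 318)
  kd := num 100
  k2n := (((num 101) * var 0) * var 3 + ((num 379) * var 0) * var 1 + (num (-451)) * var 0) * var 3 + ((num (-917)) * var 0) * var 1 + (num 556) * var 0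
  k2d := num 100

/-- Its ranges. -/
def sevBoxL5b : EBox :=
  ⟨(5, 6, 25), (26, 40, 125), (12, 14, 25), (3, 5, 5)⟩

/-- The chart of the bin `L6`. -/
def sevBinL6 : EndChart where
  I := var 0 * var 1
  d := var 0
  w := var 0 * var 2
  den := num 100
  n₀ := (num 1 - num 2 * (var 0 * var 1) - var 0) * ((num 46) * var 1 + num (-1))
  n₁ := (num 1 - num 2 * (var 0 * var 1) - var 0) * ((num 34) * var 1 + num 1)
  q₀ := (5, 6, 25)
  q₁ := (26, 40, 125)
  q₂ := (28, 33, 50)
  q₃ := (0, 1, 1)
  t₀ := (0, 1)
  t₁ := (1, 1)
  mu₀ := (139, 100)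
  mu₁ := (275, 100)

/-- The piece `L6a`. -/
def sevPcL6a : Piece where
  I := var 0 * var 1
  d := var 0
  w := var 0 * var 2
  o := sevBinL6.n₀ + sevBinL6.n₁ * var 3
  den := num 100
  vn := num 2 * (((num 34) * var 1 + num 1) * var 3 + (num 46) * var 1 + num (-1))
  vs := num 1
  mu := ⟨(139, 100), (275, 100)⟩
  pn := fun b => cond b
    ((((((num 617100) * var 0 + num 340000) * var 0) * var 1 + ((num 326700) * var 0 + num (-128550)) * var 0 + num (-170000)) * var 1 + ((num 9075) * var 0 + num (-4075)) * var 0 + num (-5000)) * var 3 + ((((num 834900) * var 0 + num 460000) * var 0) * var 1 + ((num 399300) * var 0 + num (-197450)) * var 0 + num (-230000)) * var 1 + ((num (-9075)) * var 0 + num 4075) * var 0 + num 505000)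
    ((((((num 264656) * var 0 + num 340000) * var 0) * var 1 + ((num 140112) * var 0 + num 47672) * var 0 + num (-170000)) * var 1 + ((num 3892) * var 0 + num 1108) * var 0 + num (-5000)) * var 3 + ((((num 358064) * var 0 + num 460000) * var 0) * var 1 + ((num 171248) * var 0 + num 40968) * var 0 + num (-230000)) * var 1 + ((num (-3892)) * var 0 + num (-1108)) * var 0 + num 505000)
  pd := num 5000
  en := fun b => cond b
    ((((num 2791250) * var 0) * var 1 + num 435435) * var 3 + (((num 301150500) * var 0) * var 1 + ((num (-227106250)) * var 0 + num 47806500) * var 0) * var 1 + (num 90369510) * var 0 + num 21872235)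
    ((((num 2689500) * var 0) * var 1 + num 355992) * var 3 + (((num 290172600) * var 0) * var 1 + ((num (-218827500)) * var 0 + num 46063800) * var 0) * var 1 + (num 73882032) * var 0 + num 17881752)
  kk := fun b => cond b
    (((num 871728) * var 0) * var 3 + ((num 16764000) * var 0) * var 1 + ((num 75940920) * var 0 + num 19781520) * var 0)
    (((num 714168) * var 0) * var 3 + ((num 13734000) * var 0) * var 1 + ((num 62215020) * var 0 + num 16206120) * var 0)
  f0 := num 5000000
  wn := fun b => cond b
    ((((((num (-136000)) * var 0 * var 0) * var 1 + ((num 269170) * var 0 + num 68000) * var 0) * var 1 + ((num 114480) * var 0 + num 21040) * var 0) * var 1 + ((num (-560)) * var 0 + num 560) * var 0) * var 3 + ((((num (-184000)) * var 0 * var 0) * var 1 + (((num (-1699750)) * var 0 + num 21755) * var 0 + num 92000) * var 0) * var 1 + (((num (-203000)) * var 0 + num (-198686)) * var 0 + num (-176240)) * var 0) * var 1 + ((num 560) * var 0 + num (-560)) * var 0)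
    ((((((num (-136000)) * var 0 * var 0) * var 1 + ((num 269170) * var 0 + num 68000) * var 0) * var 1 + ((num 114480) * var 0 + num 21040) * var 0) * var 1 + ((num (-560)) * var 0 + num 560) * var 0) * var 3 + ((((num (-184000)) * var 0 * var 0) * var 1 + (((num (-1699750)) * var 0 + num (-27370)) * var 0 + num 92000) * var 0) * var 1 + (((num (-203000)) * var 0 + num (-226196)) * var 0 + num (-176240)) * var 0) * var 1 + ((num 560) * var 0 + num (-560)) * var 0)
  wd := num 25000
  tn := fun b => cond b
    (((num 294921) * var 1 + num 32769) * var 3 + (num 557073) * var 1 + (num 229383) * var 0 + num 1277991)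
    (((num 248220) * var 1 + num 27580) * var 3 + (num 468860) * var 1 + (num 193060) * var 0 + num 1075620)
  td := num 5000000
  cn := num 1 - var 0 * var 1 - var 1 * (num 1 - num 2 * (var 0 * var 1))
  cd := (num 1 - num 2 * (var 0 * var 1)) * (num 1 - num 2 * (var 0 * var 1))
  kn := var 0 * var 1 * (((num 48) * var 3 + (num 2228) * var 1 + num (-996)) * var 3 + (num 1475) * var 1 + (num 1125) * var 0 + num 566)
  kd := num 100
  k2n := (((num 364) * var 0) * var 3 + ((num 2044) * var 0) * var 1 + (num (-1180)) * var 0) * var 3 + ((num (-1876)) * var 0) * var 1 + (num 901) * var 0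
  k2d := num 100

/-- Its ranges. -/
def sevBoxL6a : EBox :=
  ⟨(5, 6, 25), (26, 40, 125), (28, 33, 50), (0, 3, 5)⟩

/-- The piece `L6b`. -/
def sevPcL6b : Piece where
  I := var 0 * var 1
  d := var 0
  w := var 0 * var 2
  o := sevBinL6.n₀ + sevBinL6.n₁ * var 3
  den := num 100
  vn := num 2 * (((num 34) * var 1 + num 1) * var 3 + (num 46) * var 1 + num (-1))
  vs := num 1
  mu := ⟨(139, 100), (275, 100)⟩
  pn := fun b => cond b
    ((((((num 617100) * var 0 + num 340000) * var 0) * var 1 + ((num 326700) * var 0 + num (-128550)) * var 0 + num (-170000)) * var 1 + ((num 9075) * var 0 + num (-4075)) * var 0 + num (-5000)) * var 3 + ((((num 834900) * var 0 + num 460000) * var 0) * var 1 + ((num 399300) * var 0 + num (-197450)) * var 0 + num (-230000)) * var 1 + ((num (-9075)) * var 0 + num 4075) * var 0 + num 505000)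
    ((((((num 264656) * var 0 + num 340000) * var 0) * var 1 + ((num 140112) * var 0 + num 47672) * var 0 + num (-170000)) * var 1 + ((num 3892) * var 0 + num 1108) * var 0 + num (-5000)) * var 3 + ((((num 358064) * var 0 + num 460000) * var 0) * var 1 + ((num 171248) * var 0 + num 40968) * var 0 + num (-230000)) * var 1 + ((num (-3892)) * var 0 + num (-1108)) * var 0 + num 505000)
  pd := num 5000
  en := fun b => cond b
    ((((num 1170700) * var 0) * var 1 + num 503910) * var 3 + (((num 323978500) * var 0) * var 1 + ((num (-227675700)) * var 0 + num 39091200) * var 0) * var 1 + (num 92517876) * var 0 + num 21735318)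
    ((((num 1122400) * var 0) * var 1 + num 409920) * var 3 + (((num 310612000) * var 0) * var 1 + ((num (-218282400)) * var 0 + num 37478400) * var 0) * var 1 + (num 75261312) * var 0 + num 17681216)
  kk := fun b => cond b
    (((num 807048) * var 0) * var 3 + ((num 18326715) * var 0) * var 1 + ((num 77106711) * var 0 + num 19268271) * var 0)
    (((num 657888) * var 0) * var 3 + ((num 14939540) * var 0) * var 1 + ((num 62855716) * var 0 + num 15707076) * var 0)
  f0 := num 5000000
  wn := fun b => cond b
    ((((((num (-136000)) * var 0 * var 0) * var 1 + ((num 288670) * var 0 + num 68000) * var 0) * var 1 + ((num 100620) * var 0 + num 21040) * var 0) * var 1 + ((num (-560)) * var 0 + num 560) * var 0) * var 3 + ((((num (-184000)) * var 0 * var 0) * var 1 + (((num (-1562000)) * var 0 + num (-72595)) * var 0 + num 92000) * var 0) * var 1 + (((num (-204960)) * var 0 + num (-184602)) * var 0 + num (-176240)) * var 0) * var 1 + ((num 560) * var 0 + num (-560)) * var 0)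
    ((((((num (-136000)) * var 0 * var 0) * var 1 + ((num 288670) * var 0 + num 68000) * var 0) * var 1 + ((num 100620) * var 0 + num 21040) * var 0) * var 1 + ((num (-560)) * var 0 + num 560) * var 0) * var 3 + ((((num (-184000)) * var 0 * var 0) * var 1 + (((num (-1562000)) * var 0 + num (-122570)) * var 0 + num 92000) * var 0) * var 1 + (((num (-204960)) * var 0 + num (-212588)) * var 0 + num (-176240)) * var 0) * var 1 + ((num 560) * var 0 + num (-560)) * var 0)
  wd := num 25000
  tn := fun b => cond b
    (((num 265848) * var 1 + num 33231) * var 3 + (num 631389) * var 1 + (num 99693) * var 0 + num 1296009)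
    (((num 221984) * var 1 + num 27748) * var 3 + (num 527212) * var 1 + (num 83244) * var 0 + num 1082172)
  td := num 5000000
  cn := num 1 - var 0 * var 1 - var 1 * (num 1 - num 2 * (var 0 * var 1))
  cd := (num 1 - num 2 * (var 0 * var 1)) * (num 1 - num 2 * (var 0 * var 1))
  kn := var 0 * var 1 * (((num 60) * var 3 + (num 2721) * var 1 + num (-1164)) * var 3 + (num 1089) * var 1 + (num 1610) * var 0 + num 582)
  kd := num 100
  k2n := (((num 133) * var 0) * var 3 + ((num 805) * var 0) * var 1 + (num (-639)) * var 0) * var 3 + ((num (-1313)) * var 0) * var 1 + (num 697) * var 0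
  k2d := num 100

/-- Its ranges. -/
def sevBoxL6b : EBox :=
  ⟨(5, 6, 25), (26, 40, 125), (28, 33, 50), (3, 5, 5)⟩

/-- The chart of the bin `L7`. -/
def sevBinL7 : EndChart where
  I := var 0 * var 1
  d := var 0
  w := var 0 * var 2
  den := num 100
  n₀ := (num 1 - num 2 * (var 0 * var 1) - var 0) * ((num 32) * var 1)
  n₁ := (num 1 - num 2 * (var 0 * var 1) - var 0) * ((num 40) * var 1 + num 1)
  q₀ := (5, 6, 25)
  q₁ := (26, 40, 125)
  q₂ := (33, 50, 50)
  q₃ := (0, 1, 1)
  t₀ := (0, 1)
  t₁ := (1, 1)
  mu₀ := (99, 100)
  mu₁ := (289, 100)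

/-- The piece `L7a`. -/
def sevPcL7a : Piece where
  I := var 0 * var 1
  d := var 0
  w := var 0 * var 2
  o := sevBinL7.n₀ + sevBinL7.n₁ * var 3
  den := num 100
  vn := num 2 * (((num 40) * var 1 + num 1) * var 3 + (num 32) * var 1)
  vs := num 1
  mu := ⟨(99, 100), (289, 100)⟩
  pn := fun b => cond b
    ((((((num 1156000) * var 0 + num 400000) * var 0) * var 1 + ((num 606900) * var 0 + num (-368000)) * var 0 + num (-200000)) * var 1 + ((num 14450) * var 0 + num (-9450)) * var 0 + num (-5000)) * var 3 + ((((num 924800) * var 0 + num 320000) * var 0) * var 1 + ((num 462400) * var 0 + num (-302400)) * var 0 + num (-160000)) * var 1 + num 500000)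
    ((((((num 261360) * var 0 + num 400000) * var 0) * var 1 + ((num 137214) * var 0 + num 79320) * var 0 + num (-200000)) * var 1 + ((num 3267) * var 0 + num 1733) * var 0 + num (-5000)) * var 3 + ((((num 209088) * var 0 + num 320000) * var 0) * var 1 + ((num 104544) * var 0 + num 55456) * var 0 + num (-160000)) * var 1 + num 500000)
  pd := num 5000
  en := fun b => cond b
    ((((num 1660750) * var 0) * var 1 + num 408800) * var 3 + (((num 207338250) * var 0) * var 1 + ((num (-140882700)) * var 0 + num 12826100) * var 0) * var 1 + (num 68525100) * var 0 + num 16760800)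
    ((((num 1571375) * var 0) * var 1 + num 255288) * var 3 + (((num 196180125) * var 0) * var 1 + ((num (-133300950)) * var 0 + num 12135850) * var 0) * var 1 + (num 42792651) * var 0 + num 10466808)
  kk := fun b => cond b
    (((num 664300) * var 0) * var 3 + ((num 12161800) * var 0) * var 1 + ((num 57206450) * var 0 + num 15125600) * var 0)
    (((num 418704) * var 0) * var 3 + ((num 7665504) * var 0) * var 1 + ((num 36056856) * var 0 + num 9533568) * var 0)
  f0 := num 2500000
  wn := fun b => cond b
    ((((((num (-320000)) * var 0 * var 0) * var 1 + ((num 204400) * var 0 + num 160000) * var 0) * var 1 + ((num 458990) * var 0 + num 56800) * var 0) * var 1 + ((num (-1320)) * var 0 + num 1320) * var 0) * var 3 + ((((num (-256000)) * var 0 * var 0) * var 1 + (((num (-2058500)) * var 0 + num (-659530)) * var 0 + num 128000) * var 0) * var 1 + (((num (-852390)) * var 0 + num (-293773)) * var 0 + num (-357760)) * var 0) * var 1)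
    ((((((num (-320000)) * var 0 * var 0) * var 1 + ((num 204400) * var 0 + num 160000) * var 0) * var 1 + ((num 458990) * var 0 + num 56800) * var 0) * var 1 + ((num (-1320)) * var 0 + num 1320) * var 0) * var 3 + ((((num (-256000)) * var 0 * var 0) * var 1 + (((num (-2058500)) * var 0 + num (-898780)) * var 0 + num 128000) * var 0) * var 1 + (((num (-852390)) * var 0 + num (-451678)) * var 0 + num (-357760)) * var 0) * var 1)
  wd := num 50000
  tn := fun b => cond b
    (((num 294300) * var 1 + num 49050) * var 3 + (num 637650) * var 1 + (num 588600) * var 0 + num 1716750)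
    (((num 203346) * var 1 + num 33891) * var 3 + (num 440583) * var 1 + (num 406692) * var 0 + num 1186185)
  td := num 5000000
  cn := num 1 - var 0 * var 1 - var 1 * (num 1 - num 2 * (var 0 * var 1))
  cd := (num 1 - num 2 * (var 0 * var 1)) * (num 1 - num 2 * (var 0 * var 1))
  kn := var 0 * var 1 * (((num 151) * var 3 + (num 3100) * var 1 + num (-1193)) * var 3 + (num 1199) * var 1 + (num 1089) * var 0 + num 812)
  kd := num 100
  k2n := (((num 552) * var 0) * var 3 + ((num 2772) * var 0) * var 1 + (num (-1782)) * var 0) * var 3 + ((num (-2659)) * var 0) * var 1 + (num 1356) * var 0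
  k2d := num 100

/-- Its ranges. -/
def sevBoxL7a : EBox :=
  ⟨(5, 6, 25), (26, 40, 125), (33, 50, 50), (0, 1, 1)⟩

end Vale.Agent.P100.Calib.StripEndD
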