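import Vale.Agent.P100.Calib.SlabStripEndDExpr
import Vale.Agent.P100.Calib.SlabStripEndCert
import Vale.Agent.P100.Calib.SlabStripEndChart

/-!
# The bins `M` of the `D` region for `N` between seven and twenty

`x = (d, I / d, (1 - u) / d, t)`, with `v` affine in `t`.
-/

namespace Vale.Agent.P100.Calib.StripEndD

open Pack hiding ev_add ev_mul
open Pack.Ex StripMid StripEnd

local instance endSevDataMAdd : Add Ex := ⟨Ex.add⟩
local instance endSevDataMSub : Sub Ex := ⟨Ex.sub⟩
local instance endSevDataMMul : Mul Ex := ⟨Ex.mul⟩

/-- The chart of the bin `M0`. -/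
def sevBinM0 : EndChart where
  I := var 0 * var 1
  d := var 0
  w := var 0 * var 2
  den := num 100
  n₀ := (num 1 - num 2 * (var 0 * var 1) - var 0) * ((num 74) * var 1 + num 4)
  n₁ := (num 1 - num 2 * (var 0 * var 1) - var 0) * ((num 68) * var 1 + num (-11))
  q₀ := (10, 11, 50)
  q₁ := (32, 45, 100)
  q₂ := (0, 3, 200)
  q₃ := (0, 1, 1)
  t₀ := (0, 1)
  t₁ := (1, 1)
  mu₀ := (231, 100)
  mu₁ := (307, 100)

/-- The piece `M0a`. -/
def sevPcM0a : Piece where
  I := var 0 * var 1
  d := var 0
  w := var 0 * var 2
  o := sevBinM0.n₀ + sevBinM0.n₁ * var 3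
  den := num 100
  vn := num 2 * (((num 68) * var 1 + num (-11)) * var 3 + (num 74) * var 1 + num 4)
  vs := num 1
  mu := ⟨(231, 100), (307, 100)⟩
  pn := fun b => cond b
    ((((((num 125256) * var 0 + num 2720000) * var 0) * var 1 + ((num 42366) * var 0 + num 857372) * var 0 + num (-1360000)) * var 1 + ((num (-10131)) * var 0 + num (-209869)) * var 0 + num 220000) * var 3 + ((((num 136308) * var 0 + num 2960000) * var 0) * var 1 + ((num 75522) * var 0 + num 1571846) * var 0 + num (-1480000)) * var 1 + ((num 3684) * var 0 + num 76316) * var 0 + num 1920000)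
    (((((num 2720000) * var 0) * var 1 + (num 920000) * var 0 + num (-1360000)) * var 1 + (num (-220000)) * var 0 + num 220000) * var 3 + (((num 2960000) * var 0) * var 1 + (num 1640000) * var 0 + num (-1480000)) * var 1 + (num 80000) * var 0 + num 1920000)
  pd := num 20000
  en := fun b => cond b
    ((((num (-6487200)) * var 0) * var 1 + num 58752) * var 3 + (((num (-24888000)) * var 0) * var 1 + ((num 24724800) * var 0 + num 57446400) * var 0) * var 1 + (num 1381284) * var 0 + num 531828)
    ((((num (-6213720)) * var 0) * var 1) * var 3 + (((num (-23838800)) * var 0) * var 1 + ((num 23682480) * var 0 + num 55024640) * var 0) * var 1)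
  kk := fun b => cond b
    (((num 31365) * var 0) * var 3 + ((num 350550) * var 0) * var 1 + ((num 1797030) * var 0 + num 300735) * var 0)
    (num 0)
  f0 := num 4000000
  wn := fun b => cond b
    ((((((num (-10880)) * var 0 * var 0) * var 1 + ((num 4150) * var 0 + num 5440) * var 0) * var 1 + ((num 880) * var 0 + num (-880)) * var 0) * var 1) * var 3 + ((((num (-11840)) * var 0 * var 0) * var 1 + (((num (-56020)) * var 0 + num 2409) * var 0 + num 5920) * var 0) * var 1 + ((num (-8320)) * var 0 + num (-7680)) * var 0) * var 1)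
    ((((((num (-10880)) * var 0 * var 0) * var 1 + ((num 4150) * var 0 + num 5440) * var 0) * var 1 + ((num 880) * var 0 + num (-880)) * var 0) * var 1) * var 3 + ((((num (-11840)) * var 0 * var 0) * var 1 + (((num (-56020)) * var 0 + num 455) * var 0 + num 5920) * var 0) * var 1 + ((num (-8320)) * var 0 + num (-7680)) * var 0) * var 1)
  wd := num 1000
  tn := fun b => cond b
    (((num 197568) * var 1 + num (-37044)) * var 3 + (num 120393) * var 1 + (num (-182133)) * var 0 + num 203742)
    (num 0)
  td := num 20000000
  cn := num 1 - var 0 * var 1 - var 1 * (num 1 - num 2 * (var 0 * var 1))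
  cd := (num 1 - num 2 * (var 0 * var 1)) * (num 1 - num 2 * (var 0 * var 1))
  kn := var 0 * var 1 * (((num 2653) * var 3 + (num 6316) * var 1 + num (-4295)) * var 3 + (num 329) * var 1 + (num (-2246)) * var 0 + num 1632)
  kd := num 100
  k2n := (((num 471) * var 0) * var 3 + ((num 1793) * var 0) * var 1 + (num (-1031)) * var 0) * var 3 + ((num (-614)) * var 0) * var 1 + (num 517) * var 0
  k2d := num 100

/-- Its ranges. -/
def sevBoxM0a : EBox :=
  ⟨(10, 11, 50), (32, 45, 100), (0, 3, 200), (0, 1, 1)⟩

/-- The chart of the bin `M1`. -/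
def sevBinM1 : EndChart where
  I := var 0 * var 1
  d := var 0
  w := var 0 * var 2
  den := num 100
  n₀ := (num 1 - num 2 * (var 0 * var 1) - var 0) * ((num 72) * var 1 + num 2)
  n₁ := (num 1 - num 2 * (var 0 * var 1) - var 0) * ((num 60) * var 1 + num (-6))
  q₀ := (10, 11, 50)
  q₁ := (32, 45, 100)
  q₂ := (3, 15, 200)
  q₃ := (0, 1, 1)
  t₀ := (0, 1)
  t₁ := (1, 1)
  mu₀ := (219, 100)
  mu₁ := (305, 100)

/-- The piece `M1a`. -/
def sevPcM1a : Piece where
  I := var 0 * var 1
  d := var 0
  w := var 0 * var 2
  o := sevBinM1.n₀ + sevBinM1.n₁ * var 3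
  den := num 100
  vn := num 2 * (((num 60) * var 1 + num (-6)) * var 3 + (num 72) * var 1 + num 2)
  vs := num 1
  mu := ⟨(219, 100), (305, 100)⟩
  pn := fun b => cond b
    ((((((num 274500) * var 0 + num 1200000) * var 0) * var 1 + ((num 109800) * var 0 + num 342750) * var 0 + num (-600000)) * var 1 + ((num (-13725)) * var 0 + num (-46275)) * var 0 + num 60000) * var 3 + ((((num 329400) * var 0 + num 1440000) * var 0) * var 1 + ((num 173850) * var 0 + num 595300) * var 0 + num (-720000)) * var 1 + ((num 4575) * var 0 + num 15425) * var 0 + num 980000)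
    ((((((num 39420) * var 0 + num 1200000) * var 0) * var 1 + ((num 15768) * var 0 + num 460290) * var 0 + num (-600000)) * var 1 + ((num (-1971)) * var 0 + num (-58029)) * var 0 + num 60000) * var 3 + ((((num 47304) * var 0 + num 1440000) * var 0) * var 1 + ((num 24966) * var 0 + num 736348) * var 0 + num (-720000)) * var 1 + ((num 657) * var 0 + num 19343) * var 0 + num 980000)
  pd := num 10000
  en := fun b => cond b
    ((((num (-36684000)) * var 0) * var 1 + num 1085235) * var 3 + (((num (-56656400)) * var 0) * var 1 + ((num 72960400) * var 0 + num 277371800) * var 0) * var 1 + (num 50241795) * var 0 + num 10072815)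
    ((((num (-34956000)) * var 0) * var 1 + num 206823) * var 3 + (((num (-53987600)) * var 0) * var 1 + ((num 69523600) * var 0 + num 264306200) * var 0) * var 1 + (num 9575031) * var 0 + num 1919667)
  kk := fun b => cond b
    (((num 861840) * var 0) * var 3 + ((num 8341380) * var 0) * var 1 + ((num 44292420) * var 0 + num 7618050) * var 0)
    (((num 164304) * var 0) * var 3 + ((num 1590228) * var 0) * var 1 + ((num 8444052) * var 0 + num 1452330) * var 0)
  f0 := num 20000000
  wn := fun b => cond b
    ((((((num (-1920000)) * var 0 * var 0) * var 1 + ((num 1051600) * var 0 + num 960000) * var 0) * var 1 + ((num 125220) * var 0 + num (-88800)) * var 0) * var 1 + ((num 720) * var 0 + num (-720)) * var 0) * var 3 + ((((num (-2304000)) * var 0 * var 0) * var 1 + (((num (-11656000)) * var 0 + num 236120) * var 0 + num 1152000) * var 0) * var 1 + (((num 11670) * var 0 + num (-1597689)) * var 0 + num (-1559360)) * var 0) * var 1 + ((num (-240)) * var 0 + num 240) * var 0)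
    ((((((num (-1920000)) * var 0 * var 0) * var 1 + ((num 1051600) * var 0 + num 960000) * var 0) * var 1 + ((num 125220) * var 0 + num (-88800)) * var 0) * var 1 + ((num 720) * var 0 + num (-720)) * var 0) * var 3 + ((((num (-2304000)) * var 0 * var 0) * var 1 + (((num (-11656000)) * var 0 + num (-40280)) * var 0 + num 1152000) * var 0) * var 1 + (((num 11670) * var 0 + num (-1601835)) * var 0 + num (-1559360)) * var 0) * var 1 + ((num (-240)) * var 0 + num 240) * var 0)
  wd := num 200000
  tn := fun b => cond b
    (((num 797940) * var 1 + num (-107415)) * var 3 + (num 567765) * var 1 + (num (-751905)) * var 0 + num 936045)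
    (((num 154596) * var 1 + num (-20811)) * var 3 + (num 110001) * var 1 + (num (-145677)) * var 0 + num 181353)
  td := num 20000000
  cn := num 1 - var 0 * var 1 - var 1 * (num 1 - num 2 * (var 0 * var 1))
  cd := (num 1 - num 2 * (var 0 * var 1)) * (num 1 - num 2 * (var 0 * var 1))
  kn := var 0 * var 1 * (((num 203) * var 3 + (num 3196) * var 1 + num (-1523)) * var 3 + (num 1167) * var 1 + (num (-2179)) * var 0 + num 1695)
  kd := num 100
  k2n := (((num 756) * var 0) * var 3 + ((num 3246) * var 0) * var 1 + (num (-2003)) * var 0) * var 3 + ((num (-1632)) * var 0) * var 1 + (num 1050) * var 0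
  k2d := num 100

/-- Its ranges. -/
def sevBoxM1a : EBox :=
  ⟨(10, 11, 50), (32, 45, 100), (3, 15, 200), (0, 1, 1)⟩

/-- The chart of the bin `M2`. -/
def sevBinM2 : EndChart where
  I := var 0 * var 1
  d := var 0
  w := var 0 * var 2
  den := num 100
  n₀ := (num 1 - num 2 * (var 0 * var 1) - var 0) * ((num 60) * var 1 + num 1)
  n₁ := (num 1 - num 2 * (var 0 * var 1) - var 0) * ((num 56) * var 1 + num (-2))
  q₀ := (10, 11, 50)
  q₁ := (32, 45, 100)
  q₂ := (15, 44, 200)
  q₃ := (0, 1, 1)
  t₀ := (0, 1)
  t₁ := (1, 1)
  mu₀ := (197, 100)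
  mu₁ := (300, 100)

/-- The piece `M2a`. -/
def sevPcM2a : Piece where
  I := var 0 * var 1
  d := var 0
  w := var 0 * var 2
  o := sevBinM2.n₀ + sevBinM2.n₁ * var 3
  den := num 100
  vn := num 2 * (((num 56) * var 1 + num (-2)) * var 3 + (num 60) * var 1 + num 1)
  vs := num 1
  mu := ⟨(197, 100), (300, 100)⟩
  pn := fun b => cond b
    ((((((num 295680) * var 0 + num 448000) * var 0) * var 1 + ((num 137280) * var 0 + num 60160) * var 0 + num (-224000)) * var 1 + ((num (-5280)) * var 0 + num (-2720)) * var 0 + num 8000) * var 3 + ((((num 316800) * var 0 + num 480000) * var 0) * var 1 + ((num 163680) * var 0 + num 89600) * var 0 + num (-240000)) * var 1 + ((num 2640) * var 0 + num 1360) * var 0 + num 396000)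
    ((((((num 66192) * var 0 + num 448000) * var 0) * var 1 + ((num 30732) * var 0 + num 174904) * var 0 + num (-224000)) * var 1 + ((num (-1182)) * var 0 + num (-6818)) * var 0 + num 8000) * var 3 + ((((num 70920) * var 0 + num 480000) * var 0) * var 1 + ((num 36642) * var 0 + num 212540) * var 0 + num (-240000)) * var 1 + ((num 591) * var 0 + num 3409) * var 0 + num 396000)
  pd := num 4000
  en := fun b => cond b
    ((((num (-40675600)) * var 0) * var 1 + num 3012856) * var 3 + (((num 105674800) * var 0) * var 1 + ((num (-89731600)) * var 0 + num 260814400) * var 0) * var 1 + (num 152846232) * var 0 + num 27655320)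
    ((((num (-38446800)) * var 0) * var 1 + num 970830) * var 3 + (((num 99884400) * var 0) * var 1 + ((num (-84814800)) * var 0 + num 246523200) * var 0) * var 1 + (num 49251510) * var 0 + num 8911350)
  kk := fun b => cond b
    (((num 2753784) * var 0) * var 3 + ((num 21759408) * var 0) * var 1 + ((num 125951760) * var 0 + num 23068584) * var 0)
    (((num 892125) * var 0) * var 3 + ((num 7049250) * var 0) * var 1 + ((num 40803750) * var 0 + num 7473375) * var 0)
  f0 := num 20000000
  wn := fun b => cond b
    ((((((num (-358400)) * var 0 * var 0) * var 1 + ((num 267360) * var 0 + num 179200) * var 0) * var 1 + ((num 46270) * var 0 + num 320) * var 0) * var 1 + ((num 240) * var 0 + num (-240)) * var 0) * var 3 + ((((num (-384000)) * var 0 * var 0) * var 1 + (((num (-2524800)) * var 0 + num (-50040)) * var 0 + num 192000) * var 0) * var 1 + (((num (-24450)) * var 0 + num (-296833)) * var 0 + num (-309600)) * var 0) * var 1 + ((num (-120)) * var 0 + num 120) * var 0)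
    ((((((num (-358400)) * var 0 * var 0) * var 1 + ((num 267360) * var 0 + num 179200) * var 0) * var 1 + ((num 46270) * var 0 + num 320) * var 0) * var 1 + ((num 240) * var 0 + num (-240)) * var 0) * var 3 + ((((num (-384000)) * var 0 * var 0) * var 1 + (((num (-2524800)) * var 0 + num (-82440)) * var 0 + num 192000) * var 0) * var 1 + (((num (-24450)) * var 0 + num (-299263)) * var 0 + num (-309600)) * var 0) * var 1 + ((num (-120)) * var 0 + num 120) * var 0)
  wd := num 40000
  tn := fun b => cond b
    (((num 319968) * var 1 + num (-17776)) * var 3 + (num 239976) * var 1 + (num (-248864)) * var 0 + num 479952)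
    (((num 109404) * var 1 + num (-6078)) * var 3 + (num 82053) * var 1 + (num (-85092)) * var 0 + num 164106)
  td := num 4000000
  cn := num 1 - var 0 * var 1 - var 1 * (num 1 - num 2 * (var 0 * var 1))
  cd := (num 1 - num 2 * (var 0 * var 1)) * (num 1 - num 2 * (var 0 * var 1))
  kn := var 0 * var 1 * (((num 1050) * var 3 + (num 7398) * var 1 + num (-2633)) * var 3 + (num 1329) * var 1 + (num (-1440)) * var 0 + num 1811)
  kd := num 100
  k2n := (((num 566) * var 0) * var 3 + ((num 3286) * var 0) * var 1 + (num (-2061)) * var 0) * var 3 + ((num (-2388)) * var 0) * var 1 + (num 1388) * var 0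
  k2d := num 100

/-- Its ranges. -/
def sevBoxM2a : EBox :=
  ⟨(10, 11, 50), (32, 45, 100), (15, 44, 200), (0, 1, 1)⟩

/-- The chart of the bin `M3`. -/
def sevBinM3 : EndChart where
  I := var 0 * var 1
  d := var 0
  w := var 0 * var 2
  den := num 100
  n₀ := (num 1 - num 2 * (var 0 * var 1) - var 0) * ((num 50) * var 1 + num 2)
  n₁ := (num 1 - num 2 * (var 0 * var 1) - var 0) * ((num 44) * var 1)
  q₀ := (10, 11, 50)
  q₁ := (32, 45, 100)
  q₂ := (11, 17, 50)
  q₃ := (0, 1, 1)
  t₀ := (0, 1)
  t₁ := (1, 1)
  mu₀ := (185, 100)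
  mu₁ := (294, 100)

/-- The piece `M3a`. -/
def sevPcM3a : Piece where
  I := var 0 * var 1
  d := var 0
  w := var 0 * var 2
  o := sevBinM3.n₀ + sevBinM3.n₁ * var 3
  den := num 100
  vn := num 2 * (((num 44) * var 1) * var 3 + (num 50) * var 1 + num 2)
  vs := num 1
  mu := ⟨(185, 100), (294, 100)⟩
  pn := fun b => cond b
    ((((((num 219912) * var 0 + num 220000) * var 0) * var 1 + ((num 109956) * var 0 + num 44) * var 0 + num (-110000)) * var 1) * var 3 + ((((num 249900) * var 0 + num 250000) * var 0) * var 1 + ((num 134946) * var 0 + num 10050) * var 0 + num (-125000)) * var 1 + ((num 4998) * var 0 + num 2) * var 0 + num 245000)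
    ((((((num 89540) * var 0 + num 220000) * var 0) * var 1 + ((num 44770) * var 0 + num 65230) * var 0 + num (-110000)) * var 1) * var 3 + ((((num 101750) * var 0 + num 250000) * var 0) * var 1 + ((num 54945) * var 0 + num 84125) * var 0 + num (-125000)) * var 1 + ((num 2035) * var 0 + num 2965) * var 0 + num 245000)
  pd := num 2500
  en := fun b => cond b
    ((((num (-7446000)) * var 0) * var 1 + num 814980) * var 3 + (((num 77367000) * var 0) * var 1 + ((num (-72471000)) * var 0 + num 56610000) * var 0) * var 1 + (num 57915600) * var 0 + num 10698780)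
    ((((num (-7102900)) * var 0) * var 1 + num 503041) * var 3 + (((num 73802050) * var 0) * var 1 + ((num (-69131650)) * var 0 + num 54001500) * var 0) * var 1 + (num 35748020) * var 0 + num 6603751)
  kk := fun b => cond b
    (((num 870400) * var 0) * var 3 + ((num 7328768) * var 0) * var 1 + ((num 47349760) * var 0 + num 9313280) * var 0)
    (((num 537350) * var 0) * var 3 + ((num 4524487) * var 0) * var 1 + ((num 29231840) * var 0 + num 5749645) * var 0)
  f0 := num 5000000
  wn := fun b => cond b
    ((((((num (-176000)) * var 0 * var 0) * var 1 + ((num 176640) * var 0 + num 88000) * var 0) * var 1 + ((num 59785) * var 0 + num 9680) * var 0) * var 1) * var 3 + ((((num (-200000)) * var 0 * var 0) * var 1 + (((num (-1755000)) * var 0 + num (-72650)) * var 0 + num 100000) * var 0) * var 1 + (((num (-57860)) * var 0 + num (-160253)) * var 0 + num (-185000)) * var 0) * var 1 + ((num (-440)) * var 0 + num 440) * var 0)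
    ((((((num (-176000)) * var 0 * var 0) * var 1 + ((num 176640) * var 0 + num 88000) * var 0) * var 1 + ((num 59785) * var 0 + num 9680) * var 0) * var 1) * var 3 + ((((num (-200000)) * var 0 * var 0) * var 1 + (((num (-1755000)) * var 0 + num (-103000)) * var 0 + num 100000) * var 0) * var 1 + (((num (-57860)) * var 0 + num (-166930)) * var 0 + num (-185000)) * var 0) * var 1 + ((num (-440)) * var 0 + num 440) * var 0)
  wd := num 25000
  tn := fun b => cond b
    (((num 180642) * var 1) * var 3 + (num 180642) * var 1 + (num (-146234)) * var 0 + num 430100)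
    (((num 115731) * var 1) * var 3 + (num 115731) * var 1 + (num (-93687)) * var 0 + num 275550)
  td := num 2500000
  cn := num 1 - var 0 * var 1 - var 1 * (num 1 - num 2 * (var 0 * var 1))
  cd := (num 1 - num 2 * (var 0 * var 1)) * (num 1 - num 2 * (var 0 * var 1))
  kn := var 0 * var 1 * (((num 316) * var 3 + (num 3934) * var 1 + num (-1537)) * var 3 + (num 1861) * var 1 + (num 821) * var 0 + num 687)
  kd := num 100
  k2n := (((num 284) * var 0) * var 3 + ((num 1688) * var 0) * var 1 + (num (-1123)) * var 0) * var 3 + ((num (-1309)) * var 0) * var 1 + (num 784) * var 0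
  k2d := num 100

/-- Its ranges. -/
def sevBoxM3a : EBox :=
  ⟨(10, 11, 50), (32, 45, 100), (11, 17, 50), (0, 1, 1)⟩

/-- The chart of the bin `M4`. -/
def sevBinM4 : EndChart where
  I := var 0 * var 1
  d := var 0
  w := var 0 * var 2
  den := num 100
  n₀ := (num 1 - num 2 * (var 0 * var 1) - var 0) * ((num 48) * var 1 + num 2)
  n₁ := (num 1 - num 2 * (var 0 * var 1) - var 0) * ((num 42) * var 1 + num (-2))
  q₀ := (10, 11, 50)
  q₁ := (32, 45, 100)
  q₂ := (17, 20, 50)
  q₃ := (0, 1, 1)
  t₀ := (0, 1)
  t₁ := (1, 1)
  mu₀ := (185, 100)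
  mu₁ := (288, 100)

/-- The piece `M4a`. -/
def sevPcM4a : Piece where
  I := var 0 * var 1
  d := var 0
  w := var 0 * var 2
  o := sevBinM4.n₀ + sevBinM4.n₁ * var 3
  den := num 100
  vn := num 2 * (((num 42) * var 1 + num (-2)) * var 3 + (num 48) * var 1 + num 2)
  vs := num 1
  mu := ⟨(185, 100), (288, 100)⟩
  pn := fun b => cond b
    ((((((num 48384) * var 0 + num 42000) * var 0) * var 1 + ((num 21888) * var 0 + num (-5192)) * var 0 + num (-21000)) * var 1 + ((num (-1152)) * var 0 + num 152) * var 0 + num 1000) * var 3 + ((((num 55296) * var 0 + num 48000) * var 0) * var 1 + ((num 29952) * var 0 + num (-1648)) * var 0 + num (-24000)) * var 1 + ((num 1152) * var 0 + num (-152)) * var 0 + num 49000)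
    ((((((num 26418) * var 0 + num 42000) * var 0) * var 1 + ((num 11951) * var 0 + num 5791) * var 0 + num (-21000)) * var 1 + ((num (-629)) * var 0 + num (-371)) * var 0 + num 1000) * var 3 + ((((num 30192) * var 0 + num 48000) * var 0) * var 1 + ((num 16354) * var 0 + num 10904) * var 0 + num (-24000)) * var 1 + ((num 629) * var 0 + num 371) * var 0 + num 49000)
  pd := num 500
  en := fun b => cond b
    ((((num (-3248000)) * var 0) * var 1 + num 568400) * var 3 + (((num 102616500) * var 0) * var 1 + ((num (-77292250)) * var 0 + num 47857250) * var 0) * var 1 + (num 63620200) * var 0 + num 13296500)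
    ((((num (-3139200)) * var 0) * var 1 + num 466956) * var 3 + (((num 99179100) * var 0) * var 1 + ((num (-74703150)) * var 0 + num 46254150) * var 0) * var 1 + (num 52265718) * var 0 + num 10923435)
  kk := fun b => cond b
    (((num 833940) * var 0) * var 3 + ((num 7790220) * var 0) * var 1 + ((num 54307800) * var 0 + num 11309040) * var 0)
    (((num 683757) * var 0) * var 3 + ((num 6387291) * var 0) * var 1 + ((num 44527590) * var 0 + num 9272412) * var 0)
  f0 := num 5000000
  wn := fun b => cond b
    ((((((num (-336000)) * var 0 * var 0) * var 1 + ((num 610380) * var 0 + num 168000) * var 0) * var 1 + ((num 65460) * var 0 + num 20560) * var 0) * var 1 + ((num 1360) * var 0 + num (-1360)) * var 0) * var 3 + ((((num (-384000)) * var 0 * var 0) * var 1 + (((num (-4047500)) * var 0 + num (-80330)) * var 0 + num 192000) * var 0) * var 1 + (((num (-94520)) * var 0 + num (-299387)) * var 0 + num (-359360)) * var 0) * var 1 + ((num (-1360)) * var 0 + num 1360) * var 0)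
    ((((((num (-336000)) * var 0 * var 0) * var 1 + ((num 610380) * var 0 + num 168000) * var 0) * var 1 + ((num 65460) * var 0 + num 20560) * var 0) * var 1 + ((num 1360) * var 0 + num (-1360)) * var 0) * var 3 + ((((num (-384000)) * var 0 * var 0) * var 1 + (((num (-4047500)) * var 0 + num (-134280)) * var 0 + num 192000) * var 0) * var 1 + (((num (-94520)) * var 0 + num (-317730)) * var 0 + num (-359360)) * var 0) * var 1 + ((num (-1360)) * var 0 + num 1360) * var 0)
  wd := num 50000
  tn := fun b => cond b
    (((num 339660) * var 1) * var 3 + (num 399600) * var 1 + (num (-179820)) * var 0 + num 939060)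
    (((num 282353) * var 1) * var 3 + (num 332180) * var 1 + (num (-149481)) * var 0 + num 780623)
  td := num 5000000
  cn := num 1 - var 0 * var 1 - var 1 * (num 1 - num 2 * (var 0 * var 1))
  cd := (num 1 - num 2 * (var 0 * var 1)) * (num 1 - num 2 * (var 0 * var 1))
  kn := var 0 * var 1 * (((num 86) * var 3 + (num 2035) * var 1 + num (-952)) * var 3 + (num 2061) * var 1 + (num 1339) * var 0 + num 308)
  kd := num 100
  k2n := (((num 228) * var 0) * var 3 + ((num 971) * var 0) * var 1 + (num (-748)) * var 0) * var 3 + ((num (-997)) * var 0) * var 1 + (num 582) * var 0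
  k2d := num 100

/-- Its ranges. -/
def sevBoxM4a : EBox :=
  ⟨(10, 11, 50), (32, 45, 100), (17, 20, 50), (0, 3, 5)⟩

/-- The piece `M4b`. -/
def sevPcM4b : Piece where
  I := var 0 * var 1
  d := var 0
  w := var 0 * var 2
  o := sevBinM4.n₀ + sevBinM4.n₁ * var 3
  den := num 100
  vn := num 2 * (((num 42) * var 1 + num (-2)) * var 3 + (num 48) * var 1 + num 2)
  vs := num 1
  mu := ⟨(185, 100), (288, 100)⟩
  pn := fun b => cond b
    ((((((num 48384) * var 0 + num 42000) * var 0) * var 1 + ((num 21888) * var 0 + num (-5192)) * var 0 + num (-21000)) * var 1 + ((num (-1152)) * var 0 + num 152) * var 0 + num 1000) * var 3 + ((((num 55296) * var 0 + num 48000) * var 0) * var 1 + ((num 29952) * var 0 + num (-1648)) * var 0 + num (-24000)) * var 1 + ((num 1152) * var 0 + num (-152)) * var 0 + num 49000)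
    ((((((num 26418) * var 0 + num 42000) * var 0) * var 1 + ((num 11951) * var 0 + num 5791) * var 0 + num (-21000)) * var 1 + ((num (-629)) * var 0 + num (-371)) * var 0 + num 1000) * var 3 + ((((num 30192) * var 0 + num 48000) * var 0) * var 1 + ((num 16354) * var 0 + num 10904) * var 0 + num (-24000)) * var 1 + ((num 629) * var 0 + num 371) * var 0 + num 49000)
  pd := num 500
  en := fun b => cond b
    ((((num (-4271400)) * var 0) * var 1 + num 610200) * var 3 + (((num 110446200) * var 0) * var 1 + ((num (-65393100)) * var 0 + num 40934250) * var 0) * var 1 + (num 65291400) * var 0 + num 13159980)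
    ((((num (-4111800)) * var 0) * var 1 + num 499290) * var 3 + (((num 106319400) * var 0) * var 1 + ((num (-62949700)) * var 0 + num 39404750) * var 0) * var 1 + (num 53424030) * var 0 + num 10768021)
  kk := fun b => cond b
    (((num 796380) * var 0) * var 3 + ((num 8984800) * var 0) * var 1 + ((num 55460720) * var 0 + num 10720500) * var 0)
    (((num 648414) * var 0) * var 3 + ((num 7315440) * var 0) * var 1 + ((num 45156216) * var 0 + num 8728650) * var 0)
  f0 := num 5000000
  wn := fun b => cond b
    ((((((num (-336000)) * var 0 * var 0) * var 1 + ((num 570380) * var 0 + num 168000) * var 0) * var 1 + ((num 57470) * var 0 + num 20560) * var 0) * var 1 + ((num 1360) * var 0 + num (-1360)) * var 0) * var 3 + ((((num (-384000)) * var 0 * var 0) * var 1 + (((num (-3871000)) * var 0 + num (-161480)) * var 0 + num 192000) * var 0) * var 1 + (((num (-125630)) * var 0 + num (-284648)) * var 0 + num (-359360)) * var 0) * var 1 + ((num (-1360)) * var 0 + num 1360) * var 0)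
    ((((((num (-336000)) * var 0 * var 0) * var 1 + ((num 570380) * var 0 + num 168000) * var 0) * var 1 + ((num 57470) * var 0 + num 20560) * var 0) * var 1 + ((num 1360) * var 0 + num (-1360)) * var 0) * var 3 + ((((num (-384000)) * var 0 * var 0) * var 1 + (((num (-3871000)) * var 0 + num (-201630)) * var 0 + num 192000) * var 0) * var 1 + (((num (-125630)) * var 0 + num (-298299)) * var 0 + num (-359360)) * var 0) * var 1 + ((num (-1360)) * var 0 + num 1360) * var 0)
  wd := num 50000
  tn := fun b => cond b
    (((num 192850) * var 1 + num (-10150)) * var 3 + (num 192850) * var 1 + (num (-192850)) * var 0 + num 497350)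
    (((num 159239) * var 1 + num (-8381)) * var 3 + (num 159239) * var 1 + (num (-159239)) * var 0 + num 410669)
  td := num 2500000
  cn := num 1 - var 0 * var 1 - var 1 * (num 1 - num 2 * (var 0 * var 1))
  cd := (num 1 - num 2 * (var 0 * var 1)) * (num 1 - num 2 * (var 0 * var 1))
  kn := var 0 * var 1 * (((num 171) * var 3 + (num 2898) * var 1 + num (-1395)) * var 3 + (num 1618) * var 1 + (num 1730) * var 0 + num 441)
  kd := num 100
  k2n := (((num 175) * var 0) * var 3 + ((num 1823) * var 0) * var 1 + (num (-1007)) * var 0) * var 3 + ((num (-1403)) * var 0) * var 1 + (num 717) * var 0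
  k2d := num 100

/-- Its ranges. -/
def sevBoxM4b : EBox :=
  ⟨(10, 11, 50), (32, 45, 100), (17, 20, 50), (3, 5, 5)⟩

/-- The chart of the bin `M5`. -/
def sevBinM5 : EndChart where
  I := var 0 * var 1
  d := var 0
  w := var 0 * var 2
  den := num 100
  n₀ := (num 1 - num 2 * (var 0 * var 1) - var 0) * ((num 46) * var 1 + num 1)
  n₁ := (num 1 - num 2 * (var 0 * var 1) - var 0) * ((num 34) * var 1 + num 1)
  q₀ := (10, 11, 50)
  q₁ := (32, 45, 100)
  q₂ := (10, 12, 25)
  q₃ := (0, 1, 1)
  t₀ := (0, 1)
  t₁ := (1, 1)
  mu₀ := (172, 100)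
  mu₁ := (287, 100)

/-- The piece `M5a`. -/
def sevPcM5a : Piece where
  I := var 0 * var 1
  d := var 0
  w := var 0 * var 2
  o := sevBinM5.n₀ + sevBinM5.n₁ * var 3
  den := num 100
  vn := num 2 * (((num 34) * var 1 + num 1) * var 3 + (num 46) * var 1 + num 1)
  vs := num 1
  mu := ⟨(172, 100), (287, 100)⟩
  pn := fun b => cond b
    ((((((num 58548) * var 0 + num 42500) * var 0) * var 1 + ((num 30996) * var 0 + num (-6774)) * var 0 + num (-21250)) * var 1 + ((num 861) * var 0 + num (-236)) * var 0 + num (-625)) * var 3 + ((((num 79212) * var 0 + num 57500) * var 0) * var 1 + ((num 41328) * var 0 + num (-9606)) * var 0 + num (-28750)) * var 1 + ((num 861) * var 0 + num (-236)) * var 0 + num 61875)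
    ((((((num 29240) * var 0 + num 42500) * var 0) * var 1 + ((num 15480) * var 0 + num 7880) * var 0 + num (-21250)) * var 1 + ((num 430) * var 0 + num 195) * var 0 + num (-625)) * var 3 + ((((num 39560) * var 0 + num 57500) * var 0) * var 1 + ((num 20640) * var 0 + num 10220) * var 0 + num (-28750)) * var 1 + ((num 430) * var 0 + num 195) * var 0 + num 61875)
  pd := num 625
  en := fun b => cond b
    ((((num (-1344875)) * var 0) * var 1 + num 328860) * var 3 + (((num 60468625) * var 0) * var 1 + ((num (-51739625)) * var 0 + num 23471875) * var 0) * var 1 + (num 38135580) * var 0 + num 7892640)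
    ((((num (-1298500)) * var 0) * var 1 + num 264600) * var 3 + (((num 58383500) * var 0) * var 1 + ((num (-49955500)) * var 0 + num 22662500) * var 0) * var 1 + (num 30683800) * var 0 + num 6350400)
  kk := fun b => cond b
    (((num 476892) * var 0) * var 3 + ((num 4450992) * var 0) * var 1 + ((num 32245236) * var 0 + num 6859908) * var 0)
    (((num 382590) * var 0) * var 3 + ((num 3570840) * var 0) * var 1 + ((num 25868970) * var 0 + num 5503410) * var 0)
  f0 := num 2500000
  wn := fun b => cond b
    ((((((num (-27200)) * var 0 * var 0) * var 1 + ((num 47860) * var 0 + num 13600) * var 0) * var 1 + ((num 14620) * var 0 + num 3120) * var 0) * var 1 + ((num (-80)) * var 0 + num 80) * var 0) * var 3 + ((((num (-36800)) * var 0 * var 0) * var 1 + (((num (-406300)) * var 0 + num (-8705)) * var 0 + num 18400) * var 0) * var 1 + (((num (-20280)) * var 0 + num (-30338)) * var 0 + num (-35920)) * var 0) * var 1 + ((num (-80)) * var 0 + num 80) * var 0)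
    ((((((num (-27200)) * var 0 * var 0) * var 1 + ((num 47860) * var 0 + num 13600) * var 0) * var 1 + ((num 14620) * var 0 + num 3120) * var 0) * var 1 + ((num (-80)) * var 0 + num 80) * var 0) * var 3 + ((((num (-36800)) * var 0 * var 0) * var 1 + (((num (-406300)) * var 0 + num (-15020)) * var 0 + num 18400) * var 0) * var 1 + (((num (-20280)) * var 0 + num (-32864)) * var 0 + num (-35920)) * var 0) * var 1 + ((num (-80)) * var 0 + num 80) * var 0)
  wd := num 5000
  tn := fun b => cond b
    (((num 36432) * var 1 + num 3036) * var 3 + (num 54648) * var 1 + (num (-12144)) * var 0 + num 133584)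
    (((num 29820) * var 1 + num 2485) * var 3 + (num 44730) * var 1 + (num (-9940)) * var 0 + num 109340)
  td := num 625000
  cn := num 1 - var 0 * var 1 - var 1 * (num 1 - num 2 * (var 0 * var 1))
  cd := (num 1 - num 2 * (var 0 * var 1)) * (num 1 - num 2 * (var 0 * var 1))
  kn := var 0 * var 1 * (((num 93) * var 3 + (num 2075) * var 1 + num (-967)) * var 3 + (num 1873) * var 1 + (num 1368) * var 0 + num 383)
  kd := num 100
  k2n := (((num 202) * var 0) * var 3 + ((num 1007) * var 0) * var 1 + (num (-780)) * var 0) * var 3 + ((num (-1084)) * var 0) * var 1 + (num 639) * var 0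
  k2d := num 100

/-- Its ranges. -/
def sevBoxM5a : EBox :=
  ⟨(10, 11, 50), (32, 45, 100), (10, 12, 25), (0, 3, 5)⟩

/-- The piece `M5b`. -/
def sevPcM5b : Piece where
  I := var 0 * var 1
  d := var 0
  w := var 0 * var 2
  o := sevBinM5.n₀ + sevBinM5.n₁ * var 3
  den := num 100
  vn := num 2 * (((num 34) * var 1 + num 1) * var 3 + (num 46) * var 1 + num 1)
  vs := num 1
  mu := ⟨(172, 100), (287, 100)⟩
  pn := fun b => cond b
    ((((((num 58548) * var 0 + num 42500) * var 0) * var 1 + ((num 30996) * var 0 + num (-6774)) * var 0 + num (-21250)) * var 1 + ((num 861) * var 0 + num (-236)) * var 0 + num (-625)) * var 3 + ((((num 79212) * var 0 + num 57500) * var 0) * var 1 + ((num 41328) * var 0 + num (-9606)) * var 0 + num (-28750)) * var 1 + ((num 861) * var 0 + num (-236)) * var 0 + num 61875)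
    ((((((num 29240) * var 0 + num 42500) * var 0) * var 1 + ((num 15480) * var 0 + num 7880) * var 0 + num (-21250)) * var 1 + ((num 430) * var 0 + num 195) * var 0 + num (-625)) * var 3 + ((((num 39560) * var 0 + num 57500) * var 0) * var 1 + ((num 20640) * var 0 + num 10220) * var 0 + num (-28750)) * var 1 + ((num 430) * var 0 + num 195) * var 0 + num 61875)
  pd := num 625
  en := fun b => cond b
    ((((num (-890750)) * var 0) * var 1 + num 171024) * var 3 + (((num 32601450) * var 0) * var 1 + ((num (-23503075)) * var 0 + num 9900050) * var 0) * var 1 + (num 19600572) * var 0 + num 3903012)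
    ((((num (-855750)) * var 0) * var 1 + num 136920) * var 3 + (((num 31320450) * var 0) * var 1 + ((num (-22579575)) * var 0 + num 9511050) * var 0) * var 1 + (num 15692010) * var 0 + num 3124710)
  kk := fun b => cond b
    (((num 226662) * var 0) * var 3 + ((num 2505534) * var 0) * var 1 + ((num 16411554) * var 0 + num 3289662) * var 0)
    (((num 180745) * var 0) * var 3 + ((num 1997965) * var 0) * var 1 + ((num 13086915) * var 0 + num 2623245) * var 0)
  f0 := num 1250000
  wn := fun b => cond b
    ((((((num (-2720)) * var 0 * var 0) * var 1 + ((num 4666) * var 0 + num 1360) * var 0) * var 1 + ((num 1268) * var 0 + num 312) * var 0) * var 1 + ((num (-8)) * var 0 + num 8) * var 0) * var 3 + ((((num (-3680)) * var 0 * var 0) * var 1 + (((num (-37845)) * var 0 + num (-2131)) * var 0 + num 1840) * var 0) * var 1 + (((num (-2642)) * var 0 + num (-2726)) * var 0 + num (-3592)) * var 0) * var 1 + ((num (-8)) * var 0 + num 8) * var 0)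
    ((((((num (-2720)) * var 0 * var 0) * var 1 + ((num 4666) * var 0 + num 1360) * var 0) * var 1 + ((num 1268) * var 0 + num 312) * var 0) * var 1 + ((num (-8)) * var 0 + num 8) * var 0) * var 3 + ((((num (-3680)) * var 0 * var 0) * var 1 + (((num (-37845)) * var 0 + num (-2651)) * var 0 + num 1840) * var 0) * var 1 + (((num (-2642)) * var 0 + num (-2934)) * var 0 + num (-3592)) * var 0) * var 1 + ((num (-8)) * var 0 + num 8) * var 0)
  wd := num 500
  tn := fun b => cond b
    (((num 36252) * var 1 + num 3021) * var 3 + (num 57399) * var 1 + (num (-39273)) * var 0 + num 138966)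
    (((num 29520) * var 1 + num 2460) * var 3 + (num 46740) * var 1 + (num (-31980)) * var 0 + num 113160)
  td := num 625000
  cn := num 1 - var 0 * var 1 - var 1 * (num 1 - num 2 * (var 0 * var 1))
  cd := (num 1 - num 2 * (var 0 * var 1)) * (num 1 - num 2 * (var 0 * var 1))
  kn := var 0 * var 1 * (((num 160) * var 3 + (num 2711) * var 1 + num (-1304)) * var 3 + (num 1570) * var 1 + (num 1836) * var 0 + num 440)
  kd := num 100
  k2n := (((num 97) * var 0) * var 3 + ((num 2060) * var 0) * var 1 + (num (-992)) * var 0) * var 3 + ((num (-1699)) * var 0) * var 1 + (num 799) * var 0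
  k2d := num 100

/-- Its ranges. -/
def sevBoxM5b : EBox :=
  ⟨(10, 11, 50), (32, 45, 100), (10, 12, 25), (3, 5, 5)⟩

/-- The chart of the bin `M6`. -/
def sevBinM6 : EndChart where
  I := var 0 * var 1
  d := var 0
  w := var 0 * var 2
  den := num 100
  n₀ := (num 1 - num 2 * (var 0 * var 1) - var 0) * ((num 42) * var 1 + num 1)
  n₁ := (num 1 - num 2 * (var 0 * var 1) - var 0) * ((num 36) * var 1)
  q₀ := (10, 11, 50)
  q₁ := (32, 45, 100)
  q₂ := (12, 14, 25)
  q₃ := (0, 1, 1)
  t₀ := (0, 1)
  t₁ := (1, 1)
  mu₀ := (163, 100)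
  mu₁ := (286, 100)

/-- The piece `M6a`. -/
def sevPcM6a : Piece where
  I := var 0 * var 1
  d := var 0
  w := var 0 * var 2
  o := sevBinM6.n₀ + sevBinM6.n₁ * var 3
  den := num 100
  vn := num 2 * (((num 36) * var 1) * var 3 + (num 42) * var 1 + num 1)
  vs := num 1
  mu := ⟨(163, 100), (286, 100)⟩
  pn := fun b => cond b
    ((((((num 72072) * var 0 + num 45000) * var 0) * var 1 + ((num 36036) * var 0 + num (-13536)) * var 0 + num (-22500)) * var 1) * var 3 + ((((num 84084) * var 0 + num 52500) * var 0) * var 1 + ((num 44044) * var 0 + num (-14542)) * var 0 + num (-26250)) * var 1 + ((num 1001) * var 0 + num (-376)) * var 0 + num 61875)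
    ((((((num 35208) * var 0 + num 45000) * var 0) * var 1 + ((num 17604) * var 0 + num 4896) * var 0 + num (-22500)) * var 1) * var 3 + ((((num 41076) * var 0 + num 52500) * var 0) * var 1 + ((num 21516) * var 0 + num 6962) * var 0 + num (-26250)) * var 1 + ((num 489) * var 0 + num 136) * var 0 + num 61875)
  pd := num 625
  en := fun b => cond b
    ((((num (-57150)) * var 0) * var 1 + num 74676) * var 3 + (((num 17519650) * var 0) * var 1 + ((num (-14300200)) * var 0 + num 5321300) * var 0) * var 1 + (num 10892028) * var 0 + num 2329180)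
    ((((num (-55125)) * var 0) * var 1 + num 61740) * var 3 + (((num 16898875) * var 0) * var 1 + ((num (-13793500)) * var 0 + num 5132750) * var 0) * var 1 + (num 9005220) * var 0 + num 1925700)
  kk := fun b => cond b
    (((num 131831) * var 0) * var 3 + ((num 1247050) * var 0) * var 1 + ((num 9302993) * var 0 + num 2016658) * var 0)
    (((num 108891) * var 0) * var 3 + ((num 1030050) * var 0) * var 1 + ((num 7684173) * var 0 + num 1665738) * var 0)
  f0 := num 625000
  wn := fun b => cond b
    ((((((num (-144000)) * var 0 * var 0) * var 1 + ((num 305190) * var 0 + num 72000) * var 0) * var 1 + ((num 72840) * var 0 + num 17280) * var 0) * var 1) * var 3 + ((((num (-168000)) * var 0 * var 0) * var 1 + (((num (-1922750)) * var 0 + num (-90920)) * var 0 + num 84000) * var 0) * var 1 + (((num (-212640)) * var 0 + num (-133768)) * var 0 + num (-177840)) * var 0) * var 1 + ((num (-480)) * var 0 + num 480) * var 0)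
    ((((((num (-144000)) * var 0 * var 0) * var 1 + ((num 305190) * var 0 + num 72000) * var 0) * var 1 + ((num 72840) * var 0 + num 17280) * var 0) * var 1) * var 3 + ((((num (-168000)) * var 0 * var 0) * var 1 + (((num (-1922750)) * var 0 + num (-129545)) * var 0 + num 84000) * var 0) * var 1 + (((num (-212640)) * var 0 + num (-152308)) * var 0 + num (-177840)) * var 0) * var 1 + ((num (-480)) * var 0 + num 480) * var 0)
  wd := num 25000
  tn := fun b => cond b
    (((num 7777) * var 1 + num 707) * var 3 + (num 11312) * var 1 + num 29694)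
    (((num 6534) * var 1 + num 594) * var 3 + (num 9504) * var 1 + num 24948)
  td := num 125000
  cn := num 1 - var 0 * var 1 - var 1 * (num 1 - num 2 * (var 0 * var 1))
  cd := (num 1 - num 2 * (var 0 * var 1)) * (num 1 - num 2 * (var 0 * var 1))
  kn := var 0 * var 1 * (((num 83) * var 3 + (num 1938) * var 1 + num (-950)) * var 3 + (num 1716) * var 1 + (num 1458) * var 0 + num 409)
  kd := num 100
  k2n := (((num 197) * var 0) * var 3 + ((num 963) * var 0) * var 1 + (num (-760)) * var 0) * var 3 + ((num (-1101)) * var 0) * var 1 + (num 655) * var 0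
  k2d := num 100

/-- Its ranges. -/
def sevBoxM6a : EBox :=
  ⟨(10, 11, 50), (32, 45, 100), (12, 14, 25), (0, 3, 5)⟩

/-- The piece `M6b`. -/
def sevPcM6b : Piece where
  I := var 0 * var 1
  d := var 0
  w := var 0 * var 2
  o := sevBinM6.n₀ + sevBinM6.n₁ * var 3
  den := num 100
  vn := num 2 * (((num 36) * var 1) * var 3 + (num 42) * var 1 + num 1)
  vs := num 1
  mu := ⟨(163, 100), (286, 100)⟩
  pn := fun b => cond b
    ((((((num 72072) * var 0 + num 45000) * var 0) * var 1 + ((num 36036) * var 0 + num (-13536)) * var 0 + num (-22500)) * var 1) * var 3 + ((((num 84084) * var 0 + num 52500) * var 0) * var 1 + ((num 44044) * var 0 + num (-14542)) * var 0 + num (-26250)) * var 1 + ((num 1001) * var 0 + num (-376)) * var 0 + num 61875)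
    ((((((num 35208) * var 0 + num 45000) * var 0) * var 1 + ((num 17604) * var 0 + num 4896) * var 0 + num (-22500)) * var 1) * var 3 + ((((num 41076) * var 0 + num 52500) * var 0) * var 1 + ((num 21516) * var 0 + num 6962) * var 0 + num (-26250)) * var 1 + ((num 489) * var 0 + num 136) * var 0 + num 61875)
  pd := num 625
  en := fun b => cond b
    ((((num (-764250)) * var 0) * var 1 + num 313852) * var 3 + (((num 76501425) * var 0) * var 1 + ((num (-52402075)) * var 0 + num 16405900) * var 0) * var 1 + (num 44738176) * var 0 + num 9272900)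
    ((((num (-733500)) * var 0) * var 1 + num 258192) * var 3 + (((num 73423350) * var 0) * var 1 + ((num (-50293650)) * var 0 + num 15745800) * var 0) * var 1 + (num 36804096) * var 0 + num 7628400)
  kk := fun b => cond b
    (((num 500780) * var 0) * var 3 + ((num 5680276) * var 0) * var 1 + ((num 37887584) * var 0 + num 7740628) * var 0)
    (((num 410760) * var 0) * var 3 + ((num 4659192) * var 0) * var 1 + ((num 31076928) * var 0 + num 6349176) * var 0)
  f0 := num 2500000
  wn := fun b => cond b
    ((((((num (-72000)) * var 0 * var 0) * var 1 + ((num 151220) * var 0 + num 36000) * var 0) * var 1 + ((num 30600) * var 0 + num 8640) * var 0) * var 1) * var 3 + ((((num (-84000)) * var 0 * var 0) * var 1 + (((num (-879750)) * var 0 + num (-83435)) * var 0 + num 42000) * var 0) * var 1 + (((num (-124260)) * var 0 + num (-57572)) * var 0 + num (-88920)) * var 0) * var 1 + ((num (-240)) * var 0 + num 240) * var 0)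
    ((((((num (-72000)) * var 0 * var 0) * var 1 + ((num 151220) * var 0 + num 36000) * var 0) * var 1 + ((num 30600) * var 0 + num 8640) * var 0) * var 1) * var 3 + ((((num (-84000)) * var 0 * var 0) * var 1 + (((num (-879750)) * var 0 + num (-100635)) * var 0 + num 42000) * var 0) * var 1 + (((num (-124260)) * var 0 + num (-65828)) * var 0 + num (-88920)) * var 0) * var 1 + ((num (-240)) * var 0 + num 240) * var 0)
  wd := num 12500
  tn := fun b => cond b
    (((num 83580) * var 1 + num 6965) * var 3 + (num 118405) * var 1 + (num (-62685)) * var 0 + num 306460)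
    (((num 69768) * var 1 + num 5814) * var 3 + (num 98838) * var 1 + (num (-52326)) * var 0 + num 255816)
  td := num 1250000
  cn := num 1 - var 0 * var 1 - var 1 * (num 1 - num 2 * (var 0 * var 1))
  cd := (num 1 - num 2 * (var 0 * var 1)) * (num 1 - num 2 * (var 0 * var 1))
  kn := var 0 * var 1 * (((num 145) * var 3 + (num 2574) * var 1 + num (-1287)) * var 3 + (num 1397) * var 1 + (num 1993) * var 0 + num 460)
  kd := num 100
  k2n := (((num 101) * var 0) * var 3 + ((num 2071) * var 0) * var 1 + (num (-1003)) * var 0) * var 3 + ((num (-1827)) * var 0) * var 1 + (num 855) * var 0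
  k2d := num 100

/-- Its ranges. -/
def sevBoxM6b : EBox :=
  ⟨(10, 11, 50), (32, 45, 100), (12, 14, 25), (3, 5, 5)⟩

/-- The chart of the bin `M7`. -/
def sevBinM7 : EndChart where
  I := var 0 * var 1
  d := var 0
  w := var 0 * var 2
  den := num 100
  n₀ := (num 1 - num 2 * (var 0 * var 1) - var 0) * ((num 42) * var 1)
  n₁ := (num 1 - num 2 * (var 0 * var 1) - var 0) * ((num 38) * var 1 + num (-1))
  q₀ := (10, 11, 50)
  q₁ := (32, 45, 100)
  q₂ := (28, 33, 50)
  q₃ := (0, 1, 1)
  t₀ := (0, 1)
  t₁ := (1, 1)
  mu₀ := (155, 100)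
  mu₁ := (288, 100)

/-- The piece `M7a`. -/
def sevPcM7a : Piece where
  I := var 0 * var 1
  d := var 0
  w := var 0 * var 2
  o := sevBinM7.n₀ + sevBinM7.n₁ * var 3
  den := num 100
  vn := num 2 * (((num 38) * var 1 + num (-1)) * var 3 + (num 42) * var 1)
  vs := num 1
  mu := ⟨(155, 100), (288, 100)⟩
  pn := fun b => cond b
    ((((((num 180576) * var 0 + num 95000) * var 0) * var 1 + ((num 85536) * var 0 + num (-45288)) * var 0 + num (-47500)) * var 1 + ((num (-2376)) * var 0 + num 1126) * var 0 + num 1250) * var 3 + ((((num 199584) * var 0 + num 105000) * var 0) * var 1 + ((num 99792) * var 0 + num (-47292)) * var 0 + num (-52500)) * var 1 + num 125000)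
    ((((((num 82460) * var 0 + num 95000) * var 0) * var 1 + ((num 39060) * var 0 + num 3770) * var 0 + num (-47500)) * var 1 + ((num (-1085)) * var 0 + num (-165)) * var 0 + num 1250) * var 3 + ((((num 91140) * var 0 + num 105000) * var 0) * var 1 + ((num 45570) * var 0 + num 6930) * var 0 + num (-52500)) * var 1 + num 125000)
  pd := num 1250
  en := fun b => cond b
    ((((num 1371600) * var 0) * var 1 + num 603504) * var 3 + (((num 164338000) * var 0) * var 1 + ((num (-143205200)) * var 0 + num 39420800) * var 0) * var 1 + (num 102595680) * var 0 + num 21826728)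
    ((((num 1323000) * var 0) * var 1 + num 493920) * var 3 + (((num 158515000) * var 0) * var 1 + ((num (-138131000)) * var 0 + num 38024000) * var 0) * var 1 + (num 83966400) * var 0 + num 17863440)
  kk := fun b => cond b
    (((num 1176945) * var 0) * var 3 + ((num 11702196) * var 0) * var 1 + ((num 87127557) * var 0 + num 19032882) * var 0)
    (((num 961380) * var 0) * var 3 + ((num 9558864) * var 0) * var 1 + ((num 71169588) * var 0 + num 15546888) * var 0)
  f0 := num 5000000
  wn := fun b => cond b
    ((((((num (-152000)) * var 0 * var 0) * var 1 + ((num 364690) * var 0 + num 76000) * var 0) * var 1 + ((num 76620) * var 0 + num 19280) * var 0) * var 1 + ((num 560) * var 0 + num (-560)) * var 0) * var 3 + ((((num (-168000)) * var 0 * var 0) * var 1 + (((num (-1834500)) * var 0 + num (-91290)) * var 0 + num 84000) * var 0) * var 1 + (((num (-321720)) * var 0 + num (-128180)) * var 0 + num (-176480)) * var 0) * var 1)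
    ((((((num (-152000)) * var 0 * var 0) * var 1 + ((num 364690) * var 0 + num 76000) * var 0) * var 1 + ((num 76620) * var 0 + num 19280) * var 0) * var 1 + ((num 560) * var 0 + num (-560)) * var 0) * var 3 + ((((num (-168000)) * var 0 * var 0) * var 1 + (((num (-1834500)) * var 0 + num (-140265)) * var 0 + num 84000) * var 0) * var 1 + (((num (-321720)) * var 0 + num (-155606)) * var 0 + num (-176480)) * var 0) * var 1)
  wd := num 25000
  tn := fun b => cond b
    (((num 166650) * var 1) * var 3 + (num 266640) * var 1 + (num 49995) * var 0 + num 666600)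
    (((num 139160) * var 1) * var 3 + (num 222656) * var 1 + (num 41748) * var 0 + num 556640)
  td := num 2500000
  cn := num 1 - var 0 * var 1 - var 1 * (num 1 - num 2 * (var 0 * var 1))
  cd := (num 1 - num 2 * (var 0 * var 1)) * (num 1 - num 2 * (var 0 * var 1))
  kn := var 0 * var 1 * (((num 82) * var 3 + (num 1949) * var 1 + num (-966)) * var 3 + (num 1593) * var 1 + (num 1538) * var 0 + num 435)
  kd := num 100
  k2n := (((num 184) * var 0) * var 3 + ((num 935) * var 0) * var 1 + (num (-734)) * var 0) * var 3 + ((num (-1159)) * var 0) * var 1 + (num 678) * var 0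
  k2d := num 100

/-- Its ranges. -/
def sevBoxM7a : EBox :=
  ⟨(10, 11, 50), (32, 45, 100), (28, 33, 50), (0, 3, 5)⟩

/-- The piece `M7b`. -/
def sevPcM7b : Piece where
  I := var 0 * var 1
  d := var 0
  w := var 0 * var 2
  o := sevBinM7.n₀ + sevBinM7.n₁ * var 3
  den := num 100
  vn := num 2 * (((num 38) * var 1 + num (-1)) * var 3 + (num 42) * var 1)
  vs := num 1
  mu := ⟨(155, 100), (288, 100)⟩
  pn := fun b => cond b
    ((((((num 180576) * var 0 + num 95000) * var 0) * var 1 + ((num 85536) * var 0 + num (-45288)) * var 0 + num (-47500)) * var 1 + ((num (-2376)) * var 0 + num 1126) * var 0 + num 1250) * var 3 + ((((num 199584) * var 0 + num 105000) * var 0) * var 1 + ((num 99792) * var 0 + num (-47292)) * var 0 + num (-52500)) * var 1 + num 125000)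
    ((((((num 82460) * var 0 + num 95000) * var 0) * var 1 + ((num 39060) * var 0 + num 3770) * var 0 + num (-47500)) * var 1 + ((num (-1085)) * var 0 + num (-165)) * var 0 + num 1250) * var 3 + ((((num 91140) * var 0 + num 105000) * var 0) * var 1 + ((num 45570) * var 0 + num 6930) * var 0 + num (-52500)) * var 1 + num 125000)
  pd := num 1250
  en := fun b => cond b
    ((((num 152850) * var 0) * var 1 + num 638913) * var 3 + (((num 180566800) * var 0) * var 1 + ((num (-138838750)) * var 0 + num 28837700) * var 0) * var 1 + (num 105555153) * var 0 + num 21689415)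
    ((((num 146550) * var 0) * var 1 + num 519764) * var 3 + (((num 173124400) * var 0) * var 1 + ((num (-133116250)) * var 0 + num 27649100) * var 0) * var 1 + (num 85870484) * var 0 + num 17644620)
  kk := fun b => cond b
    (((num 1145562) * var 0) * var 3 + ((num 13342428) * var 0) * var 1 + ((num 88376739) * var 0 + num 18295299) * var 0)
    (((num 929152) * var 0) * var 3 + ((num 10821888) * var 0) * var 1 + ((num 71681344) * var 0 + num 14839104) * var 0)
  f0 := num 5000000
  wn := fun b => cond b
    ((((((num (-152000)) * var 0 * var 0) * var 1 + ((num 374690) * var 0 + num 76000) * var 0) * var 1 + ((num 59680) * var 0 + num 19280) * var 0) * var 1 + ((num 560) * var 0 + num (-560)) * var 0) * var 3 + ((((num (-168000)) * var 0 * var 0) * var 1 + (((num (-1723000)) * var 0 + num (-176615)) * var 0 + num 84000) * var 0) * var 1 + (((num (-332080)) * var 0 + num (-109742)) * var 0 + num (-176480)) * var 0) * var 1)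
    ((((((num (-152000)) * var 0 * var 0) * var 1 + ((num 374690) * var 0 + num 76000) * var 0) * var 1 + ((num 59680) * var 0 + num 19280) * var 0) * var 1 + ((num 560) * var 0 + num (-560)) * var 0) * var 3 + ((((num (-168000)) * var 0 * var 0) * var 1 + (((num (-1723000)) * var 0 + num (-222340)) * var 0 + num 84000) * var 0) * var 1 + (((num (-332080)) * var 0 + num (-135348)) * var 0 + num (-176480)) * var 0) * var 1)
  wd := num 25000
  tn := fun b => cond b
    (((num 10560) * var 1) * var 3 + (num 17952) * var 1 + (num (-5280)) * var 0 + num 43296)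
    (((num 8750) * var 1) * var 3 + (num 14875) * var 1 + (num (-4375)) * var 0 + num 35875)
  td := num 156250
  cn := num 1 - var 0 * var 1 - var 1 * (num 1 - num 2 * (var 0 * var 1))
  cd := (num 1 - num 2 * (var 0 * var 1)) * (num 1 - num 2 * (var 0 * var 1))
  kn := var 0 * var 1 * (((num 168) * var 3 + (num 2608) * var 1 + num (-1343)) * var 3 + (num 1224) * var 1 + (num 1991) * var 0 + num 534)
  kd := num 100
  k2n := (((num 96) * var 0) * var 3 + ((num 2007) * var 0) * var 1 + (num (-974)) * var 0) * var 3 + ((num (-1828)) * var 0) * var 1 + (num 862) * var 0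
  k2d := num 100

/-- Its ranges. -/
def sevBoxM7b : EBox :=
  ⟨(10, 11, 50), (32, 45, 100), (28, 33, 50), (3, 5, 5)⟩

/-- The chart of the bin `M8`. -/
def sevBinM8 : EndChart where
  I := var 0 * var 1
  d := var 0
  w := var 0 * var 2
  den := num 100
  n₀ := (num 1 - num 2 * (var 0 * var 1) - var 0) * ((num 32) * var 1 + num 1)
  n₁ := (num 1 - num 2 * (var 0 * var 1) - var 0) * ((num 44) * var 1 + num (-2))
  q₀ := (10, 11, 50)
  q₁ := (32, 45, 100)
  q₂ := (33, 50, 50)
  q₃ := (0, 1, 1)
  t₀ := (0, 1)
  t₁ := (1, 1)
  mu₀ := (124, 100)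
  mu₁ := (299, 100)

/-- The piece `M8a`. -/
def sevPcM8a : Piece where
  I := var 0 * var 1
  d := var 0
  w := var 0 * var 2
  o := sevBinM8.n₀ + sevBinM8.n₁ * var 3
  den := num 100
  vn := num 2 * (((num 44) * var 1 + num (-2)) * var 3 + (num 32) * var 1 + num 1)
  vs := num 1
  mu := ⟨(124, 100), (299, 100)⟩
  pn := fun b => cond b
    ((((((num 657800) * var 0 + num 220000) * var 0) * var 1 + ((num 299000) * var 0 + num (-228900)) * var 0 + num (-110000)) * var 1 + ((num (-14950)) * var 0 + num 9950) * var 0 + num 5000) * var 3 + ((((num 478400) * var 0 + num 160000) * var 0) * var 1 + ((num 254150) * var 0 + num (-154200)) * var 0 + num (-80000)) * var 1 + ((num 7475) * var 0 + num (-4975)) * var 0 + num 247500)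
    ((((((num 180048) * var 0 + num 220000) * var 0) * var 1 + ((num 81840) * var 0 + num 9976) * var 0 + num (-110000)) * var 1 + ((num (-4092)) * var 0 + num (-908)) * var 0 + num 5000) * var 3 + ((((num 130944) * var 0 + num 160000) * var 0) * var 1 + ((num 69564) * var 0 + num 19528) * var 0 + num (-80000)) * var 1 + ((num 2046) * var 0 + num 454) * var 0 + num 247500)
  pd := num 2500
  en := fun b => cond b
    ((((num 434775) * var 0) * var 1 + num 613800) * var 3 + (((num 109486575) * var 0) * var 1 + ((num (-124243350)) * var 0 + num 20766900) * var 0) * var 1 + (num 80152050) * var 0 + num 15958800)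
    ((((num 411825) * var 0) * var 1 + num 383724) * var 3 + (((num 103707225) * var 0) * var 1 + ((num (-117685050)) * var 0 + num 19670700) * var 0) * var 1 + (num 50107959) * var 0 + num 9976824)
  kk := fun b => cond b
    (((num 896000) * var 0) * var 3 + ((num 8678400) * var 0) * var 1 + ((num 65433600) * var 0 + num 14489600) * var 0)
    (((num 562485) * var 0) * var 3 + ((num 5448069) * var 0) * var 1 + ((num 41077476) * var 0 + num 9096186) * var 0)
  f0 := num 2500000
  wn := fun b => cond b
    ((((((num (-352000)) * var 0 * var 0) * var 1 + ((num 337340) * var 0 + num 176000) * var 0) * var 1 + ((num 426110) * var 0 + num 50080) * var 0) * var 1 + ((num 2640) * var 0 + num (-2640)) * var 0) * var 3 + ((((num (-256000)) * var 0 * var 0) * var 1 + (((num (-2725000)) * var 0 + num (-637580)) * var 0 + num 128000) * var 0) * var 1 + (((num (-1106160)) * var 0 + num (-153266)) * var 0 + num (-353760)) * var 0) * var 1 + ((num (-1320)) * var 0 + num 1320) * var 0)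
    ((((((num (-352000)) * var 0 * var 0) * var 1 + ((num 337340) * var 0 + num 176000) * var 0) * var 1 + ((num 426110) * var 0 + num 50080) * var 0) * var 1 + ((num 2640) * var 0 + num (-2640)) * var 0) * var 3 + ((((num (-256000)) * var 0 * var 0) * var 1 + (((num (-2725000)) * var 0 + num (-863830)) * var 0 + num 128000) * var 0) * var 1 + (((num (-1106160)) * var 0 + num (-302591)) * var 0 + num (-353760)) * var 0) * var 1 + ((num (-1320)) * var 0 + num 1320) * var 0)
  wd := num 50000
  tn := fun b => cond b
    (((num 392400) * var 1 + num 49050) * var 3 + (num 637650) * var 1 + (num 539550) * var 0 + num 1716750)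
    (((num 270072) * var 1 + num 33759) * var 3 + (num 438867) * var 1 + (num 371349) * var 0 + num 1181565)
  td := num 5000000
  cn := num 1 - var 0 * var 1 - var 1 * (num 1 - num 2 * (var 0 * var 1))
  cd := (num 1 - num 2 * (var 0 * var 1)) * (num 1 - num 2 * (var 0 * var 1))
  kn := var 0 * var 1 * (((num 253) * var 3 + (num 3090) * var 1 + num (-1361)) * var 3 + (num 1164) * var 1 + (num 1467) * var 0 + num 735)
  kd := num 100
  k2n := (((num 280) * var 0) * var 3 + ((num 1640) * var 0) * var 1 + (num (-1139)) * var 0) * var 3 + ((num (-1495)) * var 0) * var 1 + (num 909) * var 0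
  k2d := num 100

/-- Its ranges. -/
def sevBoxM8a : EBox :=
  ⟨(10, 11, 50), (32, 45, 100), (33, 50, 50), (0, 1, 1)⟩

end Vale.Agent.P100.Calib.StripEndD
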