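import Vale.Agent.P100.Calib.SlabStripEndDExpr
import Vale.Agent.P100.Calib.SlabStripEndCert
import Vale.Agent.P100.Calib.SlabStripEndChart

/-!
# The bins `N` of the `D` region for `N` between seven and twenty

`x = (d, I / d, (1 - u) / d, t)`, with `v` affine in `t`.
-/

namespace Vale.Agent.P100.Calib.StripEndD

open Pack hiding ev_add ev_mul
open Pack.Ex StripMid StripEnd

local instance endSevDataNAdd : Add Ex := ⟨Ex.add⟩
local instance endSevDataNSub : Sub Ex := ⟨Ex.sub⟩
local instance endSevDataNMul : Mul Ex := ⟨Ex.mul⟩

/-- The chart of the bin `N0`. -/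
def sevBinN0 : EndChart where
  I := var 0 * var 1
  d := var 0
  w := var 0 * var 2
  den := num 100
  n₀ := (num 1 - num 2 * (var 0 * var 1) - var 0) * ((num 82) * var 1 + num 2)
  n₁ := (num 1 - num 2 * (var 0 * var 1) - var 0) * ((num 40) * var 1 + num (-2))
  q₀ := (11, 12, 50)
  q₁ := (80, 91, 250)
  q₂ := (0, 3, 500)
  q₃ := (0, 1, 1)
  t₀ := (0, 1)
  t₁ := (1, 1)
  mu₀ := (237, 100)
  mu₁ := (292, 100)

/-- The piece `N0a`. -/
def sevPcN0a : Piece where
  I := var 0 * var 1
  d := var 0
  w := var 0 * var 2
  o := sevBinN0.n₀ + sevBinN0.n₁ * var 3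
  den := num 100
  vn := num 2 * (((num 40) * var 1 + num (-2)) * var 3 + (num 82) * var 1 + num 2)
  vs := num 1
  mu := ⟨(237, 100), (292, 100)⟩
  pn := fun b => cond b
    ((((((num 8760) * var 0 + num 500000) * var 0) * var 1 + ((num 3942) * var 0 + num 220620) * var 0 + num (-250000)) * var 1 + ((num (-219)) * var 0 + num (-12281)) * var 0 + num 12500) * var 3 + ((((num 17958) * var 0 + num 1025000) * var 0) * var 1 + ((num 9417) * var 0 + num 528521) * var 0 + num (-512500)) * var 1 + ((num 219) * var 0 + num 12281) * var 0 + num 612500)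
    (((((num 500000) * var 0) * var 1 + (num 225000) * var 0 + num (-250000)) * var 1 + (num (-12500)) * var 0 + num 12500) * var 3 + (((num 1025000) * var 0) * var 1 + (num 537500) * var 0 + num (-512500)) * var 1 + (num 12500) * var 0 + num 612500)
  pd := num 6250
  en := fun b => cond b
    ((((num (-57787500)) * var 0) * var 1 + num 138690) * var 3 + (((num (-265822500)) * var 0) * var 1 + ((num 133162500) * var 0 + num 717570000) * var 0) * var 1 + (num 6732495) * var 0 + num 2677320)
    ((((num (-57155000)) * var 0) * var 1) * var 3 + (((num (-262913000)) * var 0) * var 1 + ((num 131705000) * var 0 + num 709716000) * var 0) * var 1)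
  kk := fun b => cond b
    (((num 127764) * var 0) * var 3 + ((num 2010762) * var 0) * var 1 + ((num 7553286) * var 0 + num 1700478) * var 0)
    (num 0)
  f0 := num 50000000
  wn := fun b => cond b
    ((((((num (-6400)) * var 0 * var 0) * var 1 + ((num 4040) * var 0 + num 3200) * var 0) * var 1 + ((num 160) * var 0 + num (-160)) * var 0) * var 1) * var 3 + ((((num (-13120)) * var 0 * var 0) * var 1 + (((num (-51570)) * var 0 + num 1724) * var 0 + num 6560) * var 0) * var 1 + ((num (-8160)) * var 0 + num (-7840)) * var 0) * var 1)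
    ((((((num (-6400)) * var 0 * var 0) * var 1 + ((num 4040) * var 0 + num 3200) * var 0) * var 1 + ((num 160) * var 0 + num (-160)) * var 0) * var 1) * var 3 + ((((num (-13120)) * var 0 * var 0) * var 1 + (((num (-51570)) * var 0 + num 899) * var 0 + num 6560) * var 0) * var 1 + ((num (-8160)) * var 0 + num (-7840)) * var 0) * var 1)
  wd := num 1000
  tn := fun b => cond b
    (((num 104142) * var 1 + num (-9189)) * var 3 + (num 134772) * var 1 + (num (-150087)) * var 0 + num 192969)
    (num 0)
  td := num 50000000
  cn := num 1 - var 0 * var 1 - var 1 * (num 1 - num 2 * (var 0 * var 1))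
  cd := (num 1 - num 2 * (var 0 * var 1)) * (num 1 - num 2 * (var 0 * var 1))
  kn := var 0 * var 1 * (((num 2020) * var 3 + (num 1419) * var 1 + num (-1821)) * var 3 + (num 611) * var 1 + (num (-391)) * var 0 + num 612)
  kd := num 100
  k2n := (((num 572) * var 0) * var 3 + ((num 3019) * var 0) * var 1 + (num (-1440)) * var 0) * var 3 + ((num (-1891)) * var 0) * var 1 + (num 885) * var 0
  k2d := num 100

/-- Its ranges. -/
def sevBoxN0a : EBox :=
  ⟨(11, 12, 50), (80, 91, 250), (0, 3, 500), (0, 1, 1)⟩

/-- The chart of the bin `N1`. -/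
def sevBinN1 : EndChart where
  I := var 0 * var 1
  d := var 0
  w := var 0 * var 2
  den := num 100
  n₀ := (num 1 - num 2 * (var 0 * var 1) - var 0) * ((num 74) * var 1 + num 3)
  n₁ := (num 1 - num 2 * (var 0 * var 1) - var 0) * ((num 46) * var 1 + num (-2))
  q₀ := (11, 12, 50)
  q₁ := (80, 91, 250)
  q₂ := (6, 55, 1000)
  q₃ := (0, 1, 1)
  t₀ := (0, 1)
  t₁ := (1, 1)
  mu₀ := (231, 100)
  mu₁ := (294, 100)

/-- The piece `N1a`. -/
def sevPcN1a : Piece where
  I := var 0 * var 1
  d := var 0
  w := var 0 * var 2
  o := sevBinN1.n₀ + sevBinN1.n₁ * var 3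
  den := num 100
  vn := num 2 * (((num 46) * var 1 + num (-2)) * var 3 + (num 74) * var 1 + num 3)
  vs := num 1
  mu := ⟨(231, 100), (294, 100)⟩
  pn := fun b => cond b
    ((((((num 743820) * var 0 + num 4600000) * var 0) * var 1 + ((num 339570) * var 0 + num 1728090) * var 0 + num (-2300000)) * var 1 + ((num (-16170)) * var 0 + num (-83830)) * var 0 + num 100000) * var 3 + ((((num 1196580) * var 0 + num 7400000) * var 0) * var 1 + ((num 646800) * var 0 + num 3401710) * var 0 + num (-3700000)) * var 1 + ((num 24255) * var 0 + num 125745) * var 0 + num 4850000)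
    ((((((num 63756) * var 0 + num 4600000) * var 0) * var 1 + ((num 29106) * var 0 + num 2068122) * var 0 + num (-2300000)) * var 1 + ((num (-1386)) * var 0 + num (-98614)) * var 0 + num 100000) * var 3 + ((((num 102564) * var 0 + num 7400000) * var 0) * var 1 + ((num 55440) * var 0 + num 3948718) * var 0 + num (-3700000)) * var 1 + ((num 2079) * var 0 + num 147921) * var 0 + num 4850000)
  pd := num 50000
  en := fun b => cond b
    ((((num (-135206000)) * var 0) * var 1 + num 2885740) * var 3 + (((num (-250232000)) * var 0) * var 1 + ((num 179602000) * var 0 + num 1380312000) * var 0) * var 1 + (num 152722240) * var 0 + num 42287190)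
    ((((num (-132526000)) * var 0) * var 1 + num 308568) * var 3 + (((num (-245272000)) * var 0) * var 1 + ((num 176042000) * var 0 + num 1352952000) * var 0) * var 1 + (num 16330368) * var 0 + num 4521708)
  kk := fun b => cond b
    (((num 2735425) * var 0) * var 3 + ((num 35895475) * var 0) * var 1 + ((num 137608625) * var 0 + num 31373650) * var 0)
    (((num 289590) * var 0) * var 3 + ((num 3800130) * var 0) * var 1 + ((num 14568150) * var 0 + num 3321420) * var 0)
  f0 := num 100000000
  wn := fun b => cond b
    ((((((num (-3680000)) * var 0 * var 0) * var 1 + ((num 2433960) * var 0 + num 1840000) * var 0) * var 1 + ((num 107510) * var 0 + num (-74480)) * var 0) * var 1 + ((num 240) * var 0 + num (-240)) * var 0) * var 3 + ((((num (-5920000)) * var 0 * var 0) * var 1 + (((num (-26335000)) * var 0 + num 664240) * var 0 + num 2960000) * var 0) * var 1 + (((num (-77520)) * var 0 + num (-4069168)) * var 0 + num (-3871120)) * var 0) * var 1 + ((num (-360)) * var 0 + num 360) * var 0)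
    ((((((num (-3680000)) * var 0 * var 0) * var 1 + ((num 2433960) * var 0 + num 1840000) * var 0) * var 1 + ((num 107510) * var 0 + num (-74480)) * var 0) * var 1 + ((num 240) * var 0 + num (-240)) * var 0) * var 3 + ((((num (-5920000)) * var 0 * var 0) * var 1 + (((num (-26335000)) * var 0 + num 195740) * var 0 + num 2960000) * var 0) * var 1 + (((num (-77520)) * var 0 + num (-4071979)) * var 0 + num (-3871120)) * var 0) * var 1 + ((num (-360)) * var 0 + num 360) * var 0)
  wd := num 500000
  tn := fun b => cond b
    (((num 471240) * var 1 + num (-27720)) * var 3 + (num 526680) * var 1 + (num (-595980)) * var 0 + num 859320)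
    (((num 50694) * var 1 + num (-2982)) * var 3 + (num 56658) * var 1 + (num (-64113)) * var 0 + num 92442)
  td := num 25000000
  cn := num 1 - var 0 * var 1 - var 1 * (num 1 - num 2 * (var 0 * var 1))
  cd := (num 1 - num 2 * (var 0 * var 1)) * (num 1 - num 2 * (var 0 * var 1))
  kn := var 0 * var 1 * (((num 707) * var 3 + (num (-854)) * var 1 + num (-725)) * var 3 + (num 1769) * var 1 + (num (-2258)) * var 0 + num 1406)
  kd := num 100
  k2n := (((num 686) * var 0) * var 3 + ((num 2796) * var 0) * var 1 + (num (-1606)) * var 0) * var 3 + ((num (-1883)) * var 0) * var 1 + (num 998) * var 0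
  k2d := num 100

/-- Its ranges. -/
def sevBoxN1a : EBox :=
  ⟨(11, 12, 50), (80, 91, 250), (6, 55, 1000), (0, 1, 1)⟩

/-- The chart of the bin `N2`. -/
def sevBinN2 : EndChart where
  I := var 0 * var 1
  d := var 0
  w := var 0 * var 2
  den := num 100
  n₀ := (num 1 - num 2 * (var 0 * var 1) - var 0) * ((num 72) * var 1 + num (-2))
  n₁ := (num 1 - num 2 * (var 0 * var 1) - var 0) * ((num 52) * var 1 + num (-2))
  q₀ := (11, 12, 50)
  q₁ := (80, 91, 250)
  q₂ := (11, 44, 200)
  q₃ := (0, 1, 1)
  t₀ := (0, 1)
  t₁ := (1, 1)
  mu₀ := (201, 100)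
  mu₁ := (292, 100)

/-- The piece `N2a`. -/
def sevPcN2a : Piece where
  I := var 0 * var 1
  d := var 0
  w := var 0 * var 2
  o := sevBinN2.n₀ + sevBinN2.n₁ * var 3
  den := num 100
  vn := num 2 * (((num 52) * var 1 + num (-2)) * var 3 + (num 72) * var 1 + num (-2))
  vs := num 1
  mu := ⟨(201, 100), (292, 100)⟩
  pn := fun b => cond b
    ((((((num 668096) * var 0 + num 1040000) * var 0) * var 1 + ((num 308352) * var 0 + num 145952) * var 0 + num (-520000)) * var 1 + ((num (-12848)) * var 0 + num (-7152)) * var 0 + num 20000) * var 3 + ((((num 925056) * var 0 + num 1440000) * var 0) * var 1 + ((num 436832) * var 0 + num 217472) * var 0 + num (-720000)) * var 1 + ((num (-12848)) * var 0 + num (-7152)) * var 0 + num 1020000)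
    ((((((num 114972) * var 0 + num 1040000) * var 0) * var 1 + ((num 53064) * var 0 + num 422514) * var 0 + num (-520000)) * var 1 + ((num (-2211)) * var 0 + num (-17789)) * var 0 + num 20000) * var 3 + ((((num 159192) * var 0 + num 1440000) * var 0) * var 1 + ((num 75174) * var 0 + num 600404) * var 0 + num (-720000)) * var 1 + ((num (-2211)) * var 0 + num (-17789)) * var 0 + num 1020000)
  pd := num 10000
  en := fun b => cond b
    ((((num (-30306600)) * var 0) * var 1 + num 2416392) * var 3 + (((num 120209400) * var 0) * var 1 + ((num (-61223400)) * var 0 + num 253436400) * var 0) * var 1 + (num 122520024) * var 0 + num 32889780)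
    ((((num (-29204000)) * var 0) * var 1 + num 582120) * var 3 + (((num 115836000) * var 0) * var 1 + ((num (-58996000)) * var 0 + num 244216000) * var 0) * var 1 + (num 29515640) * var 0 + num 7923300)
  kk := fun b => cond b
    (((num 2376308) * var 0) * var 3 + ((num 28426024) * var 0) * var 1 + ((num 106575172) * var 0 + num 24883980) * var 0)
    (((num 571923) * var 0) * var 3 + ((num 6841494) * var 0) * var 1 + ((num 25650207) * var 0 + num 5989005) * var 0)
  f0 := num 20000000
  wn := fun b => cond b
    ((((((num (-1664000)) * var 0 * var 0) * var 1 + ((num 1190240) * var 0 + num 832000) * var 0) * var 1 + ((num 164550) * var 0 + num (-9120)) * var 0) * var 1 + ((num 880) * var 0 + num (-880)) * var 0) * var 3 + ((((num (-2304000)) * var 0 * var 0) * var 1 + (((num (-11110000)) * var 0 + num (-391960)) * var 0 + num 1152000) * var 0) * var 1 + (((num (-218350)) * var 0 + num (-1448133)) * var 0 + num (-1600320)) * var 0) * var 1 + ((num 880) * var 0 + num (-880)) * var 0)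
    ((((((num (-1664000)) * var 0 * var 0) * var 1 + ((num 1190240) * var 0 + num 832000) * var 0) * var 1 + ((num 164550) * var 0 + num (-9120)) * var 0) * var 1 + ((num 880) * var 0 + num (-880)) * var 0) * var 3 + ((((num (-2304000)) * var 0 * var 0) * var 1 + (((num (-11110000)) * var 0 + num (-491360)) * var 0 + num 1152000) * var 0) * var 1 + (((num (-218350)) * var 0 + num (-1453600)) * var 0 + num (-1600320)) * var 0) * var 1 + ((num 880) * var 0 + num (-880)) * var 0)
  wd := num 200000
  tn := fun b => cond b
    (((num 1092300) * var 1) * var 3 + (num 1529220) * var 1 + (num (-1004916)) * var 0 + num 2271984)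
    (((num 279675) * var 1) * var 3 + (num 391545) * var 1 + (num (-257301)) * var 0 + num 581724)
  td := num 20000000
  cn := num 1 - var 0 * var 1 - var 1 * (num 1 - num 2 * (var 0 * var 1))
  cd := (num 1 - num 2 * (var 0 * var 1)) * (num 1 - num 2 * (var 0 * var 1))
  kn := var 0 * var 1 * (((num 736) * var 3 + (num 8188) * var 1 + num (-2435)) * var 3 + (num 1490) * var 1 + (num (-2235)) * var 0 + num 1982)
  kd := num 100
  k2n := (((num 723) * var 0) * var 3 + ((num 4617) * var 0) * var 1 + (num (-2660)) * var 0) * var 3 + ((num (-3590)) * var 0) * var 1 + (num 1819) * var 0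
  k2d := num 100

/-- Its ranges. -/
def sevBoxN2a : EBox :=
  ⟨(11, 12, 50), (80, 91, 250), (11, 44, 200), (0, 1, 1)⟩

/-- The chart of the bin `N3`. -/
def sevBinN3 : EndChart where
  I := var 0 * var 1
  d := var 0
  w := var 0 * var 2
  den := num 100
  n₀ := (num 1 - num 2 * (var 0 * var 1) - var 0) * ((num 14) * var 1 + num 14)
  n₁ := (num 1 - num 2 * (var 0 * var 1) - var 0) * ((num 74) * var 1 + num (-11))
  q₀ := (11, 12, 50)
  q₁ := (80, 91, 250)
  q₂ := (11, 17, 50)
  q₃ := (0, 1, 1)
  t₀ := (0, 1)
  t₁ := (1, 1)
  mu₀ := (174, 100)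
  mu₁ := (283, 100)

/-- The piece `N3a`. -/
def sevPcN3a : Piece where
  I := var 0 * var 1
  d := var 0
  w := var 0 * var 2
  o := sevBinN3.n₀ + sevBinN3.n₁ * var 3
  den := num 100
  vn := num 2 * (((num 74) * var 1 + num (-11)) * var 3 + (num 14) * var 1 + num 14)
  vs := num 1
  mu := ⟨(174, 100), (283, 100)⟩
  pn := fun b => cond b
    ((((((num 712028) * var 0 + num 740000) * var 0) * var 1 + ((num 250172) * var 0 + num (-96014)) * var 0 + num (-370000)) * var 1 + ((num (-52921)) * var 0 + num (-2079)) * var 0 + num 55000) * var 3 + ((((num 134708) * var 0 + num 140000) * var 0) * var 1 + ((num 202062) * var 0 + num 142646) * var 0 + num (-70000)) * var 1 + ((num 67354) * var 0 + num 2646) * var 0 + num 430000)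
    ((((((num 283272) * var 0 + num 740000) * var 0) * var 1 + ((num 99528) * var 0 + num 118364) * var 0 + num (-370000)) * var 1 + ((num (-21054)) * var 0 + num (-33946)) * var 0 + num 55000) * var 3 + ((((num 53592) * var 0 + num 140000) * var 0) * var 1 + ((num 80388) * var 0 + num 183204) * var 0 + num (-70000)) * var 1 + ((num 26796) * var 0 + num 43204) * var 0 + num 430000)
  pd := num 5000
  en := fun b => cond b
    ((((num (-5232400)) * var 0) * var 1 + num 656336) * var 3 + (((num 98958400) * var 0) * var 1 + ((num (-73253600)) * var 0 + num 54051200) * var 0) * var 1 + (num 48447960) * var 0 + num 12142216)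
    ((((num (-5052150)) * var 0) * var 1 + num 410058) * var 3 + (((num 95549400) * var 0) * var 1 + ((num (-70730100)) * var 0 + num 52189200) * var 0) * var 1 + (num 30268755) * var 0 + num 7586073)
  kk := fun b => cond b
    (((num 746351) * var 0) * var 3 + ((num 8071005) * var 0) * var 1 + ((num 39938457) * var 0 + num 10587770) * var 0)
    (((num 464013) * var 0) * var 3 + ((num 5017815) * var 0) * var 1 + ((num 24830091) * var 0 + num 6582510) * var 0)
  f0 := num 5000000
  wn := fun b => cond b
    ((((((num (-592000)) * var 0 * var 0) * var 1 + ((num 262380) * var 0 + num 296000) * var 0) * var 1 + ((num 150150) * var 0 + num (-11440)) * var 0) * var 1 + ((num 4840) * var 0 + num (-4840)) * var 0) * var 3 + ((((num (-112000)) * var 0 * var 0) * var 1 + (((num (-3984500)) * var 0 + num 43530) * var 0 + num 56000) * var 0) * var 1 + (((num (-2860)) * var 0 + num (-375623)) * var 0 + num (-337840)) * var 0) * var 1 + ((num (-6160)) * var 0 + num 6160) * var 0)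
    ((((((num (-592000)) * var 0 * var 0) * var 1 + ((num 262380) * var 0 + num 296000) * var 0) * var 1 + ((num 150150) * var 0 + num (-11440)) * var 0) * var 1 + ((num 4840) * var 0 + num (-4840)) * var 0) * var 3 + ((((num (-112000)) * var 0 * var 0) * var 1 + (((num (-3984500)) * var 0 + num (-38320)) * var 0 + num 56000) * var 0) * var 1 + (((num (-2860)) * var 0 + num (-393630)) * var 0 + num (-337840)) * var 0) * var 1 + ((num (-6160)) * var 0 + num 6160) * var 0)
  wd := num 50000
  tn := fun b => cond b
    (((num 493493) * var 1 + num (-51051)) * var 3 + (num 102102) * var 1 + (num (-221221)) * var 0 + num 918918)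
    (((num 319319) * var 1 + num (-33033)) * var 3 + (num 66066) * var 1 + (num (-143143)) * var 0 + num 594594)
  td := num 5000000
  cn := num 1 - var 0 * var 1 - var 1 * (num 1 - num 2 * (var 0 * var 1))
  cd := (num 1 - num 2 * (var 0 * var 1)) * (num 1 - num 2 * (var 0 * var 1))
  kn := var 0 * var 1 * (((num 185) * var 3 + (num 3303) * var 1 + num (-1216)) * var 3 + (num 1700) * var 1 + (num 823) * var 0 + num 711)
  kd := num 100
  k2n := (((num 396) * var 0) * var 3 + ((num 804) * var 0) * var 1 + (num (-964)) * var 0) * var 3 + ((num (-515)) * var 0) * var 1 + (num 536) * var 0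
  k2d := num 100

/-- Its ranges. -/
def sevBoxN3a : EBox :=
  ⟨(11, 12, 50), (80, 91, 250), (11, 17, 50), (0, 1, 1)⟩

/-- The chart of the bin `N4`. -/
def sevBinN4 : EndChart where
  I := var 0 * var 1
  d := var 0
  w := var 0 * var 2
  den := num 100
  n₀ := (num 1 - num 2 * (var 0 * var 1) - var 0) * ((num 66) * var 1 + num (-4))
  n₁ := (num 1 - num 2 * (var 0 * var 1) - var 0) * ((num 14) * var 1 + num 7)
  q₀ := (11, 12, 50)
  q₁ := (80, 91, 250)
  q₂ := (17, 20, 50)
  q₃ := (0, 1, 1)
  t₀ := (0, 1)
  t₁ := (1, 1)
  mu₀ := (180, 100)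
  mu₁ := (281, 100)

/-- The piece `N4a`. -/
def sevPcN4a : Piece where
  I := var 0 * var 1
  d := var 0
  w := var 0 * var 2
  o := sevBinN4.n₀ + sevBinN4.n₁ * var 3
  den := num 100
  vn := num 2 * (((num 14) * var 1 + num 7) * var 3 + (num 66) * var 1 + num (-4))
  vs := num 1
  mu := ⟨(180, 100), (281, 100)⟩
  pn := fun b => cond b
    ((((((num 7868) * var 0 + num 7000) * var 0) * var 1 + ((num 7868) * var 0 + num 3066) * var 0 + num (-3500)) * var 1 + ((num 1967) * var 0 + num (-217)) * var 0 + num (-1750)) * var 3 + ((((num 37092) * var 0 + num 33000) * var 0) * var 1 + ((num 16298) * var 0 + num (-4046)) * var 0 + num (-16500)) * var 1 + ((num (-1124)) * var 0 + num 124) * var 0 + num 26000)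
    ((((((num 4284) * var 0 + num 7000) * var 0) * var 1 + ((num 4284) * var 0 + num 4858) * var 0 + num (-3500)) * var 1 + ((num 1071) * var 0 + num 679) * var 0 + num (-1750)) * var 3 + ((((num 20196) * var 0 + num 33000) * var 0) * var 1 + ((num 8874) * var 0 + num 4402) * var 0 + num (-16500)) * var 1 + ((num (-612)) * var 0 + num (-388)) * var 0 + num 26000)
  pd := num 250
  en := fun b => cond b
    ((((num 101200) * var 0) * var 1 + num 141680) * var 3 + (((num 69828000) * var 0) * var 1 + ((num (-66918500)) * var 0 + num 25957800) * var 0) * var 1 + (num 29509920) * var 0 + num 6901840)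
    ((((num 98700) * var 0) * var 1 + num 117453) * var 3 + (((num 68103000) * var 0) * var 1 + ((num (-65265375)) * var 0 + num 25316550) * var 0) * var 1 + (num 24463782) * var 0 + num 5721639)
  kk := fun b => cond b
    (((num 365040) * var 0) * var 3 + ((num 5222100) * var 0) * var 1 + ((num 23048220) * var 0 + num 6063720) * var 0)
    (((num 301104) * var 0) * var 3 + ((num 4307460) * var 0) * var 1 + ((num 19011372) * var 0 + num 5001672) * var 0)
  f0 := num 2500000
  wn := fun b => cond b
    ((((((num (-112000)) * var 0 * var 0) * var 1 + ((num 207460) * var 0 + num 56000) * var 0) * var 1 + ((num 170730) * var 0 + num 37520) * var 0) * var 1 + ((num (-4760)) * var 0 + num 4760) * var 0) * var 3 + ((((num (-528000)) * var 0 * var 0) * var 1 + (((num (-3728500)) * var 0 + num 3590) * var 0 + num 264000) * var 0) * var 1 + (((num (-160650)) * var 0 + num (-322851)) * var 0 + num (-371120)) * var 0) * var 1 + ((num 2720) * var 0 + num (-2720)) * var 0)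
    ((((((num (-112000)) * var 0 * var 0) * var 1 + ((num 207460) * var 0 + num 56000) * var 0) * var 1 + ((num 170730) * var 0 + num 37520) * var 0) * var 1 + ((num (-4760)) * var 0 + num 4760) * var 0) * var 3 + ((((num (-528000)) * var 0 * var 0) * var 1 + (((num (-3728500)) * var 0 + num (-48560)) * var 0 + num 264000) * var 0) * var 1 + (((num (-160650)) * var 0 + num (-340582)) * var 0 + num (-371120)) * var 0) * var 1 + ((num 2720) * var 0 + num (-2720)) * var 0)
  wd := num 50000
  tn := fun b => cond b
    (((num 60180) * var 1 + num 80240) * var 3 + (num 541620) * var 1 + (num (-140420)) * var 0 + num 882640)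
    (((num 50439) * var 1 + num 67252) * var 3 + (num 453951) * var 1 + (num (-117691)) * var 0 + num 739772)
  td := num 5000000
  cn := num 1 - var 0 * var 1 - var 1 * (num 1 - num 2 * (var 0 * var 1))
  cd := (num 1 - num 2 * (var 0 * var 1)) * (num 1 - num 2 * (var 0 * var 1))
  kn := var 0 * var 1 * (((num 59) * var 3 + (num 2258) * var 1 + num (-986)) * var 3 + (num 1963) * var 1 + (num 1296) * var 0 + num 340)
  kd := num 100
  k2n := (((num 171) * var 0) * var 3 + ((num 1703) * var 0) * var 1 + (num (-950)) * var 0) * var 3 + ((num (-1528)) * var 0) * var 1 + (num 749) * var 0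
  k2d := num 100

/-- Its ranges. -/
def sevBoxN4a : EBox :=
  ⟨(11, 12, 50), (80, 91, 250), (17, 20, 50), (0, 3, 5)⟩

/-- The piece `N4b`. -/
def sevPcN4b : Piece where
  I := var 0 * var 1
  d := var 0
  w := var 0 * var 2
  o := sevBinN4.n₀ + sevBinN4.n₁ * var 3
  den := num 100
  vn := num 2 * (((num 14) * var 1 + num 7) * var 3 + (num 66) * var 1 + num (-4))
  vs := num 1
  mu := ⟨(180, 100), (281, 100)⟩
  pn := fun b => cond b
    ((((((num 7868) * var 0 + num 7000) * var 0) * var 1 + ((num 7868) * var 0 + num 3066) * var 0 + num (-3500)) * var 1 + ((num 1967) * var 0 + num (-217)) * var 0 + num (-1750)) * var 3 + ((((num 37092) * var 0 + num 33000) * var 0) * var 1 + ((num 16298) * var 0 + num (-4046)) * var 0 + num (-16500)) * var 1 + ((num (-1124)) * var 0 + num 124) * var 0 + num 26000)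
    ((((((num 4284) * var 0 + num 7000) * var 0) * var 1 + ((num 4284) * var 0 + num 4858) * var 0 + num (-3500)) * var 1 + ((num 1071) * var 0 + num 679) * var 0 + num (-1750)) * var 3 + ((((num 20196) * var 0 + num 33000) * var 0) * var 1 + ((num 8874) * var 0 + num 4402) * var 0 + num (-16500)) * var 1 + ((num (-612)) * var 0 + num (-388)) * var 0 + num 26000)
  pd := num 250
  en := fun b => cond b
    ((((num 2735100) * var 0) * var 1 + num 40520) * var 3 + (((num 146479800) * var 0) * var 1 + ((num (-135286150)) * var 0 + num 44673300) * var 0) * var 1 + (num 61043380) * var 0 + num 13857840)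
    ((((num 2659500) * var 0) * var 1 + num 33490) * var 3 + (((num 142431000) * var 0) * var 1 + ((num (-131546750)) * var 0 + num 43438500) * var 0) * var 1 + (num 50452685) * var 0 + num 11453580)
  kk := fun b => cond b
    (((num 691560) * var 0) * var 3 + ((num 10963260) * var 0) * var 1 + ((num 46802340) * var 0 + num 11878560) * var 0)
    (((num 567596) * var 0) * var 3 + ((num 8998066) * var 0) * var 1 + ((num 38412894) * var 0 + num 9749296) * var 0)
  f0 := num 5000000
  wn := fun b => cond b
    ((((((num (-56000)) * var 0 * var 0) * var 1 + ((num 127480) * var 0 + num 28000) * var 0) * var 1 + ((num 69640) * var 0 + num 18760) * var 0) * var 1 + ((num (-2380)) * var 0 + num 2380) * var 0) * var 3 + ((((num (-264000)) * var 0 * var 0) * var 1 + (((num (-1976500)) * var 0 + num (-34530)) * var 0 + num 132000) * var 0) * var 1 + (((num (-36380)) * var 0 + num (-152696)) * var 0 + num (-185560)) * var 0) * var 1 + ((num 1360) * var 0 + num (-1360)) * var 0)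
    ((((((num (-56000)) * var 0 * var 0) * var 1 + ((num 127480) * var 0 + num 28000) * var 0) * var 1 + ((num 69640) * var 0 + num 18760) * var 0) * var 1 + ((num (-2380)) * var 0 + num 2380) * var 0) * var 3 + ((((num (-264000)) * var 0 * var 0) * var 1 + (((num (-1976500)) * var 0 + num (-53680)) * var 0 + num 132000) * var 0) * var 1 + (((num (-36380)) * var 0 + num (-159207)) * var 0 + num (-185560)) * var 0) * var 1 + ((num 1360) * var 0 + num (-1360)) * var 0)
  wd := num 25000
  tn := fun b => cond b
    (((num 40320) * var 1 + num 80640) * var 3 + (num 604800) * var 1 + (num (-302400)) * var 0 + num 907200)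
    (((num 33626) * var 1 + num 67252) * var 3 + (num 504390) * var 1 + (num (-252195)) * var 0 + num 756585)
  td := num 5000000
  cn := num 1 - var 0 * var 1 - var 1 * (num 1 - num 2 * (var 0 * var 1))
  cd := (num 1 - num 2 * (var 0 * var 1)) * (num 1 - num 2 * (var 0 * var 1))
  kn := var 0 * var 1 * (((num 98) * var 3 + (num 2488) * var 1 + num (-1126)) * var 3 + (num 1884) * var 1 + (num 1691) * var 0 + num 303)
  kd := num 100
  k2n := (((num 352) * var 0) * var 3 + ((num 2407) * var 0) * var 1 + (num (-1488)) * var 0) * var 3 + ((num (-2227)) * var 0) * var 1 + (num 1103) * var 0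
  k2d := num 100

/-- Its ranges. -/
def sevBoxN4b : EBox :=
  ⟨(11, 12, 50), (80, 91, 250), (17, 20, 50), (3, 5, 5)⟩

/-- The chart of the bin `N5`. -/
def sevBinN5 : EndChart where
  I := var 0 * var 1
  d := var 0
  w := var 0 * var 2
  den := num 1000
  n₀ := (num 1 - num 2 * (var 0 * var 1) - var 0) * ((num 555) * var 1 + num (-12))
  n₁ := (num 1 - num 2 * (var 0 * var 1) - var 0) * ((num 159) * var 1 + num 59)
  q₀ := (22, 23, 100)
  q₁ := (80, 91, 250)
  q₂ := (10, 12, 25)
  q₃ := (0, 1, 1)
  t₀ := (0, 1)
  t₁ := (1, 1)
  mu₀ := (177, 100)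
  mu₁ := (274, 100)

/-- The piece `N5a`. -/
def sevPcN5a : Piece where
  I := var 0 * var 1
  d := var 0
  w := var 0 * var 2
  o := sevBinN5.n₀ + sevBinN5.n₁ * var 3
  den := num 1000
  vn := num 2 * (((num 159) * var 1 + num 59) * var 3 + (num 555) * var 1 + num (-12))
  vs := num 1
  mu := ⟨(177, 100), (274, 100)⟩
  pn := fun b => cond b
    ((((((num 522792) * var 0 + num 397500) * var 0) * var 1 + ((num 455388) * var 0 + num 84854) * var 0 + num (-198750)) * var 1 + ((num 96996) * var 0 + num (-23246)) * var 0 + num (-73750)) * var 3 + ((((num 1824840) * var 0 + num 1387500) * var 0) * var 1 + ((num 872964) * var 0 + num (-248670)) * var 0 + num (-693750)) * var 1 + ((num (-19728)) * var 0 + num 4728) * var 0 + num 1265000)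
    ((((((num 281430) * var 0 + num 397500) * var 0) * var 1 + ((num 245145) * var 0 + num 205535) * var 0 + num (-198750)) * var 1 + ((num 52215) * var 0 + num 21535) * var 0 + num (-73750)) * var 3 + ((((num 982350) * var 0 + num 1387500) * var 0) * var 1 + ((num 469935) * var 0 + num 172575) * var 0 + num (-693750)) * var 1 + ((num (-10620)) * var 0 + num (-4380)) * var 0 + num 1265000)
  pd := num 1250
  en := fun b => cond b
    ((((num (-328575)) * var 0) * var 1 + num 230508) * var 3 + (((num 80071200) * var 0) * var 1 + ((num (-63642450)) * var 0 + num 22014525) * var 0) * var 1 + (num 34357824) * var 0 + num 8419608)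
    ((((num (-321100)) * var 0) * var 1 + num 187720) * var 3 + (((num 78249600) * var 0) * var 1 + ((num (-62194600)) * var 0 + num 21513700) * var 0) * var 1 + (num 27980160) * var 0 + num 6856720)
  kk := fun b => cond b
    (((num 401148) * var 0) * var 3 + ((num 5676852) * var 0) * var 1 + ((num 28031736) * var 0 + num 7317912) * var 0)
    (((num 325380) * var 0) * var 3 + ((num 4604620) * var 0) * var 1 + ((num 22737160) * var 0 + num 5935720) * var 0)
  f0 := num 2500000
  wn := fun b => cond b
    ((((((num (-12720)) * var 0 * var 0) * var 1 + ((num 20576) * var 0 + num 6360) * var 0) * var 1 + ((num 19644) * var 0 + num 3632) * var 0) * var 1 + ((num (-472)) * var 0 + num 472) * var 0) * var 3 + ((((num (-44400)) * var 0 * var 0) * var 1 + (((num (-399600)) * var 0 + num (-6265)) * var 0 + num 22200) * var 0) * var 1 + (((num (-21560)) * var 0 + num (-28226)) * var 0 + num (-36040)) * var 0) * var 1 + ((num 96) * var 0 + num (-96)) * var 0)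
    ((((((num (-12720)) * var 0 * var 0) * var 1 + ((num 20576) * var 0 + num 6360) * var 0) * var 1 + ((num 19644) * var 0 + num 3632) * var 0) * var 1 + ((num (-472)) * var 0 + num 472) * var 0) * var 3 + ((((num (-44400)) * var 0 * var 0) * var 1 + (((num (-399600)) * var 0 + num (-11490)) * var 0 + num 22200) * var 0) * var 1 + (((num (-21560)) * var 0 + num (-30316)) * var 0 + num (-36040)) * var 0) * var 1 + ((num 96) * var 0 + num (-96)) * var 0)
  wd := num 5000
  tn := fun b => cond b
    (((num 150) * var 1 + num 225) * var 3 + (num 1725) * var 1 + (num (-150)) * var 0 + num 3225)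
    (((num 124) * var 1 + num 186) * var 3 + (num 1426) * var 1 + (num (-124)) * var 0 + num 2666)
  td := num 15625
  cn := num 1 - var 0 * var 1 - var 1 * (num 1 - num 2 * (var 0 * var 1))
  cd := (num 1 - num 2 * (var 0 * var 1)) * (num 1 - num 2 * (var 0 * var 1))
  kn := var 0 * var 1 * (((num 50) * var 3 + (num 2108) * var 1 + num (-928)) * var 3 + (num 2035) * var 1 + (num 1406) * var 0 + num 280)
  kd := num 100
  k2n := (((num 143) * var 0) * var 3 + ((num 1317) * var 0) * var 1 + (num (-779)) * var 0) * var 3 + ((num (-1237)) * var 0) * var 1 + (num 641) * var 0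
  k2d := num 100

/-- Its ranges. -/
def sevBoxN5a : EBox :=
  ⟨(22, 23, 100), (80, 91, 250), (10, 12, 25), (0, 3, 5)⟩

/-- The piece `N5b`. -/
def sevPcN5b : Piece where
  I := var 0 * var 1
  d := var 0
  w := var 0 * var 2
  o := sevBinN5.n₀ + sevBinN5.n₁ * var 3
  den := num 1000
  vn := num 2 * (((num 159) * var 1 + num 59) * var 3 + (num 555) * var 1 + num (-12))
  vs := num 1
  mu := ⟨(177, 100), (274, 100)⟩
  pn := fun b => cond b
    ((((((num 522792) * var 0 + num 397500) * var 0) * var 1 + ((num 455388) * var 0 + num 84854) * var 0 + num (-198750)) * var 1 + ((num 96996) * var 0 + num (-23246)) * var 0 + num (-73750)) * var 3 + ((((num 1824840) * var 0 + num 1387500) * var 0) * var 1 + ((num 872964) * var 0 + num (-248670)) * var 0 + num (-693750)) * var 1 + ((num (-19728)) * var 0 + num 4728) * var 0 + num 1265000)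
    ((((((num 281430) * var 0 + num 397500) * var 0) * var 1 + ((num 245145) * var 0 + num 205535) * var 0 + num (-198750)) * var 1 + ((num 52215) * var 0 + num 21535) * var 0 + num (-73750)) * var 3 + ((((num 982350) * var 0 + num 1387500) * var 0) * var 1 + ((num 469935) * var 0 + num 172575) * var 0 + num (-693750)) * var 1 + ((num (-10620)) * var 0 + num (-4380)) * var 0 + num 1265000)
  pd := num 1250
  en := fun b => cond b
    ((((num 937025) * var 0) * var 1 + num 109404) * var 3 + (((num 84154975) * var 0) * var 1 + ((num (-71061950)) * var 0 + num 19981425) * var 0) * var 1 + (num 35896668) * var 0 + num 8314704)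
    ((((num 912050) * var 0) * var 1 + num 88740) * var 3 + (((num 81911950) * var 0) * var 1 + ((num (-69167900)) * var 0 + num 19448850) * var 0) * var 1 + (num 29116580) * var 0 + num 6744240)
  kk := fun b => cond b
    (((num 377580) * var 0) * var 3 + ((num 6016920) * var 0) * var 1 + ((num 28318500) * var 0 + num 7186200) * var 0)
    (((num 305040) * var 0) * var 3 + ((num 4860960) * var 0) * var 1 + ((num 22878000) * var 0 + num 5805600) * var 0)
  f0 := num 2500000
  wn := fun b => cond b
    ((((((num (-12720)) * var 0 * var 0) * var 1 + ((num 25876) * var 0 + num 6360) * var 0) * var 1 + ((num 16364) * var 0 + num 3632) * var 0) * var 1 + ((num (-472)) * var 0 + num 472) * var 0) * var 3 + ((((num (-44400)) * var 0 * var 0) * var 1 + (((num (-469900)) * var 0 + num (-2755)) * var 0 + num 22200) * var 0) * var 1 + (((num 540) * var 0 + num (-29362)) * var 0 + num (-36040)) * var 0) * var 1 + ((num 96) * var 0 + num (-96)) * var 0)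
    ((((((num (-12720)) * var 0 * var 0) * var 1 + ((num 25876) * var 0 + num 6360) * var 0) * var 1 + ((num 16364) * var 0 + num 3632) * var 0) * var 1 + ((num (-472)) * var 0 + num 472) * var 0) * var 3 + ((((num (-44400)) * var 0 * var 0) * var 1 + (((num (-469900)) * var 0 + num (-7130)) * var 0 + num 22200) * var 0) * var 1 + (((num 540) * var 0 + num (-31112)) * var 0 + num (-36040)) * var 0) * var 1 + ((num 96) * var 0 + num (-96)) * var 0)
  wd := num 5000
  tn := fun b => cond b
    (((num 3027) * var 1 + num 12108) * var 3 + (num 78702) * var 1 + (num (-30270)) * var 0 + num 130161)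
    (((num 2505) * var 1 + num 10020) * var 3 + (num 65130) * var 1 + (num (-25050)) * var 0 + num 107715)
  td := num 625000
  cn := num 1 - var 0 * var 1 - var 1 * (num 1 - num 2 * (var 0 * var 1))
  cd := (num 1 - num 2 * (var 0 * var 1)) * (num 1 - num 2 * (var 0 * var 1))
  kn := var 0 * var 1 * (((num 42) * var 3 + (num 1193) * var 1 + num (-534)) * var 3 + (num 961) * var 1 + (num 927) * var 0 + num 119)
  kd := num 50
  k2n := (((num 244) * var 0) * var 3 + ((num 1660) * var 0) * var 1 + (num (-1072)) * var 0) * var 3 + ((num (-1625)) * var 0) * var 1 + (num 843) * var 0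
  k2d := num 100

/-- Its ranges. -/
def sevBoxN5b : EBox :=
  ⟨(22, 23, 100), (80, 91, 250), (10, 12, 25), (3, 5, 5)⟩

/-- The chart of the bin `N6`. -/
def sevBinN6 : EndChart where
  I := var 0 * var 1
  d := var 0
  w := var 0 * var 2
  den := num 1000
  n₀ := (num 1 - num 2 * (var 0 * var 1) - var 0) * ((num 111) * var 1 + (num 416) * var 0 + num 13)
  n₁ := (num 1 - num 2 * (var 0 * var 1) - var 0) * ((num 728) * var 1 + (num (-307)) * var 0 + num (-53))
  q₀ := (22, 23, 100)
  q₁ := (80, 91, 250)
  q₂ := (24, 33, 50)
  q₃ := (0, 1, 1)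
  t₀ := (0, 1)
  t₁ := (1, 1)
  mu₀ := (143, 100)
  mu₁ := (280, 100)

/-- The piece `N6a`. -/
def sevPcN6a : Piece where
  I := var 0 * var 1
  d := var 0
  w := var 0 * var 2
  o := sevBinN6.n₀ + sevBinN6.n₁ * var 3
  den := num 1000
  vn := num 2 * (((num 728) * var 1 + (num (-307)) * var 0 + num (-53)) * var 3 + (num 111) * var 1 + (num 416) * var 0 + num 13)
  vs := num 1
  mu := ⟨(143, 100), (280, 100)⟩
  pn := fun b => cond b
    ((((((num 1681680) * var 0 + num 910000) * var 0) * var 1 + (((num (-709170)) * var 0 + num 334660) * var 0 + num (-452090)) * var 0 + num (-455000)) * var 1 + (((num (-354585)) * var 0 + num 101495) * var 0 + num 219965) * var 0 + num 33125) * var 3 + ((((num 256410) * var 0 + num 138750) * var 0) * var 1 + (((num 960960) * var 0 + num 678235) * var 0 + num (-42580)) * var 0 + num (-69375)) * var 1 + (((num 480480) * var 0 + num (-205465)) * var 0 + num (-266890)) * var 0 + num 616875)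
    ((((((num 624624) * var 0 + num 910000) * var 0) * var 1 + (((num (-263406)) * var 0 + num (-116912)) * var 0 + num 76438) * var 0 + num (-455000)) * var 1 + (((num (-131703)) * var 0 + num (-82909)) * var 0 + num 181487) * var 0 + num 33125) * var 3 + ((((num 95238) * var 0 + num 138750) * var 0) * var 1 + (((num 356928) * var 0 + num 578773) * var 0 + num 38006) * var 0 + num (-69375)) * var 1 + (((num 178464) * var 0 + num 87113) * var 0 + num (-257452)) * var 0 + num 616875)
  pd := num 625
  en := fun b => cond b
    ((((num (-966150)) * var 0) * var 1 + num 771903) * var 3 + (((num 198365850) * var 0) * var 1 + ((num (-227197800)) * var 0 + num 55223100) * var 0) * var 1 + (num 100280268) * var 0 + num 21579723)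
    ((((num (-932900)) * var 0) * var 1 + num 542064) * var 3 + (((num 191539100) * var 0) * var 1 + ((num (-219378800)) * var 0 + num 53322600) * var 0) * var 1 + (num 70421184) * var 0 + num 15154224)
  kk := fun b => cond b
    (((num 1110780) * var 0) * var 3 + ((num 14473800) * var 0) * var 1 + ((num 78461460) * var 0 + num 20027700) * var 0)
    (((num 776952) * var 0) * var 3 + ((num 10123920) * var 0) * var 1 + ((num 54881064) * var 0 + num 14008680) * var 0)
  f0 := num 5000000
  wn := fun b => cond b
    ((((((num (-291200)) * var 0 * var 0) * var 1 + (((num 122800) * var 0 + num 79212) * var 0 + num 145600) * var 0) * var 1 + (((num 90872) * var 0 + num 59504) * var 0 + num 24344) * var 0) * var 1 + (((num 14736) * var 0 + num (-12192)) * var 0 + num (-2544)) * var 0) * var 3 + ((((num (-44400)) * var 0 * var 0) * var 1 + (((num (-3658150)) * var 0 + num 233169) * var 0 + num 22200) * var 0) * var 1 + (((num 523544) * var 0 + num (-198948)) * var 0 + num (-192072)) * var 0) * var 1 + (((num (-19968)) * var 0 + num 19344) * var 0 + num 624) * var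 0)
    ((((((num (-291200)) * var 0 * var 0) * var 1 + (((num 122800) * var 0 + num 79212) * var 0 + num 145600) * var 0) * var 1 + (((num 90872) * var 0 + num 59504) * var 0 + num 24344) * var 0) * var 1 + (((num 14736) * var 0 + num (-12192)) * var 0 + num (-2544)) * var 0) * var 3 + ((((num (-44400)) * var 0 * var 0) * var 1 + (((num (-3658150)) * var 0 + num 162519) * var 0 + num 22200) * var 0) * var 1 + (((num 523544) * var 0 + num (-232860)) * var 0 + num (-192072)) * var 0) * var 1 + (((num (-19968)) * var 0 + num 19344) * var 0 + num 624) * var 0)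
  wd := num 25000
  tn := fun b => cond b
    (((num 588654) * var 1 + num (-65406)) * var 3 + (num 261624) * var 1 + (num 425139) * var 0 + num 1340823)
    (((num 433728) * var 1 + num (-48192)) * var 3 + (num 192768) * var 1 + (num 313248) * var 0 + num 987936)
  td := num 5000000
  cn := num 1 - var 0 * var 1 - var 1 * (num 1 - num 2 * (var 0 * var 1))
  cd := (num 1 - num 2 * (var 0 * var 1)) * (num 1 - num 2 * (var 0 * var 1))
  kn := var 0 * var 1 * ((((num 1430) * var 1 + num (-378)) * var 3 + (num 997) * var 1 + (num 1061) * var 0 + num (-754)) * var 3 + ((num (-4398)) * var 1 + (num 4560) * var 0 + num 4005) * var 1 + (num (-793)) * var 0 + num 369)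
  kd := num 100
  k2n := (((num 228) * var 0) * var 3 + ((num (-49)) * var 0) * var 1 + (num (-468)) * var 0) * var 3 + ((num (-530)) * var 0) * var 1 + ((num (-606)) * var 0 + num 635) * var 0
  k2d := num 100

/-- Its ranges. -/
def sevBoxN6a : EBox :=
  ⟨(22, 23, 100), (80, 91, 250), (24, 33, 50), (0, 1, 1)⟩

/-- The chart of the bin `N7`. -/
def sevBinN7 : EndChart where
  I := var 0 * var 1
  d := var 0
  w := var 0 * var 2
  den := num 1000
  n₀ := (num 1 - num 2 * (var 0 * var 1) - var 0) * ((num 456) * var 1 + num (-31))
  n₁ := (num 1 - num 2 * (var 0 * var 1) - var 0) * ((num 324) * var 1 + num 11)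
  q₀ := (22, 23, 100)
  q₁ := (80, 91, 250)
  q₂ := (66, 91, 100)
  q₃ := (0, 1, 1)
  t₀ := (0, 1)
  t₁ := (1, 1)
  mu₀ := (129, 100)
  mu₁ := (284, 100)

/-- The piece `N7a`. -/
def sevPcN7a : Piece where
  I := var 0 * var 1
  d := var 0
  w := var 0 * var 2
  o := sevBinN7.n₀ + sevBinN7.n₁ * var 3
  den := num 1000
  vn := num 2 * (((num 324) * var 1 + num 11) * var 3 + (num 456) * var 1 + num (-31))
  vs := num 1
  mu := ⟨(129, 100), (284, 100)⟩
  pn := fun b => cond b
    ((((((num 8373456) * var 0 + num 3240000) * var 0) * var 1 + ((num 4471012) * var 0 + num (-2456728)) * var 0 + num (-1620000)) * var 1 + ((num 142142) * var 0 + num (-87142)) * var 0 + num (-55000)) * var 3 + ((((num 11784864) * var 0 + num 4560000) * var 0) * var 1 + ((num 5091268) * var 0 + num (-3922432)) * var 0 + num (-2280000)) * var 1 + ((num (-400582)) * var 0 + num 245582) * var 0 + num 5155000)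
    ((((((num 2758536) * var 0 + num 3240000) * var 0) * var 1 + ((num 1472922) * var 0 + num 350732) * var 0 + num (-1620000)) * var 1 + ((num 46827) * var 0 + num 8173) * var 0 + num (-55000)) * var 3 + ((((num 3882384) * var 0 + num 4560000) * var 0) * var 1 + ((num 1677258) * var 0 + num 28808) * var 0 + num (-2280000)) * var 1 + ((num (-131967)) * var 0 + num (-23033)) * var 0 + num 5155000)
  pd := num 5000
  en := fun b => cond b
    ((((num 813600) * var 0) * var 1 + num 1943487) * var 3 + (((num 557926200) * var 0) * var 1 + ((num (-523449900)) * var 0 + num 73834200) * var 0) * var 1 + (num 259131600) * var 0 + num 62376678)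
    ((((num 784800) * var 0) * var 1 + num 1359666) * var 3 + (((num 538176600) * var 0) * var 1 + ((num (-504920700)) * var 0 + num 71220600) * var 0) * var 1 + (num 181288800) * var 0 + num 43638804)
  kk := fun b => cond b
    (((num 2779140) * var 0) * var 3 + ((num 42057652) * var 0) * var 1 + ((num 206397464) * var 0 + num 55675438) * var 0)
    (((num 1942380) * var 0) * var 3 + ((num 29394684) * var 0) * var 1 + ((num 144254088) * var 0 + num 38912346) * var 0)
  f0 := num 10000000
  wn := fun b => cond b
    ((((((num (-259200)) * var 0 * var 0) * var 1 + ((num (-67436)) * var 0 + num 129600) * var 0) * var 1 + ((num 476608) * var 0 + num 47168) * var 0) * var 1 + ((num (-1452)) * var 0 + num 1452) * var 0) * var 3 + ((((num (-364800)) * var 0 * var 0) * var 1 + (((num (-6467000)) * var 0 + num 219366) * var 0 + num 182400) * var 0) * var 1 + (((num (-5610)) * var 0 + num (-381297)) * var 0 + num (-352208)) * var 0) * var 1 + ((num 4092) * var 0 + num (-4092)) * var 0)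
    ((((((num (-259200)) * var 0 * var 0) * var 1 + ((num (-67436)) * var 0 + num 129600) * var 0) * var 1 + ((num 476608) * var 0 + num 47168) * var 0) * var 1 + ((num (-1452)) * var 0 + num 1452) * var 0) * var 3 + ((((num (-364800)) * var 0 * var 0) * var 1 + (((num (-6467000)) * var 0 + num 54066) * var 0 + num 182400) * var 0) * var 1 + (((num (-5610)) * var 0 + num (-490395)) * var 0 + num (-352208)) * var 0) * var 1 + ((num 4092) * var 0 + num (-4092)) * var 0)
  wd := num 50000
  tn := fun b => cond b
    (((num 272181) * var 1 + num 181454) * var 3 + (num 1542359) * var 1 + (num 1088724) * var 0 + num 3084718)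
    (((num 203346) * var 1 + num 135564) * var 3 + (num 1152294) * var 1 + (num 813384) * var 0 + num 2304588)
  td := num 10000000
  cn := num 1 - var 0 * var 1 - var 1 * (num 1 - num 2 * (var 0 * var 1))
  cd := (num 1 - num 2 * (var 0 * var 1)) * (num 1 - num 2 * (var 0 * var 1))
  kn := var 0 * var 1 * (((num 107) * var 3 + (num 2713) * var 1 + num (-1148)) * var 3 + (num 1240) * var 1 + (num 1467) * var 0 + num 635)
  kd := num 100
  k2n := (((num 146) * var 0) * var 3 + ((num 1565) * var 0) * var 1 + (num (-930)) * var 0) * var 3 + ((num (-1897)) * var 0) * var 1 + (num 956) * var 0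
  k2d := num 100

/-- Its ranges. -/
def sevBoxN7a : EBox :=
  ⟨(22, 23, 100), (80, 91, 250), (66, 91, 100), (0, 1, 1)⟩

end Vale.Agent.P100.Calib.StripEndD
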