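import Vale.Agent.P100.Calib.SlabStripEndDExpr
import Vale.Agent.P100.Calib.SlabStripEndCert
import Vale.Agent.P100.Calib.SlabStripEndChart

/-!
# The bins `P` of the `D` region for `N` between seven and twenty

`x = (d, I / d, (1 - u) / d, t)`, with `v` affine in `t`.
-/

namespace Vale.Agent.P100.Calib.StripEndD

open Pack hiding ev_add ev_mul
open Pack.Ex StripMid StripEnd

local instance endSevDataPAdd : Add Ex := ⟨Ex.add⟩
local instance endSevDataPSub : Sub Ex := ⟨Ex.sub⟩
local instance endSevDataPMul : Mul Ex := ⟨Ex.mul⟩

/-- The chart of the bin `P0`. -/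
def sevBinP0 : EndChart where
  I := var 0 * var 1
  d := var 0
  w := var 0 * var 2
  den := num 1000
  n₀ := (num 1 - num 2 * (var 0 * var 1) - var 0) * ((num 882) * var 1 + num 10)
  n₁ := (num 1 - num 2 * (var 0 * var 1) - var 0) * ((num 387) * var 1 + num (-38))
  q₀ := (60, 63, 250)
  q₁ := (89, 146, 500)
  q₂ := (0, 3, 200)
  q₃ := (0, 1, 1)
  t₀ := (0, 1)
  t₁ := (1, 1)
  mu₀ := (225, 100)
  mu₁ := (277, 100)

/-- The piece `P0a`. -/
def sevPcP0a : Piece where
  I := var 0 * var 1
  d := var 0
  w := var 0 * var 2
  o := sevBinP0.n₀ + sevBinP0.n₁ * var 3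
  den := num 1000
  vn := num 2 * (((num 387) * var 1 + num (-38)) * var 3 + (num 882) * var 1 + num 10)
  vs := num 1
  mu := ⟨(225, 100), (277, 100)⟩
  pn := fun b => cond b
    ((((((num 643194) * var 0 + num 15480000) * var 0) * var 1 + ((num 258441) * var 0 + num 5898403) * var 0 + num (-7740000)) * var 1 + ((num (-31578)) * var 0 + num (-728422)) * var 0 + num 760000) * var 3 + ((((num 1465884) * var 0 + num 35280000) * var 0) * var 1 + ((num 749562) * var 0 + num 17307058) * var 0 + num (-17640000)) * var 1 + ((num 8310) * var 0 + num 191690) * var 0 + num 19800000)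
    (((((num 15480000) * var 0) * var 1 + (num 6220000) * var 0 + num (-7740000)) * var 1 + (num (-760000)) * var 0 + num 760000) * var 3 + (((num 35280000) * var 0) * var 1 + (num 18040000) * var 0 + num (-17640000)) * var 1 + (num 200000) * var 0 + num 19800000)
  pd := num 20000
  en := fun b => cond b
    ((((num (-2783000)) * var 0) * var 1 + num 31119) * var 3 + (((num (-26413200)) * var 0) * var 1 + ((num (-10474200)) * var 0 + num 76861400) * var 0) * var 1 + (num 1680426) * var 0 + num 600369)
    ((((num (-2711500)) * var 0) * var 1) * var 3 + (((num (-25734600)) * var 0) * var 1 + ((num (-10205100)) * var 0 + num 74886700) * var 0) * var 1)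
  kk := fun b => cond b
    (((num 15180) * var 0) * var 3 + ((num 633765) * var 0) * var 1 + ((num 1520277) * var 0 + num 478170) * var 0)
    (num 0)
  f0 := num 5000000
  wn := fun b => cond b
    ((((((num (-6192)) * var 0 * var 0) * var 1 + ((num 2452) * var 0 + num 3096) * var 0) * var 1 + ((num 304) * var 0 + num (-304)) * var 0) * var 1) * var 3 + ((((num (-14112)) * var 0 * var 0) * var 1 + (((num (-49190)) * var 0 + num 3489) * var 0 + num 7056) * var 0) * var 1 + ((num (-8080)) * var 0 + num (-7920)) * var 0) * var 1)
    ((((((num (-6192)) * var 0 * var 0) * var 1 + ((num 2452) * var 0 + num 3096) * var 0) * var 1 + ((num 304) * var 0 + num (-304)) * var 0) * var 1) * var 3 + ((((num (-14112)) * var 0 * var 0) * var 1 + (((num (-49190)) * var 0 + num 1674) * var 0 + num 7056) * var 0) * var 1 + ((num (-8080)) * var 0 + num (-7920)) * var 0) * var 1)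
  wd := num 1000
  tn := fun b => cond b
    (((num 82053) * var 1 + num (-9117)) * var 3 + (num 145872) * var 1 + (num (-66858)) * var 0 + num 170184)
    (num 0)
  td := num 20000000
  cn := num 1 - var 0 * var 1 - var 1 * (num 1 - num 2 * (var 0 * var 1))
  cd := (num 1 - num 2 * (var 0 * var 1)) * (num 1 - num 2 * (var 0 * var 1))
  kn := var 0 * var 1 * (((num 1206) * var 3 + (num 3020) * var 1 + num (-1746)) * var 3 + (num 400) * var 1 + (num (-468)) * var 0 + num 673)
  kd := num 100
  k2n := (((num 517) * var 0) * var 3 + ((num 1676) * var 0) * var 1 + (num (-957)) * var 0) * var 3 + ((num (-1430)) * var 0) * var 1 + (num 669) * var 0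
  k2d := num 100

/-- Its ranges. -/
def sevBoxP0a : EBox :=
  ⟨(60, 63, 250), (89, 146, 500), (0, 3, 200), (0, 1, 1)⟩

/-- The chart of the bin `P1`. -/
def sevBinP1 : EndChart where
  I := var 0 * var 1
  d := var 0
  w := var 0 * var 2
  den := num 1000
  n₀ := (num 1 - num 2 * (var 0 * var 1) - var 0) * ((num 762) * var 1 + num 13)
  n₁ := (num 1 - num 2 * (var 0 * var 1) - var 0) * ((num 435) * var 1 + num (-26))
  q₀ := (60, 63, 250)
  q₁ := (89, 146, 500)
  q₂ := (3, 20, 200)
  q₃ := (0, 1, 1)
  t₀ := (0, 1)
  t₁ := (1, 1)
  mu₀ := (213, 100)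
  mu₁ := (277, 100)

/-- The piece `P1a`. -/
def sevPcP1a : Piece where
  I := var 0 * var 1
  d := var 0
  w := var 0 * var 2
  o := sevBinP1.n₀ + sevBinP1.n₁ * var 3
  den := num 1000
  vn := num 2 * (((num 435) * var 1 + num (-26)) * var 3 + (num 762) * var 1 + num 13)
  vs := num 1
  mu := ⟨(213, 100), (277, 100)⟩
  pn := fun b => cond b
    ((((((num 4819800) * var 0 + num 17400000) * var 0) * var 1 + ((num 2121820) * var 0 + num 5250100) * var 0 + num (-8700000)) * var 1 + ((num (-144040)) * var 0 + num (-375960)) * var 0 + num 520000) * var 3 + ((((num 8442960) * var 0 + num 30480000) * var 0) * var 1 + ((num 4365520) * var 0 + num 11538520) * var 0 + num (-15240000)) * var 1 + ((num 72020) * var 0 + num 187980) * var 0 + num 19740000)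
    ((((((num 555930) * var 0 + num 17400000) * var 0) * var 1 + ((num 244737) * var 0 + num 7382035) * var 0 + num (-8700000)) * var 1 + ((num (-16614)) * var 0 + num (-503386)) * var 0 + num 520000) * var 3 + ((((num 973836) * var 0 + num 30480000) * var 0) * var 1 + ((num 503532) * var 0 + num 15273082) * var 0 + num (-15240000)) * var 1 + ((num 8307) * var 0 + num 251693) * var 0 + num 19740000)
  pd := num 20000
  en := fun b => cond b
    ((((num (-7948200)) * var 0) * var 1 + num 336270) * var 3 + (((num 21602800) * var 0) * var 1 + ((num (-100779100)) * var 0 + num 159269700) * var 0) * var 1 + (num 29877080) * var 0 + num 6236280)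
    ((((num (-7566000)) * var 0) * var 1 + num 48015) * var 3 + (((num 20564000) * var 0) * var 1 + ((num (-95933000)) * var 0 + num 151611000) * var 0) * var 1 + (num 4266060) * var 0 + num 890460)
  kk := fun b => cond b
    (((num 283640) * var 0) * var 3 + ((num 7992570) * var 0) * var 1 + ((num 20016880) * var 0 + num 6432550) * var 0)
    (((num 41412) * var 0) * var 3 + ((num 1166931) * var 0) * var 1 + ((num 2922504) * var 0 + num 939165) * var 0)
  f0 := num 10000000
  wn := fun b => cond b
    ((((((num (-1392000)) * var 0 * var 0) * var 1 + ((num 850760) * var 0 + num 696000) * var 0) * var 1 + ((num 57974) * var 0 + num (-36380)) * var 0) * var 1 + ((num 312) * var 0 + num (-312)) * var 0) * var 3 + ((((num (-2438400)) * var 0 * var 0) * var 1 + (((num (-10924000)) * var 0 + num 570112) * var 0 + num 1219200) * var 0) * var 1 + (((num 53370) * var 0 + num (-1607948)) * var 0 + num (-1570056)) * var 0) * var 1 + ((num (-156)) * var 0 + num 156) * var 0)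
    ((((((num (-1392000)) * var 0 * var 0) * var 1 + ((num 850760) * var 0 + num 696000) * var 0) * var 1 + ((num 57974) * var 0 + num (-36380)) * var 0) * var 1 + ((num 312) * var 0 + num (-312)) * var 0) * var 3 + ((((num (-2438400)) * var 0 * var 0) * var 1 + (((num (-10924000)) * var 0 + num 252712) * var 0 + num 1219200) * var 0) * var 1 + (((num 53370) * var 0 + num (-1612709)) * var 0 + num (-1570056)) * var 0) * var 1 + ((num (-156)) * var 0 + num 156) * var 0)
  wd := num 200000
  tn := fun b => cond b
    (((num 68040) * var 1 + num (-5040)) * var 3 + (num 95760) * var 1 + (num (-35280)) * var 0 + num 133560)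
    (((num 10287) * var 1 + num (-762)) * var 3 + (num 14478) * var 1 + (num (-5334)) * var 0 + num 20193)
  td := num 2500000
  cn := num 1 - var 0 * var 1 - var 1 * (num 1 - num 2 * (var 0 * var 1))
  cd := (num 1 - num 2 * (var 0 * var 1)) * (num 1 - num 2 * (var 0 * var 1))
  kn := var 0 * var 1 * (((num 22) * var 3 + (num 1753) * var 1 + num (-577)) * var 3 + (num 2080) * var 1 + (num (-1369)) * var 0 + num 1314)
  kd := num 100
  k2n := (((num 707) * var 0) * var 3 + ((num 2183) * var 0) * var 1 + (num (-1576)) * var 0) * var 3 + ((num (-2294)) * var 0) * var 1 + (num 1152) * var 0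
  k2d := num 100

/-- Its ranges. -/
def sevBoxP1a : EBox :=
  ⟨(60, 63, 250), (89, 146, 500), (3, 20, 200), (0, 1, 1)⟩

/-- The chart of the bin `P2`. -/
def sevBinP2 : EndChart where
  I := var 0 * var 1
  d := var 0
  w := var 0 * var 2
  den := num 1000
  n₀ := (num 1 - num 2 * (var 0 * var 1) - var 0) * ((num 588) * var 1 + num 8)
  n₁ := (num 1 - num 2 * (var 0 * var 1) - var 0) * ((num 309) * var 1 + num 38)
  q₀ := (60, 63, 250)
  q₁ := (89, 146, 500)
  q₂ := (5, 17, 50)
  q₃ := (0, 1, 1)
  t₀ := (0, 1)
  t₁ := (1, 1)
  mu₀ := (182, 100)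
  mu₁ := (276, 100)

/-- The piece `P2a`. -/
def sevPcP2a : Piece where
  I := var 0 * var 1
  d := var 0
  w := var 0 * var 2
  o := sevBinP2.n₀ + sevBinP2.n₁ * var 3
  den := num 1000
  vn := num 2 * (((num 309) * var 1 + num 38) * var 3 + (num 588) * var 1 + num 8)
  vs := num 1
  mu := ⟨(182, 100), (276, 100)⟩
  pn := fun b => cond b
    ((((((num 1449828) * var 0 + num 1545000) * var 0) * var 1 + ((num 903210) * var 0 + num 237586) * var 0 + num (-772500)) * var 1 + ((num 89148) * var 0 + num 5852) * var 0 + num (-95000)) * var 3 + ((((num 2758896) * var 0 + num 2940000) * var 0) * var 1 + ((num 1416984) * var 0 + num 130552) * var 0 + num (-1470000)) * var 1 + ((num 18768) * var 0 + num 1232) * var 0 + num 2480000)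
    ((((((num 281190) * var 0 + num 1545000) * var 0) * var 1 + ((num 175175) * var 0 + num 821905) * var 0 + num (-772500)) * var 1 + ((num 17290) * var 0 + num 77710) * var 0 + num (-95000)) * var 3 + ((((num 535080) * var 0 + num 2940000) * var 0) * var 1 + ((num 274820) * var 0 + num 1242460) * var 0 + num (-1470000)) * var 1 + ((num 3640) * var 0 + num 16360) * var 0 + num 2480000)
  pd := num 2500
  en := fun b => cond b
    ((((num (-5217300)) * var 0) * var 1 + num 660858) * var 3 + (((num 117696150) * var 0) * var 1 + ((num (-181889400)) * var 0 + num 89205600) * var 0) * var 1 + (num 50990412) * var 0 + num 10278081)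
    ((((num (-4906200)) * var 0) * var 1 + num 182780) * var 3 + (((num 110678100) * var 0) * var 1 + ((num (-171043600)) * var 0 + num 83886400) * var 0) * var 1 + (num 14102920) * var 0 + num 2842710)
  kk := fun b => cond b
    (((num 637806) * var 0) * var 3 + ((num 11687364) * var 0) * var 1 + ((num 32959056) * var 0 + num 11273652) * var 0)
    (((num 182040) * var 0) * var 3 + ((num 3335760) * var 0) * var 1 + ((num 9407040) * var 0 + num 3217680) * var 0)
  f0 := num 5000000
  wn := fun b => cond b
    ((((((num (-24720)) * var 0 * var 0) * var 1 + ((num 32014) * var 0 + num 12360) * var 0) * var 1 + ((num 4655) * var 0 + num 2138) * var 0) * var 1 + ((num (-76)) * var 0 + num 76) * var 0) * var 3 + ((((num (-47040)) * var 0 * var 0) * var 1 + (((num (-298950)) * var 0 + num (-1842)) * var 0 + num 23520) * var 0) * var 1 + (((num (-6935)) * var 0 + num (-36361)) * var 0 + num (-38504)) * var 0) * var 1 + ((num (-16)) * var 0 + num 16) * var 0)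
    ((((((num (-24720)) * var 0 * var 0) * var 1 + ((num 32014) * var 0 + num 12360) * var 0) * var 1 + ((num 4655) * var 0 + num 2138) * var 0) * var 1 + ((num (-76)) * var 0 + num 76) * var 0) * var 3 + ((((num (-47040)) * var 0 * var 0) * var 1 + (((num (-298950)) * var 0 + num (-10252)) * var 0 + num 23520) * var 0) * var 1 + (((num (-6935)) * var 0 + num (-37202)) * var 0 + num (-38504)) * var 0) * var 1 + ((num (-16)) * var 0 + num 16) * var 0)
  wd := num 5000
  tn := fun b => cond b
    (((num 90882) * var 1 + num 24786) * var 3 + (num 214812) * var 1 + (num 16524) * var 0 + num 380052)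
    (((num 28435) * var 1 + num 7755) * var 3 + (num 67210) * var 1 + (num 5170) * var 0 + num 118910)
  td := num 2500000
  cn := num 1 - var 0 * var 1 - var 1 * (num 1 - num 2 * (var 0 * var 1))
  cd := (num 1 - num 2 * (var 0 * var 1)) * (num 1 - num 2 * (var 0 * var 1))
  kn := var 0 * var 1 * (((num 418) * var 3 + (num 4411) * var 1 + num (-829)) * var 3 + (num 2854) * var 1 + (num 84) * var 0 + num 937)
  kd := num 100
  k2n := (((num 763) * var 0) * var 3 + ((num 2482) * var 0) * var 1 + (num (-1978)) * var 0) * var 3 + ((num (-2838)) * var 0) * var 1 + (num 1473) * var 0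
  k2d := num 100

/-- Its ranges. -/
def sevBoxP2a : EBox :=
  ⟨(60, 63, 250), (89, 146, 500), (5, 17, 50), (0, 1, 1)⟩

/-- The chart of the bin `P3`. -/
def sevBinP3 : EndChart where
  I := var 0 * var 1
  d := var 0
  w := var 0 * var 2
  den := num 1000
  n₀ := (num 1 - num 2 * (var 0 * var 1) - var 0) * ((num 531) * var 1 + num 11)
  n₁ := (num 1 - num 2 * (var 0 * var 1) - var 0) * ((num 255) * var 1 + num 16)
  q₀ := (60, 63, 250)
  q₁ := (89, 146, 500)
  q₂ := (17, 20, 50)
  q₃ := (0, 1, 1)
  t₀ := (0, 1)
  t₁ := (1, 1)
  mu₀ := (178, 100)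
  mu₁ := (269, 100)

/-- The piece `P3a`. -/
def sevPcP3a : Piece where
  I := var 0 * var 1
  d := var 0
  w := var 0 * var 2
  o := sevBinP3.n₀ + sevBinP3.n₁ * var 3
  den := num 1000
  vn := num 2 * (((num 255) * var 1 + num 16) * var 3 + (num 531) * var 1 + num 11)
  vs := num 1
  mu := ⟨(178, 100), (269, 100)⟩
  pn := fun b => cond b
    ((((((num 1371900) * var 0 + num 1275000) * var 0) * var 1 + ((num 772030) * var 0 + num 31550) * var 0 + num (-637500)) * var 1 + ((num 43040) * var 0 + num (-3040)) * var 0 + num (-40000)) * var 3 + ((((num 2856780) * var 0 + num 2655000) * var 0) * var 1 + ((num 1487570) * var 0 + num (-45890)) * var 0 + num (-1327500)) * var 1 + ((num 29590) * var 0 + num (-2090)) * var 0 + num 2472500)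
    ((((((num 771630) * var 0 + num 1275000) * var 0) * var 1 + ((num 434231) * var 0 + num 331685) * var 0 + num (-637500)) * var 1 + ((num 24208) * var 0 + num 15792) * var 0 + num (-40000)) * var 3 + ((((num 1606806) * var 0 + num 2655000) * var 0) * var 1 + ((num 836689) * var 0 + num 579097) * var 0 + num (-1327500)) * var 1 + ((num 16643) * var 0 + num 10857) * var 0 + num 2472500)
  pd := num 2500
  en := fun b => cond b
    ((((num (-2329900)) * var 0) * var 1 + num 425460) * var 3 + (((num 202498700) * var 0) * var 1 + ((num (-133057550)) * var 0 + num 63819000) * var 0) * var 1 + (num 44896160) * var 0 + num 14992400)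
    ((((num (-2260900)) * var 0) * var 1 + num 350931) * var 3 + (((num 196501700) * var 0) * var 1 + ((num (-129117050)) * var 0 + num 61929000) * var 0) * var 1 + (num 37031576) * var 0 + num 12366140)
  kk := fun b => cond b
    (((num 485760) * var 0) * var 3 + ((num 12569040) * var 0) * var 1 + ((num 37869040) * var 0 + num 13560800) * var 0)
    (((num 403104) * var 0) * var 3 + ((num 10430316) * var 0) * var 1 + ((num 31425316) * var 0 + num 11253320) * var 0)
  f0 := num 5000000
  wn := fun b => cond b
    ((((((num (-204000)) * var 0 * var 0) * var 1 + ((num 247520) * var 0 + num 102000) * var 0) * var 1 + ((num 131164) * var 0 + num 23740) * var 0) * var 1 + ((num (-1088)) * var 0 + num 1088) * var 0) * var 3 + ((((num (-424800)) * var 0 * var 0) * var 1 + (((num (-2121500)) * var 0 + num (-359166)) * var 0 + num 212400) * var 0) * var 1 + (((num (-446250)) * var 0 + num (-250839)) * var 0 + num (-359492)) * var 0) * var 1 + ((num (-748)) * var 0 + num 748) * var 0)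
    ((((((num (-204000)) * var 0 * var 0) * var 1 + ((num 247520) * var 0 + num 102000) * var 0) * var 1 + ((num 131164) * var 0 + num 23740) * var 0) * var 1 + ((num (-1088)) * var 0 + num 1088) * var 0) * var 3 + ((((num (-424800)) * var 0 * var 0) * var 1 + (((num (-2121500)) * var 0 + num (-401516)) * var 0 + num 212400) * var 0) * var 1 + (((num (-446250)) * var 0 + num (-265238)) * var 0 + num (-359492)) * var 0) * var 1 + ((num (-748)) * var 0 + num 748) * var 0)
  wd := num 50000
  tn := fun b => cond b
    (((num 40440) * var 1 + num 5055) * var 3 + (num 111210) * var 1 + num 222420)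
    (((num 34136) * var 1 + num 4267) * var 3 + (num 93874) * var 1 + num 187748)
  td := num 1250000
  cn := num 1 - var 0 * var 1 - var 1 * (num 1 - num 2 * (var 0 * var 1))
  cd := (num 1 - num 2 * (var 0 * var 1)) * (num 1 - num 2 * (var 0 * var 1))
  kn := var 0 * var 1 * (((num 10) * var 3 + (num 1946) * var 1 + num (-802)) * var 3 + (num 2566) * var 1 + (num 1143) * var 0 + num 172)
  kd := num 100
  k2n := (((num 176) * var 0) * var 3 + ((num 1362) * var 0) * var 1 + (num (-744)) * var 0) * var 3 + ((num (-1191)) * var 0) * var 1 + (num 593) * var 0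
  k2d := num 100

/-- Its ranges. -/
def sevBoxP3a : EBox :=
  ⟨(60, 63, 250), (89, 146, 500), (17, 20, 50), (0, 3, 5)⟩

/-- The piece `P3b`. -/
def sevPcP3b : Piece where
  I := var 0 * var 1
  d := var 0
  w := var 0 * var 2
  o := sevBinP3.n₀ + sevBinP3.n₁ * var 3
  den := num 1000
  vn := num 2 * (((num 255) * var 1 + num 16) * var 3 + (num 531) * var 1 + num 11)
  vs := num 1
  mu := ⟨(178, 100), (269, 100)⟩
  pn := fun b => cond b
    ((((((num 1371900) * var 0 + num 1275000) * var 0) * var 1 + ((num 772030) * var 0 + num 31550) * var 0 + num (-637500)) * var 1 + ((num 43040) * var 0 + num (-3040)) * var 0 + num (-40000)) * var 3 + ((((num 2856780) * var 0 + num 2655000) * var 0) * var 1 + ((num 1487570) * var 0 + num (-45890)) * var 0 + num (-1327500)) * var 1 + ((num 29590) * var 0 + num (-2090)) * var 0 + num 2472500)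
    ((((((num 771630) * var 0 + num 1275000) * var 0) * var 1 + ((num 434231) * var 0 + num 331685) * var 0 + num (-637500)) * var 1 + ((num 24208) * var 0 + num 15792) * var 0 + num (-40000)) * var 3 + ((((num 1606806) * var 0 + num 2655000) * var 0) * var 1 + ((num 836689) * var 0 + num 579097) * var 0 + num (-1327500)) * var 1 + ((num 16643) * var 0 + num 10857) * var 0 + num 2472500)
  pd := num 2500
  en := fun b => cond b
    ((((num (-4056000)) * var 0) * var 1 + num 527280) * var 3 + (((num 211824600) * var 0) * var 1 + ((num (-130146900)) * var 0 + num 61803300) * var 0) * var 1 + (num 45528600) * var 0 + num 14824680)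
    ((((num (-3924000)) * var 0) * var 1 + num 433602) * var 3 + (((num 204930900) * var 0) * var 1 + ((num (-125911350)) * var 0 + num 59791950) * var 0) * var 1 + (num 37439865) * var 0 + num 12190887)
  kk := fun b => cond b
    (((num 465980) * var 0) * var 3 + ((num 13371600) * var 0) * var 1 + ((num 38169840) * var 0 + num 13351340) * var 0)
    (((num 385135) * var 0) * var 3 + ((num 11051700) * var 0) * var 1 + ((num 31547580) * var 0 + num 11034955) * var 0)
  f0 := num 5000000
  wn := fun b => cond b
    ((((((num (-204000)) * var 0 * var 0) * var 1 + ((num 241520) * var 0 + num 102000) * var 0) * var 1 + ((num 124194) * var 0 + num 23740) * var 0) * var 1 + ((num (-1088)) * var 0 + num 1088) * var 0) * var 3 + ((((num (-424800)) * var 0 * var 0) * var 1 + (((num (-1676500)) * var 0 + num (-504466)) * var 0 + num 212400) * var 0) * var 1 + (((num (-540260)) * var 0 + num (-221871)) * var 0 + num (-359492)) * var 0) * var 1 + ((num (-748)) * var 0 + num 748) * var 0)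
    ((((((num (-204000)) * var 0 * var 0) * var 1 + ((num 241520) * var 0 + num 102000) * var 0) * var 1 + ((num 124194) * var 0 + num 23740) * var 0) * var 1 + ((num (-1088)) * var 0 + num 1088) * var 0) * var 3 + ((((num (-424800)) * var 0 * var 0) * var 1 + (((num (-1676500)) * var 0 + num (-541416)) * var 0 + num 212400) * var 0) * var 1 + (((num (-540260)) * var 0 + num (-234434)) * var 0 + num (-359492)) * var 0) * var 1 + ((num (-748)) * var 0 + num 748) * var 0)
  wd := num 50000
  tn := fun b => cond b
    (((num 40560) * var 1 + num 5070) * var 3 + (num 111540) * var 1 + (num (-20280)) * var 0 + num 228150)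
    (((num 34136) * var 1 + num 4267) * var 3 + (num 93874) * var 1 + (num (-17068)) * var 0 + num 192015)
  td := num 1250000
  cn := num 1 - var 0 * var 1 - var 1 * (num 1 - num 2 * (var 0 * var 1))
  cd := (num 1 - num 2 * (var 0 * var 1)) * (num 1 - num 2 * (var 0 * var 1))
  kn := var 0 * var 1 * (((num 25) * var 3 + (num 2203) * var 1 + num (-886)) * var 3 + (num 2419) * var 1 + (num 1416) * var 0 + num 151)
  kd := num 100
  k2n := (((num 42) * var 0) * var 3 + ((num 385) * var 0) * var 1 + (num (-255)) * var 0) * var 3 + ((num (-460)) * var 0) * var 1 + (num 252) * var 0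
  k2d := num 50

/-- Its ranges. -/
def sevBoxP3b : EBox :=
  ⟨(60, 63, 250), (89, 146, 500), (17, 20, 50), (3, 5, 5)⟩

/-- The chart of the bin `P4`. -/
def sevBinP4 : EndChart where
  I := var 0 * var 1
  d := var 0
  w := var 0 * var 2
  den := num 1000
  n₀ := (num 1 - num 2 * (var 0 * var 1) - var 0) * ((num 540) * var 1)
  n₁ := (num 1 - num 2 * (var 0 * var 1) - var 0) * ((num 336) * var 1 + num (-10))
  q₀ := (60, 63, 250)
  q₁ := (89, 146, 500)
  q₂ := (10, 12, 25)
  q₃ := (0, 1, 1)
  t₀ := (0, 1)
  t₁ := (1, 1)
  mu₀ := (169, 100)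
  mu₁ := (268, 100)

/-- The piece `P4a`. -/
def sevPcP4a : Piece where
  I := var 0 * var 1
  d := var 0
  w := var 0 * var 2
  o := sevBinP4.n₀ + sevBinP4.n₁ * var 3
  den := num 1000
  vn := num 2 * (((num 336) * var 1 + num (-10)) * var 3 + (num 540) * var 1)
  vs := num 1
  mu := ⟨(169, 100), (268, 100)⟩
  pn := fun b => cond b
    ((((((num 540288) * var 0 + num 420000) * var 0) * var 1 + ((num 254064) * var 0 + num (-72644)) * var 0 + num (-210000)) * var 1 + ((num (-8040)) * var 0 + num 1790) * var 0 + num 6250) * var 3 + ((((num 868320) * var 0 + num 675000) * var 0) * var 1 + ((num 434160) * var 0 + num (-96660)) * var 0 + num (-337500)) * var 1 + num 625000)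
    ((((((num 283920) * var 0 + num 420000) * var 0) * var 1 + ((num 133510) * var 0 + num 55540) * var 0 + num (-210000)) * var 1 + ((num (-4225)) * var 0 + num (-2025)) * var 0 + num 6250) * var 3 + ((((num 456300) * var 0 + num 675000) * var 0) * var 1 + ((num 228150) * var 0 + num 109350) * var 0 + num (-337500)) * var 1 + num 625000)
  pd := num 625
  en := fun b => cond b
    ((((num (-329225)) * var 0) * var 1 + num 182340) * var 3 + (((num 124345750) * var 0) * var 1 + ((num (-88257625)) * var 0 + num 31706900) * var 0) * var 1 + (num 27606276) * var 0 + num 8837412)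
    ((((num (-319150)) * var 0) * var 1 + num 147300) * var 3 + (((num 120540500) * var 0) * var 1 + ((num (-85556750)) * var 0 + num 30736600) * var 0) * var 1 + (num 22301220) * var 0 + num 7139140)
  kk := fun b => cond b
    (((num 255024) * var 0) * var 3 + ((num 7577856) * var 0) * var 1 + ((num 22551408) * var 0 + num 8112192) * var 0)
    (((num 207480) * var 0) * var 3 + ((num 6165120) * var 0) * var 1 + ((num 18347160) * var 0 + num 6599840) * var 0)
  f0 := num 2500000
  wn := fun b => cond b
    ((((((num (-26880)) * var 0 * var 0) * var 1 + ((num 57834) * var 0 + num 13440) * var 0) * var 1 + ((num 6672) * var 0 + num 2288) * var 0) * var 1 + ((num 80) * var 0 + num (-80)) * var 0) * var 3 + ((((num (-43200)) * var 0 * var 0) * var 1 + (((num (-207400)) * var 0 + num (-27775)) * var 0 + num 21600) * var 0) * var 1 + (((num (-54240)) * var 0 + num (-26774)) * var 0 + num (-35680)) * var 0) * var 1)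
    ((((((num (-26880)) * var 0 * var 0) * var 1 + ((num 57834) * var 0 + num 13440) * var 0) * var 1 + ((num 6672) * var 0 + num 2288) * var 0) * var 1 + ((num 80) * var 0 + num (-80)) * var 0) * var 3 + ((((num (-43200)) * var 0 * var 0) * var 1 + (((num (-207400)) * var 0 + num (-34180)) * var 0 + num 21600) * var 0) * var 1 + (((num (-54240)) * var 0 + num (-29336)) * var 0 + num (-35680)) * var 0) * var 1)
  wd := num 5000
  tn := fun b => cond b
    (((num 60540) * var 1) * var 3 + (num 127134) * var 1 + (num 18162) * var 0 + num 254268)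
    (((num 50350) * var 1) * var 3 + (num 105735) * var 1 + (num 15105) * var 0 + num 211470)
  td := num 1250000
  cn := num 1 - var 0 * var 1 - var 1 * (num 1 - num 2 * (var 0 * var 1))
  cd := (num 1 - num 2 * (var 0 * var 1)) * (num 1 - num 2 * (var 0 * var 1))
  kn := var 0 * var 1 * (((num 12) * var 3 + (num 1293) * var 1 + num (-615)) * var 3 + (num 2264) * var 1 + (num 1101) * var 0 + num 275)
  kd := num 100
  k2n := (((num 166) * var 0) * var 3 + ((num 1045) * var 0) * var 1 + (num (-644)) * var 0) * var 3 + ((num (-1490)) * var 0) * var 1 + (num 683) * var 0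
  k2d := num 100

/-- Its ranges. -/
def sevBoxP4a : EBox :=
  ⟨(60, 63, 250), (89, 146, 500), (10, 12, 25), (0, 3, 5)⟩

/-- The piece `P4b`. -/
def sevPcP4b : Piece where
  I := var 0 * var 1
  d := var 0
  w := var 0 * var 2
  o := sevBinP4.n₀ + sevBinP4.n₁ * var 3
  den := num 1000
  vn := num 2 * (((num 336) * var 1 + num (-10)) * var 3 + (num 540) * var 1)
  vs := num 1
  mu := ⟨(169, 100), (268, 100)⟩
  pn := fun b => cond b
    ((((((num 540288) * var 0 + num 420000) * var 0) * var 1 + ((num 254064) * var 0 + num (-72644)) * var 0 + num (-210000)) * var 1 + ((num (-8040)) * var 0 + num 1790) * var 0 + num 6250) * var 3 + ((((num 868320) * var 0 + num 675000) * var 0) * var 1 + ((num 434160) * var 0 + num (-96660)) * var 0 + num (-337500)) * var 1 + num 625000)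
    ((((((num 283920) * var 0 + num 420000) * var 0) * var 1 + ((num 133510) * var 0 + num 55540) * var 0 + num (-210000)) * var 1 + ((num (-4225)) * var 0 + num (-2025)) * var 0 + num 6250) * var 3 + ((((num 456300) * var 0 + num 675000) * var 0) * var 1 + ((num 228150) * var 0 + num 109350) * var 0 + num (-337500)) * var 1 + num 625000)
  pd := num 625
  en := fun b => cond b
    ((((num (-760500)) * var 0) * var 1 + num 127764) * var 3 + (((num 65694525) * var 0) * var 1 + ((num (-45693375)) * var 0 + num 15615600) * var 0) * var 1 + (num 14102712) * var 0 + num 4343976)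
    ((((num (-735000)) * var 0) * var 1 + num 102900) * var 3 + (((num 63491750) * var 0) * var 1 + ((num (-44161250)) * var 0 + num 15092000) * var 0) * var 1 + (num 11358200) * var 0 + num 3498600)
  kk := fun b => cond b
    (((num 121560) * var 0) * var 3 + ((num 4096572) * var 0) * var 1 + ((num 11347626) * var 0 + num 3981090) * var 0)
    (((num 98500) * var 0) * var 3 + ((num 3319450) * var 0) * var 1 + ((num 9194975) * var 0 + num 3225875) * var 0)
  f0 := num 1250000
  wn := fun b => cond b
    ((((((num (-13440)) * var 0 * var 0) * var 1 + ((num 29217) * var 0 + num 6720) * var 0) * var 1 + ((num 2876) * var 0 + num 1144) * var 0) * var 1 + ((num 40) * var 0 + num (-40)) * var 0) * var 3 + ((((num (-21600)) * var 0 * var 0) * var 1 + (((num (-107725)) * var 0 + num (-16295)) * var 0 + num 10800) * var 0) * var 1 + (((num (-25950)) * var 0 + num (-13330)) * var 0 + num (-17840)) * var 0) * var 1)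
    ((((((num (-13440)) * var 0 * var 0) * var 1 + ((num 29217) * var 0 + num 6720) * var 0) * var 1 + ((num 2876) * var 0 + num 1144) * var 0) * var 1 + ((num 40) * var 0 + num (-40)) * var 0) * var 3 + ((((num (-21600)) * var 0 * var 0) * var 1 + (((num (-107725)) * var 0 + num (-19170)) * var 0 + num 10800) * var 0) * var 1 + (((num (-25950)) * var 0 + num (-14480)) * var 0 + num (-17840)) * var 0) * var 1)
  wd := num 2500
  tn := fun b => cond b
    (((num 60060) * var 1) * var 3 + (num 132132) * var 1 + num 258258)
    (((num 49850) * var 1) * var 3 + (num 109670) * var 1 + num 214355)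
  td := num 1250000
  cn := num 1 - var 0 * var 1 - var 1 * (num 1 - num 2 * (var 0 * var 1))
  cd := (num 1 - num 2 * (var 0 * var 1)) * (num 1 - num 2 * (var 0 * var 1))
  kn := var 0 * var 1 * (((num 27) * var 3 + (num 1551) * var 1 + num (-694)) * var 3 + (num 2126) * var 1 + (num 1265) * var 0 + num 277)
  kd := num 100
  k2n := (((num 80) * var 0) * var 3 + ((num 662) * var 0) * var 1 + (num (-473)) * var 0) * var 3 + ((num (-1304)) * var 0) * var 1 + (num 619) * var 0
  k2d := num 100

/-- Its ranges. -/
def sevBoxP4b : EBox :=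
  ⟨(60, 63, 250), (89, 146, 500), (10, 12, 25), (3, 5, 5)⟩

/-- The chart of the bin `P5`. -/
def sevBinP5 : EndChart where
  I := var 0 * var 1
  d := var 0
  w := var 0 * var 2
  den := num 1000
  n₀ := (num 1 - num 2 * (var 0 * var 1) - var 0) * ((num 498) * var 1 + num (-10))
  n₁ := (num 1 - num 2 * (var 0 * var 1) - var 0) * ((num 282) * var 1 + num 19)
  q₀ := (60, 63, 250)
  q₁ := (89, 146, 500)
  q₂ := (24, 33, 50)
  q₃ := (0, 1, 1)
  t₀ := (0, 1)
  t₁ := (1, 1)
  mu₀ := (141, 100)
  mu₁ := (273, 100)

/-- The piece `P5a`. -/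
def sevPcP5a : Piece where
  I := var 0 * var 1
  d := var 0
  w := var 0 * var 2
  o := sevBinP5.n₀ + sevBinP5.n₁ * var 3
  den := num 1000
  vn := num 2 * (((num 282) * var 1 + num 19) * var 3 + (num 498) * var 1 + num (-10))
  vs := num 1
  mu := ⟨(141, 100), (273, 100)⟩
  pn := fun b => cond b
    ((((((num 5081076) * var 0 + num 2820000) * var 0) * var 1 + ((num 2882880) * var 0 + num (-940538)) * var 0 + num (-1410000)) * var 1 + ((num 171171) * var 0 + num (-76171)) * var 0 + num (-95000)) * var 3 + ((((num 8972964) * var 0 + num 4980000) * var 0) * var 1 + ((num 4306302) * var 0 + num (-2096482)) * var 0 + num (-2490000)) * var 1 + ((num (-90090)) * var 0 + num 40090) * var 0 + num 5050000)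
    ((((((num 1908576) * var 0 + num 2820000) * var 0) * var 1 + ((num 1082880) * var 0 + num 645712) * var 0 + num (-1410000)) * var 1 + ((num 64296) * var 0 + num 30704) * var 0 + num (-95000)) * var 3 + ((((num 3370464) * var 0 + num 4980000) * var 0) * var 1 + ((num 1617552) * var 0 + num 704768) * var 0 + num (-2490000)) * var 1 + ((num (-33840)) * var 0 + num (-16160)) * var 0 + num 5050000)
  pd := num 5000
  en := fun b => cond b
    ((((num (-864450)) * var 0) * var 1 + num 637659) * var 3 + (((num 342576450) * var 0) * var 1 + ((num (-302506650)) * var 0 + num 68647500) * var 0) * var 1 + (num 82593621) * var 0 + num 22955724)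
    ((((num (-828750)) * var 0) * var 1 + num 444600) * var 3 + (((num 328428750) * var 0) * var 1 + ((num (-290013750)) * var 0 + num 65812500) * var 0) * var 1 + (num 57587400) * var 0 + num 16005600)
  kk := fun b => cond b
    (((num 803880) * var 0) * var 3 + ((num 20398455) * var 0) * var 1 + ((num 61396335) * var 0 + num 22408155) * var 0)
    (((num 566208) * var 0) * var 3 + ((num 14367528) * var 0) * var 1 + ((num 43244136) * var 0 + num 15783048) * var 0)
  f0 := num 5000000
  wn := fun b => cond b
    ((((((num (-28200)) * var 0 * var 0) * var 1 + ((num 25482) * var 0 + num 14100) * var 0) * var 1 + ((num 30280) * var 0 + num 4334) * var 0) * var 1 + ((num (-228)) * var 0 + num 228) * var 0) * var 3 + ((((num (-49800)) * var 0 * var 0) * var 1 + (((num (-134375)) * var 0 + num (-70177)) * var 0 + num 24900) * var 0) * var 1 + (((num (-106890)) * var 0 + num (-30222)) * var 0 + num (-44524)) * var 0) * var 1 + ((num 120) * var 0 + num (-120)) * var 0)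
    ((((((num (-28200)) * var 0 * var 0) * var 1 + ((num 25482) * var 0 + num 14100) * var 0) * var 1 + ((num 30280) * var 0 + num 4334) * var 0) * var 1 + ((num (-228)) * var 0 + num 228) * var 0) * var 3 + ((((num (-49800)) * var 0 * var 0) * var 1 + (((num (-134375)) * var 0 + num (-84927)) * var 0 + num 24900) * var 0) * var 1 + (((num (-106890)) * var 0 + num (-37302)) * var 0 + num (-44524)) * var 0) * var 1 + ((num 120) * var 0 + num (-120)) * var 0)
  wd := num 6250
  tn := fun b => cond b
    (((num 196218) * var 1 + num 32703) * var 3 + (num 621357) * var 1 + (num 261624) * var 0 + num 1275417)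
    (((num 145440) * var 1 + num 24240) * var 3 + (num 460560) * var 1 + (num 193920) * var 0 + num 945360)
  td := num 5000000
  cn := num 1 - var 0 * var 1 - var 1 * (num 1 - num 2 * (var 0 * var 1))
  cd := (num 1 - num 2 * (var 0 * var 1)) * (num 1 - num 2 * (var 0 * var 1))
  kn := var 0 * var 1 * (((num 58) * var 3 + (num 2593) * var 1 + num (-962)) * var 3 + (num 1767) * var 1 + (num 1228) * var 0 + num 483)
  kd := num 100
  k2n := (((num 264) * var 0) * var 3 + ((num 1919) * var 0) * var 1 + (num (-1078)) * var 0) * var 3 + ((num (-2094)) * var 0) * var 1 + (num 954) * var 0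
  k2d := num 100

/-- Its ranges. -/
def sevBoxP5a : EBox :=
  ⟨(60, 63, 250), (89, 146, 500), (24, 33, 50), (0, 1, 1)⟩

/-- The chart of the bin `P6`. -/
def sevBinP6 : EndChart where
  I := var 0 * var 1
  d := var 0
  w := var 0 * var 2
  den := num 1000
  n₀ := (num 1 - num 2 * (var 0 * var 1) - var 0) * ((num 429) * var 1 + num (-6))
  n₁ := (num 1 - num 2 * (var 0 * var 1) - var 0) * ((num 342) * var 1 + num (-4))
  q₀ := (60, 63, 250)
  q₁ := (89, 146, 500)
  q₂ := (330, 417, 500)
  q₃ := (0, 1, 1)
  t₀ := (0, 1)
  t₁ := (1, 1)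
  mu₀ := (133, 100)
  mu₁ := (275, 100)

/-- The piece `P6a`. -/
def sevPcP6a : Piece where
  I := var 0 * var 1
  d := var 0
  w := var 0 * var 2
  o := sevBinP6.n₀ + sevBinP6.n₁ * var 3
  den := num 1000
  vn := num 2 * (((num 342) * var 1 + num (-4)) * var 3 + (num 429) * var 1 + num (-6))
  vs := num 1
  mu := ⟨(133, 100), (275, 100)⟩
  pn := fun b => cond b
    ((((((num 15687540) * var 0 + num 6840000) * var 0) * var 1 + ((num 7660290) * var 0 + num (-4503770)) * var 0 + num (-3420000)) * var 1 + ((num (-91740)) * var 0 + num 51740) * var 0 + num 40000) * var 3 + ((((num 19678230) * var 0 + num 8580000) * var 0) * var 1 + ((num 9563895) * var 0 + num (-5669115)) * var 0 + num (-4290000)) * var 1 + ((num (-137610)) * var 0 + num 77610) * var 0 + num 10060000)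
    ((((((num 6004152) * var 0 + num 6840000) * var 0) * var 1 + ((num 2931852) * var 0 + num 337924) * var 0 + num (-3420000)) * var 1 + ((num (-35112)) * var 0 + num (-4888)) * var 0 + num 40000) * var 3 + ((((num 7531524) * var 0 + num 8580000) * var 0) * var 1 + ((num 3660426) * var 0 + num 404238) * var 0 + num (-4290000)) * var 1 + ((num (-52668)) * var 0 + num (-7332)) * var 0 + num 10060000)
  pd := num 10000
  en := fun b => cond b
    ((((num 37084000) * var 0) * var 1 + num 4660392) * var 3 + (((num 4253484000) * var 0) * var 1 + ((num (-2926080000)) * var 0 + num 497840000) * var 0) * var 1 + (num 959617080) * var 0 + num 306314856)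
    ((((num 35660500) * var 0) * var 1 + num 3546510) * var 3 + (((num 4090210500) * var 0) * var 1 + ((num (-2813760000)) * var 0 + num 478730000) * var 0) * var 1 + (num 730258650) * var 0 + num 233102430)
  kk := fun b => cond b
    (((num 8465100) * var 0) * var 3 + ((num 248450685) * var 0) * var 1 + ((num 768631080) * var 0 + num 284850615) * var 0)
    (((num 6494400) * var 0) * var 3 + ((num 190610640) * var 0) * var 1 + ((num 589691520) * var 0 + num 218536560) * var 0)
  f0 := num 50000000
  wn := fun b => cond b
    ((((((num (-136800)) * var 0 * var 0) * var 1 + ((num 318556) * var 0 + num 68400) * var 0) * var 1 + ((num 110756) * var 0 + num 21772) * var 0) * var 1 + ((num 264) * var 0 + num (-264)) * var 0) * var 3 + ((((num (-171600)) * var 0 * var 0) * var 1 + (((num 676750) * var 0 + num (-598628)) * var 0 + num 85800) * var 0) * var 1 + (((num (-847935)) * var 0 + num (-37298)) * var 0 + num (-172886)) * var 0) * var 1 + ((num 396) * var 0 + num (-396)) * var 0)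
    ((((((num (-136800)) * var 0 * var 0) * var 1 + ((num 318556) * var 0 + num 68400) * var 0) * var 1 + ((num 110756) * var 0 + num 21772) * var 0) * var 1 + ((num 264) * var 0 + num (-264)) * var 0) * var 3 + ((((num (-171600)) * var 0 * var 0) * var 1 + (((num 676750) * var 0 + num (-675828)) * var 0 + num 85800) * var 0) * var 1 + (((num (-847935)) * var 0 + num (-88250)) * var 0 + num (-172886)) * var 0) * var 1 + ((num 396) * var 0 + num (-396)) * var 0)
  wd := num 25000
  tn := fun b => cond b
    (((num 502902) * var 1) * var 3 + (num 1341072) * var 1 + (num 921987) * var 0 + num 3017412)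
    (((num 401544) * var 1) * var 3 + (num 1070784) * var 1 + (num 736164) * var 0 + num 2409264)
  td := num 10000000
  cn := num 1 - var 0 * var 1 - var 1 * (num 1 - num 2 * (var 0 * var 1))
  cd := (num 1 - num 2 * (var 0 * var 1)) * (num 1 - num 2 * (var 0 * var 1))
  kn := var 0 * var 1 * (((num 33) * var 3 + (num 1793) * var 1 + num (-797)) * var 3 + (num 1535) * var 1 + (num 1174) * var 0 + num 536)
  kd := num 100
  k2n := (((num 193) * var 0) * var 3 + ((num 1377) * var 0) * var 1 + (num (-818)) * var 0) * var 3 + ((num (-1978)) * var 0) * var 1 + (num 893) * var 0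
  k2d := num 100

/-- Its ranges. -/
def sevBoxP6a : EBox :=
  ⟨(60, 63, 250), (89, 146, 500), (330, 417, 500), (0, 1, 1)⟩

end Vale.Agent.P100.Calib.StripEndD
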