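import Vale.Agent.P100.Calib.SlabStripEndDExpr
import Vale.Agent.P100.Calib.SlabStripEndCert
import Vale.Agent.P100.Calib.SlabStripEndChart

/-!
# The bins `Q` of the `D` region for `N` between seven and twenty

`x = (d, I / d, (1 - u) / d, t)`, with `v` affine in `t`.
-/

namespace Vale.Agent.P100.Calib.StripEndD

open Pack hiding ev_add ev_mul
open Pack.Ex StripMid StripEnd

local instance endSevDataQAdd : Add Ex := ⟨Ex.add⟩
local instance endSevDataQSub : Sub Ex := ⟨Ex.sub⟩
local instance endSevDataQMul : Mul Ex := ⟨Ex.mul⟩

/-- The chart of the bin `Q0`. -/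
def sevBinQ0 : EndChart where
  I := var 0 * var 1
  d := var 0
  w := var 0 * var 2
  den := num 1000
  n₀ := (num 1 - num 2 * (var 0 * var 1) - var 0) * ((num 384) * var 1 + num 51)
  n₁ := (num 1 - num 2 * (var 0 * var 1) - var 0) * ((num 321) * var 1 + num 17)
  q₀ := (37, 40, 200)
  q₁ := (45, 53, 100)
  q₂ := (10, 12, 25)
  q₃ := (0, 1, 1)
  t₀ := (0, 1)
  t₁ := (1, 1)
  mu₀ := (185, 100)
  mu₁ := (287, 100)

/-- The piece `Q0a`. -/
def sevPcQ0a : Piece where
  I := var 0 * var 1
  d := var 0
  w := var 0 * var 2
  o := sevBinQ0.n₀ + sevBinQ0.n₁ * var 3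
  den := num 1000
  vn := num 2 * (((num 321) * var 1 + num 17) * var 3 + (num 384) * var 1 + num 51)
  vs := num 1
  mu := ⟨(185, 100), (287, 100)⟩
  pn := fun b => cond b
    ((((((num 1105524) * var 0 + num 802500) * var 0) * var 1 + ((num 611310) * var 0 + num (-109012)) * var 0 + num (-401250)) * var 1 + ((num 29274) * var 0 + num (-8024)) * var 0 + num (-21250)) * var 3 + ((((num 1322496) * var 0 + num 960000) * var 0) * var 1 + ((num 836892) * var 0 + num (-53748)) * var 0 + num (-480000)) * var 1 + ((num 87822) * var 0 + num (-24072)) * var 0 + num 1186250)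
    ((((((num 593850) * var 0 + num 802500) * var 0) * var 1 + ((num 328375) * var 0 + num 146825) * var 0 + num (-401250)) * var 1 + ((num 15725) * var 0 + num 5525) * var 0 + num (-21250)) * var 3 + ((((num 710400) * var 0 + num 960000) * var 0) * var 1 + ((num 449550) * var 0 + num 252300) * var 0 + num (-480000)) * var 1 + ((num 47175) * var 0 + num 16575) * var 0 + num 1186250)
  pd := num 1250
  en := fun b => cond b
    ((((num (-633750)) * var 0) * var 1 + num 146016) * var 3 + (((num 18315375) * var 0) * var 1 + ((num (-19620900)) * var 0 + num 12104625) * var 0) * var 1 + (num 22200516) * var 0 + num 3656484)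
    ((((num (-615000)) * var 0) * var 1 + num 118080) * var 3 + (((num 17773500) * var 0) * var 1 + ((num (-19040400)) * var 0 + num 11746500) * var 0) * var 1 + (num 17953080) * var 0 + num 2956920)
  kk := fun b => cond b
    (((num 280692) * var 0) * var 3 + ((num 1403460) * var 0) * var 1 + ((num 18720936) * var 0 + num 3252366) * var 0)
    (((num 225860) * var 0) * var 3 + ((num 1129300) * var 0) * var 1 + ((num 15063880) * var 0 + num 2617030) * var 0)
  f0 := num 1250000
  wn := fun b => cond b
    ((((((num (-25680)) * var 0 * var 0) * var 1 + ((num 38814) * var 0 + num 12840) * var 0) * var 1 + ((num 17980) * var 0 + num 3248) * var 0) * var 1 + ((num (-136)) * var 0 + num 136) * var 0) * var 3 + ((((num (-30720)) * var 0 * var 0) * var 1 + (((num (-456250)) * var 0 + num (-17659)) * var 0 + num 15360) * var 0) * var 1 + (((num (-19600)) * var 0 + num (-21518)) * var 0 + num (-34888)) * var 0) * var 1 + ((num (-408)) * var 0 + num 408) * var 0)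
    ((((((num (-25680)) * var 0 * var 0) * var 1 + ((num 38814) * var 0 + num 12840) * var 0) * var 1 + ((num 17980) * var 0 + num 3248) * var 0) * var 1 + ((num (-136)) * var 0 + num 136) * var 0) * var 3 + ((((num (-30720)) * var 0 * var 0) * var 1 + (((num (-456250)) * var 0 + num (-22634)) * var 0 + num 15360) * var 0) * var 1 + (((num (-19600)) * var 0 + num (-23508)) * var 0 + num (-34888)) * var 0) * var 1 + ((num (-408)) * var 0 + num 408) * var 0)
  wd := num 5000
  tn := fun b => cond b
    (((num 33033) * var 1 + num 6006) * var 3 + (num 48048) * var 1 + (num (-33033)) * var 0 + num 141141)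
    (((num 27115) * var 1 + num 4930) * var 3 + (num 39440) * var 1 + (num (-27115)) * var 0 + num 115855)
  td := num 625000
  cn := num 1 - var 0 * var 1 - var 1 * (num 1 - num 2 * (var 0 * var 1))
  cd := (num 1 - num 2 * (var 0 * var 1)) * (num 1 - num 2 * (var 0 * var 1))
  kn := var 0 * var 1 * (((num 154) * var 3 + (num 2010) * var 1 + num (-995)) * var 3 + (num 1758) * var 1 + (num 1481) * var 0 + num 400)
  kd := num 100
  k2n := (((num 312) * var 0) * var 3 + ((num 2095) * var 0) * var 1 + (num (-1346)) * var 0) * var 3 + ((num (-949)) * var 0) * var 1 + (num 586) * var 0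
  k2d := num 100

/-- Its ranges. -/
def sevBoxQ0a : EBox :=
  ⟨(37, 40, 200), (45, 53, 100), (10, 12, 25), (0, 3, 5)⟩

/-- The piece `Q0b`. -/
def sevPcQ0b : Piece where
  I := var 0 * var 1
  d := var 0
  w := var 0 * var 2
  o := sevBinQ0.n₀ + sevBinQ0.n₁ * var 3
  den := num 1000
  vn := num 2 * (((num 321) * var 1 + num 17) * var 3 + (num 384) * var 1 + num 51)
  vs := num 1
  mu := ⟨(185, 100), (287, 100)⟩
  pn := fun b => cond b
    ((((((num 1105524) * var 0 + num 802500) * var 0) * var 1 + ((num 611310) * var 0 + num (-109012)) * var 0 + num (-401250)) * var 1 + ((num 29274) * var 0 + num (-8024)) * var 0 + num (-21250)) * var 3 + ((((num 1322496) * var 0 + num 960000) * var 0) * var 1 + ((num 836892) * var 0 + num (-53748)) * var 0 + num (-480000)) * var 1 + ((num 87822) * var 0 + num (-24072)) * var 0 + num 1186250)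
    ((((((num 593850) * var 0 + num 802500) * var 0) * var 1 + ((num 328375) * var 0 + num 146825) * var 0 + num (-401250)) * var 1 + ((num 15725) * var 0 + num 5525) * var 0 + num (-21250)) * var 3 + ((((num 710400) * var 0 + num 960000) * var 0) * var 1 + ((num 449550) * var 0 + num 252300) * var 0 + num (-480000)) * var 1 + ((num 47175) * var 0 + num 16575) * var 0 + num 1186250)
  pd := num 1250
  en := fun b => cond b
    ((((num (-330200)) * var 0) * var 1 + num 158496) * var 3 + (((num 39954200) * var 0) * var 1 + ((num (-38328600)) * var 0 + num 19913600) * var 0) * var 1 + (num 46402752) * var 0 + num 7242048)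
    ((((num (-319475)) * var 0) * var 1 + num 127790) * var 3 + (((num 38656475) * var 0) * var 1 + ((num (-37083675)) * var 0 + num 19266800) * var 0) * var 1 + (num 37412980) * var 0 + num 5839020)
  kk := fun b => cond b
    (((num 526836) * var 0) * var 3 + ((num 3332544) * var 0) * var 1 + ((num 38287500) * var 0 + num 6162756) * var 0)
    (((num 420970) * var 0) * var 3 + ((num 2662880) * var 0) * var 1 + ((num 30593750) * var 0 + num 4924370) * var 0)
  f0 := num 2500000
  wn := fun b => cond b
    ((((((num (-25680)) * var 0 * var 0) * var 1 + ((num 39664) * var 0 + num 12840) * var 0) * var 1 + ((num 14520) * var 0 + num 3248) * var 0) * var 1 + ((num (-136)) * var 0 + num 136) * var 0) * var 3 + ((((num (-30720)) * var 0 * var 0) * var 1 + (((num (-462550)) * var 0 + num (-25194)) * var 0 + num 15360) * var 0) * var 1 + (((num (-10420)) * var 0 + num (-19772)) * var 0 + num (-34888)) * var 0) * var 1 + ((num (-408)) * var 0 + num 408) * var 0)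
    ((((((num (-25680)) * var 0 * var 0) * var 1 + ((num 39664) * var 0 + num 12840) * var 0) * var 1 + ((num 14520) * var 0 + num 3248) * var 0) * var 1 + ((num (-136)) * var 0 + num 136) * var 0) * var 3 + ((((num (-30720)) * var 0 * var 0) * var 1 + (((num (-462550)) * var 0 + num (-28869)) * var 0 + num 15360) * var 0) * var 1 + (((num (-10420)) * var 0 + num (-21242)) * var 0 + num (-34888)) * var 0) * var 1 + ((num (-408)) * var 0 + num 408) * var 0)
  wd := num 5000
  tn := fun b => cond b
    (((num 66858) * var 1 + num 12156) * var 3 + (num 103326) * var 1 + (num (-158028)) * var 0 + num 297822)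
    (((num 54615) * var 1 + num 9930) * var 3 + (num 84405) * var 1 + (num (-129090)) * var 0 + num 243285)
  td := num 1250000
  cn := num 1 - var 0 * var 1 - var 1 * (num 1 - num 2 * (var 0 * var 1))
  cd := (num 1 - num 2 * (var 0 * var 1)) * (num 1 - num 2 * (var 0 * var 1))
  kn := var 0 * var 1 * (((num 251) * var 3 + (num 2684) * var 1 + num (-1437)) * var 3 + (num 1475) * var 1 + (num 1916) * var 0 + num 497)
  kd := num 100
  k2n := (((num (-51)) * var 0) * var 3 + ((num (-293)) * var 0) * var 1 + (num 300) * var 0) * var 3 + ((num 559) * var 0) * var 1 + (num (-312)) * var 0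
  k2d := num 100

/-- Its ranges. -/
def sevBoxQ0b : EBox :=
  ⟨(37, 40, 200), (45, 53, 100), (10, 12, 25), (3, 5, 5)⟩

/-- The chart of the bin `Q1`. -/
def sevBinQ1 : EndChart where
  I := var 0 * var 1
  d := var 0
  w := var 0 * var 2
  den := num 1000
  n₀ := (num 1 - num 2 * (var 0 * var 1) - var 0) * ((num 359) * var 1 + (num 113) * var 0 + num 11)
  n₁ := (num 1 - num 2 * (var 0 * var 1) - var 0) * ((num 495) * var 1 + (num 349) * var 0 + num (-136))
  q₀ := (37, 40, 200)
  q₁ := (45, 53, 100)
  q₂ := (24, 33, 50)
  q₃ := (0, 1, 1)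
  t₀ := (0, 1)
  t₁ := (1, 1)
  mu₀ := (168, 100)
  mu₁ := (285, 100)

/-- The piece `Q1a`. -/
def sevPcQ1a : Piece where
  I := var 0 * var 1
  d := var 0
  w := var 0 * var 2
  o := sevBinQ1.n₀ + sevBinQ1.n₁ * var 3
  den := num 1000
  vn := num 2 * (((num 495) * var 1 + (num 349) * var 0 + num (-136)) * var 3 + (num 359) * var 1 + (num 113) * var 0 + num 11)
  vs := num 1
  mu := ⟨(168, 100), (285, 100)⟩
  pn := fun b => cond b
    ((((((num 9310950) * var 0 + num 4950000) * var 0) * var 1 + (((num 6564690) * var 0 + num 5587315) * var 0 + num (-3540475)) * var 0 + num (-2475000)) * var 1 + (((num 3282345) * var 0 + num (-2816425)) * var 0 + num (-1145920)) * var 0 + num 680000) * var 3 + ((((num 6752790) * var 0 + num 3590000) * var 0) * var 1 + (((num 2125530) * var 0 + num 4713305) * var 0 + num (-1471395)) * var 0 + num (-1795000)) * var 1 + (((num 1062765) * var 0 + num (-394310)) * var 0 + num (-613455)) * var 0 + num 4945000)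
    ((((((num 3991680) * var 0 + num 4950000) * var 0) * var 1 + (((num 2814336) * var 0 + num 4389136) * var 0 + num (-880840)) * var 0 + num (-2475000)) * var 1 + (((num 1407168) * var 0 + num (-210520)) * var 0 + num (-1876648)) * var 0 + num 680000) * var 3 + ((((num 2894976) * var 0 + num 3590000) * var 0) * var 1 + (((num 911232) * var 0 + num 2666192) * var 0 + num 457512) * var 0 + num (-1795000)) * var 1 + (((num 455616) * var 0 + num 153736) * var 0 + num (-554352)) * var 0 + num 4945000)
  pd := num 5000
  en := fun b => cond b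
    ((((num (-1934200)) * var 0) * var 1 + num 520707) * var 3 + (((num 48253200) * var 0) * var 1 + ((num (-69860250)) * var 0 + num 25653600) * var 0) * var 1 + (num 62787186) * var 0 + num 9507102)
    ((((num (-1862000)) * var 0) * var 1 + num 364560) * var 3 + (((num 46452000) * var 0) * var 1 + ((num (-67252500)) * var 0 + num 24696000) * var 0) * var 1 + (num 43958880) * var 0 + num 6656160)
  kk := fun b => cond b
    (((num 725109) * var 0) * var 3 + ((num 4316928) * var 0) * var 1 + ((num 52376478) * var 0 + num 8431500) * var 0)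
    (((num 505164) * var 0) * var 3 + ((num 3007488) * var 0) * var 1 + ((num 36489288) * var 0 + num 5874000) * var 0)
  f0 := num 2500000
  wn := fun b => cond b
    ((((((num (-198000)) * var 0 * var 0) * var 1 + (((num (-139600)) * var 0 + num 174630) * var 0 + num 99000) * var 0) * var 1 + (((num (-103304)) * var 0 + num 236536) * var 0 + num (-3440)) * var 0) * var 1 + (((num (-16752)) * var 0 + num 23280) * var 0 + num (-6528)) * var 0) * var 3 + ((((num (-143600)) * var 0 * var 0) * var 1 + (((num (-2147950)) * var 0 + num (-129639)) * var 0 + num 71800) * var 0) * var 1 + (((num 158792) * var 0 + num (-155516)) * var 0 + num (-180568)) * var 0) * var 1 + (((num (-5424)) * var 0 + num 4896) * var 0 + num 528) * var 0)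
    ((((((num (-198000)) * var 0 * var 0) * var 1 + (((num (-139600)) * var 0 + num 174630) * var 0 + num 99000) * var 0) * var 1 + (((num (-103304)) * var 0 + num 236536) * var 0 + num (-3440)) * var 0) * var 1 + (((num (-16752)) * var 0 + num 23280) * var 0 + num (-6528)) * var 0) * var 3 + ((((num (-143600)) * var 0 * var 0) * var 1 + (((num (-2147950)) * var 0 + num (-189139)) * var 0 + num 71800) * var 0) * var 1 + (((num 158792) * var 0 + num (-184076)) * var 0 + num (-180568)) * var 0) * var 1 + (((num (-5424)) * var 0 + num 4896) * var 0 + num 528) * var 0)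
  wd := num 25000
  tn := fun b => cond b
    (((num 488565) * var 1 + num (-32571)) * var 3 + (num 455994) * var 1 + (num 227997) * var 0 + num 1335411)
    (((num 360000) * var 1 + num (-24000)) * var 3 + (num 336000) * var 1 + (num 168000) * var 0 + num 984000)
  td := num 5000000
  cn := num 1 - var 0 * var 1 - var 1 * (num 1 - num 2 * (var 0 * var 1))
  cd := (num 1 - num 2 * (var 0 * var 1)) * (num 1 - num 2 * (var 0 * var 1))
  kn := var 0 * var 1 * ((((num 1296) * var 1 + num (-399)) * var 3 + (num 2012) * var 1 + (num 2712) * var 0 + num (-1470)) * var 3 + ((num (-444)) * var 1 + (num 3918) * var 0 + num 1248) * var 1 + (num (-1100)) * var 0 + num 927)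
  kd := num 100
  k2n := (((num 229) * var 0) * var 3 + ((num 1733) * var 0) * var 1 + (num (-1145)) * var 0) * var 3 + ((num (-947)) * var 0) * var 1 + ((num 130) * var 0 + num 605) * var 0
  k2d := num 100

/-- Its ranges. -/
def sevBoxQ1a : EBox :=
  ⟨(37, 40, 200), (45, 53, 100), (24, 33, 50), (0, 1, 1)⟩

/-- The chart of the bin `Q2`. -/
def sevBinQ2 : EndChart where
  I := var 0 * var 1
  d := var 0
  w := var 0 * var 2
  den := num 1000
  n₀ := (num 1 - num 2 * (var 0 * var 1) - var 0) * ((num 318) * var 1 + num 10)
  n₁ := (num 1 - num 2 * (var 0 * var 1) - var 0) * ((num 282) * var 1 + num 51)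
  q₀ := (37, 40, 200)
  q₁ := (45, 53, 100)
  q₂ := (33, 50, 50)
  q₃ := (0, 1, 1)
  t₀ := (0, 1)
  t₁ := (1, 1)
  mu₀ := (133, 100)
  mu₁ := (297, 100)

/-- The piece `Q2a`. -/
def sevPcQ2a : Piece where
  I := var 0 * var 1
  d := var 0
  w := var 0 * var 2
  o := sevBinQ2.n₀ + sevBinQ2.n₁ * var 3
  den := num 1000
  vn := num 2 * (((num 282) * var 1 + num 51) * var 3 + (num 318) * var 1 + num 10)
  vs := num 1
  mu := ⟨(133, 100), (297, 100)⟩
  pn := fun b => cond b
    ((((((num 8375400) * var 0 + num 2820000) * var 0) * var 1 + ((num 5702400) * var 0 + num (-2267700)) * var 0 + num (-1410000)) * var 1 + ((num 757350) * var 0 + num (-502350)) * var 0 + num (-255000)) * var 3 + ((((num 9444600) * var 0 + num 3180000) * var 0) * var 1 + ((num 5019300) * var 0 + num (-3032300)) * var 0 + num (-1590000)) * var 1 + ((num 148500) * var 0 + num (-98500)) * var 0 + num 4950000)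
    ((((((num 2475396) * var 0 + num 2820000) * var 0) * var 1 + ((num 1685376) * var 0 + num 682302) * var 0 + num (-1410000)) * var 1 + ((num 223839) * var 0 + num 31161) * var 0 + num (-255000)) * var 3 + ((((num 2791404) * var 0 + num 3180000) * var 0) * var 1 + ((num 1483482) * var 0 + num 294298) * var 0 + num (-1590000)) * var 1 + ((num 43890) * var 0 + num 6110) * var 0 + num 4950000)
  pd := num 5000
  en := fun b => cond b
    ((((num (-1710175)) * var 0) * var 1 + num 867850) * var 3 + (((num 65088750) * var 0) * var 1 + ((num (-91277400)) * var 0 + num 23074600) * var 0) * var 1 + (num 89975625) * var 0 + num 14983175)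
    ((((num (-1631450)) * var 0) * var 1 + num 546414) * var 3 + (((num 62092500) * var 0) * var 1 + ((num (-87075600)) * var 0 + num 22012400) * var 0) * var 1 + (num 56650275) * var 0 + num 9433677)
  kk := fun b => cond b
    (((num 1075200) * var 0) * var 3 + ((num 5529600) * var 0) * var 1 + ((num 75520000) * var 0 + num 13670400) * var 0)
    (((num 674982) * var 0) * var 3 + ((num 3471336) * var 0) * var 1 + ((num 47409450) * var 0 + num 8581914) * var 0)
  f0 := num 2500000
  wn := fun b => cond b
    ((((((num (-225600)) * var 0 * var 0) * var 1 + ((num 22952) * var 0 + num 112800) * var 0) * var 1 + ((num 574722) * var 0 + num 57624) * var 0) * var 1 + ((num (-6732)) * var 0 + num 6732) * var 0) * var 3 + ((((num (-254400)) * var 0 * var 0) * var 1 + (((num (-5418000)) * var 0 + num (-188852)) * var 0 + num 127200) * var 0) * var 1 + (((num (-543840)) * var 0 + num (-228638)) * var 0 + num (-354024)) * var 0) * var 1 + ((num (-1320)) * var 0 + num 1320) * var 0)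
    ((((((num (-225600)) * var 0 * var 0) * var 1 + ((num 22952) * var 0 + num 112800) * var 0) * var 1 + ((num 574722) * var 0 + num 57624) * var 0) * var 1 + ((num (-6732)) * var 0 + num 6732) * var 0) * var 3 + ((((num (-254400)) * var 0 * var 0) * var 1 + (((num (-5418000)) * var 0 + num (-341402)) * var 0 + num 127200) * var 0) * var 1 + (((num (-543840)) * var 0 + num (-329321)) * var 0 + num (-354024)) * var 0) * var 1 + ((num (-1320)) * var 0 + num 1320) * var 0)
  wd := num 50000
  tn := fun b => cond b
    (((num 73425) * var 1 + num 97900) * var 3 + (num 318175) * var 1 + (num 244750) * var 0 + num 856625)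
    (((num 50688) * var 1 + num 67584) * var 3 + (num 219648) * var 1 + (num 168960) * var 0 + num 591360)
  td := num 2500000
  cn := num 1 - var 0 * var 1 - var 1 * (num 1 - num 2 * (var 0 * var 1))
  cd := (num 1 - num 2 * (var 0 * var 1)) * (num 1 - num 2 * (var 0 * var 1))
  kn := var 0 * var 1 * (((num 333) * var 3 + (num 2760) * var 1 + num (-1346)) * var 3 + (num 1099) * var 1 + (num 1539) * var 0 + num 756)
  kd := num 100
  k2n := (((num 319) * var 0) * var 3 + ((num 2311) * var 0) * var 1 + (num (-1527)) * var 0) * var 3 + ((num (-1195)) * var 0) * var 1 + (num 805) * var 0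
  k2d := num 100

/-- Its ranges. -/
def sevBoxQ2a : EBox :=
  ⟨(37, 40, 200), (45, 53, 100), (33, 50, 50), (0, 1, 1)⟩

end Vale.Agent.P100.Calib.StripEndD
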