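import Vale.Agent.P100.Calib.SlabStripEndDExpr
import Vale.Agent.P100.Calib.SlabStripEndCert
import Vale.Agent.P100.Calib.SlabStripEndChart

/-!
# The bins `R` of the `D` region for `N` between seven and twenty

`x = (d, I / d, (1 - u) / d, t)`, with `v` affine in `t`.
-/

namespace Vale.Agent.P100.Calib.StripEndD

open Pack hiding ev_add ev_mul
open Pack.Ex StripMid StripEnd

local instance endSevDataRAdd : Add Ex := ⟨Ex.add⟩
local instance endSevDataRSub : Sub Ex := ⟨Ex.sub⟩
local instance endSevDataRMul : Mul Ex := ⟨Ex.mul⟩

/-- The chart of the bin `R0`. -/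
def sevBinR0 : EndChart where
  I := var 0 * var 1
  d := var 0
  w := var 0 * var 2
  den := num 1000
  n₀ := (num 1 - num 2 * (var 0 * var 1) - var 0) * ((num 132) * var 1 + num 128)
  n₁ := (num 1 - num 2 * (var 0 * var 1) - var 0) * ((num (-120)) * var 1 + num 143)
  q₀ := (23, 24, 100)
  q₁ := (320, 327, 1000)
  q₂ := (10, 12, 25)
  q₃ := (0, 1, 1)
  t₀ := (0, 1)
  t₁ := (1, 1)
  mu₀ := (177, 100)
  mu₁ := (271, 100)

/-- The piece `R0a`. -/
def sevPcR0a : Piece where
  I := var 0 * var 1
  d := var 0
  w := var 0 * var 2
  o := sevBinR0.n₀ + sevBinR0.n₁ * var 3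
  den := num 1000
  vn := num 2 * (((num (-120)) * var 1 + num 143) * var 3 + (num 132) * var 1 + num 128)
  vs := num 1
  mu := ⟨(177, 100), (271, 100)⟩
  pn := fun b => cond b
    ((((((num (-390240)) * var 0 + num (-300000)) * var 0) * var 1 + ((num 269916) * var 0 + num 402620) * var 0 + num 150000) * var 1 + ((num 232518) * var 0 + num (-53768)) * var 0 + num (-178750)) * var 3 + ((((num 429264) * var 0 + num 330000) * var 0) * var 1 + ((num 630888) * var 0 + num 270368) * var 0 + num (-165000)) * var 1 + ((num 208128) * var 0 + num (-48128)) * var 0 + num 1090000)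
    ((((((num (-212400)) * var 0 + num (-300000)) * var 0) * var 1 + ((num 146910) * var 0 + num 313700) * var 0 + num 150000) * var 1 + ((num 126555) * var 0 + num 52195) * var 0 + num (-178750)) * var 3 + ((((num 233640) * var 0 + num 330000) * var 0) * var 1 + ((num 343380) * var 0 + num 368180) * var 0 + num (-165000)) * var 1 + ((num 113280) * var 0 + num 46720) * var 0 + num 1090000)
  pd := num 1250
  en := fun b => cond b
    ((((num 63125) * var 0) * var 1 + num 96960) * var 3 + (((num 50929250) * var 0) * var 1 + ((num (-49212250)) * var 0 + num 12612375) * var 0) * var 1 + (num 17277060) * var 0 + num 4090500)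
    ((((num 61875) * var 0) * var 1 + num 79200) * var 3 + (((num 49920750) * var 0) * var 1 + ((num (-48237750)) * var 0 + num 12362625) * var 0) * var 1 + (num 14112450) * var 0 + num 3341250)
  kk := fun b => cond b
    (((num 188232) * var 0) * var 3 + ((num 3339600) * var 0) * var 1 + ((num 12903000) * var 0 + num 3758568) * var 0)
    (((num 152985) * var 0) * var 3 + ((num 2714250) * var 0) * var 1 + ((num 10486875) * var 0 + num 3054765) * var 0)
  f0 := num 1250000
  wn := fun b => cond b
    ((((((num 4800) * var 0 * var 0) * var 1 + ((num 16540) * var 0 + num (-2400)) * var 0) * var 1 + ((num 7276) * var 0 + num 2380) * var 0) * var 1 + ((num (-572)) * var 0 + num 572) * var 0) * var 3 + ((((num (-5280)) * var 0 * var 0) * var 1 + (((num (-513500)) * var 0 + num 70379) * var 0 + num 2640) * var 0) * var 1 + (((num 78230) * var 0 + num (-34814)) * var 0 + num (-16912)) * var 0) * var 1 + ((num (-512)) * var 0 + num 512) * var 0)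
    ((((((num 4800) * var 0 * var 0) * var 1 + ((num 16540) * var 0 + num (-2400)) * var 0) * var 1 + ((num 7276) * var 0 + num 2380) * var 0) * var 1 + ((num (-572)) * var 0 + num 572) * var 0) * var 3 + ((((num (-5280)) * var 0 * var 0) * var 1 + (((num (-513500)) * var 0 + num 67489) * var 0 + num 2640) * var 0) * var 1 + (((num 78230) * var 0 + num (-35970)) * var 0 + num (-16912)) * var 0) * var 1 + ((num (-512)) * var 0 + num 512) * var 0)
  wd := num 2500
  tn := fun b => cond b
    (((num (-71496)) * var 1 + num 35748) * var 3 + (num 50643) * var 1 + (num (-5958)) * var 0 + num 134055)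
    (((num (-59280)) * var 1 + num 29640) * var 3 + (num 41990) * var 1 + (num (-4940)) * var 0 + num 111150)
  td := num 625000
  cn := num 1 - var 0 * var 1 - var 1 * (num 1 - num 2 * (var 0 * var 1))
  cd := (num 1 - num 2 * (var 0 * var 1)) * (num 1 - num 2 * (var 0 * var 1))
  kn := var 0 * var 1 * (((num 40) * var 3 + (num 1825) * var 1 + num (-813)) * var 3 + (num 2766) * var 1 + (num 1479) * var 0 + num 18)
  kd := num 100
  k2n := (((num 65) * var 0) * var 3 + ((num 441) * var 0) * var 1 + (num (-302)) * var 0) * var 3 + (var 0) * var 1 + (num 112) * var 0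
  k2d := num 50

/-- Its ranges. -/
def sevBoxR0a : EBox :=
  ⟨(23, 24, 100), (320, 327, 1000), (10, 12, 25), (0, 3, 5)⟩

/-- The piece `R0b`. -/
def sevPcR0b : Piece where
  I := var 0 * var 1
  d := var 0
  w := var 0 * var 2
  o := sevBinR0.n₀ + sevBinR0.n₁ * var 3
  den := num 1000
  vn := num 2 * (((num (-120)) * var 1 + num 143) * var 3 + (num 132) * var 1 + num 128)
  vs := num 1
  mu := ⟨(177, 100), (271, 100)⟩
  pn := fun b => cond b
    ((((((num (-390240)) * var 0 + num (-300000)) * var 0) * var 1 + ((num 269916) * var 0 + num 402620) * var 0 + num 150000) * var 1 + ((num 232518) * var 0 + num (-53768)) * var 0 + num (-178750)) * var 3 + ((((num 429264) * var 0 + num 330000) * var 0) * var 1 + ((num 630888) * var 0 + num 270368) * var 0 + num (-165000)) * var 1 + ((num 208128) * var 0 + num (-48128)) * var 0 + num 1090000)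
    ((((((num (-212400)) * var 0 + num (-300000)) * var 0) * var 1 + ((num 146910) * var 0 + num 313700) * var 0 + num 150000) * var 1 + ((num 126555) * var 0 + num 52195) * var 0 + num (-178750)) * var 3 + ((((num 233640) * var 0 + num 330000) * var 0) * var 1 + ((num 343380) * var 0 + num 368180) * var 0 + num (-165000)) * var 1 + ((num 113280) * var 0 + num 46720) * var 0 + num 1090000)
  pd := num 1250
  en := fun b => cond b
    ((((num 506000) * var 0) * var 1 + num 6072) * var 3 + (((num 27494775) * var 0) * var 1 + ((num (-29752800)) * var 0 + num 6147900) * var 0) * var 1 + (num 9256764) * var 0 + num 1970364)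
    ((((num 494000) * var 0) * var 1 + num 4940) * var 3 + (((num 26842725) * var 0) * var 1 + ((num (-29047200)) * var 0 + num 6002100) * var 0) * var 1 + (num 7531030) * var 0 + num 1603030)
  kk := fun b => cond b
    (((num 88305) * var 0) * var 3 + ((num 1790460) * var 0) * var 1 + ((num 6513255) * var 0 + num 1839180) * var 0)
    (((num 71485) * var 0) * var 3 + ((num 1449420) * var 0) * var 1 + ((num 5272635) * var 0 + num 1488860) * var 0)
  f0 := num 625000
  wn := fun b => cond b
    ((((((num 9600) * var 0 * var 0) * var 1 + ((num 40480) * var 0 + num (-4800)) * var 0) * var 1 + ((num 10912) * var 0 + num 4760) * var 0) * var 1 + ((num (-1144)) * var 0 + num 1144) * var 0) * var 3 + ((((num (-10560)) * var 0 * var 0) * var 1 + (((num (-1303300)) * var 0 + num 191263) * var 0 + num 5280) * var 0) * var 1 + (((num 237760) * var 0 + num (-84226)) * var 0 + num (-33824)) * var 0) * var 1 + ((num (-1024)) * var 0 + num 1024) * var 0)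
    ((((((num 9600) * var 0 * var 0) * var 1 + ((num 40480) * var 0 + num (-4800)) * var 0) * var 1 + ((num 10912) * var 0 + num 4760) * var 0) * var 1 + ((num (-1144)) * var 0 + num 1144) * var 0) * var 3 + ((((num (-10560)) * var 0 * var 0) * var 1 + (((num (-1303300)) * var 0 + num 185538) * var 0 + num 5280) * var 0) * var 1 + (((num 237760) * var 0 + num (-86516)) * var 0 + num (-33824)) * var 0) * var 1 + ((num (-1024)) * var 0 + num 1024) * var 0)
  wd := num 5000
  tn := fun b => cond b
    (((num (-57456)) * var 1 + num 24192) * var 3 + (num 58968) * var 1 + (num (-13608)) * var 0 + num 58968)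
    (((num (-47690)) * var 1 + num 20080) * var 3 + (num 48945) * var 1 + (num (-11295)) * var 0 + num 48945)
  td := num 312500
  cn := num 1 - var 0 * var 1 - var 1 * (num 1 - num 2 * (var 0 * var 1))
  cd := (num 1 - num 2 * (var 0 * var 1)) * (num 1 - num 2 * (var 0 * var 1))
  kn := var 0 * var 1 * (((num 69) * var 3 + (num 1377) * var 1 + num (-708)) * var 3 + (num 3085) * var 1 + (num 1941) * var 0 + num (-175))
  kd := num 100
  k2n := (((num 72) * var 0) * var 3 + ((num 229) * var 0) * var 1 + (num (-335)) * var 0) * var 3 + ((num 298) * var 0) * var 1 + (num 113) * var 0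
  k2d := num 100

/-- Its ranges. -/
def sevBoxR0b : EBox :=
  ⟨(23, 24, 100), (320, 327, 1000), (10, 12, 25), (3, 5, 5)⟩

/-- The chart of the bin `R1`. -/
def sevBinR1 : EndChart where
  I := var 0 * var 1
  d := var 0
  w := var 0 * var 2
  den := num 1000
  n₀ := (num 1 - num 2 * (var 0 * var 1) - var 0) * ((num 1500) * var 1 + num (-328))
  n₁ := (num 1 - num 2 * (var 0 * var 1) - var 0) * (num 106)
  q₀ := (23, 24, 100)
  q₁ := (320, 327, 1000)
  q₂ := (12, 14, 25)
  q₃ := (0, 1, 1)
  t₀ := (0, 1)
  t₁ := (1, 1)
  mu₀ := (166, 100)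
  mu₁ := (271, 100)

/-- The piece `R1a`. -/
def sevPcR1a : Piece where
  I := var 0 * var 1
  d := var 0
  w := var 0 * var 2
  o := sevBinR1.n₀ + sevBinR1.n₁ * var 3
  den := num 1000
  vn := num 2 * ((num 106) * var 3 + (num 1500) * var 1 + num (-328))
  vs := num 1
  mu := ⟨(166, 100), (271, 100)⟩
  pn := fun b => cond b
    (((((num 201082) * var 0 + num 132500) * var 0) * var 1 + ((num 100541) * var 0 + num (-34291)) * var 0 + num (-66250)) * var 3 + ((((num 2845500) * var 0 + num 1875000) * var 0) * var 1 + ((num 800534) * var 0 + num (-895250)) * var 0 + num (-937500)) * var 1 + ((num (-311108)) * var 0 + num 106108) * var 0 + num 830000)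
    (((((num 105576) * var 0 + num 132500) * var 0) * var 1 + ((num 52788) * var 0 + num 13462) * var 0 + num (-66250)) * var 3 + ((((num 1494000) * var 0 + num 1875000) * var 0) * var 1 + ((num 420312) * var 0 + num (-219500)) * var 0 + num (-937500)) * var 1 + ((num (-163344)) * var 0 + num (-41656)) * var 0 + num 830000)
  pd := num 625
  en := fun b => cond b
    ((((num 1289025) * var 0) * var 1 + num 155694) * var 3 + (((num 163453425) * var 0) * var 1 + ((num (-113105625)) * var 0 + num 8542950) * var 0) * var 1 + (num 39843510) * var 0 + num 9610566)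
    ((((num 1260975) * var 0) * var 1 + num 130548) * var 3 + (((num 159896575) * var 0) * var 1 + ((num (-110644375)) * var 0 + num 8357050) * var 0) * var 1 + (num 33408420) * var 0 + num 8058372)
  kk := fun b => cond b
    (((num 425460) * var 0) * var 3 + ((num 13614720) * var 0) * var 1 + ((num 29838928) * var 0 + num 6864088) * var 0)
    (((num 355320) * var 0) * var 3 + ((num 11370240) * var 0) * var 1 + ((num 24919776) * var 0 + num 5732496) * var 0)
  f0 := num 2500000
  wn := fun b => cond b
    (((((num 103350) * var 0 * var 0) * var 1 + ((num 119464) * var 0 + num 21200) * var 0) * var 1 + ((num (-5088)) * var 0 + num 5088) * var 0) * var 3 + ((((num (-600000)) * var 0 * var 0) * var 1 + (((num (-5591250)) * var 0 + num 586675) * var 0 + num 300000) * var 0) * var 1 + (((num 949920) * var 0 + num (-329364)) * var 0 + num (-193600)) * var 0) * var 1 + ((num 15744) * var 0 + num (-15744)) * var 0)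
    (((((num 103350) * var 0 * var 0) * var 1 + ((num 119464) * var 0 + num 21200) * var 0) * var 1 + ((num (-5088)) * var 0 + num 5088) * var 0) * var 3 + ((((num (-600000)) * var 0 * var 0) * var 1 + (((num (-5591250)) * var 0 + num 542200) * var 0 + num 300000) * var 0) * var 1 + (((num 949920) * var 0 + num (-350712)) * var 0 + num (-193600)) * var 0) * var 1 + ((num 15744) * var 0 + num (-15744)) * var 0)
  wd := num 25000
  tn := fun b => cond b
    (((num (-22841)) * var 1 + num 14056) * var 3 + (num 105420) * var 1 + (num 1757) * var 0 + num 49196)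
    (((num (-19461)) * var 1 + num 11976) * var 3 + (num 89820) * var 1 + (num 1497) * var 0 + num 41916)
  td := num 312500
  cn := num 1 - var 0 * var 1 - var 1 * (num 1 - num 2 * (var 0 * var 1))
  cd := (num 1 - num 2 * (var 0 * var 1)) * (num 1 - num 2 * (var 0 * var 1))
  kn := var 0 * var 1 * (((num 36) * var 3 + (num 3615) * var 1 + num (-1422)) * var 3 + (num 157) * var 1 + (num 1499) * var 0 + num 855)
  kd := num 100
  k2n := (((num 129) * var 0) * var 3 + ((num 4585) * var 0) * var 1 + (num (-1802)) * var 0) * var 3 + ((num (-4481)) * var 0) * var 1 + (num 1680) * var 0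
  k2d := num 100

/-- Its ranges. -/
def sevBoxR1a : EBox :=
  ⟨(23, 24, 100), (320, 327, 1000), (12, 14, 25), (0, 3, 5)⟩

/-- The piece `R1b`. -/
def sevPcR1b : Piece where
  I := var 0 * var 1
  d := var 0
  w := var 0 * var 2
  o := sevBinR1.n₀ + sevBinR1.n₁ * var 3
  den := num 1000
  vn := num 2 * ((num 106) * var 3 + (num 1500) * var 1 + num (-328))
  vs := num 1
  mu := ⟨(166, 100), (271, 100)⟩
  pn := fun b => cond b
    (((((num 201082) * var 0 + num 132500) * var 0) * var 1 + ((num 100541) * var 0 + num (-34291)) * var 0 + num (-66250)) * var 3 + ((((num 2845500) * var 0 + num 1875000) * var 0) * var 1 + ((num 800534) * var 0 + num (-895250)) * var 0 + num (-937500)) * var 1 + ((num (-311108)) * var 0 + num 106108) * var 0 + num 830000)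
    (((((num 105576) * var 0 + num 132500) * var 0) * var 1 + ((num 52788) * var 0 + num 13462) * var 0 + num (-66250)) * var 3 + ((((num 1494000) * var 0 + num 1875000) * var 0) * var 1 + ((num 420312) * var 0 + num (-219500)) * var 0 + num (-937500)) * var 1 + ((num (-163344)) * var 0 + num (-41656)) * var 0 + num 830000)
  pd := num 625
  en := fun b => cond b
    ((((num 4098600) * var 0) * var 1 + num (-85008)) * var 3 + (((num 174215800) * var 0) * var 1 + ((num (-138264500)) * var 0 + num 6679200) * var 0) * var 1 + (num 42688184) * var 0 + num 9336712)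
    ((((num 3997350) * var 0) * var 1 + num (-71064)) * var 3 + (((num 169912050) * var 0) * var 1 + ((num (-134848875)) * var 0 + num 6514200) * var 0) * var 1 + (num 35685972) * var 0 + num 7805196)
  kk := fun b => cond b
    (((num 412090) * var 0) * var 3 + ((num 14408940) * var 0) * var 1 + ((num 30039940) * var 0 + num 6621860) * var 0)
    (((num 342432) * var 0) * var 3 + ((num 11973312) * var 0) * var 1 + ((num 24962112) * var 0 + num 5502528) * var 0)
  f0 := num 2500000
  wn := fun b => cond b
    (((((num 146600) * var 0 * var 0) * var 1 + ((num 98464) * var 0 + num 21200) * var 0) * var 1 + ((num (-5088)) * var 0 + num 5088) * var 0) * var 3 + ((((num (-600000)) * var 0 * var 0) * var 1 + (((num (-7756000)) * var 0 + num 1020225) * var 0 + num 300000) * var 0) * var 1 + (((num 1598040) * var 0 + num (-460020)) * var 0 + num (-193600)) * var 0) * var 1 + ((num 15744) * var 0 + num (-15744)) * var 0)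
    (((((num 146600) * var 0 * var 0) * var 1 + ((num 98464) * var 0 + num 21200) * var 0) * var 1 + ((num (-5088)) * var 0 + num 5088) * var 0) * var 3 + ((((num (-600000)) * var 0 * var 0) * var 1 + (((num (-7756000)) * var 0 + num 978750) * var 0 + num 300000) * var 0) * var 1 + (((num 1598040) * var 0 + num (-479928)) * var 0 + num (-193600)) * var 0) * var 1 + ((num 15744) * var 0 + num (-15744)) * var 0)
  wd := num 25000
  tn := fun b => cond b
    (((num (-88025)) * var 1 + num 42252) * var 3 + (num 281680) * var 1 + (num (-21126)) * var 0 + num 80983)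
    (((num (-74700)) * var 1 + num 35856) * var 3 + (num 239040) * var 1 + (num (-17928)) * var 0 + num 68724)
  td := num 625000
  cn := num 1 - var 0 * var 1 - var 1 * (num 1 - num 2 * (var 0 * var 1))
  cd := (num 1 - num 2 * (var 0 * var 1)) * (num 1 - num 2 * (var 0 * var 1))
  kn := var 0 * var 1 * (((num 62) * var 3 + (num 4257) * var 1 + num (-1667)) * var 3 + (num (-319)) * var 1 + (num 2001) * var 0 + num 909)
  kd := num 100
  k2n := (((num 76) * var 0) * var 3 + ((num 2094) * var 0) * var 1 + (num (-945)) * var 0) * var 3 + ((num (-3296)) * var 0) * var 1 + (num 1285) * var 0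
  k2d := num 100

/-- Its ranges. -/
def sevBoxR1b : EBox :=
  ⟨(23, 24, 100), (320, 327, 1000), (12, 14, 25), (3, 5, 5)⟩

/-- The chart of the bin `R2`. -/
def sevBinR2 : EndChart where
  I := var 0 * var 1
  d := var 0
  w := var 0 * var 2
  den := num 1000
  n₀ := (num 1 - num 2 * (var 0 * var 1) - var 0) * ((num 1500) * var 1 + num (-362))
  n₁ := (num 1 - num 2 * (var 0 * var 1) - var 0) * ((num (-1257)) * var 1 + num 535)
  q₀ := (23, 24, 100)
  q₁ := (320, 327, 1000)
  q₂ := (56, 87, 100)
  q₃ := (0, 1, 1)
  t₀ := (0, 1)
  t₁ := (1, 1)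
  mu₀ := (120, 100)
  mu₁ := (281, 100)

/-- The piece `R2a`. -/
def sevPcR2a : Piece where
  I := var 0 * var 1
  d := var 0
  w := var 0 * var 2
  o := sevBinR2.n₀ + sevBinR2.n₁ * var 3
  den := num 1000
  vn := num 2 * (((num (-1257)) * var 1 + num 535) * var 3 + (num 1500) * var 1 + num (-362))
  vs := num 1
  mu := ⟨(120, 100), (281, 100)⟩
  pn := fun b => cond b
    ((((((num (-61459758)) * var 0 + num (-25140000)) * var 0) * var 1 + ((num (-4571589)) * var 0 + num 28859879) * var 0 + num 12570000) * var 1 + ((num 13079145) * var 0 + num (-7729145)) * var 0 + num (-5350000)) * var 3 + ((((num 73341000) * var 0 + num 30000000) * var 0) * var 1 + ((num 18970872) * var 0 + num (-28910500)) * var 0 + num (-15000000)) * var 1 + ((num (-8849814)) * var 0 + num 5229814) * var 0 + num 13620000)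
    ((((((num (-16894080)) * var 0 + num (-25140000)) * var 0) * var 1 + ((num (-1256640)) * var 0 + num 6577040) * var 0 + num 12570000) * var 1 + ((num 3595200) * var 0 + num 1754800) * var 0 + num (-5350000)) * var 3 + ((((num 20160000) * var 0 + num 30000000) * var 0) * var 1 + ((num 5214720) * var 0 + num (-2320000)) * var 0 + num (-15000000)) * var 1 + ((num (-2432640)) * var 0 + num (-1187360)) * var 0 + num 13620000)
  pd := num 10000
  en := fun b => cond b
    ((((num (-3966300)) * var 0) * var 1 + num 2388933) * var 3 + (((num 833431500) * var 0) * var 1 + ((num (-493550100)) * var 0 + num (-4576500)) * var 0) * var 1 + (num 231372585) * var 0 + num 62112258)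
    ((((num (-3825900)) * var 0) * var 1 + num 1483272) * var 3 + (((num 803929500) * var 0) * var 1 + ((num (-476079300)) * var 0 + num (-4414500)) * var 0) * var 1 + (num 143657640) * var 0 + num 38565072)
  kk := fun b => cond b
    (((num 2839680) * var 0) * var 3 + ((num 74719080) * var 0) * var 1 + ((num 182005740) * var 0 + num 46144800) * var 0)
    (((num 1754368) * var 0) * var 3 + ((num 46161808) * var 0) * var 1 + ((num 112444024) * var 0 + num 28508480) * var 0)
  f0 := num 10000000
  wn := fun b => cond b
    ((((((num 251400) * var 0 * var 0) * var 1 + ((num 113717) * var 0 + num (-125700)) * var 0) * var 1 + ((num 75986) * var 0 + num 18304) * var 0) * var 1 + ((num (-14980)) * var 0 + num 14980) * var 0) * var 3 + ((((num (-300000)) * var 0 * var 0) * var 1 + (((num (-2238250)) * var 0 + num 109475) * var 0 + num 150000) * var 0) * var 1 + (((num 148540) * var 0 + num (-103056)) * var 0 + num (-94200)) * var 0) * var 1 + ((num 10136) * var 0 + num (-10136)) * var 0)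
    ((((((num 251400) * var 0 * var 0) * var 1 + ((num 113717) * var 0 + num (-125700)) * var 0) * var 1 + ((num 75986) * var 0 + num 18304) * var 0) * var 1 + ((num (-14980)) * var 0 + num 14980) * var 0) * var 3 + ((((num (-300000)) * var 0 * var 0) * var 1 + (((num (-2238250)) * var 0 + num 75825) * var 0 + num 150000) * var 0) * var 1 + (((num 148540) * var 0 + num (-121900)) * var 0 + num (-94200)) * var 0) * var 1 + ((num 10136) * var 0 + num (-10136)) * var 0)
  wd := num 12500
  tn := fun b => cond b
    (((num (-294147)) * var 1 + num 110838) * var 3 + (num 242991) * var 1 + (num 55419) * var 0 + num 93786)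
    (((num (-198030)) * var 1 + num 74620) * var 3 + (num 163590) * var 1 + (num 37310) * var 0 + num 63140)
  td := num 500000
  cn := num 1 - var 0 * var 1 - var 1 * (num 1 - num 2 * (var 0 * var 1))
  cd := (num 1 - num 2 * (var 0 * var 1)) * (num 1 - num 2 * (var 0 * var 1))
  kn := var 0 * var 1 * (((num 163) * var 3 + (num 2011) * var 1 + num (-823)) * var 3 + (num 1618) * var 1 + (num 1391) * var 0 + num 571)
  kd := num 100
  k2n := (((num 203) * var 0) * var 3 + ((num 9695) * var 0) * var 1 + (num (-3642)) * var 0) * var 3 + ((num (-7477)) * var 0) * var 1 + (num 2785) * var 0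
  k2d := num 100

/-- Its ranges. -/
def sevBoxR2a : EBox :=
  ⟨(23, 24, 100), (320, 327, 1000), (56, 87, 100), (0, 1, 1)⟩

end Vale.Agent.P100.Calib.StripEndD
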