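import Vale.Agent.P100.Calib.SlabStripEndDExpr
import Vale.Agent.P100.Calib.SlabStripEndCert
import Vale.Agent.P100.Calib.SlabStripEndChart

/-!
# The bins `S` of the `D` region for `N` between seven and twenty

`x = (d, I / d, (1 - u) / d, t)`, with `v` affine in `t`.
-/

namespace Vale.Agent.P100.Calib.StripEndD

open Pack hiding ev_add ev_mul
open Pack.Ex StripMid StripEnd

local instance endSevDataSAdd : Add Ex := ⟨Ex.add⟩
local instance endSevDataSSub : Sub Ex := ⟨Ex.sub⟩
local instance endSevDataSMul : Mul Ex := ⟨Ex.mul⟩

/-- The chart of the bin `S0`. -/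
def sevBinS0 : EndChart where
  I := var 0 * var 1
  d := var 0
  w := var 0 * var 2
  den := num 1000
  n₀ := (num 1 - num 2 * (var 0 * var 1) - var 0) * ((num 906) * var 1 + num 6)
  n₁ := (num 1 - num 2 * (var 0 * var 1) - var 0) * ((num 384) * var 1 + num (-39))
  q₀ := (252, 265, 1000)
  q₁ := (89, 127, 500)
  q₂ := (0, 3, 200)
  q₃ := (0, 1, 1)
  t₀ := (0, 1)
  t₁ := (1, 1)
  mu₀ := (226, 100)
  mu₁ := (271, 100)

/-- The piece `S0a`. -/
def sevPcS0a : Piece where
  I := var 0 * var 1
  d := var 0
  w := var 0 * var 2
  o := sevBinS0.n₀ + sevBinS0.n₁ * var 3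
  den := num 1000
  vn := num 2 * (((num 384) * var 1 + num (-39)) * var 3 + (num 906) * var 1 + num 6)
  vs := num 1
  mu := ⟨(226, 100), (271, 100)⟩
  pn := fun b => cond b
    ((((((num 624384) * var 0 + num 15360000) * var 0) * var 1 + ((num 248778) * var 0 + num 5807808) * var 0 + num (-7680000)) * var 1 + ((num (-31707)) * var 0 + num (-748293)) * var 0 + num 780000) * var 3 + ((((num 1473156) * var 0 + num 36240000) * var 0) * var 1 + ((num 746334) * var 0 + num 17623422) * var 0 + num (-18120000)) * var 1 + ((num 4878) * var 0 + num 115122) * var 0 + num 19880000)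
    (((((num 15360000) * var 0) * var 1 + (num 6120000) * var 0 + num (-7680000)) * var 1 + (num (-780000)) * var 0 + num 780000) * var 3 + (((num 36240000) * var 0) * var 1 + (num 18360000) * var 0 + num (-18120000)) * var 1 + (num 120000) * var 0 + num 19880000)
  pd := num 20000
  en := fun b => cond b
    ((((num (-8677400)) * var 0) * var 1 + num 75675) * var 3 + (((num (-102716200)) * var 0) * var 1 + ((num (-63163400)) * var 0 + num 310368400) * var 0) * var 1 + (num 6111513) * var 0 + num 2515437)
    ((((num (-8514000)) * var 0) * var 1) * var 3 + (((num (-100782000)) * var 0) * var 1 + ((num (-61974000)) * var 0 + num 304524000) * var 0) * var 1)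
  kk := fun b => cond b
    (((num 51510) * var 0) * var 3 + ((num 2733060) * var 0) * var 1 + ((num 5426730) * var 0 + num 2030100) * var 0)
    (num 0)
  f0 := num 20000000
  wn := fun b => cond b
    ((((((num (-6144)) * var 0 * var 0) * var 1 + ((num 2052) * var 0 + num 3072) * var 0) * var 1 + ((num 312) * var 0 + num (-312)) * var 0) * var 1) * var 3 + ((((num (-14496)) * var 0 * var 0) * var 1 + (((num (-45350)) * var 0 + num 2521) * var 0 + num 7248) * var 0) * var 1 + ((num (-8048)) * var 0 + num (-7952)) * var 0) * var 1)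
    ((((((num (-6144)) * var 0 * var 0) * var 1 + ((num 2052) * var 0 + num 3072) * var 0) * var 1 + ((num 312) * var 0 + num (-312)) * var 0) * var 1) * var 3 + ((((num (-14496)) * var 0 * var 0) * var 1 + (((num (-45350)) * var 0 + num 1331) * var 0 + num 7248) * var 0) * var 1 + ((num (-8048)) * var 0 + num (-7952)) * var 0) * var 1)
  wd := num 1000
  tn := fun b => cond b
    (((num 78) * var 1 + num (-9)) * var 3 + (num 144) * var 1 + (num (-57)) * var 0 + num 168)
    (num 0)
  td := num 20000
  cn := num 1 - var 0 * var 1 - var 1 * (num 1 - num 2 * (var 0 * var 1))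
  cd := (num 1 - num 2 * (var 0 * var 1)) * (num 1 - num 2 * (var 0 * var 1))
  kn := var 0 * var 1 * (((num 1218) * var 3 + (num 4261) * var 1 + num (-2034)) * var 3 + (num (-195)) * var 1 + (num (-286)) * var 0 + num 789)
  kd := num 100
  k2n := (((num 505) * var 0) * var 3 + ((num 2040) * var 0) * var 1 + (num (-1023)) * var 0) * var 3 + ((num (-1487)) * var 0) * var 1 + (num 642) * var 0
  k2d := num 100

/-- Its ranges. -/
def sevBoxS0a : EBox :=
  ⟨(252, 265, 1000), (89, 127, 500), (0, 3, 200), (0, 1, 1)⟩

/-- The chart of the bin `S1`. -/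
def sevBinS1 : EndChart where
  I := var 0 * var 1
  d := var 0
  w := var 0 * var 2
  den := num 1000
  n₀ := (num 1 - num 2 * (var 0 * var 1) - var 0) * ((num 789) * var 1 + num 9)
  n₁ := (num 1 - num 2 * (var 0 * var 1) - var 0) * ((num 450) * var 1 + num (-35))
  q₀ := (252, 265, 1000)
  q₁ := (89, 127, 500)
  q₂ := (3, 20, 200)
  q₃ := (0, 1, 1)
  t₀ := (0, 1)
  t₁ := (1, 1)
  mu₀ := (214, 100)
  mu₁ := (271, 100)

/-- The piece `S1a`. -/
def sevPcS1a : Piece where
  I := var 0 * var 1
  d := var 0
  w := var 0 * var 2
  o := sevBinS1.n₀ + sevBinS1.n₁ * var 3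
  den := num 1000
  vn := num 2 * (((num 450) * var 1 + num (-35)) * var 3 + (num 789) * var 1 + num 9)
  vs := num 1
  mu := ⟨(214, 100), (271, 100)⟩
  pn := fun b => cond b
    ((((((num 2439000) * var 0 + num 9000000) * var 0) * var 1 + ((num 1029800) * var 0 + num 2580500) * var 0 + num (-4500000)) * var 1 + ((num (-94850)) * var 0 + num (-255150)) * var 0 + num 350000) * var 3 + ((((num 4276380) * var 0 + num 15780000) * var 0) * var 1 + ((num 2186970) * var 0 + num 5931810) * var 0 + num (-7890000)) * var 1 + ((num 24390) * var 0 + num 65610) * var 0 + num 9910000)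
    ((((((num 288900) * var 0 + num 9000000) * var 0) * var 1 + ((num 121980) * var 0 + num 3655550) * var 0 + num (-4500000)) * var 1 + ((num (-11235)) * var 0 + num (-338765)) * var 0 + num 350000) * var 3 + ((((num 506538) * var 0 + num 15780000) * var 0) * var 1 + ((num 259047) * var 0 + num 7816731) * var 0 + num (-7890000)) * var 1 + ((num 2889) * var 0 + num 87111) * var 0 + num 9910000)
  pd := num 10000
  en := fun b => cond b
    ((((num (-12168000)) * var 0) * var 1 + num 507000) * var 3 + (((num 57595200) * var 0) * var 1 + ((num (-175624800)) * var 0 + num 310486800) * var 0) * var 1 + (num 49320960) * var 0 + num 14540760)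
    ((((num (-11724000)) * var 0) * var 1 + num 73275) * var 3 + (((num 55493600) * var 0) * var 1 + ((num (-169216400)) * var 0 + num 299157400) * var 0) * var 1 + (num 7128192) * var 0 + num 2101527)
  kk := fun b => cond b
    (((num 465060) * var 0) * var 3 + ((num 17368980) * var 0) * var 1 + ((num 35728740) * var 0 + num 13628280) * var 0)
    (((num 68241) * var 0) * var 3 + ((num 2548653) * var 0) * var 1 + ((num 5242689) * var 0 + num 1999758) * var 0)
  f0 := num 20000000
  wn := fun b => cond b
    ((((((num (-1440000)) * var 0 * var 0) * var 1 + ((num 699200) * var 0 + num 720000) * var 0) * var 1 + ((num 70460) * var 0 + num (-50600)) * var 0) * var 1 + ((num 420) * var 0 + num (-420)) * var 0) * var 3 + ((((num (-2524800)) * var 0 * var 0) * var 1 + (((num (-9882000)) * var 0 + num 349264) * var 0 + num 1262400) * var 0) * var 1 + (((num 26730) * var 0 + num (-1599373)) * var 0 + num (-1576132)) * var 0) * var 1 + ((num (-108)) * var 0 + num 108) * var 0)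
    ((((((num (-1440000)) * var 0 * var 0) * var 1 + ((num 699200) * var 0 + num 720000) * var 0) * var 1 + ((num 70460) * var 0 + num (-50600)) * var 0) * var 1 + ((num 420) * var 0 + num (-420)) * var 0) * var 3 + ((((num (-2524800)) * var 0 * var 0) * var 1 + (((num (-9882000)) * var 0 + num 140464) * var 0 + num 1262400) * var 0) * var 1 + (((num 26730) * var 0 + num (-1602505)) * var 0 + num (-1576132)) * var 0) * var 1 + ((num (-108)) * var 0 + num 108) * var 0)
  wd := num 200000
  tn := fun b => cond b
    (((num 31125) * var 1 + num (-2490)) * var 3 + (num 48555) * var 1 + (num (-14940)) * var 0 + num 65985)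
    (((num 4725) * var 1 + num (-378)) * var 3 + (num 7371) * var 1 + (num (-2268)) * var 0 + num 10017)
  td := num 1250000
  cn := num 1 - var 0 * var 1 - var 1 * (num 1 - num 2 * (var 0 * var 1))
  cd := (num 1 - num 2 * (var 0 * var 1)) * (num 1 - num 2 * (var 0 * var 1))
  kn := var 0 * var 1 * (((num 12) * var 3 + (num 1309) * var 1 + num (-469)) * var 3 + (num 2083) * var 1 + (num (-1402)) * var 0 + num 1289)
  kd := num 100
  k2n := (((num 731) * var 0) * var 3 + ((num 2878) * var 0) * var 1 + (num (-1753)) * var 0) * var 3 + ((num (-2386)) * var 0) * var 1 + (num 1127) * var 0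
  k2d := num 100

/-- Its ranges. -/
def sevBoxS1a : EBox :=
  ⟨(252, 265, 1000), (89, 127, 500), (3, 20, 200), (0, 1, 1)⟩

/-- The chart of the bin `S2`. -/
def sevBinS2 : EndChart where
  I := var 0 * var 1
  d := var 0
  w := var 0 * var 2
  den := num 1000
  n₀ := (num 1 - num 2 * (var 0 * var 1) - var 0) * ((num 567) * var 1 + num 12)
  n₁ := (num 1 - num 2 * (var 0 * var 1) - var 0) * ((num 564) * var 1 + num (-33))
  q₀ := (252, 265, 1000)
  q₁ := (89, 127, 500)
  q₂ := (5, 17, 50)
  q₃ := (0, 1, 1)
  t₀ := (0, 1)
  t₁ := (1, 1)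
  mu₀ := (179, 100)
  mu₁ := (270, 100)

/-- The piece `S2a`. -/
def sevPcS2a : Piece where
  I := var 0 * var 1
  d := var 0
  w := var 0 * var 2
  o := sevBinS2.n₀ + sevBinS2.n₁ * var 3
  den := num 1000
  vn := num 2 * (((num 564) * var 1 + num (-33)) * var 3 + (num 567) * var 1 + num 12)
  vs := num 1
  mu := ⟨(179, 100), (270, 100)⟩
  pn := fun b => cond b
    ((((((num 1035504) * var 0 + num 1128000) * var 0) * var 1 + ((num 457164) * var 0 + num (-19752)) * var 0 + num (-564000)) * var 1 + ((num (-30294)) * var 0 + num (-2706)) * var 0 + num 33000) * var 3 + ((((num 1041012) * var 0 + num 1134000) * var 0) * var 1 + ((num 542538) * var 0 + num 70494) * var 0 + num (-567000)) * var 1 + ((num 11016) * var 0 + num 984) * var 0 + num 988000)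
    ((((((num 201912) * var 0 + num 1128000) * var 0) * var 1 + ((num 89142) * var 0 + num 397044) * var 0 + num (-564000)) * var 1 + ((num (-5907)) * var 0 + num (-27093)) * var 0 + num 33000) * var 3 + ((((num 202986) * var 0 + num 1134000) * var 0) * var 1 + ((num 105789) * var 0 + num 489507) * var 0 + num (-567000)) * var 1 + ((num 2148) * var 0 + num 9852) * var 0 + num 988000)
  pd := num 1000
  en := fun b => cond b
    ((((num (-1887000)) * var 0) * var 1 + num 260100) * var 3 + (((num 66555000) * var 0) * var 1 + ((num (-71578500)) * var 0 + num 40009500) * var 0) * var 1 + (num 21163470) * var 0 + num 5990970)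
    ((((num (-1794500)) * var 0) * var 1 + num 72750) * var 3 + (((num 63292500) * var 0) * var 1 + ((num (-68069750)) * var 0 + num 38048250) * var 0) * var 1 + (num 5919425) * var 0 + num 1675675)
  kk := fun b => cond b
    (((num 258570) * var 0) * var 3 + ((num 6610773) * var 0) * var 1 + ((num 14729871) * var 0 + num 5904015) * var 0)
    (((num 74100) * var 0) * var 3 + ((num 1894490) * var 0) * var 1 + ((num 4221230) * var 0 + num 1691950) * var 0)
  f0 := num 2500000
  wn := fun b => cond b
    ((((((num (-90240)) * var 0 * var 0) * var 1 + ((num 51648) * var 0 + num 45120) * var 0) * var 1 + ((num 11378) * var 0 + num (-384)) * var 0) * var 1 + ((num 132) * var 0 + num (-132)) * var 0) * var 3 + ((((num (-90720)) * var 0 * var 0) * var 1 + (((num (-547500)) * var 0 + num (-17596)) * var 0 + num 45360) * var 0) * var 1 + (((num (-6100)) * var 0 + num (-76082)) * var 0 + num (-76772)) * var 0) * var 1 + ((num (-48)) * var 0 + num 48) * var 0)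
    ((((((num (-90240)) * var 0 * var 0) * var 1 + ((num 51648) * var 0 + num 45120) * var 0) * var 1 + ((num 11378) * var 0 + num (-384)) * var 0) * var 1 + ((num 132) * var 0 + num (-132)) * var 0) * var 3 + ((((num (-90720)) * var 0 * var 0) * var 1 + (((num (-547500)) * var 0 + num (-31666)) * var 0 + num 45360) * var 0) * var 1 + (((num (-6100)) * var 0 + num (-77489)) * var 0 + num (-76772)) * var 0) * var 1 + ((num (-48)) * var 0 + num 48) * var 0)
  wd := num 10000
  tn := fun b => cond b
    (((num 347718) * var 1) * var 3 + (num 413950) * var 1 + (num 33116) * var 0 + num 761668)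
    (((num 108465) * var 1) * var 3 + (num 129125) * var 1 + (num 10330) * var 0 + num 237590)
  td := num 5000000
  cn := num 1 - var 0 * var 1 - var 1 * (num 1 - num 2 * (var 0 * var 1))
  cd := (num 1 - num 2 * (var 0 * var 1)) * (num 1 - num 2 * (var 0 * var 1))
  kn := var 0 * var 1 * (((num 260) * var 3 + (num 5896) * var 1 + num (-1159)) * var 3 + (num 2773) * var 1 + (num 71) * var 0 + num 938)
  kd := num 100
  k2n := (((num 816) * var 0) * var 3 + ((num 2315) * var 0) * var 1 + (num (-2047)) * var 0) * var 3 + ((num (-2674)) * var 0) * var 1 + (num 1461) * var 0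
  k2d := num 100

/-- Its ranges. -/
def sevBoxS2a : EBox :=
  ⟨(252, 265, 1000), (89, 127, 500), (5, 17, 50), (0, 1, 1)⟩

/-- The chart of the bin `S3`. -/
def sevBinS3 : EndChart where
  I := var 0 * var 1
  d := var 0
  w := var 0 * var 2
  den := num 1000
  n₀ := (num 1 - num 2 * (var 0 * var 1) - var 0) * ((num 616) * var 1 + (num 88) * var 0 + num (-40))
  n₁ := (num 1 - num 2 * (var 0 * var 1) - var 0) * ((num 256) * var 1 + (num (-179)) * var 0 + num 65)
  q₀ := (252, 265, 1000)
  q₁ := (89, 127, 500)
  q₂ := (17, 24, 50)
  q₃ := (0, 1, 1)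
  t₀ := (0, 1)
  t₁ := (1, 1)
  mu₀ := (160, 100)
  mu₁ := (266, 100)

/-- The piece `S3a`. -/
def sevPcS3a : Piece where
  I := var 0 * var 1
  d := var 0
  w := var 0 * var 2
  o := sevBinS3.n₀ + sevBinS3.n₁ * var 3
  den := num 1000
  vn := num 2 * (((num 256) * var 1 + (num (-179)) * var 0 + num 65) * var 3 + (num 616) * var 1 + (num 88) * var 0 + num (-40))
  vs := num 1
  mu := ⟨(160, 100), (266, 100)⟩
  pn := fun b => cond b
    ((((((num 408576) * var 0 + num 320000) * var 0) * var 1 + (((num (-285684)) * var 0 + num 84278) * var 0 + num 36962) * var 0 + num (-160000)) * var 1 + (((num (-142842)) * var 0 + num 82837) * var 0 + num 100630) * var 0 + num (-40625)) * var 3 + ((((num 983136) * var 0 + num 770000) * var 0) * var 1 + (((num 140448) * var 0 + num 537728) * var 0 + num (-156568)) * var 0 + num (-385000)) * var 1 + (((num 70224) * var 0 + num (-47144)) * var 0 + num (-48080)) * var 0 + num 650000)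
    ((((((num 174080) * var 0 + num 320000) * var 0) * var 1 + (((num (-121720)) * var 0 + num (-92510)) * var 0 + num 154210) * var 0 + num (-160000)) * var 1 + (((num (-60860)) * var 0 + num (-28915)) * var 0 + num 130400) * var 0 + num (-40625)) * var 3 + ((((num 418880) * var 0 + num 770000) * var 0) * var 1 + (((num 59840) * var 0 + num 292240) * var 0 + num 125560) * var 0 + num (-385000)) * var 1 + (((num 29920) * var 0 + num 11480) * var 0 + num (-66400)) * var 0 + num 650000)
  pd := num 625
  en := fun b => cond b
    ((((num (-1772750)) * var 0) * var 1 + num 486240) * var 3 + (((num 293719350) * var 0) * var 1 + ((num (-226253550)) * var 0 + num 66807350) * var 0) * var 1 + (num 55431360) * var 0 + num 17577576)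
    ((((num (-1716750)) * var 0) * var 1 + num 333540) * var 3 + (((num 284440950) * var 0) * var 1 + ((num (-219106350)) * var 0 + num 64696950) * var 0) * var 1 + (num 38023560) * var 0 + num 12057471)
  kk := fun b => cond b
    (((num 559176) * var 0) * var 3 + ((num 17237208) * var 0) * var 1 + ((num 40528104) * var 0 + num 16969776) * var 0)
    (((num 385526) * var 0) * var 3 + ((num 11884258) * var 0) * var 1 + ((num 27942254) * var 0 + num 11699876) * var 0)
  f0 := num 5000000
  wn := fun b => cond b
    ((((((num (-204800)) * var 0 * var 0) * var 1 + (((num 143200) * var 0 + num 136784) * var 0 + num 102400) * var 0) * var 1 + (((num 95944) * var 0 + num 56692) * var 0 + num 43408) * var 0) * var 1 + (((num 12172) * var 0 + num (-16592)) * var 0 + num 4420) * var 0) * var 3 + ((((num (-492800)) * var 0 * var 0) * var 1 + (((num (-2440400)) * var 0 + num (-170476)) * var 0 + num 246400) * var 0) * var 1 + (((num (-384448)) * var 0 + num (-279440)) * var 0 + num (-374112)) * var 0) * var 1 + (((num (-5984)) * var 0 + num 8704) * var 0 + num (-2720))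 * var 0)
    ((((((num (-204800)) * var 0 * var 0) * var 1 + (((num 143200) * var 0 + num 136784) * var 0 + num 102400) * var 0) * var 1 + (((num 95944) * var 0 + num 56692) * var 0 + num 43408) * var 0) * var 1 + (((num 12172) * var 0 + num (-16592)) * var 0 + num 4420) * var 0) * var 3 + ((((num (-492800)) * var 0 * var 0) * var 1 + (((num (-2440400)) * var 0 + num (-257626)) * var 0 + num 246400) * var 0) * var 1 + (((num (-384448)) * var 0 + num (-309071)) * var 0 + num (-374112)) * var 0) * var 1 + (((num (-5984)) * var 0 + num 8704) * var 0 + num (-2720)) * var 0)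
  wd := num 50000
  tn := fun b => cond b
    (((num 144288) * var 1 + num 24048) * var 3 + (num 577152) * var 1 + (num 72144) * var 0 + num 1010016)
    (((num 103530) * var 1 + num 17255) * var 3 + (num 414120) * var 1 + (num 51765) * var 0 + num 724710)
  td := num 5000000
  cn := num 1 - var 0 * var 1 - var 1 * (num 1 - num 2 * (var 0 * var 1))
  cd := (num 1 - num 2 * (var 0 * var 1)) * (num 1 - num 2 * (var 0 * var 1))
  kn := var 0 * var 1 * ((((num 399) * var 1 + num (-52)) * var 3 + (num 2199) * var 1 + (num 1093) * var 0 + num (-1072)) * var 3 + ((num 747) * var 1 + (num 4238) * var 0 + num 671) * var 1 + (num (-399)) * var 0 + num 822)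
  kd := num 100
  k2n := (((num 241) * var 0) * var 3 + ((num 2578) * var 0) * var 1 + (num (-1156)) * var 0) * var 3 + ((num (-2643)) * var 0) * var 1 + ((num (-23)) * var 0 + num 1030) * var 0
  k2d := num 100

/-- Its ranges. -/
def sevBoxS3a : EBox :=
  ⟨(252, 265, 1000), (89, 127, 500), (17, 24, 50), (0, 1, 1)⟩

/-- The chart of the bin `S4`. -/
def sevBinS4 : EndChart where
  I := var 0 * var 1
  d := var 0
  w := var 0 * var 2
  den := num 1000
  n₀ := (num 1 - num 2 * (var 0 * var 1) - var 0) * ((num 579) * var 1 + num (-29))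
  n₁ := (num 1 - num 2 * (var 0 * var 1) - var 0) * ((num 231) * var 1 + num 28)
  q₀ := (252, 265, 1000)
  q₁ := (89, 127, 500)
  q₂ := (24, 33, 50)
  q₃ := (0, 1, 1)
  t₀ := (0, 1)
  t₁ := (1, 1)
  mu₀ := (128, 100)
  mu₁ := (270, 100)

/-- The piece `S4a`. -/
def sevPcS4a : Piece where
  I := var 0 * var 1
  d := var 0
  w := var 0 * var 2
  o := sevBinS4.n₀ + sevBinS4.n₁ * var 3
  den := num 1000
  vn := num 2 * (((num 231) * var 1 + num 28) * var 3 + (num 579) * var 1 + num (-29))
  vs := num 1
  mu := ⟨(128, 100), (270, 100)⟩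
  pn := fun b => cond b
    ((((((num 2058210) * var 0 + num 1155000) * var 0) * var 1 + ((num 1278585) * var 0 + num (-311605)) * var 0 + num (-577500)) * var 1 + ((num 124740) * var 0 + num (-54740)) * var 0 + num (-70000)) * var 3 + ((((num 5158890) * var 0 + num 2895000) * var 0) * var 1 + ((num 2321055) * var 0 + num (-1276945)) * var 0 + num (-1447500)) * var 1 + ((num (-129195)) * var 0 + num 56695) * var 0 + num 2572500)
    ((((((num 709632) * var 0 + num 1155000) * var 0) * var 1 + ((num 440832) * var 0 + num 362684) * var 0 + num (-577500)) * var 1 + ((num 43008) * var 0 + num 26992) * var 0 + num (-70000)) * var 3 + ((((num 1778688) * var 0 + num 2895000) * var 0) * var 1 + ((num 800256) * var 0 + num 413156) * var 0 + num (-1447500)) * var 1 + ((num (-44544)) * var 0 + num (-27956)) * var 0 + num 2572500)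
  pd := num 2500
  en := fun b => cond b
    ((((num (-609000)) * var 0) * var 1 + num 569415) * var 3 + (((num 399047250) * var 0) * var 1 + ((num (-276689000)) * var 0 + num 57702750) * var 0) * var 1 + (num 73186575) * var 0 + num 24719310)
    ((((num (-587400)) * var 0) * var 1 + num 399432) * var 3 + (((num 384893850) * var 0) * var 1 + ((num (-266875400)) * var 0 + num 55656150) * var 0) * var 1 + (num 51338760) * var 0 + num 17340048)
  kk := fun b => cond b
    (((num 703395) * var 0) * var 3 + ((num 22575630) * var 0) * var 1 + ((num 54831315) * var 0 + num 23580480) * var 0)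
    (((num 495936) * var 0) * var 3 + ((num 15917184) * var 0) * var 1 + ((num 38659392) * var 0 + num 16625664) * var 0)
  f0 := num 5000000
  wn := fun b => cond b
    ((((((num (-92400)) * var 0 * var 0) * var 1 + ((num 20424) * var 0 + num 46200) * var 0) * var 1 + ((num 133264) * var 0 + num 16688) * var 0) * var 1 + ((num (-1344)) * var 0 + num 1344) * var 0) * var 3 + ((((num (-231600)) * var 0 * var 0) * var 1 + (((num (-720000)) * var 0 + num (-177659)) * var 0 + num 115800) * var 0) * var 1 + (((num (-350640)) * var 0 + num (-156028)) * var 0 + num (-178008)) * var 0) * var 1 + ((num 1392) * var 0 + num (-1392)) * var 0)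
    ((((((num (-92400)) * var 0 * var 0) * var 1 + ((num 20424) * var 0 + num 46200) * var 0) * var 1 + ((num 133264) * var 0 + num 16688) * var 0) * var 1 + ((num (-1344)) * var 0 + num 1344) * var 0) * var 3 + ((((num (-231600)) * var 0 * var 0) * var 1 + (((num (-720000)) * var 0 + num (-243534)) * var 0 + num 115800) * var 0) * var 1 + (((num (-350640)) * var 0 + num (-187648)) * var 0 + num (-178008)) * var 0) * var 1 + ((num 1392) * var 0 + num (-1392)) * var 0)
  wd := num 25000
  tn := fun b => cond b
    (((num 132660) * var 1 + num 33165) * var 3 + (num 696465) * var 1 + (num 265320) * var 0 + num 1260270)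
    (((num 98208) * var 1 + num 24552) * var 3 + (num 515592) * var 1 + (num 196416) * var 0 + num 932976)
  td := num 5000000
  cn := num 1 - var 0 * var 1 - var 1 * (num 1 - num 2 * (var 0 * var 1))
  cd := (num 1 - num 2 * (var 0 * var 1)) * (num 1 - num 2 * (var 0 * var 1))
  kn := var 0 * var 1 * (((num 45) * var 3 + (num 2890) * var 1 + num (-989)) * var 3 + (num 1294) * var 1 + (num 991) * var 0 + num 665)
  kd := num 100
  k2n := (((num 334) * var 0) * var 3 + ((num 3346) * var 0) * var 1 + (num (-1467)) * var 0) * var 3 + ((num (-3387)) * var 0) * var 1 + (num 1269) * var 0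
  k2d := num 100

/-- Its ranges. -/
def sevBoxS4a : EBox :=
  ⟨(252, 265, 1000), (89, 127, 500), (24, 33, 50), (0, 1, 1)⟩

/-- The chart of the bin `S5`. -/
def sevBinS5 : EndChart where
  I := var 0 * var 1
  d := var 0
  w := var 0 * var 2
  den := num 1000
  n₀ := (num 1 - num 2 * (var 0 * var 1) - var 0) * ((num 438) * var 1 + num (-3))
  n₁ := (num 1 - num 2 * (var 0 * var 1) - var 0) * ((num 312) * var 1 + num (-1))
  q₀ := (252, 265, 1000)
  q₁ := (89, 127, 500)
  q₂ := (330, 397, 500)
  q₃ := (0, 1, 1)
  t₀ := (0, 1)
  t₁ := (1, 1)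
  mu₀ := (134, 100)
  mu₁ := (273, 100)

/-- The piece `S5a`. -/
def sevPcS5a : Piece where
  I := var 0 * var 1
  d := var 0
  w := var 0 * var 2
  o := sevBinS5.n₀ + sevBinS5.n₁ * var 3
  den := num 1000
  vn := num 2 * (((num 312) * var 1 + num (-1)) * var 3 + (num 438) * var 1 + num (-3))
  vs := num 1
  mu := ⟨(134, 100), (273, 100)⟩
  pn := fun b => cond b
    ((((((num 67629744) * var 0 + num 31200000) * var 0) * var 1 + ((num 33598110) * var 0 + num (-18314872)) * var 0 + num (-15600000)) * var 1 + ((num (-108381)) * var 0 + num 58381) * var 0 + num 50000) * var 3 + ((((num 94941756) * var 0 + num 43800000) * var 0) * var 1 + ((num 46820592) * var 0 + num (-25870878)) * var 0 + num (-21900000)) * var 1 + ((num (-325143)) * var 0 + num 175143) * var 0 + num 50150000)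
    ((((((num 27593280) * var 0 + num 31200000) * var 0) * var 1 + ((num 13708200) * var 0 + num 1703360) * var 0 + num (-15600000)) * var 1 + ((num (-44220)) * var 0 + num (-5780)) * var 0 + num 50000) * var 3 + ((((num 38736720) * var 0 + num 43800000) * var 0) * var 1 + ((num 19103040) * var 0 + num 2231640) * var 0 + num (-21900000)) * var 1 + ((num (-132660)) * var 0 + num (-17340)) * var 0 + num 50150000)
  pd := num 50000
  en := fun b => cond b
    ((((num 46091500) * var 0) * var 1 + num 3217288) * var 3 + (((num 4880634000) * var 0) * var 1 + ((num (-2058416000)) * var 0 + num 199561000) * var 0) * var 1 + (num 784616111) * var 0 + num 320120156)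
    ((((num 44726500) * var 0) * var 1 + num 2595120) * var 3 + (((num 4736094000) * var 0) * var 1 + ((num (-1997456000)) * var 0 + num 193651000) * var 0) * var 1 + (num 632884890) * var 0 + num 258214440)
  kk := fun b => cond b
    (((num 7238898) * var 0) * var 3 + ((num 257383040) * var 0) * var 1 + ((num 655120269) * var 0 + num 285936471) * var 0)
    (((num 5856840) * var 0) * var 3 + ((num 208243200) * var 0) * var 1 + ((num 530044020) * var 0 + num 231345180) * var 0)
  f0 := num 50000000
  wn := fun b => cond b
    ((((((num (-249600)) * var 0 * var 0) * var 1 + ((num 548132) * var 0 + num 124800) * var 0) * var 1 + ((num 217870) * var 0 + num 40784) * var 0) * var 1 + ((num 132) * var 0 + num (-132)) * var 0) * var 3 + ((((num (-350400)) * var 0 * var 0) * var 1 + (((num 2950000) * var 0 + num (-1710182)) * var 0 + num 175200) * var 0) * var 1 + (((num (-1919280)) * var 0 + num 32741) * var 0 + num (-343384)) * var 0) * var 1 + ((num 396) * var 0 + num (-396)) * var 0)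
    ((((((num (-249600)) * var 0 * var 0) * var 1 + ((num 548132) * var 0 + num 124800) * var 0) * var 1 + ((num 217870) * var 0 + num 40784) * var 0) * var 1 + ((num 132) * var 0 + num (-132)) * var 0) * var 3 + ((((num (-350400)) * var 0 * var 0) * var 1 + (((num 2950000) * var 0 + num (-1851432)) * var 0 + num 175200) * var 0) * var 1 + (((num (-1919280)) * var 0 + num (-60484)) * var 0 + num (-343384)) * var 0) * var 1 + ((num 396) * var 0 + num (-396)) * var 0)
  wd := num 50000
  tn := fun b => cond b
    (((num 498235) * var 1) * var 3 + (num 1594352) * var 1 + (num 996470) * var 0 + num 3686939)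
    (((num 413325) * var 1) * var 3 + (num 1322640) * var 1 + (num 826650) * var 0 + num 3058605)
  td := num 12500000
  cn := num 1 - var 0 * var 1 - var 1 * (num 1 - num 2 * (var 0 * var 1))
  cd := (num 1 - num 2 * (var 0 * var 1)) * (num 1 - num 2 * (var 0 * var 1))
  kn := var 0 * var 1 * (((num 13) * var 3 + (num 1647) * var 1 + num (-740)) * var 3 + (num 1720) * var 1 + (num 1225) * var 0 + num 436)
  kd := num 100
  k2n := (((num 146) * var 0) * var 3 + ((num 1433) * var 0) * var 1 + (num (-716)) * var 0) * var 3 + ((num (-1936)) * var 0) * var 1 + (num 804) * var 0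
  k2d := num 100

/-- Its ranges. -/
def sevBoxS5a : EBox :=
  ⟨(252, 265, 1000), (89, 127, 500), (330, 397, 500), (0, 1, 1)⟩

end Vale.Agent.P100.Calib.StripEndD
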