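import Vale.Agent.P100.Calib.SlabStripEndDExpr
import Vale.Agent.P100.Calib.SlabStripEndCert
import Vale.Agent.P100.Calib.SlabStripEndChart

/-!
# The bins `T` of the `D` region for `N` between seven and twenty

`x = (d, I / d, (1 - u) / d, t)`, with `v` affine in `t`.
-/

namespace Vale.Agent.P100.Calib.StripEndD

open Pack hiding ev_add ev_mul
open Pack.Ex StripMid StripEnd

local instance endSevDataTAdd : Add Ex := ⟨Ex.add⟩
local instance endSevDataTSub : Sub Ex := ⟨Ex.sub⟩
local instance endSevDataTMul : Mul Ex := ⟨Ex.mul⟩

/-- The chart of the bin `T0`. -/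
def sevBinT0 : EndChart where
  I := var 0 * var 1
  d := var 0
  w := var 0 * var 2
  den := num 1000
  n₀ := (num 1 - num 2 * (var 0 * var 1) - var 0) * ((num 918) * var 1 + num 8)
  n₁ := (num 1 - num 2 * (var 0 * var 1) - var 0) * ((num 318) * var 1 + num (-29))
  q₀ := (53, 56, 200)
  q₁ := (178, 217, 1000)
  q₂ := (0, 3, 500)
  q₃ := (0, 1, 1)
  t₀ := (0, 1)
  t₁ := (1, 1)
  mu₀ := (231, 100)
  mu₁ := (265, 100)

/-- The piece `T0a`. -/
def sevPcT0a : Piece where
  I := var 0 * var 1
  d := var 0
  w := var 0 * var 2
  o := sevBinT0.n₀ + sevBinT0.n₁ * var 3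
  den := num 1000
  vn := num 2 * (((num 318) * var 1 + num (-29)) * var 3 + (num 918) * var 1 + num 8)
  vs := num 1
  mu := ⟨(231, 100), (265, 100)⟩
  pn := fun b => cond b
    ((((((num 101124) * var 0 + num 6360000) * var 0) * var 1 + ((num 41340) * var 0 + num 2549438) * var 0 + num (-3180000)) * var 1 + ((num (-4611)) * var 0 + num (-285389)) * var 0 + num 290000) * var 3 + ((((num 291924) * var 0 + num 18360000) * var 0) * var 1 + ((num 148506) * var 0 + num 9194038) * var 0 + num (-9180000)) * var 1 + ((num 1272) * var 0 + num 78728) * var 0 + num 9920000)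
    (((((num 6360000) * var 0) * var 1 + (num 2600000) * var 0 + num (-3180000)) * var 1 + (num (-290000)) * var 0 + num 290000) * var 3 + (((num 18360000) * var 0) * var 1 + (num 9340000) * var 0 + num (-9180000)) * var 1 + (num 80000) * var 0 + num 9920000)
  pd := num 10000
  en := fun b => cond b
    ((((num (-8032000)) * var 0) * var 1 + num 25602) * var 3 + (((num (-133783000)) * var 0) * var 1 + ((num (-95129000)) * var 0 + num 390054000) * var 0) * var 1 + (num 2319240) * var 0 + num 1424676)
    ((((num (-7968000)) * var 0) * var 1) * var 3 + (((num (-132717000)) * var 0) * var 1 + ((num (-94371000)) * var 0 + num 386946000) * var 0) * var 1)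
  kk := fun b => cond b
    (((num 19617) * var 0) * var 3 + ((num 1451658) * var 0) * var 1 + ((num 2385729) * var 0 + num 1083462) * var 0)
    (num 0)
  f0 := num 25000000
  wn := fun b => cond b
    ((((((num (-5088)) * var 0 * var 0) * var 1 + ((num 1730) * var 0 + num 2544) * var 0) * var 1 + ((num 232) * var 0 + num (-232)) * var 0) * var 1) * var 3 + ((((num (-14688)) * var 0 * var 0) * var 1 + (((num (-42460)) * var 0 + num 2222) * var 0 + num 7344) * var 0) * var 1 + ((num (-8064)) * var 0 + num (-7936)) * var 0) * var 1)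
    ((((((num (-5088)) * var 0 * var 0) * var 1 + ((num 1730) * var 0 + num 2544) * var 0) * var 1 + ((num 232) * var 0 + num (-232)) * var 0) * var 1) * var 3 + ((((num (-14688)) * var 0 * var 0) * var 1 + (((num (-42460)) * var 0 + num 1481) * var 0 + num 7344) * var 0) * var 1 + ((num (-8064)) * var 0 + num (-7936)) * var 0) * var 1)
  wd := num 1000
  tn := fun b => cond b
    (((num 15030) * var 1 + num (-1503)) * var 3 + (num 36072) * var 1 + (num (-13527)) * var 0 + num 42084)
    (num 0)
  td := num 12500000
  cn := num 1 - var 0 * var 1 - var 1 * (num 1 - num 2 * (var 0 * var 1))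
  cd := (num 1 - num 2 * (var 0 * var 1)) * (num 1 - num 2 * (var 0 * var 1))
  kn := var 0 * var 1 * (((num 461) * var 3 + (num 911) * var 1 + num (-486)) * var 3 + (num 481) * var 1 + num 92)
  kd := num 50
  k2n := (((num 454) * var 0) * var 3 + ((num 718) * var 0) * var 1 + (num (-635)) * var 0) * var 3 + ((num (-709)) * var 0) * var 1 + (num 404) * var 0
  k2d := num 100

/-- Its ranges. -/
def sevBoxT0a : EBox :=
  ⟨(53, 56, 200), (178, 217, 1000), (0, 3, 500), (0, 1, 1)⟩

/-- The chart of the bin `T1`. -/
def sevBinT1 : EndChart where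
  I := var 0 * var 1
  d := var 0
  w := var 0 * var 2
  den := num 1000
  n₀ := (num 1 - num 2 * (var 0 * var 1) - var 0) * ((num 840) * var 1 + num 10)
  n₁ := (num 1 - num 2 * (var 0 * var 1) - var 0) * ((num 447) * var 1 + num (-42))
  q₀ := (53, 56, 200)
  q₁ := (178, 217, 1000)
  q₂ := (6, 55, 1000)
  q₃ := (0, 1, 1)
  t₀ := (0, 1)
  t₁ := (1, 1)
  mu₀ := (223, 100)
  mu₁ := (265, 100)

/-- The piece `T1a`. -/
def sevPcT1a : Piece where
  I := var 0 * var 1
  d := var 0
  w := var 0 * var 2
  o := sevBinT1.n₀ + sevBinT1.n₁ * var 3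
  den := num 1000
  vn := num 2 * (((num 447) * var 1 + num (-42)) * var 3 + (num 840) * var 1 + num 10)
  vs := num 1
  mu := ⟨(223, 100), (265, 100)⟩
  pn := fun b => cond b
    ((((((num 13030050) * var 0 + num 89400000) * var 0) * var 1 + ((num 5290725) * var 0 + num 29784975) * var 0 + num (-44700000)) * var 1 + ((num (-612150)) * var 0 + num (-3587850)) * var 0 + num 4200000) * var 3 + ((((num 24486000) * var 0 + num 168000000) * var 0) * var 1 + ((num 12534500) * var 0 + num 73757000) * var 0 + num (-84000000)) * var 1 + ((num 145750) * var 0 + num 854250) * var 0 + num 99000000)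
    ((((((num 1196172) * var 0 + num 89400000) * var 0) * var 1 + ((num 485694) * var 0 + num 35701914) * var 0 + num (-44700000)) * var 1 + ((num (-56196)) * var 0 + num (-4143804)) * var 0 + num 4200000) * var 3 + ((((num 2247840) * var 0 + num 168000000) * var 0) * var 1 + ((num 1150680) * var 0 + num 84876080) * var 0 + num (-84000000)) * var 1 + ((num 13380) * var 0 + num 986620) * var 0 + num 99000000)
  pd := num 100000
  en := fun b => cond b
    ((((num (-10836000)) * var 0) * var 1 + num 263340) * var 3 + (((num (-14112000)) * var 0) * var 1 + ((num (-134316000)) * var 0 + num 381528000) * var 0) * var 1 + (num 26126100) * var 0 + num 11739420)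
    ((((num (-10642500)) * var 0) * var 1 + num 28215) * var 3 + (((num (-13860000)) * var 0) * var 1 + ((num (-131917500)) * var 0 + num 374715000) * var 0) * var 1 + (num 2799225) * var 0 + num 1257795)
  kk := fun b => cond b
    (((num 249480) * var 0) * var 3 + ((num 13167000) * var 0) * var 1 + ((num 21732480) * var 0 + num 9923760) * var 0)
    (((num 26811) * var 0) * var 3 + ((num 1415025) * var 0) * var 1 + ((num 2335536) * var 0 + num 1066482) * var 0)
  f0 := num 25000000
  wn := fun b => cond b
    ((((((num (-3576000)) * var 0 * var 0) * var 1 + ((num 1192272) * var 0 + num 1788000) * var 0) * var 1 + ((num 179034) * var 0 + num (-162636)) * var 0) * var 1 + ((num 504) * var 0 + num (-504)) * var 0) * var 3 + ((((num (-6720000)) * var 0 * var 0) * var 1 + (((num (-21895000)) * var 0 + num 755340) * var 0 + num 3360000) * var 0) * var 1 + (((num 5610) * var 0 + num (-4019687)) * var 0 + num (-3949920)) * var 0) * var 1 + ((num (-120)) * var 0 + num 120) * var 0)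
    ((((((num (-3576000)) * var 0 * var 0) * var 1 + ((num 1192272) * var 0 + num 1788000) * var 0) * var 1 + ((num 179034) * var 0 + num (-162636)) * var 0) * var 1 + ((num 504) * var 0 + num (-504)) * var 0) * var 3 + ((((num (-6720000)) * var 0 * var 0) * var 1 + (((num (-21895000)) * var 0 + num 397340) * var 0 + num 3360000) * var 0) * var 1 + (((num 5610) * var 0 + num (-4021835)) * var 0 + num (-3949920)) * var 0) * var 1 + ((num (-120)) * var 0 + num 120) * var 0)
  wd := num 500000
  tn := fun b => cond b
    (((num 1373625) * var 1 + num (-109890)) * var 3 + (num 2307690) * var 1 + (num (-769230)) * var 0 + num 2967030)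
    (((num 150600) * var 1 + num (-12048)) * var 3 + (num 253008) * var 1 + (num (-84336)) * var 0 + num 325296)
  td := num 100000000
  cn := num 1 - var 0 * var 1 - var 1 * (num 1 - num 2 * (var 0 * var 1))
  cd := (num 1 - num 2 * (var 0 * var 1)) * (num 1 - num 2 * (var 0 * var 1))
  kn := var 0 * var 1 * (((num (-46)) * var 3 + (num (-1646)) * var 1 + num (-80)) * var 3 + (num 1875) * var 1 + (num (-882)) * var 0 + num 831)
  kd := num 100
  k2n := (((num 681) * var 0) * var 3 + ((num 2343) * var 0) * var 1 + (num (-1411)) * var 0) * var 3 + ((num (-1599)) * var 0) * var 1 + (num 808) * var 0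
  k2d := num 100

/-- Its ranges. -/
def sevBoxT1a : EBox :=
  ⟨(53, 56, 200), (178, 217, 1000), (6, 55, 1000), (0, 1, 1)⟩

/-- The chart of the bin `T2`. -/
def sevBinT2 : EndChart where
  I := var 0 * var 1
  d := var 0
  w := var 0 * var 2
  den := num 1000
  n₀ := (num 1 - num 2 * (var 0 * var 1) - var 0) * ((num 726) * var 1 + num (-1))
  n₁ := (num 1 - num 2 * (var 0 * var 1) - var 0) * ((num 420) * var 1 + num (-13))
  q₀ := (53, 56, 200)
  q₁ := (178, 217, 1000)
  q₂ := (11, 44, 200)
  q₃ := (0, 1, 1)
  t₀ := (0, 1)
  t₁ := (1, 1)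
  mu₀ := (195, 100)
  mu₁ := (265, 100)

/-- The piece `T2a`. -/
def sevPcT2a : Piece where
  I := var 0 * var 1
  d := var 0
  w := var 0 * var 2
  o := sevBinT2.n₀ + sevBinT2.n₁ * var 3
  den := num 1000
  vn := num 2 * (((num 420) * var 1 + num (-13)) * var 3 + (num 726) * var 1 + num (-1))
  vs := num 1
  mu := ⟨(195, 100), (265, 100)⟩
  pn := fun b => cond b
    ((((((num 1958880) * var 0 + num 3360000) * var 0) * var 1 + ((num 918808) * var 0 + num 596560) * var 0 + num (-1680000)) * var 1 + ((num (-30316)) * var 0 + num (-21684)) * var 0 + num 52000) * var 3 + ((((num 3386064) * var 0 + num 5808000) * var 0) * var 1 + ((num 1688368) * var 0 + num 1202968) * var 0 + num (-2904000)) * var 1 + ((num (-2332)) * var 0 + num (-1668)) * var 0 + num 4004000)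
    ((((((num 360360) * var 0 + num 3360000) * var 0) * var 1 + ((num 169026) * var 0 + num 1395820) * var 0 + num (-1680000)) * var 1 + ((num (-5577)) * var 0 + num (-46423)) * var 0 + num 52000) * var 3 + ((((num 622908) * var 0 + num 5808000) * var 0) * var 1 + ((num 310596) * var 0 + num 2584546) * var 0 + num (-2904000)) * var 1 + ((num (-429)) * var 0 + num (-3571)) * var 0 + num 4004000)
  pd := num 4000
  en := fun b => cond b
    ((((num (-12156000)) * var 0) * var 1 + num 1114300) * var 3 + (((num 345027800) * var 0) * var 1 + ((num (-247172000)) * var 0 + num 280398400) * var 0) * var 1 + (num 85177092) * var 0 + num 36549040)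
    ((((num (-11796000)) * var 0) * var 1 + num 270325) * var 3 + (((num 334809800) * var 0) * var 1 + ((num (-239852000)) * var 0 + num 272094400) * var 0) * var 1 + (num 20663643) * var 0 + num 8866660)
  kk := fun b => cond b
    (((num 1111000) * var 0) * var 3 + ((num 39107200) * var 0) * var 1 + ((num 67859880) * var 0 + num 32085680) * var 0)
    (((num 272525) * var 0) * var 3 + ((num 9592880) * var 0) * var 1 + ((num 16645827) * var 0 + num 7870522) * var 0)
  f0 := num 20000000
  wn := fun b => cond b
    ((((((num (-1344000)) * var 0 * var 0) * var 1 + ((num 946640) * var 0 + num 672000) * var 0) * var 1 + ((num 101694) * var 0 + num (-2320)) * var 0) * var 1 + ((num 572) * var 0 + num (-572)) * var 0) * var 3 + ((((num (-2323200)) * var 0 * var 0) * var 1 + (((num (-9378000)) * var 0 + num (-323888)) * var 0 + num 1161600) * var 0) * var 1 + (((num (-117040)) * var 0 + num (-1522214)) * var 0 + num (-1569656)) * var 0) * var 1 + ((num 44) * var 0 + num (-44)) * var 0)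
    ((((((num (-1344000)) * var 0 * var 0) * var 1 + ((num 946640) * var 0 + num 672000) * var 0) * var 1 + ((num 101694) * var 0 + num (-2320)) * var 0) * var 1 + ((num 572) * var 0 + num (-572)) * var 0) * var 3 + ((((num (-2323200)) * var 0 * var 0) * var 1 + (((num (-9378000)) * var 0 + num (-404488)) * var 0 + num 1161600) * var 0) * var 1 + (((num (-117040)) * var 0 + num (-1526647)) * var 0 + num (-1569656)) * var 0) * var 1 + ((num 44) * var 0 + num (-44)) * var 0)
  wd := num 200000
  tn := fun b => cond b
    (((num 598752) * var 1 + num 42768) * var 3 + (num 1454112) * var 1 + (num (-171072)) * var 0 + num 2095632)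
    (((num 156002) * var 1 + num 11143) * var 3 + (num 378862) * var 1 + (num (-44572)) * var 0 + num 546007)
  td := num 20000000
  cn := num 1 - var 0 * var 1 - var 1 * (num 1 - num 2 * (var 0 * var 1))
  cd := (num 1 - num 2 * (var 0 * var 1)) * (num 1 - num 2 * (var 0 * var 1))
  kn := var 0 * var 1 * (((num 135) * var 3 + (num 3953) * var 1 + num (-776)) * var 3 + (num 2981) * var 1 + (num (-613)) * var 0 + num 1063)
  kd := num 100
  k2n := (((num 830) * var 0) * var 3 + ((num 4203) * var 0) * var 1 + (num (-2363)) * var 0) * var 3 + ((num (-3701)) * var 0) * var 1 + (num 1579) * var 0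
  k2d := num 100

/-- Its ranges. -/
def sevBoxT2a : EBox :=
  ⟨(53, 56, 200), (178, 217, 1000), (11, 44, 200), (0, 1, 1)⟩

/-- The chart of the bin `T3`. -/
def sevBinT3 : EndChart where
  I := var 0 * var 1
  d := var 0
  w := var 0 * var 2
  den := num 1000
  n₀ := (num 1 - num 2 * (var 0 * var 1) - var 0) * ((num 543) * var 1 + num 11)
  n₁ := (num 1 - num 2 * (var 0 * var 1) - var 0) * ((num 306) * var 1 + num 12)
  q₀ := (53, 56, 200)
  q₁ := (178, 217, 1000)
  q₂ := (11, 20, 50)
  q₃ := (0, 1, 1)
  t₀ := (0, 1)
  t₁ := (1, 1)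
  mu₀ := (173, 100)
  mu₁ := (262, 100)

/-- The piece `T3a`. -/
def sevPcT3a : Piece where
  I := var 0 * var 1
  d := var 0
  w := var 0 * var 2
  o := sevBinT3.n₀ + sevBinT3.n₁ * var 3
  den := num 1000
  vn := num 2 * (((num 306) * var 1 + num 12) * var 3 + (num 543) * var 1 + num 11)
  vs := num 1
  mu := ⟨(173, 100), (262, 100)⟩
  pn := fun b => cond b
    ((((((num 3206880) * var 0 + num 3060000) * var 0) * var 1 + ((num 1729200) * var 0 + num 46560) * var 0 + num (-1530000)) * var 1 + ((num 62880) * var 0 + num (-2880)) * var 0 + num (-60000)) * var 3 + ((((num 5690640) * var 0 + num 5430000) * var 0) * var 1 + ((num 2960600) * var 0 + num (-20320)) * var 0 + num (-2715000)) * var 1 + ((num 57640) * var 0 + num (-2640)) * var 0 + num 4945000)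
    ((((((num 1164636) * var 0 + num 3060000) * var 0) * var 1 + ((num 627990) * var 0 + num 1067682) * var 0 + num (-1530000)) * var 1 + ((num 22836) * var 0 + num 37164) * var 0 + num (-60000)) * var 3 + ((((num 2066658) * var 0 + num 5430000) * var 0) * var 1 + ((num 1075195) * var 0 + num 1791671) * var 0 + num (-2715000)) * var 1 + ((num 20933) * var 0 + num 34067) * var 0 + num 4945000)
  pd := num 5000
  en := fun b => cond b
    ((((num (-434730)) * var 0) * var 1 + num 88968) * var 3 + (((num 48062940) * var 0) * var 1 + ((num (-26013030)) * var 0 + num 11838810) * var 0) * var 1 + (num 7691688) * var 0 + num 3271596)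
    ((((num (-423550)) * var 0) * var 1 + num 47674) * var 3 + (((num 46826900) * var 0) * var 1 + ((num (-25344050)) * var 0 + num 11534350) * var 0) * var 1 + (num 4121634) * var 0 + num 1753103)
  kk := fun b => cond b
    (((num 96960) * var 0) * var 3 + ((num 3114840) * var 0) * var 1 + ((num 6019600) * var 0 + num 2989600) * var 0)
    (((num 52272) * var 0) * var 3 + ((num 1679238) * var 0) * var 1 + ((num 3245220) * var 0 + num 1611720) * var 0)
  f0 := num 1000000
  wn := fun b => cond b
    ((((((num (-244800)) * var 0 * var 0) * var 1 + ((num 205572) * var 0 + num 122400) * var 0) * var 1 + ((num 97610) * var 0 + num 18264) * var 0) * var 1 + ((num (-528)) * var 0 + num 528) * var 0) * var 3 + ((((num (-434400)) * var 0 * var 0) * var 1 + (((num (-2770000)) * var 0 + num (-182434)) * var 0 + num 217200) * var 0) * var 1 + (((num (-145970)) * var 0 + num (-333263)) * var 0 + num (-371708)) * var 0) * var 1 + ((num (-484)) * var 0 + num 484) * var 0)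
    ((((((num (-244800)) * var 0 * var 0) * var 1 + ((num 205572) * var 0 + num 122400) * var 0) * var 1 + ((num 97610) * var 0 + num 18264) * var 0) * var 1 + ((num (-528)) * var 0 + num 528) * var 0) * var 3 + ((((num (-434400)) * var 0 * var 0) * var 1 + (((num (-2770000)) * var 0 + num (-223234)) * var 0 + num 217200) * var 0) * var 1 + (((num (-145970)) * var 0 + num (-342239)) * var 0 + num (-371708)) * var 0) * var 1 + ((num (-484)) * var 0 + num 484) * var 0)
  wd := num 50000
  tn := fun b => cond b
    (((num 19520) * var 1 + num 7808) * var 3 + (num 89792) * var 1 + (num 7808) * var 0 + num 175680)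
    (((num 11165) * var 1 + num 4466) * var 3 + (num 51359) * var 1 + (num 4466) * var 0 + num 100485)
  td := num 1000000
  cn := num 1 - var 0 * var 1 - var 1 * (num 1 - num 2 * (var 0 * var 1))
  cd := (num 1 - num 2 * (var 0 * var 1)) * (num 1 - num 2 * (var 0 * var 1))
  kn := var 0 * var 1 * (((num 66) * var 3 + (num 2923) * var 1 + num (-828)) * var 3 + (num 2955) * var 1 + (num 745) * var 0 + num 382)
  kd := num 100
  k2n := (((num 289) * var 0) * var 3 + ((num 2022) * var 0) * var 1 + (num (-1145)) * var 0) * var 3 + ((num (-1640)) * var 0) * var 1 + (num 851) * var 0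
  k2d := num 100

/-- Its ranges. -/
def sevBoxT3a : EBox :=
  ⟨(53, 56, 200), (178, 217, 1000), (11, 20, 50), (0, 1, 1)⟩

/-- The chart of the bin `T4`. -/
def sevBinT4 : EndChart where
  I := var 0 * var 1
  d := var 0
  w := var 0 * var 2
  den := num 1000
  n₀ := (num 1 - num 2 * (var 0 * var 1) - var 0) * ((num 477) * var 1 + num 8)
  n₁ := (num 1 - num 2 * (var 0 * var 1) - var 0) * ((num 372) * var 1 + num (-9))
  q₀ := (53, 56, 200)
  q₁ := (178, 217, 1000)
  q₂ := (10, 14, 25)
  q₃ := (0, 1, 1)
  t₀ := (0, 1)
  t₁ := (1, 1)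
  mu₀ := (157, 100)
  mu₁ := (267, 100)

/-- The piece `T4a`. -/
def sevPcT4a : Piece where
  I := var 0 * var 1
  d := var 0
  w := var 0 * var 2
  o := sevBinT4.n₀ + sevBinT4.n₁ * var 3
  den := num 1000
  vn := num 2 * (((num 372) * var 1 + num (-9)) * var 3 + (num 477) * var 1 + num 8)
  vs := num 1
  mu := ⟨(157, 100), (267, 100)⟩
  pn := fun b => cond b
    ((((((num 1390536) * var 0 + num 930000) * var 0) * var 1 + ((num 661626) * var 0 + num (-252768)) * var 0 + num (-465000)) * var 1 + ((num (-16821)) * var 0 + num 5571) * var 0 + num 11250) * var 3 + ((((num 1783026) * var 0 + num 1192500) * var 0) * var 1 + ((num 921417) * var 0 + num (-275263)) * var 0 + num (-596250)) * var 1 + ((num 14952) * var 0 + num (-4952)) * var 0 + num 1240000)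
    ((((((num 584040) * var 0 + num 930000) * var 0) * var 1 + ((num 277890) * var 0 + num 150480) * var 0 + num (-465000)) * var 1 + ((num (-7065)) * var 0 + num (-4185)) * var 0 + num 11250) * var 3 + ((((num 748890) * var 0 + num 1192500) * var 0) * var 1 + ((num 387005) * var 0 + num 241805) * var 0 + num (-596250)) * var 1 + ((num 6280) * var 0 + num 3720) * var 0 + num 1240000)
  pd := num 1250
  en := fun b => cond b
    ((((num 303300) * var 0) * var 1 + num 184002) * var 3 + (((num 190598775) * var 0) * var 1 + ((num (-97662600)) * var 0 + num 24440925) * var 0) * var 1 + (num 26623674) * var 0 + num 11436432)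
    ((((num 296100) * var 0) * var 1 + num 128310) * var 3 + (((num 186074175) * var 0) * var 1 + ((num (-95344200)) * var 0 + num 23860725) * var 0) * var 1 + (num 18565470) * var 0 + num 7974960)
  kk := fun b => cond b
    (((num 283080) * var 0) * var 3 + ((num 10573038) * var 0) * var 1 + ((num 20735610) * var 0 + num 10530576) * var 0)
    (((num 197600) * var 0) * var 3 + ((num 7380360) * var 0) * var 1 + ((num 14474200) * var 0 + num 7350720) * var 0)
  f0 := num 2500000
  wn := fun b => cond b
    ((((((num (-29760)) * var 0 * var 0) * var 1 + ((num 17488) * var 0 + num 14880) * var 0) * var 1 + ((num 16628) * var 0 + num 2616) * var 0) * var 1 + ((num 72) * var 0 + num (-72)) * var 0) * var 3 + ((((num (-38160)) * var 0 * var 0) * var 1 + (((num (-257650)) * var 0 + num (-41837)) * var 0 + num 19080) * var 0) * var 1 + (((num (-35800)) * var 0 + num (-27078)) * var 0 + num (-35864)) * var 0) * var 1 + ((num (-64)) * var 0 + num 64) * var 0)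
    ((((((num (-29760)) * var 0 * var 0) * var 1 + ((num 17488) * var 0 + num 14880) * var 0) * var 1 + ((num 16628) * var 0 + num 2616) * var 0) * var 1 + ((num 72) * var 0 + num (-72)) * var 0) * var 3 + ((((num (-38160)) * var 0 * var 0) * var 1 + (((num (-257650)) * var 0 + num (-51677)) * var 0 + num 19080) * var 0) * var 1 + (((num (-35800)) * var 0 + num (-31014)) * var 0 + num (-35864)) * var 0) * var 1 + ((num (-64)) * var 0 + num 64) * var 0)
  wd := num 5000
  tn := fun b => cond b
    (((num 24108) * var 1 + num 3444) * var 3 + (num 68880) * var 1 + (num 20664) * var 0 + num 141204)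
    (((num 17605) * var 1 + num 2515) * var 3 + (num 50300) * var 1 + (num 15090) * var 0 + num 103115)
  td := num 625000
  cn := num 1 - var 0 * var 1 - var 1 * (num 1 - num 2 * (var 0 * var 1))
  cd := (num 1 - num 2 * (var 0 * var 1)) * (num 1 - num 2 * (var 0 * var 1))
  kn := var 0 * var 1 * (((num 26) * var 3 + (num 1992) * var 1 + num (-735)) * var 3 + (num 2498) * var 1 + (num 1094) * var 0 + num 299)
  kd := num 100
  k2n := (((num 193) * var 0) * var 3 + ((num 1150) * var 0) * var 1 + (num (-747)) * var 0) * var 3 + ((num (-1612)) * var 0) * var 1 + (num 752) * var 0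
  k2d := num 100

/-- Its ranges. -/
def sevBoxT4a : EBox :=
  ⟨(53, 56, 200), (178, 217, 1000), (10, 14, 25), (0, 1, 1)⟩

/-- The chart of the bin `T5`. -/
def sevBinT5 : EndChart where
  I := var 0 * var 1
  d := var 0
  w := var 0 * var 2
  den := num 1000
  n₀ := (num 1 - num 2 * (var 0 * var 1) - var 0) * ((num 81) * var 1 + num 63)
  n₁ := (num 1 - num 2 * (var 0 * var 1) - var 0) * ((num 741) * var 1 + num (-73))
  q₀ := (53, 56, 200)
  q₁ := (178, 217, 1000)
  q₂ := (112, 151, 200)
  q₃ := (0, 1, 1)
  t₀ := (0, 1)
  t₁ := (1, 1)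
  mu₀ := (104, 100)
  mu₁ := (279, 100)

/-- The piece `T5a`. -/
def sevPcT5a : Piece where
  I := var 0 * var 1
  d := var 0
  w := var 0 * var 2
  o := sevBinT5.n₀ + sevBinT5.n₁ * var 3
  den := num 1000
  vn := num 2 * (((num 741) * var 1 + num (-73)) * var 3 + (num 81) * var 1 + num 63)
  vs := num 1
  mu := ⟨(104, 100), (279, 100)⟩
  pn := fun b => cond b
    ((((((num 62435178) * var 0 + num 29640000) * var 0) * var 1 + ((num 25066755) * var 0 + num (-19317589)) * var 0 + num (-14820000)) * var 1 + ((num (-3075417)) * var 0 + num 1615417) * var 0 + num 1460000) * var 3 + ((((num 6824898) * var 0 + num 3240000) * var 0) * var 1 + ((num 8720703) * var 0 + num 727551) * var 0 + num (-1620000)) * var 1 + ((num 2654127) * var 0 + num (-1394127)) * var 0 + num 18740000)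
    ((((((num 17262336) * var 0 + num 29640000) * var 0) * var 1 + ((num 6930560) * var 0 + num 3268832) * var 0 + num (-14820000)) * var 1 + ((num (-850304)) * var 0 + num (-609696)) * var 0 + num 1460000) * var 3 + ((((num 1886976) * var 0 + num 3240000) * var 0) * var 1 + ((num 2411136) * var 0 + num 3196512) * var 0 + num (-1620000)) * var 1 + ((num 733824) * var 0 + num 526176) * var 0 + num 18740000)
  pd := num 20000
  en := fun b => cond b
    ((((num 23954000) * var 0) * var 1 + num 919590) * var 3 + (((num 1974987000) * var 0) * var 1 + ((num (-899290000)) * var 0 + num 130732000) * var 0) * var 1 + (num 274804145) * var 0 + num 126443625)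
    ((((num 23198800) * var 0) * var 1 + num 660576) * var 3 + (((num 1912721400) * var 0) * var 1 + ((num (-870938000)) * var 0 + num 126610400) * var 0) * var 1 + (num 197402128) * var 0 + num 90829200)
  kk := fun b => cond b
    (((num 2914904) * var 0) * var 3 + ((num 103248968) * var 0) * var 1 + ((num 219845128) * var 0 + num 115982496) * var 0)
    (((num 2093952) * var 0) * var 3 + ((num 74169984) * var 0) * var 1 + ((num 157928064) * var 0 + num 83317248) * var 0)
  f0 := num 20000000
  wn := fun b => cond b
    ((((((num (-296400)) * var 0 * var 0) * var 1 + ((num 273008) * var 0 + num 148200) * var 0) * var 1 + ((num 99160) * var 0 + num 26896) * var 0) * var 1 + ((num 4088) * var 0 + num (-4088)) * var 0) * var 3 + ((((num (-32400)) * var 0 * var 0) * var 1 + (((num (-658250)) * var 0 + num (-635947)) * var 0 + num 16200) * var 0) * var 1 + (((num (-442260)) * var 0 + num (-40638)) * var 0 + num (-182864)) * var 0) * var 1 + ((num (-3528)) * var 0 + num 3528) * var 0)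
    ((((((num (-296400)) * var 0 * var 0) * var 1 + ((num 273008) * var 0 + num 148200) * var 0) * var 1 + ((num 99160) * var 0 + num 26896) * var 0) * var 1 + ((num 4088) * var 0 + num (-4088)) * var 0) * var 3 + ((((num (-32400)) * var 0 * var 0) * var 1 + (((num (-658250)) * var 0 + num (-742597)) * var 0 + num 16200) * var 0) * var 1 + (((num (-442260)) * var 0 + num (-100362)) * var 0 + num (-182864)) * var 0) * var 1 + ((num (-3528)) * var 0 + num 3528) * var 0)
  wd := num 25000
  tn := fun b => cond b
    (((num 121706) * var 1 + num (-9362)) * var 3 + (num 84258) * var 1 + (num 93620) * var 0 + num 365118)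
    (((num 92001) * var 1 + num (-7077)) * var 3 + (num 63693) * var 1 + (num 70770) * var 0 + num 276003)
  td := num 1250000
  cn := num 1 - var 0 * var 1 - var 1 * (num 1 - num 2 * (var 0 * var 1))
  cd := (num 1 - num 2 * (var 0 * var 1)) * (num 1 - num 2 * (var 0 * var 1))
  kn := var 0 * var 1 * (((num 30) * var 3 + (num 717) * var 1 + num (-529)) * var 3 + (num 3160) * var 1 + (num 997) * var 0 + num 320)
  kd := num 100
  k2n := (((num 327) * var 0) * var 3 + ((num (-3573)) * var 0) * var 1 + (num (-39)) * var 0) * var 3 + ((num 1786) * var 0) * var 1 + (num 216) * var 0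
  k2d := num 100

/-- Its ranges. -/
def sevBoxT5a : EBox :=
  ⟨(53, 56, 200), (178, 217, 1000), (112, 151, 200), (0, 1, 1)⟩

end Vale.Agent.P100.Calib.StripEndD
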