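import Vale.Agent.P100.Calib.SlabStripEndSevDataA
import Vale.Agent.P100.Calib.SlabStripEndSevDataB
import Vale.Agent.P100.Calib.SlabStripEndSevDataC
import Vale.Agent.P100.Calib.SlabStripEndSevDataD
import Vale.Agent.P100.Calib.SlabStripEndSevDataE
import Vale.Agent.P100.Calib.SlabStripEndSevDataF
import Vale.Agent.P100.Calib.SlabStripEndSevDataG
import Vale.Agent.P100.Calib.SlabStripEndSevDataH
import Vale.Agent.P100.Calib.SlabStripEndSevDataJ
import Vale.Agent.P100.Calib.SlabStripEndSevDataK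
import Vale.Agent.P100.Calib.SlabStripEndSevDataL
import Vale.Agent.P100.Calib.SlabStripEndSevDataM
import Vale.Agent.P100.Calib.SlabStripEndSevDataN
import Vale.Agent.P100.Calib.SlabStripEndSevDataP
import Vale.Agent.P100.Calib.SlabStripEndSevDataQ
import Vale.Agent.P100.Calib.SlabStripEndSevDataR
import Vale.Agent.P100.Calib.SlabStripEndSevDataS
import Vale.Agent.P100.Calib.SlabStripEndSevDataT

/-!
# The windows of the bins
-/

namespace Vale.Agent.P100.Calib.StripEndD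

open Pack hiding ev_add ev_mul
open Pack.Ex StripMid StripEnd

local instance endSevWinAdd : Add Ex := ⟨Ex.add⟩
local instance endSevWinSub : Sub Ex := ⟨Ex.sub⟩
local instance endSevWinMul : Mul Ex := ⟨Ex.mul⟩

/-- The windows of the bin A0. -/
theorem sevBinA0_ok : sevBinA0.Cert7 where
  flat := ⟨fun _ _ _ _ => rfl, fun _ _ _ _ => rfl, fun _ _ _ _ => rfl, fun _ _ _ _ => rfl,
    fun _ _ _ _ => rfl, fun _ _ _ _ => rfl⟩
  fits := ⟨by norm_num [sevBinA0], by norm_num [sevBinA0], by norm_num [sevBinA0],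
    by norm_num [sevBinA0]⟩
  left := ⟨290, 16, 12, 3, 3, by decide +kernel⟩
  right := ⟨268, 15, 10, 3, 3, by decide +kernel⟩
  up := ⟨314, 17, 12, 3, 4, by decide +kernel⟩
  down := ⟨315, 17, 11, 4, 4, by decide +kernel⟩

/-- The windows of the bin B0. -/
theorem sevBinB0_ok : sevBinB0.Cert7 where
  flat := ⟨fun _ _ _ _ => rfl, fun _ _ _ _ => rfl, fun _ _ _ _ => rfl, fun _ _ _ _ => rfl,
    fun _ _ _ _ => rfl, fun _ _ _ _ => rfl⟩
  fits := ⟨by norm_num [sevBinB0], by norm_num [sevBinB0], by norm_num [sevBinB0],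
    by norm_num [sevBinB0]⟩
  left := ⟨229, 16, 12, 3, 3, by decide +kernel⟩
  right := ⟨219, 15, 10, 3, 3, by decide +kernel⟩
  up := ⟨254, 17, 12, 3, 4, by decide +kernel⟩
  down := ⟨261, 17, 11, 4, 4, by decide +kernel⟩

/-- The windows of the bin B1. -/
theorem sevBinB1_ok : sevBinB1.Cert7 where
  flat := ⟨fun _ _ _ _ => rfl, fun _ _ _ _ => rfl, fun _ _ _ _ => rfl, fun _ _ _ _ => rfl,
    fun _ _ _ _ => rfl, fun _ _ _ _ => rfl⟩
  fits := ⟨by norm_num [sevBinB1], by norm_num [sevBinB1], by norm_num [sevBinB1],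
    by norm_num [sevBinB1]⟩
  left := ⟨229, 16, 12, 3, 3, by decide +kernel⟩
  right := ⟨218, 15, 10, 3, 3, by decide +kernel⟩
  up := ⟨254, 17, 12, 3, 4, by decide +kernel⟩
  down := ⟨261, 17, 11, 4, 4, by decide +kernel⟩

/-- The windows of the bin B2. -/
theorem sevBinB2_ok : sevBinB2.Cert7 where
  flat := ⟨fun _ _ _ _ => rfl, fun _ _ _ _ => rfl, fun _ _ _ _ => rfl, fun _ _ _ _ => rfl,
    fun _ _ _ _ => rfl, fun _ _ _ _ => rfl⟩
  fits := ⟨by norm_num [sevBinB2], by norm_num [sevBinB2], by norm_num [sevBinB2],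
    by norm_num [sevBinB2]⟩
  left := ⟨219, 16, 12, 3, 3, by decide +kernel⟩
  right := ⟨208, 15, 10, 3, 3, by decide +kernel⟩
  up := ⟨244, 17, 12, 3, 4, by decide +kernel⟩
  down := ⟨248, 17, 11, 4, 4, by decide +kernel⟩

/-- The windows of the bin B3. -/
theorem sevBinB3_ok : sevBinB3.Cert7 where
  flat := ⟨fun _ _ _ _ => rfl, fun _ _ _ _ => rfl, fun _ _ _ _ => rfl, fun _ _ _ _ => rfl,
    fun _ _ _ _ => rfl, fun _ _ _ _ => rfl⟩
  fits := ⟨by norm_num [sevBinB3], by norm_num [sevBinB3], by norm_num [sevBinB3],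
    by norm_num [sevBinB3]⟩
  left := ⟨226, 16, 12, 3, 3, by decide +kernel⟩
  right := ⟨215, 15, 10, 3, 3, by decide +kernel⟩
  up := ⟨250, 17, 12, 3, 4, by decide +kernel⟩
  down := ⟨257, 17, 11, 4, 4, by decide +kernel⟩

/-- The windows of the bin C0. -/
theorem sevBinC0_ok : sevBinC0.Cert7 where
  flat := ⟨fun _ _ _ _ => rfl, fun _ _ _ _ => rfl, fun _ _ _ _ => rfl, fun _ _ _ _ => rfl,
    fun _ _ _ _ => rfl, fun _ _ _ _ => rfl⟩
  fits := ⟨by norm_num [sevBinC0], by norm_num [sevBinC0], by norm_num [sevBinC0],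
    by norm_num [sevBinC0]⟩
  left := ⟨290, 16, 12, 3, 3, by decide +kernel⟩
  right := ⟨268, 15, 10, 3, 3, by decide +kernel⟩
  up := ⟨314, 17, 12, 3, 4, by decide +kernel⟩
  down := ⟨315, 17, 11, 4, 4, by decide +kernel⟩

/-- The windows of the bin C1. -/
theorem sevBinC1_ok : sevBinC1.Cert7 where
  flat := ⟨fun _ _ _ _ => rfl, fun _ _ _ _ => rfl, fun _ _ _ _ => rfl, fun _ _ _ _ => rfl,
    fun _ _ _ _ => rfl, fun _ _ _ _ => rfl⟩
  fits := ⟨by norm_num [sevBinC1], by norm_num [sevBinC1], by norm_num [sevBinC1],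
    by norm_num [sevBinC1]⟩
  left := ⟨280, 16, 12, 3, 3, by decide +kernel⟩
  right := ⟨258, 15, 10, 3, 3, by decide +kernel⟩
  up := ⟨304, 17, 12, 3, 4, by decide +kernel⟩
  down := ⟨302, 17, 11, 4, 4, by decide +kernel⟩

/-- The windows of the bin C2. -/
theorem sevBinC2_ok : sevBinC2.Cert7 where
  flat := ⟨fun _ _ _ _ => rfl, fun _ _ _ _ => rfl, fun _ _ _ _ => rfl, fun _ _ _ _ => rfl,
    fun _ _ _ _ => rfl, fun _ _ _ _ => rfl⟩
  fits := ⟨by norm_num [sevBinC2], by norm_num [sevBinC2], by norm_num [sevBinC2],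
    by norm_num [sevBinC2]⟩
  left := ⟨280, 16, 12, 3, 3, by decide +kernel⟩
  right := ⟨258, 15, 10, 3, 3, by decide +kernel⟩
  up := ⟨304, 17, 12, 3, 4, by decide +kernel⟩
  down := ⟨302, 17, 11, 4, 4, by decide +kernel⟩

/-- The windows of the bin C3. -/
theorem sevBinC3_ok : sevBinC3.Cert7 where
  flat := ⟨fun _ _ _ _ => rfl, fun _ _ _ _ => rfl, fun _ _ _ _ => rfl, fun _ _ _ _ => rfl,
    fun _ _ _ _ => rfl, fun _ _ _ _ => rfl⟩
  fits := ⟨by norm_num [sevBinC3], by norm_num [sevBinC3], by norm_num [sevBinC3],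
    by norm_num [sevBinC3]⟩
  left := ⟨277, 16, 12, 3, 3, by decide +kernel⟩
  right := ⟨254, 15, 10, 3, 3, by decide +kernel⟩
  up := ⟨301, 17, 12, 3, 4, by decide +kernel⟩
  down := ⟨298, 17, 11, 4, 4, by decide +kernel⟩

/-- The windows of the bin D0. -/
theorem sevBinD0_ok : sevBinD0.Cert7 where
  flat := ⟨fun _ _ _ _ => rfl, fun _ _ _ _ => rfl, fun _ _ _ _ => rfl, fun _ _ _ _ => rfl,
    fun _ _ _ _ => rfl, fun _ _ _ _ => rfl⟩
  fits := ⟨by norm_num [sevBinD0], by norm_num [sevBinD0], by norm_num [sevBinD0],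
    by norm_num [sevBinD0]⟩
  left := ⟨233, 16, 12, 3, 3, by decide +kernel⟩
  right := ⟨220, 15, 10, 3, 3, by decide +kernel⟩
  up := ⟨257, 17, 12, 3, 4, by decide +kernel⟩
  down := ⟨260, 17, 11, 4, 4, by decide +kernel⟩

/-- The windows of the bin D1. -/
theorem sevBinD1_ok : sevBinD1.Cert7 where
  flat := ⟨fun _ _ _ _ => rfl, fun _ _ _ _ => rfl, fun _ _ _ _ => rfl, fun _ _ _ _ => rfl,
    fun _ _ _ _ => rfl, fun _ _ _ _ => rfl⟩
  fits := ⟨by norm_num [sevBinD1], by norm_num [sevBinD1], by norm_num [sevBinD1],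
    by norm_num [sevBinD1]⟩
  left := ⟨233, 16, 12, 3, 3, by decide +kernel⟩
  right := ⟨220, 15, 10, 3, 3, by decide +kernel⟩
  up := ⟨257, 17, 12, 3, 4, by decide +kernel⟩
  down := ⟨260, 17, 11, 4, 4, by decide +kernel⟩

/-- The windows of the bin D2. -/
theorem sevBinD2_ok : sevBinD2.Cert7 where
  flat := ⟨fun _ _ _ _ => rfl, fun _ _ _ _ => rfl, fun _ _ _ _ => rfl, fun _ _ _ _ => rfl,
    fun _ _ _ _ => rfl, fun _ _ _ _ => rfl⟩
  fits := ⟨by norm_num [sevBinD2], by norm_num [sevBinD2], by norm_num [sevBinD2],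
    by norm_num [sevBinD2]⟩
  left := ⟨236, 16, 12, 3, 3, by decide +kernel⟩
  right := ⟨222, 15, 10, 3, 3, by decide +kernel⟩
  up := ⟨259, 17, 12, 3, 4, by decide +kernel⟩
  down := ⟨264, 17, 11, 4, 4, by decide +kernel⟩

/-- The windows of the bin D3. -/
theorem sevBinD3_ok : sevBinD3.Cert7 where
  flat := ⟨fun _ _ _ _ => rfl, fun _ _ _ _ => rfl, fun _ _ _ _ => rfl, fun _ _ _ _ => rfl,
    fun _ _ _ _ => rfl, fun _ _ _ _ => rfl⟩
  fits := ⟨by norm_num [sevBinD3], by norm_num [sevBinD3], by norm_num [sevBinD3],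
    by norm_num [sevBinD3]⟩
  left := ⟨236, 16, 12, 3, 3, by decide +kernel⟩
  right := ⟨222, 15, 10, 3, 3, by decide +kernel⟩
  up := ⟨259, 17, 12, 3, 4, by decide +kernel⟩
  down := ⟨264, 17, 11, 4, 4, by decide +kernel⟩

/-- The windows of the bin D4. -/
theorem sevBinD4_ok : sevBinD4.Cert7 where
  flat := ⟨fun _ _ _ _ => rfl, fun _ _ _ _ => rfl, fun _ _ _ _ => rfl, fun _ _ _ _ => rfl,
    fun _ _ _ _ => rfl, fun _ _ _ _ => rfl⟩
  fits := ⟨by norm_num [sevBinD4], by norm_num [sevBinD4], by norm_num [sevBinD4],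
    by norm_num [sevBinD4]⟩
  left := ⟨233, 16, 12, 3, 3, by decide +kernel⟩
  right := ⟨219, 15, 10, 3, 3, by decide +kernel⟩
  up := ⟨256, 17, 12, 3, 4, by decide +kernel⟩
  down := ⟨259, 17, 11, 4, 4, by decide +kernel⟩

/-- The windows of the bin D5. -/
theorem sevBinD5_ok : sevBinD5.Cert7 where
  flat := ⟨fun _ _ _ _ => rfl, fun _ _ _ _ => rfl, fun _ _ _ _ => rfl, fun _ _ _ _ => rfl,
    fun _ _ _ _ => rfl, fun _ _ _ _ => rfl⟩
  fits := ⟨by norm_num [sevBinD5], by norm_num [sevBinD5], by norm_num [sevBinD5],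
    by norm_num [sevBinD5]⟩
  left := ⟨233, 16, 12, 3, 3, by decide +kernel⟩
  right := ⟨219, 15, 10, 3, 3, by decide +kernel⟩
  up := ⟨256, 17, 12, 3, 4, by decide +kernel⟩
  down := ⟨259, 17, 11, 4, 4, by decide +kernel⟩

/-- The windows of the bin D6. -/
theorem sevBinD6_ok : sevBinD6.Cert7 where
  flat := ⟨fun _ _ _ _ => rfl, fun _ _ _ _ => rfl, fun _ _ _ _ => rfl, fun _ _ _ _ => rfl,
    fun _ _ _ _ => rfl, fun _ _ _ _ => rfl⟩
  fits := ⟨by norm_num [sevBinD6], by norm_num [sevBinD6], by norm_num [sevBinD6],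
    by norm_num [sevBinD6]⟩
  left := ⟨227, 16, 12, 3, 3, by decide +kernel⟩
  right := ⟨213, 15, 10, 3, 3, by decide +kernel⟩
  up := ⟨250, 17, 12, 3, 4, by decide +kernel⟩
  down := ⟨251, 17, 11, 4, 4, by decide +kernel⟩

/-- The windows of the bin D7. -/
theorem sevBinD7_ok : sevBinD7.Cert7 where
  flat := ⟨fun _ _ _ _ => rfl, fun _ _ _ _ => rfl, fun _ _ _ _ => rfl, fun _ _ _ _ => rfl,
    fun _ _ _ _ => rfl, fun _ _ _ _ => rfl⟩
  fits := ⟨by norm_num [sevBinD7], by norm_num [sevBinD7], by norm_num [sevBinD7],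
    by norm_num [sevBinD7]⟩
  left := ⟨230, 16, 12, 3, 3, by decide +kernel⟩
  right := ⟨215, 15, 10, 3, 3, by decide +kernel⟩
  up := ⟨253, 17, 12, 3, 4, by decide +kernel⟩
  down := ⟨255, 17, 11, 4, 4, by decide +kernel⟩

/-- The windows of the bin D8. -/
theorem sevBinD8_ok : sevBinD8.Cert7 where
  flat := ⟨fun _ _ _ _ => rfl, fun _ _ _ _ => rfl, fun _ _ _ _ => rfl, fun _ _ _ _ => rfl,
    fun _ _ _ _ => rfl, fun _ _ _ _ => rfl⟩
  fits := ⟨by norm_num [sevBinD8], by norm_num [sevBinD8], by norm_num [sevBinD8],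
    by norm_num [sevBinD8]⟩
  left := ⟨223, 16, 12, 3, 3, by decide +kernel⟩
  right := ⟨208, 15, 10, 3, 3, by decide +kernel⟩
  up := ⟨246, 17, 12, 3, 4, by decide +kernel⟩
  down := ⟨246, 17, 11, 4, 4, by decide +kernel⟩

/-- The windows of the bin E0. -/
theorem sevBinE0_ok : sevBinE0.Cert7 where
  flat := ⟨fun _ _ _ _ => rfl, fun _ _ _ _ => rfl, fun _ _ _ _ => rfl, fun _ _ _ _ => rfl,
    fun _ _ _ _ => rfl, fun _ _ _ _ => rfl⟩
  fits := ⟨by norm_num [sevBinE0], by norm_num [sevBinE0], by norm_num [sevBinE0],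
    by norm_num [sevBinE0]⟩
  left := ⟨290, 16, 12, 3, 3, by decide +kernel⟩
  right := ⟨268, 15, 10, 3, 3, by decide +kernel⟩
  up := ⟨314, 17, 12, 3, 4, by decide +kernel⟩
  down := ⟨314, 17, 11, 4, 4, by decide +kernel⟩

/-- The windows of the bin E1. -/
theorem sevBinE1_ok : sevBinE1.Cert7 where
  flat := ⟨fun _ _ _ _ => rfl, fun _ _ _ _ => rfl, fun _ _ _ _ => rfl, fun _ _ _ _ => rfl,
    fun _ _ _ _ => rfl, fun _ _ _ _ => rfl⟩
  fits := ⟨by norm_num [sevBinE1], by norm_num [sevBinE1], by norm_num [sevBinE1],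
    by norm_num [sevBinE1]⟩
  left := ⟨290, 16, 12, 3, 3, by decide +kernel⟩
  right := ⟨267, 15, 10, 3, 3, by decide +kernel⟩
  up := ⟨314, 17, 12, 3, 4, by decide +kernel⟩
  down := ⟨314, 17, 11, 4, 4, by decide +kernel⟩

/-- The windows of the bin E2. -/
theorem sevBinE2_ok : sevBinE2.Cert7 where
  flat := ⟨fun _ _ _ _ => rfl, fun _ _ _ _ => rfl, fun _ _ _ _ => rfl, fun _ _ _ _ => rfl,
    fun _ _ _ _ => rfl, fun _ _ _ _ => rfl⟩
  fits := ⟨by norm_num [sevBinE2], by norm_num [sevBinE2], by norm_num [sevBinE2],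
    by norm_num [sevBinE2]⟩
  left := ⟨288, 16, 12, 3, 3, by decide +kernel⟩
  right := ⟨264, 15, 10, 3, 3, by decide +kernel⟩
  up := ⟨311, 17, 12, 3, 4, by decide +kernel⟩
  down := ⟨310, 17, 11, 4, 4, by decide +kernel⟩

/-- The windows of the bin E3. -/
theorem sevBinE3_ok : sevBinE3.Cert7 where
  flat := ⟨fun _ _ _ _ => rfl, fun _ _ _ _ => rfl, fun _ _ _ _ => rfl, fun _ _ _ _ => rfl,
    fun _ _ _ _ => rfl, fun _ _ _ _ => rfl⟩
  fits := ⟨by norm_num [sevBinE3], by norm_num [sevBinE3], by norm_num [sevBinE3],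
    by norm_num [sevBinE3]⟩
  left := ⟨285, 16, 12, 3, 3, by decide +kernel⟩
  right := ⟨261, 15, 10, 3, 3, by decide +kernel⟩
  up := ⟨308, 17, 12, 3, 4, by decide +kernel⟩
  down := ⟨306, 17, 11, 4, 4, by decide +kernel⟩

/-- The windows of the bin E4. -/
theorem sevBinE4_ok : sevBinE4.Cert7 where
  flat := ⟨fun _ _ _ _ => rfl, fun _ _ _ _ => rfl, fun _ _ _ _ => rfl, fun _ _ _ _ => rfl,
    fun _ _ _ _ => rfl, fun _ _ _ _ => rfl⟩
  fits := ⟨by norm_num [sevBinE4], by norm_num [sevBinE4], by norm_num [sevBinE4],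
    by norm_num [sevBinE4]⟩
  left := ⟨285, 16, 12, 3, 3, by decide +kernel⟩
  right := ⟨261, 15, 10, 3, 3, by decide +kernel⟩
  up := ⟨308, 17, 12, 3, 4, by decide +kernel⟩
  down := ⟨305, 17, 11, 4, 4, by decide +kernel⟩

/-- The windows of the bin F0. -/
theorem sevBinF0_ok : sevBinF0.Cert7 where
  flat := ⟨fun _ _ _ _ => rfl, fun _ _ _ _ => rfl, fun _ _ _ _ => rfl, fun _ _ _ _ => rfl,
    fun _ _ _ _ => rfl, fun _ _ _ _ => rfl⟩
  fits := ⟨by norm_num [sevBinF0], by norm_num [sevBinF0], by norm_num [sevBinF0],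
    by norm_num [sevBinF0]⟩
  left := ⟨324, 16, 12, 3, 3, by decide +kernel⟩
  right := ⟨298, 15, 10, 3, 3, by decide +kernel⟩
  up := ⟨349, 17, 12, 3, 4, by decide +kernel⟩
  down := ⟨349, 17, 11, 4, 4, by decide +kernel⟩

/-- The windows of the bin F1. -/
theorem sevBinF1_ok : sevBinF1.Cert7 where
  flat := ⟨fun _ _ _ _ => rfl, fun _ _ _ _ => rfl, fun _ _ _ _ => rfl, fun _ _ _ _ => rfl,
    fun _ _ _ _ => rfl, fun _ _ _ _ => rfl⟩
  fits := ⟨by norm_num [sevBinF1], by norm_num [sevBinF1], by norm_num [sevBinF1],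
    by norm_num [sevBinF1]⟩
  left := ⟨324, 16, 12, 3, 3, by decide +kernel⟩
  right := ⟨298, 15, 10, 3, 3, by decide +kernel⟩
  up := ⟨349, 17, 12, 3, 4, by decide +kernel⟩
  down := ⟨349, 17, 11, 4, 4, by decide +kernel⟩

/-- The windows of the bin F2. -/
theorem sevBinF2_ok : sevBinF2.Cert7 where
  flat := ⟨fun _ _ _ _ => rfl, fun _ _ _ _ => rfl, fun _ _ _ _ => rfl, fun _ _ _ _ => rfl,
    fun _ _ _ _ => rfl, fun _ _ _ _ => rfl⟩
  fits := ⟨by norm_num [sevBinF2], by norm_num [sevBinF2], by norm_num [sevBinF2],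
    by norm_num [sevBinF2]⟩
  left := ⟨327, 16, 12, 3, 3, by decide +kernel⟩
  right := ⟨301, 15, 10, 3, 3, by decide +kernel⟩
  up := ⟨352, 17, 12, 3, 4, by decide +kernel⟩
  down := ⟨353, 17, 11, 4, 4, by decide +kernel⟩

/-- The windows of the bin F3. -/
theorem sevBinF3_ok : sevBinF3.Cert7 where
  flat := ⟨fun _ _ _ _ => rfl, fun _ _ _ _ => rfl, fun _ _ _ _ => rfl, fun _ _ _ _ => rfl,
    fun _ _ _ _ => rfl, fun _ _ _ _ => rfl⟩
  fits := ⟨by norm_num [sevBinF3], by norm_num [sevBinF3], by norm_num [sevBinF3],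
    by norm_num [sevBinF3]⟩
  left := ⟨320, 16, 12, 3, 3, by decide +kernel⟩
  right := ⟨294, 15, 10, 3, 3, by decide +kernel⟩
  up := ⟨344, 17, 12, 3, 4, by decide +kernel⟩
  down := ⟨343, 17, 11, 4, 4, by decide +kernel⟩

/-- The windows of the bin F4. -/
theorem sevBinF4_ok : sevBinF4.Cert7 where
  flat := ⟨fun _ _ _ _ => rfl, fun _ _ _ _ => rfl, fun _ _ _ _ => rfl, fun _ _ _ _ => rfl,
    fun _ _ _ _ => rfl, fun _ _ _ _ => rfl⟩
  fits := ⟨by norm_num [sevBinF4], by norm_num [sevBinF4], by norm_num [sevBinF4],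
    by norm_num [sevBinF4]⟩
  left := ⟨317, 16, 12, 3, 3, by decide +kernel⟩
  right := ⟨291, 15, 10, 3, 3, by decide +kernel⟩
  up := ⟨341, 17, 12, 3, 4, by decide +kernel⟩
  down := ⟨339, 17, 11, 4, 4, by decide +kernel⟩

/-- The windows of the bin F5. -/
theorem sevBinF5_ok : sevBinF5.Cert7 where
  flat := ⟨fun _ _ _ _ => rfl, fun _ _ _ _ => rfl, fun _ _ _ _ => rfl, fun _ _ _ _ => rfl,
    fun _ _ _ _ => rfl, fun _ _ _ _ => rfl⟩
  fits := ⟨by norm_num [sevBinF5], by norm_num [sevBinF5], by norm_num [sevBinF5],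
    by norm_num [sevBinF5]⟩
  left := ⟨314, 16, 12, 3, 3, by decide +kernel⟩
  right := ⟨288, 15, 10, 3, 3, by decide +kernel⟩
  up := ⟨338, 17, 12, 3, 4, by decide +kernel⟩
  down := ⟨335, 17, 11, 4, 4, by decide +kernel⟩

/-- The windows of the bin F6. -/
theorem sevBinF6_ok : sevBinF6.Cert7 where
  flat := ⟨fun _ _ _ _ => rfl, fun _ _ _ _ => rfl, fun _ _ _ _ => rfl, fun _ _ _ _ => rfl,
    fun _ _ _ _ => rfl, fun _ _ _ _ => rfl⟩
  fits := ⟨by norm_num [sevBinF6], by norm_num [sevBinF6], by norm_num [sevBinF6],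
    by norm_num [sevBinF6]⟩
  left := ⟨314, 16, 12, 3, 3, by decide +kernel⟩
  right := ⟨287, 15, 10, 3, 3, by decide +kernel⟩
  up := ⟨338, 17, 12, 3, 4, by decide +kernel⟩
  down := ⟨335, 17, 11, 4, 4, by decide +kernel⟩

/-- The windows of the bin F7. -/
theorem sevBinF7_ok : sevBinF7.Cert7 where
  flat := ⟨fun _ _ _ _ => rfl, fun _ _ _ _ => rfl, fun _ _ _ _ => rfl, fun _ _ _ _ => rfl,
    fun _ _ _ _ => rfl, fun _ _ _ _ => rfl⟩
  fits := ⟨by norm_num [sevBinF7], by norm_num [sevBinF7], by norm_num [sevBinF7],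
    by norm_num [sevBinF7]⟩
  left := ⟨311, 16, 12, 3, 3, by decide +kernel⟩
  right := ⟨284, 15, 10, 3, 3, by decide +kernel⟩
  up := ⟨335, 17, 12, 3, 4, by decide +kernel⟩
  down := ⟨331, 17, 11, 4, 4, by decide +kernel⟩

/-- The windows of the bin F8. -/
theorem sevBinF8_ok : sevBinF8.Cert7 where
  flat := ⟨fun _ _ _ _ => rfl, fun _ _ _ _ => rfl, fun _ _ _ _ => rfl, fun _ _ _ _ => rfl,
    fun _ _ _ _ => rfl, fun _ _ _ _ => rfl⟩
  fits := ⟨by norm_num [sevBinF8], by norm_num [sevBinF8], by norm_num [sevBinF8],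
    by norm_num [sevBinF8]⟩
  left := ⟨311, 16, 12, 3, 3, by decide +kernel⟩
  right := ⟨284, 15, 10, 3, 3, by decide +kernel⟩
  up := ⟨335, 17, 12, 3, 4, by decide +kernel⟩
  down := ⟨331, 17, 11, 4, 4, by decide +kernel⟩

/-- The windows of the bin F9. -/
theorem sevBinF9_ok : sevBinF9.Cert7 where
  flat := ⟨fun _ _ _ _ => rfl, fun _ _ _ _ => rfl, fun _ _ _ _ => rfl, fun _ _ _ _ => rfl,
    fun _ _ _ _ => rfl, fun _ _ _ _ => rfl⟩
  fits := ⟨by norm_num [sevBinF9], by norm_num [sevBinF9], by norm_num [sevBinF9],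
    by norm_num [sevBinF9]⟩
  left := ⟨314, 16, 12, 3, 3, by decide +kernel⟩
  right := ⟨288, 15, 10, 3, 3, by decide +kernel⟩
  up := ⟨338, 17, 12, 3, 4, by decide +kernel⟩
  down := ⟨335, 17, 11, 4, 4, by decide +kernel⟩

/-- The windows of the bin F10. -/
theorem sevBinF10_ok : sevBinF10.Cert7 where
  flat := ⟨fun _ _ _ _ => rfl, fun _ _ _ _ => rfl, fun _ _ _ _ => rfl, fun _ _ _ _ => rfl,
    fun _ _ _ _ => rfl, fun _ _ _ _ => rfl⟩
  fits := ⟨by norm_num [sevBinF10], by norm_num [sevBinF10], by norm_num [sevBinF10],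
    by norm_num [sevBinF10]⟩
  left := ⟨308, 16, 12, 3, 3, by decide +kernel⟩
  right := ⟨280, 15, 10, 3, 3, by decide +kernel⟩
  up := ⟨331, 17, 12, 3, 4, by decide +kernel⟩
  down := ⟨325, 17, 11, 4, 4, by decide +kernel⟩

/-- The windows of the bin G0. -/
theorem sevBinG0_ok : sevBinG0.Cert7 where
  flat := ⟨fun _ _ _ _ => rfl, fun _ _ _ _ => rfl, fun _ _ _ _ => rfl, fun _ _ _ _ => rfl,
    fun _ _ _ _ => rfl, fun _ _ _ _ => rfl⟩
  fits := ⟨by norm_num [sevBinG0], by norm_num [sevBinG0], by norm_num [sevBinG0],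
    by norm_num [sevBinG0]⟩
  left := ⟨303, 16, 12, 3, 3, by decide +kernel⟩
  right := ⟨278, 15, 10, 3, 3, by decide +kernel⟩
  up := ⟨327, 17, 12, 3, 4, by decide +kernel⟩
  down := ⟨325, 17, 11, 4, 4, by decide +kernel⟩

/-- The windows of the bin G1. -/
theorem sevBinG1_ok : sevBinG1.Cert7 where
  flat := ⟨fun _ _ _ _ => rfl, fun _ _ _ _ => rfl, fun _ _ _ _ => rfl, fun _ _ _ _ => rfl,
    fun _ _ _ _ => rfl, fun _ _ _ _ => rfl⟩
  fits := ⟨by norm_num [sevBinG1], by norm_num [sevBinG1], by norm_num [sevBinG1],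
    by norm_num [sevBinG1]⟩
  left := ⟨303, 16, 12, 3, 3, by decide +kernel⟩
  right := ⟨278, 15, 10, 3, 3, by decide +kernel⟩
  up := ⟨327, 17, 12, 3, 4, by decide +kernel⟩
  down := ⟨325, 17, 11, 4, 4, by decide +kernel⟩

/-- The windows of the bin G2. -/
theorem sevBinG2_ok : sevBinG2.Cert7 where
  flat := ⟨fun _ _ _ _ => rfl, fun _ _ _ _ => rfl, fun _ _ _ _ => rfl, fun _ _ _ _ => rfl,
    fun _ _ _ _ => rfl, fun _ _ _ _ => rfl⟩
  fits := ⟨by norm_num [sevBinG2], by norm_num [sevBinG2], by norm_num [sevBinG2],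
    by norm_num [sevBinG2]⟩
  left := ⟨300, 16, 12, 3, 3, by decide +kernel⟩
  right := ⟨275, 15, 10, 3, 3, by decide +kernel⟩
  up := ⟨324, 17, 12, 3, 4, by decide +kernel⟩
  down := ⟨321, 17, 11, 4, 4, by decide +kernel⟩

/-- The windows of the bin G3. -/
theorem sevBinG3_ok : sevBinG3.Cert7 where
  flat := ⟨fun _ _ _ _ => rfl, fun _ _ _ _ => rfl, fun _ _ _ _ => rfl, fun _ _ _ _ => rfl,
    fun _ _ _ _ => rfl, fun _ _ _ _ => rfl⟩
  fits := ⟨by norm_num [sevBinG3], by norm_num [sevBinG3], by norm_num [sevBinG3],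
    by norm_num [sevBinG3]⟩
  left := ⟨294, 16, 12, 3, 3, by decide +kernel⟩
  right := ⟨269, 15, 10, 3, 3, by decide +kernel⟩
  up := ⟨317, 17, 12, 3, 4, by decide +kernel⟩
  down := ⟨313, 17, 11, 4, 4, by decide +kernel⟩

/-- The windows of the bin G4. -/
theorem sevBinG4_ok : sevBinG4.Cert7 where
  flat := ⟨fun _ _ _ _ => rfl, fun _ _ _ _ => rfl, fun _ _ _ _ => rfl, fun _ _ _ _ => rfl,
    fun _ _ _ _ => rfl, fun _ _ _ _ => rfl⟩
  fits := ⟨by norm_num [sevBinG4], by norm_num [sevBinG4], by norm_num [sevBinG4],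
    by norm_num [sevBinG4]⟩
  left := ⟨295, 16, 12, 3, 3, by decide +kernel⟩
  right := ⟨269, 15, 10, 3, 3, by decide +kernel⟩
  up := ⟨317, 17, 12, 3, 4, by decide +kernel⟩
  down := ⟨313, 17, 11, 4, 4, by decide +kernel⟩

/-- The windows of the bin G5. -/
theorem sevBinG5_ok : sevBinG5.Cert7 where
  flat := ⟨fun _ _ _ _ => rfl, fun _ _ _ _ => rfl, fun _ _ _ _ => rfl, fun _ _ _ _ => rfl,
    fun _ _ _ _ => rfl, fun _ _ _ _ => rfl⟩
  fits := ⟨by norm_num [sevBinG5], by norm_num [sevBinG5], by norm_num [sevBinG5],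
    by norm_num [sevBinG5]⟩
  left := ⟨295, 16, 12, 3, 3, by decide +kernel⟩
  right := ⟨268, 15, 10, 3, 3, by decide +kernel⟩
  up := ⟨317, 17, 12, 3, 4, by decide +kernel⟩
  down := ⟨313, 17, 11, 4, 4, by decide +kernel⟩

/-- The windows of the bin G6. -/
theorem sevBinG6_ok : sevBinG6.Cert7 where
  flat := ⟨fun _ _ _ _ => rfl, fun _ _ _ _ => rfl, fun _ _ _ _ => rfl, fun _ _ _ _ => rfl,
    fun _ _ _ _ => rfl, fun _ _ _ _ => rfl⟩
  fits := ⟨by norm_num [sevBinG6], by norm_num [sevBinG6], by norm_num [sevBinG6],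
    by norm_num [sevBinG6]⟩
  left := ⟨298, 16, 12, 3, 3, by decide +kernel⟩
  right := ⟨272, 15, 10, 3, 3, by decide +kernel⟩
  up := ⟨320, 17, 12, 3, 4, by decide +kernel⟩
  down := ⟨317, 17, 11, 4, 4, by decide +kernel⟩

/-- The windows of the bin G7. -/
theorem sevBinG7_ok : sevBinG7.Cert7 where
  flat := ⟨fun _ _ _ _ => rfl, fun _ _ _ _ => rfl, fun _ _ _ _ => rfl, fun _ _ _ _ => rfl,
    fun _ _ _ _ => rfl, fun _ _ _ _ => rfl⟩
  fits := ⟨by norm_num [sevBinG7], by norm_num [sevBinG7], by norm_num [sevBinG7],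
    by norm_num [sevBinG7]⟩
  left := ⟨298, 16, 12, 3, 3, by decide +kernel⟩
  right := ⟨271, 15, 10, 3, 3, by decide +kernel⟩
  up := ⟨320, 17, 12, 3, 4, by decide +kernel⟩
  down := ⟨317, 17, 11, 4, 4, by decide +kernel⟩

/-- The windows of the bin H0. -/
theorem sevBinH0_ok : sevBinH0.Cert7 where
  flat := ⟨fun _ _ _ _ => rfl, fun _ _ _ _ => rfl, fun _ _ _ _ => rfl, fun _ _ _ _ => rfl,
    fun _ _ _ _ => rfl, fun _ _ _ _ => rfl⟩
  fits := ⟨by norm_num [sevBinH0], by norm_num [sevBinH0], by norm_num [sevBinH0],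
    by norm_num [sevBinH0]⟩
  left := ⟨222, 13, 12, 3, 3, by decide +kernel⟩
  right := ⟨205, 12, 10, 3, 3, by decide +kernel⟩
  up := ⟨237, 13, 12, 3, 4, by decide +kernel⟩
  down := ⟨239, 13, 11, 4, 4, by decide +kernel⟩

/-- The windows of the bin H1. -/
theorem sevBinH1_ok : sevBinH1.Cert7 where
  flat := ⟨fun _ _ _ _ => rfl, fun _ _ _ _ => rfl, fun _ _ _ _ => rfl, fun _ _ _ _ => rfl,
    fun _ _ _ _ => rfl, fun _ _ _ _ => rfl⟩
  fits := ⟨by norm_num [sevBinH1], by norm_num [sevBinH1], by norm_num [sevBinH1],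
    by norm_num [sevBinH1]⟩
  left := ⟨225, 13, 12, 3, 3, by decide +kernel⟩
  right := ⟨208, 12, 10, 3, 3, by decide +kernel⟩
  up := ⟨240, 13, 12, 3, 4, by decide +kernel⟩
  down := ⟨243, 13, 11, 4, 4, by decide +kernel⟩

/-- The windows of the bin H2. -/
theorem sevBinH2_ok : sevBinH2.Cert7 where
  flat := ⟨fun _ _ _ _ => rfl, fun _ _ _ _ => rfl, fun _ _ _ _ => rfl, fun _ _ _ _ => rfl,
    fun _ _ _ _ => rfl, fun _ _ _ _ => rfl⟩
  fits := ⟨by norm_num [sevBinH2], by norm_num [sevBinH2], by norm_num [sevBinH2],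
    by norm_num [sevBinH2]⟩
  left := ⟨225, 13, 12, 3, 3, by decide +kernel⟩
  right := ⟨208, 12, 10, 3, 3, by decide +kernel⟩
  up := ⟨240, 13, 12, 3, 4, by decide +kernel⟩
  down := ⟨243, 13, 11, 4, 4, by decide +kernel⟩

/-- The windows of the bin H3. -/
theorem sevBinH3_ok : sevBinH3.Cert7 where
  flat := ⟨fun _ _ _ _ => rfl, fun _ _ _ _ => rfl, fun _ _ _ _ => rfl, fun _ _ _ _ => rfl,
    fun _ _ _ _ => rfl, fun _ _ _ _ => rfl⟩
  fits := ⟨by norm_num [sevBinH3], by norm_num [sevBinH3], by norm_num [sevBinH3],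
    by norm_num [sevBinH3]⟩
  left := ⟨219, 13, 12, 3, 3, by decide +kernel⟩
  right := ⟨202, 12, 10, 3, 3, by decide +kernel⟩
  up := ⟨234, 13, 12, 3, 4, by decide +kernel⟩
  down := ⟨235, 13, 11, 4, 4, by decide +kernel⟩

/-- The windows of the bin H4. -/
theorem sevBinH4_ok : sevBinH4.Cert7 where
  flat := ⟨fun _ _ _ _ => rfl, fun _ _ _ _ => rfl, fun _ _ _ _ => rfl, fun _ _ _ _ => rfl,
    fun _ _ _ _ => rfl, fun _ _ _ _ => rfl⟩
  fits := ⟨by norm_num [sevBinH4], by norm_num [sevBinH4], by norm_num [sevBinH4],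
    by norm_num [sevBinH4]⟩
  left := ⟨216, 13, 12, 3, 3, by decide +kernel⟩
  right := ⟨199, 12, 10, 3, 3, by decide +kernel⟩
  up := ⟨231, 13, 12, 3, 4, by decide +kernel⟩
  down := ⟨231, 13, 11, 4, 4, by decide +kernel⟩

/-- The windows of the bin H5. -/
theorem sevBinH5_ok : sevBinH5.Cert7 where
  flat := ⟨fun _ _ _ _ => rfl, fun _ _ _ _ => rfl, fun _ _ _ _ => rfl, fun _ _ _ _ => rfl,
    fun _ _ _ _ => rfl, fun _ _ _ _ => rfl⟩
  fits := ⟨by norm_num [sevBinH5], by norm_num [sevBinH5], by norm_num [sevBinH5],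
    by norm_num [sevBinH5]⟩
  left := ⟨216, 13, 12, 3, 3, by decide +kernel⟩
  right := ⟨199, 12, 10, 3, 3, by decide +kernel⟩
  up := ⟨231, 13, 12, 3, 4, by decide +kernel⟩
  down := ⟨231, 13, 11, 4, 4, by decide +kernel⟩

/-- The windows of the bin H6. -/
theorem sevBinH6_ok : sevBinH6.Cert7 where
  flat := ⟨fun _ _ _ _ => rfl, fun _ _ _ _ => rfl, fun _ _ _ _ => rfl, fun _ _ _ _ => rfl,
    fun _ _ _ _ => rfl, fun _ _ _ _ => rfl⟩
  fits := ⟨by norm_num [sevBinH6], by norm_num [sevBinH6], by norm_num [sevBinH6],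
    by norm_num [sevBinH6]⟩
  left := ⟨219, 13, 12, 3, 3, by decide +kernel⟩
  right := ⟨202, 12, 10, 3, 3, by decide +kernel⟩
  up := ⟨234, 13, 12, 3, 4, by decide +kernel⟩
  down := ⟨235, 13, 11, 4, 4, by decide +kernel⟩

/-- The windows of the bin H7. -/
theorem sevBinH7_ok : sevBinH7.Cert7 where
  flat := ⟨fun _ _ _ _ => rfl, fun _ _ _ _ => rfl, fun _ _ _ _ => rfl, fun _ _ _ _ => rfl,
    fun _ _ _ _ => rfl, fun _ _ _ _ => rfl⟩
  fits := ⟨by norm_num [sevBinH7], by norm_num [sevBinH7], by norm_num [sevBinH7],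
    by norm_num [sevBinH7]⟩
  left := ⟨219, 13, 12, 3, 3, by decide +kernel⟩
  right := ⟨202, 12, 10, 3, 3, by decide +kernel⟩
  up := ⟨234, 13, 12, 3, 4, by decide +kernel⟩
  down := ⟨235, 13, 11, 4, 4, by decide +kernel⟩

/-- The windows of the bin J0. -/
theorem sevBinJ0_ok : sevBinJ0.Cert7 where
  flat := ⟨fun _ _ _ _ => rfl, fun _ _ _ _ => rfl, fun _ _ _ _ => rfl, fun _ _ _ _ => rfl,
    fun _ _ _ _ => rfl, fun _ _ _ _ => rfl⟩
  fits := ⟨by norm_num [sevBinJ0], by norm_num [sevBinJ0], by norm_num [sevBinJ0],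
    by norm_num [sevBinJ0]⟩
  left := ⟨257, 13, 12, 3, 3, by decide +kernel⟩
  right := ⟨236, 12, 10, 3, 3, by decide +kernel⟩
  up := ⟨273, 13, 12, 3, 4, by decide +kernel⟩
  down := ⟨275, 13, 11, 4, 4, by decide +kernel⟩

/-- The windows of the bin J1. -/
theorem sevBinJ1_ok : sevBinJ1.Cert7 where
  flat := ⟨fun _ _ _ _ => rfl, fun _ _ _ _ => rfl, fun _ _ _ _ => rfl, fun _ _ _ _ => rfl,
    fun _ _ _ _ => rfl, fun _ _ _ _ => rfl⟩
  fits := ⟨by norm_num [sevBinJ1], by norm_num [sevBinJ1], by norm_num [sevBinJ1],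
    by norm_num [sevBinJ1]⟩
  left := ⟨257, 13, 12, 3, 3, by decide +kernel⟩
  right := ⟨236, 12, 10, 3, 3, by decide +kernel⟩
  up := ⟨273, 13, 12, 3, 4, by decide +kernel⟩
  down := ⟨275, 13, 11, 4, 4, by decide +kernel⟩

/-- The windows of the bin J2. -/
theorem sevBinJ2_ok : sevBinJ2.Cert7 where
  flat := ⟨fun _ _ _ _ => rfl, fun _ _ _ _ => rfl, fun _ _ _ _ => rfl, fun _ _ _ _ => rfl,
    fun _ _ _ _ => rfl, fun _ _ _ _ => rfl⟩
  fits := ⟨by norm_num [sevBinJ2], by norm_num [sevBinJ2], by norm_num [sevBinJ2],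
    by norm_num [sevBinJ2]⟩
  left := ⟨250, 13, 12, 3, 3, by decide +kernel⟩
  right := ⟨229, 12, 10, 3, 3, by decide +kernel⟩
  up := ⟨266, 13, 12, 3, 4, by decide +kernel⟩
  down := ⟨265, 13, 11, 4, 4, by decide +kernel⟩

/-- The windows of the bin J3. -/
theorem sevBinJ3_ok : sevBinJ3.Cert7 where
  flat := ⟨fun _ _ _ _ => rfl, fun _ _ _ _ => rfl, fun _ _ _ _ => rfl, fun _ _ _ _ => rfl,
    fun _ _ _ _ => rfl, fun _ _ _ _ => rfl⟩
  fits := ⟨by norm_num [sevBinJ3], by norm_num [sevBinJ3], by norm_num [sevBinJ3],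
    by norm_num [sevBinJ3]⟩
  left := ⟨247, 13, 12, 3, 3, by decide +kernel⟩
  right := ⟨226, 12, 10, 3, 3, by decide +kernel⟩
  up := ⟨262, 13, 12, 3, 4, by decide +kernel⟩
  down := ⟨261, 13, 11, 4, 4, by decide +kernel⟩

/-- The windows of the bin J4. -/
theorem sevBinJ4_ok : sevBinJ4.Cert7 where
  flat := ⟨fun _ _ _ _ => rfl, fun _ _ _ _ => rfl, fun _ _ _ _ => rfl, fun _ _ _ _ => rfl,
    fun _ _ _ _ => rfl, fun _ _ _ _ => rfl⟩
  fits := ⟨by norm_num [sevBinJ4], by norm_num [sevBinJ4], by norm_num [sevBinJ4],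
    by norm_num [sevBinJ4]⟩
  left := ⟨247, 13, 12, 3, 3, by decide +kernel⟩
  right := ⟨226, 12, 10, 3, 3, by decide +kernel⟩
  up := ⟨262, 13, 12, 3, 4, by decide +kernel⟩
  down := ⟨261, 13, 11, 4, 4, by decide +kernel⟩

/-- The windows of the bin J5. -/
theorem sevBinJ5_ok : sevBinJ5.Cert7 where
  flat := ⟨fun _ _ _ _ => rfl, fun _ _ _ _ => rfl, fun _ _ _ _ => rfl, fun _ _ _ _ => rfl,
    fun _ _ _ _ => rfl, fun _ _ _ _ => rfl⟩
  fits := ⟨by norm_num [sevBinJ5], by norm_num [sevBinJ5], by norm_num [sevBinJ5],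
    by norm_num [sevBinJ5]⟩
  left := ⟨267, 13, 12, 3, 3, by decide +kernel⟩
  right := ⟨245, 12, 10, 3, 3, by decide +kernel⟩
  up := ⟨286, 13, 12, 3, 4, by decide +kernel⟩
  down := ⟨284, 13, 11, 4, 4, by decide +kernel⟩

/-- The windows of the bin J6. -/
theorem sevBinJ6_ok : sevBinJ6.Cert7 where
  flat := ⟨fun _ _ _ _ => rfl, fun _ _ _ _ => rfl, fun _ _ _ _ => rfl, fun _ _ _ _ => rfl,
    fun _ _ _ _ => rfl, fun _ _ _ _ => rfl⟩
  fits := ⟨by norm_num [sevBinJ6], by norm_num [sevBinJ6], by norm_num [sevBinJ6],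
    by norm_num [sevBinJ6]⟩
  left := ⟨270, 13, 12, 3, 3, by decide +kernel⟩
  right := ⟨248, 12, 10, 3, 3, by decide +kernel⟩
  up := ⟨289, 13, 12, 3, 4, by decide +kernel⟩
  down := ⟨288, 13, 11, 4, 4, by decide +kernel⟩

/-- The windows of the bin J7. -/
theorem sevBinJ7_ok : sevBinJ7.Cert7 where
  flat := ⟨fun _ _ _ _ => rfl, fun _ _ _ _ => rfl, fun _ _ _ _ => rfl, fun _ _ _ _ => rfl,
    fun _ _ _ _ => rfl, fun _ _ _ _ => rfl⟩
  fits := ⟨by norm_num [sevBinJ7], by norm_num [sevBinJ7], by norm_num [sevBinJ7],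
    by norm_num [sevBinJ7]⟩
  left := ⟨271, 13, 12, 3, 3, by decide +kernel⟩
  right := ⟨248, 12, 10, 3, 3, by decide +kernel⟩
  up := ⟨289, 13, 12, 3, 4, by decide +kernel⟩
  down := ⟨288, 13, 11, 4, 4, by decide +kernel⟩

/-- The windows of the bin K0. -/
theorem sevBinK0_ok : sevBinK0.Cert7 where
  flat := ⟨fun _ _ _ _ => rfl, fun _ _ _ _ => rfl, fun _ _ _ _ => rfl, fun _ _ _ _ => rfl,
    fun _ _ _ _ => rfl, fun _ _ _ _ => rfl⟩
  fits := ⟨by norm_num [sevBinK0], by norm_num [sevBinK0], by norm_num [sevBinK0],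
    by norm_num [sevBinK0]⟩
  left := ⟨320, 16, 12, 3, 3, by decide +kernel⟩
  right := ⟨295, 15, 10, 3, 3, by decide +kernel⟩
  up := ⟨345, 17, 12, 3, 4, by decide +kernel⟩
  down := ⟨344, 17, 11, 4, 4, by decide +kernel⟩

/-- The windows of the bin K1. -/
theorem sevBinK1_ok : sevBinK1.Cert7 where
  flat := ⟨fun _ _ _ _ => rfl, fun _ _ _ _ => rfl, fun _ _ _ _ => rfl, fun _ _ _ _ => rfl,
    fun _ _ _ _ => rfl, fun _ _ _ _ => rfl⟩
  fits := ⟨by norm_num [sevBinK1], by norm_num [sevBinK1], by norm_num [sevBinK1],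
    by norm_num [sevBinK1]⟩
  left := ⟨320, 16, 12, 3, 3, by decide +kernel⟩
  right := ⟨294, 15, 10, 3, 3, by decide +kernel⟩
  up := ⟨345, 17, 12, 3, 4, by decide +kernel⟩
  down := ⟨343, 17, 11, 4, 4, by decide +kernel⟩

/-- The windows of the bin K2. -/
theorem sevBinK2_ok : sevBinK2.Cert7 where
  flat := ⟨fun _ _ _ _ => rfl, fun _ _ _ _ => rfl, fun _ _ _ _ => rfl, fun _ _ _ _ => rfl,
    fun _ _ _ _ => rfl, fun _ _ _ _ => rfl⟩
  fits := ⟨by norm_num [sevBinK2], by norm_num [sevBinK2], by norm_num [sevBinK2],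
    by norm_num [sevBinK2]⟩
  left := ⟨317, 16, 12, 3, 3, by decide +kernel⟩
  right := ⟨291, 15, 10, 3, 3, by decide +kernel⟩
  up := ⟨341, 17, 12, 3, 4, by decide +kernel⟩
  down := ⟨339, 17, 11, 4, 4, by decide +kernel⟩

/-- The windows of the bin K3. -/
theorem sevBinK3_ok : sevBinK3.Cert7 where
  flat := ⟨fun _ _ _ _ => rfl, fun _ _ _ _ => rfl, fun _ _ _ _ => rfl, fun _ _ _ _ => rfl,
    fun _ _ _ _ => rfl, fun _ _ _ _ => rfl⟩
  fits := ⟨by norm_num [sevBinK3], by norm_num [sevBinK3], by norm_num [sevBinK3],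
    by norm_num [sevBinK3]⟩
  left := ⟨312, 16, 12, 3, 3, by decide +kernel⟩
  right := ⟨285, 15, 10, 3, 3, by decide +kernel⟩
  up := ⟨336, 17, 12, 3, 4, by decide +kernel⟩
  down := ⟨331, 17, 11, 4, 4, by decide +kernel⟩

/-- The windows of the bin K4. -/
theorem sevBinK4_ok : sevBinK4.Cert7 where
  flat := ⟨fun _ _ _ _ => rfl, fun _ _ _ _ => rfl, fun _ _ _ _ => rfl, fun _ _ _ _ => rfl,
    fun _ _ _ _ => rfl, fun _ _ _ _ => rfl⟩
  fits := ⟨by norm_num [sevBinK4], by norm_num [sevBinK4], by norm_num [sevBinK4],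
    by norm_num [sevBinK4]⟩
  left := ⟨312, 16, 12, 3, 3, by decide +kernel⟩
  right := ⟨285, 15, 10, 3, 3, by decide +kernel⟩
  up := ⟨335, 17, 12, 3, 4, by decide +kernel⟩
  down := ⟨331, 17, 11, 4, 4, by decide +kernel⟩

/-- The windows of the bin K5. -/
theorem sevBinK5_ok : sevBinK5.Cert7 where
  flat := ⟨fun _ _ _ _ => rfl, fun _ _ _ _ => rfl, fun _ _ _ _ => rfl, fun _ _ _ _ => rfl,
    fun _ _ _ _ => rfl, fun _ _ _ _ => rfl⟩
  fits := ⟨by norm_num [sevBinK5], by norm_num [sevBinK5], by norm_num [sevBinK5],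
    by norm_num [sevBinK5]⟩
  left := ⟨312, 16, 12, 3, 3, by decide +kernel⟩
  right := ⟨285, 15, 10, 3, 3, by decide +kernel⟩
  up := ⟨335, 17, 12, 3, 4, by decide +kernel⟩
  down := ⟨331, 17, 11, 4, 4, by decide +kernel⟩

/-- The windows of the bin L0. -/
theorem sevBinL0_ok : sevBinL0.Cert7 where
  flat := ⟨fun _ _ _ _ => rfl, fun _ _ _ _ => rfl, fun _ _ _ _ => rfl, fun _ _ _ _ => rfl,
    fun _ _ _ _ => rfl, fun _ _ _ _ => rfl⟩
  fits := ⟨by norm_num [sevBinL0], by norm_num [sevBinL0], by norm_num [sevBinL0],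
    by norm_num [sevBinL0]⟩
  left := ⟨228, 13, 12, 3, 3, by decide +kernel⟩
  right := ⟨208, 12, 10, 3, 3, by decide +kernel⟩
  up := ⟨243, 13, 12, 3, 4, by decide +kernel⟩
  down := ⟨243, 13, 11, 4, 4, by decide +kernel⟩

/-- The windows of the bin L1. -/
theorem sevBinL1_ok : sevBinL1.Cert7 where
  flat := ⟨fun _ _ _ _ => rfl, fun _ _ _ _ => rfl, fun _ _ _ _ => rfl, fun _ _ _ _ => rfl,
    fun _ _ _ _ => rfl, fun _ _ _ _ => rfl⟩
  fits := ⟨by norm_num [sevBinL1], by norm_num [sevBinL1], by norm_num [sevBinL1],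
    by norm_num [sevBinL1]⟩
  left := ⟨228, 13, 12, 3, 3, by decide +kernel⟩
  right := ⟨207, 12, 10, 3, 3, by decide +kernel⟩
  up := ⟨243, 13, 12, 3, 4, by decide +kernel⟩
  down := ⟨242, 13, 11, 4, 4, by decide +kernel⟩

/-- The windows of the bin L2. -/
theorem sevBinL2_ok : sevBinL2.Cert7 where
  flat := ⟨fun _ _ _ _ => rfl, fun _ _ _ _ => rfl, fun _ _ _ _ => rfl, fun _ _ _ _ => rfl,
    fun _ _ _ _ => rfl, fun _ _ _ _ => rfl⟩
  fits := ⟨by norm_num [sevBinL2], by norm_num [sevBinL2], by norm_num [sevBinL2],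
    by norm_num [sevBinL2]⟩
  left := ⟨228, 13, 12, 3, 3, by decide +kernel⟩
  right := ⟨207, 12, 10, 3, 3, by decide +kernel⟩
  up := ⟨243, 13, 12, 3, 4, by decide +kernel⟩
  down := ⟨242, 13, 11, 4, 4, by decide +kernel⟩

/-- The windows of the bin L3. -/
theorem sevBinL3_ok : sevBinL3.Cert7 where
  flat := ⟨fun _ _ _ _ => rfl, fun _ _ _ _ => rfl, fun _ _ _ _ => rfl, fun _ _ _ _ => rfl,
    fun _ _ _ _ => rfl, fun _ _ _ _ => rfl⟩
  fits := ⟨by norm_num [sevBinL3], by norm_num [sevBinL3], by norm_num [sevBinL3],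
    by norm_num [sevBinL3]⟩
  left := ⟨225, 13, 12, 3, 3, by decide +kernel⟩
  right := ⟨204, 12, 10, 3, 3, by decide +kernel⟩
  up := ⟨240, 13, 12, 3, 4, by decide +kernel⟩
  down := ⟨238, 13, 11, 4, 4, by decide +kernel⟩

/-- The windows of the bin L4. -/
theorem sevBinL4_ok : sevBinL4.Cert7 where
  flat := ⟨fun _ _ _ _ => rfl, fun _ _ _ _ => rfl, fun _ _ _ _ => rfl, fun _ _ _ _ => rfl,
    fun _ _ _ _ => rfl, fun _ _ _ _ => rfl⟩
  fits := ⟨by norm_num [sevBinL4], by norm_num [sevBinL4], by norm_num [sevBinL4],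
    by norm_num [sevBinL4]⟩
  left := ⟨222, 13, 12, 3, 3, by decide +kernel⟩
  right := ⟨201, 12, 10, 3, 3, by decide +kernel⟩
  up := ⟨237, 13, 12, 3, 4, by decide +kernel⟩
  down := ⟨234, 13, 11, 4, 4, by decide +kernel⟩

/-- The windows of the bin L5. -/
theorem sevBinL5_ok : sevBinL5.Cert7 where
  flat := ⟨fun _ _ _ _ => rfl, fun _ _ _ _ => rfl, fun _ _ _ _ => rfl, fun _ _ _ _ => rfl,
    fun _ _ _ _ => rfl, fun _ _ _ _ => rfl⟩
  fits := ⟨by norm_num [sevBinL5], by norm_num [sevBinL5], by norm_num [sevBinL5],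
    by norm_num [sevBinL5]⟩
  left := ⟨222, 13, 12, 3, 3, by decide +kernel⟩
  right := ⟨201, 12, 10, 3, 3, by decide +kernel⟩
  up := ⟨237, 13, 12, 3, 4, by decide +kernel⟩
  down := ⟨234, 13, 11, 4, 4, by decide +kernel⟩

/-- The windows of the bin L6. -/
theorem sevBinL6_ok : sevBinL6.Cert7 where
  flat := ⟨fun _ _ _ _ => rfl, fun _ _ _ _ => rfl, fun _ _ _ _ => rfl, fun _ _ _ _ => rfl,
    fun _ _ _ _ => rfl, fun _ _ _ _ => rfl⟩
  fits := ⟨by norm_num [sevBinL6], by norm_num [sevBinL6], by norm_num [sevBinL6],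
    by norm_num [sevBinL6]⟩
  left := ⟨225, 13, 12, 3, 3, by decide +kernel⟩
  right := ⟨204, 12, 10, 3, 3, by decide +kernel⟩
  up := ⟨240, 13, 12, 3, 4, by decide +kernel⟩
  down := ⟨238, 13, 11, 4, 4, by decide +kernel⟩

/-- The windows of the bin L7. -/
theorem sevBinL7_ok : sevBinL7.Cert7 where
  flat := ⟨fun _ _ _ _ => rfl, fun _ _ _ _ => rfl, fun _ _ _ _ => rfl, fun _ _ _ _ => rfl,
    fun _ _ _ _ => rfl, fun _ _ _ _ => rfl⟩
  fits := ⟨by norm_num [sevBinL7], by norm_num [sevBinL7], by norm_num [sevBinL7],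
    by norm_num [sevBinL7]⟩
  left := ⟨225, 13, 12, 3, 3, by decide +kernel⟩
  right := ⟨204, 12, 10, 3, 3, by decide +kernel⟩
  up := ⟨240, 13, 12, 3, 4, by decide +kernel⟩
  down := ⟨238, 13, 11, 4, 4, by decide +kernel⟩

/-- The windows of the bin M0. -/
theorem sevBinM0_ok : sevBinM0.Cert7 where
  flat := ⟨fun _ _ _ _ => rfl, fun _ _ _ _ => rfl, fun _ _ _ _ => rfl, fun _ _ _ _ => rfl,
    fun _ _ _ _ => rfl, fun _ _ _ _ => rfl⟩
  fits := ⟨by norm_num [sevBinM0], by norm_num [sevBinM0], by norm_num [sevBinM0],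
    by norm_num [sevBinM0]⟩
  left := ⟨240, 13, 12, 3, 3, by decide +kernel⟩
  right := ⟨220, 12, 10, 3, 3, by decide +kernel⟩
  up := ⟨256, 13, 12, 3, 4, by decide +kernel⟩
  down := ⟨257, 13, 11, 4, 4, by decide +kernel⟩

/-- The windows of the bin M1. -/
theorem sevBinM1_ok : sevBinM1.Cert7 where
  flat := ⟨fun _ _ _ _ => rfl, fun _ _ _ _ => rfl, fun _ _ _ _ => rfl, fun _ _ _ _ => rfl,
    fun _ _ _ _ => rfl, fun _ _ _ _ => rfl⟩
  fits := ⟨by norm_num [sevBinM1], by norm_num [sevBinM1], by norm_num [sevBinM1],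
    by norm_num [sevBinM1]⟩
  left := ⟨240, 13, 12, 3, 3, by decide +kernel⟩
  right := ⟨220, 12, 10, 3, 3, by decide +kernel⟩
  up := ⟨255, 13, 12, 3, 4, by decide +kernel⟩
  down := ⟨256, 13, 11, 4, 4, by decide +kernel⟩

/-- The windows of the bin M2. -/
theorem sevBinM2_ok : sevBinM2.Cert7 where
  flat := ⟨fun _ _ _ _ => rfl, fun _ _ _ _ => rfl, fun _ _ _ _ => rfl, fun _ _ _ _ => rfl,
    fun _ _ _ _ => rfl, fun _ _ _ _ => rfl⟩
  fits := ⟨by norm_num [sevBinM2], by norm_num [sevBinM2], by norm_num [sevBinM2],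
    by norm_num [sevBinM2]⟩
  left := ⟨240, 13, 12, 3, 3, by decide +kernel⟩
  right := ⟨220, 12, 10, 3, 3, by decide +kernel⟩
  up := ⟨255, 13, 12, 3, 4, by decide +kernel⟩
  down := ⟨256, 13, 11, 4, 4, by decide +kernel⟩

/-- The windows of the bin M3. -/
theorem sevBinM3_ok : sevBinM3.Cert7 where
  flat := ⟨fun _ _ _ _ => rfl, fun _ _ _ _ => rfl, fun _ _ _ _ => rfl, fun _ _ _ _ => rfl,
    fun _ _ _ _ => rfl, fun _ _ _ _ => rfl⟩
  fits := ⟨by norm_num [sevBinM3], by norm_num [sevBinM3], by norm_num [sevBinM3],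
    by norm_num [sevBinM3]⟩
  left := ⟨234, 13, 12, 3, 3, by decide +kernel⟩
  right := ⟨214, 12, 10, 3, 3, by decide +kernel⟩
  up := ⟨249, 13, 12, 3, 4, by decide +kernel⟩
  down := ⟨248, 13, 11, 4, 4, by decide +kernel⟩

/-- The windows of the bin M4. -/
theorem sevBinM4_ok : sevBinM4.Cert7 where
  flat := ⟨fun _ _ _ _ => rfl, fun _ _ _ _ => rfl, fun _ _ _ _ => rfl, fun _ _ _ _ => rfl,
    fun _ _ _ _ => rfl, fun _ _ _ _ => rfl⟩
  fits := ⟨by norm_num [sevBinM4], by norm_num [sevBinM4], by norm_num [sevBinM4],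
    by norm_num [sevBinM4]⟩
  left := ⟨234, 13, 12, 3, 3, by decide +kernel⟩
  right := ⟨214, 12, 10, 3, 3, by decide +kernel⟩
  up := ⟨249, 13, 12, 3, 4, by decide +kernel⟩
  down := ⟨248, 13, 11, 4, 4, by decide +kernel⟩

/-- The windows of the bin M5. -/
theorem sevBinM5_ok : sevBinM5.Cert7 where
  flat := ⟨fun _ _ _ _ => rfl, fun _ _ _ _ => rfl, fun _ _ _ _ => rfl, fun _ _ _ _ => rfl,
    fun _ _ _ _ => rfl, fun _ _ _ _ => rfl⟩
  fits := ⟨by norm_num [sevBinM5], by norm_num [sevBinM5], by norm_num [sevBinM5],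
    by norm_num [sevBinM5]⟩
  left := ⟨231, 13, 12, 3, 3, by decide +kernel⟩
  right := ⟨211, 12, 10, 3, 3, by decide +kernel⟩
  up := ⟨246, 13, 12, 3, 4, by decide +kernel⟩
  down := ⟨244, 13, 11, 4, 4, by decide +kernel⟩

/-- The windows of the bin M6. -/
theorem sevBinM6_ok : sevBinM6.Cert7 where
  flat := ⟨fun _ _ _ _ => rfl, fun _ _ _ _ => rfl, fun _ _ _ _ => rfl, fun _ _ _ _ => rfl,
    fun _ _ _ _ => rfl, fun _ _ _ _ => rfl⟩
  fits := ⟨by norm_num [sevBinM6], by norm_num [sevBinM6], by norm_num [sevBinM6],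
    by norm_num [sevBinM6]⟩
  left := ⟨232, 13, 12, 3, 3, by decide +kernel⟩
  right := ⟨211, 12, 10, 3, 3, by decide +kernel⟩
  up := ⟨246, 13, 12, 3, 4, by decide +kernel⟩
  down := ⟨244, 13, 11, 4, 4, by decide +kernel⟩

/-- The windows of the bin M7. -/
theorem sevBinM7_ok : sevBinM7.Cert7 where
  flat := ⟨fun _ _ _ _ => rfl, fun _ _ _ _ => rfl, fun _ _ _ _ => rfl, fun _ _ _ _ => rfl,
    fun _ _ _ _ => rfl, fun _ _ _ _ => rfl⟩
  fits := ⟨by norm_num [sevBinM7], by norm_num [sevBinM7], by norm_num [sevBinM7],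
    by norm_num [sevBinM7]⟩
  left := ⟨235, 13, 12, 3, 3, by decide +kernel⟩
  right := ⟨214, 12, 10, 3, 3, by decide +kernel⟩
  up := ⟨249, 13, 12, 3, 4, by decide +kernel⟩
  down := ⟨248, 13, 11, 4, 4, by decide +kernel⟩

/-- The windows of the bin M8. -/
theorem sevBinM8_ok : sevBinM8.Cert7 where
  flat := ⟨fun _ _ _ _ => rfl, fun _ _ _ _ => rfl, fun _ _ _ _ => rfl, fun _ _ _ _ => rfl,
    fun _ _ _ _ => rfl, fun _ _ _ _ => rfl⟩
  fits := ⟨by norm_num [sevBinM8], by norm_num [sevBinM8], by norm_num [sevBinM8],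
    by norm_num [sevBinM8]⟩
  left := ⟨235, 13, 12, 3, 3, by decide +kernel⟩
  right := ⟨214, 12, 10, 3, 3, by decide +kernel⟩
  up := ⟨249, 13, 12, 3, 4, by decide +kernel⟩
  down := ⟨248, 13, 11, 4, 4, by decide +kernel⟩

/-- The windows of the bin N0. -/
theorem sevBinN0_ok : sevBinN0.Cert7 where
  flat := ⟨fun _ _ _ _ => rfl, fun _ _ _ _ => rfl, fun _ _ _ _ => rfl, fun _ _ _ _ => rfl,
    fun _ _ _ _ => rfl, fun _ _ _ _ => rfl⟩
  fits := ⟨by norm_num [sevBinN0], by norm_num [sevBinN0], by norm_num [sevBinN0],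
    by norm_num [sevBinN0]⟩
  left := ⟨260, 13, 12, 3, 3, by decide +kernel⟩
  right := ⟨237, 12, 10, 3, 3, by decide +kernel⟩
  up := ⟨275, 13, 12, 3, 4, by decide +kernel⟩
  down := ⟨276, 13, 11, 4, 4, by decide +kernel⟩

/-- The windows of the bin N1. -/
theorem sevBinN1_ok : sevBinN1.Cert7 where
  flat := ⟨fun _ _ _ _ => rfl, fun _ _ _ _ => rfl, fun _ _ _ _ => rfl, fun _ _ _ _ => rfl,
    fun _ _ _ _ => rfl, fun _ _ _ _ => rfl⟩
  fits := ⟨by norm_num [sevBinN1], by norm_num [sevBinN1], by norm_num [sevBinN1],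
    by norm_num [sevBinN1]⟩
  left := ⟨263, 13, 12, 3, 3, by decide +kernel⟩
  right := ⟨240, 12, 10, 3, 3, by decide +kernel⟩
  up := ⟨278, 13, 12, 3, 4, by decide +kernel⟩
  down := ⟨280, 13, 11, 4, 4, by decide +kernel⟩

/-- The windows of the bin N2. -/
theorem sevBinN2_ok : sevBinN2.Cert7 where
  flat := ⟨fun _ _ _ _ => rfl, fun _ _ _ _ => rfl, fun _ _ _ _ => rfl, fun _ _ _ _ => rfl,
    fun _ _ _ _ => rfl, fun _ _ _ _ => rfl⟩
  fits := ⟨by norm_num [sevBinN2], by norm_num [sevBinN2], by norm_num [sevBinN2],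
    by norm_num [sevBinN2]⟩
  left := ⟨256, 13, 12, 3, 3, by decide +kernel⟩
  right := ⟨233, 12, 10, 3, 3, by decide +kernel⟩
  up := ⟨271, 13, 12, 3, 4, by decide +kernel⟩
  down := ⟨271, 13, 11, 4, 4, by decide +kernel⟩

/-- The windows of the bin N3. -/
theorem sevBinN3_ok : sevBinN3.Cert7 where
  flat := ⟨fun _ _ _ _ => rfl, fun _ _ _ _ => rfl, fun _ _ _ _ => rfl, fun _ _ _ _ => rfl,
    fun _ _ _ _ => rfl, fun _ _ _ _ => rfl⟩
  fits := ⟨by norm_num [sevBinN3], by norm_num [sevBinN3], by norm_num [sevBinN3],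
    by norm_num [sevBinN3]⟩
  left := ⟨250, 13, 12, 3, 3, by decide +kernel⟩
  right := ⟨227, 12, 10, 3, 3, by decide +kernel⟩
  up := ⟨265, 13, 12, 3, 4, by decide +kernel⟩
  down := ⟨263, 13, 11, 4, 4, by decide +kernel⟩

/-- The windows of the bin N4. -/
theorem sevBinN4_ok : sevBinN4.Cert7 where
  flat := ⟨fun _ _ _ _ => rfl, fun _ _ _ _ => rfl, fun _ _ _ _ => rfl, fun _ _ _ _ => rfl,
    fun _ _ _ _ => rfl, fun _ _ _ _ => rfl⟩
  fits := ⟨by norm_num [sevBinN4], by norm_num [sevBinN4], by norm_num [sevBinN4],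
    by norm_num [sevBinN4]⟩
  left := ⟨251, 13, 12, 3, 3, by decide +kernel⟩
  right := ⟨227, 12, 10, 3, 3, by decide +kernel⟩
  up := ⟨265, 13, 12, 3, 4, by decide +kernel⟩
  down := ⟨263, 13, 11, 4, 4, by decide +kernel⟩

/-- The windows of the bin N5. -/
theorem sevBinN5_ok : sevBinN5.Cert7 where
  flat := ⟨fun _ _ _ _ => rfl, fun _ _ _ _ => rfl, fun _ _ _ _ => rfl, fun _ _ _ _ => rfl,
    fun _ _ _ _ => rfl, fun _ _ _ _ => rfl⟩
  fits := ⟨by norm_num [sevBinN5], by norm_num [sevBinN5], by norm_num [sevBinN5],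
    by norm_num [sevBinN5]⟩
  left := ⟨270, 13, 12, 3, 3, by decide +kernel⟩
  right := ⟨246, 12, 10, 3, 3, by decide +kernel⟩
  up := ⟨288, 13, 12, 3, 4, by decide +kernel⟩
  down := ⟨285, 13, 11, 4, 4, by decide +kernel⟩

/-- The windows of the bin N6. -/
theorem sevBinN6_ok : sevBinN6.Cert7 where
  flat := ⟨fun _ _ _ _ => rfl, fun _ _ _ _ => rfl, fun _ _ _ _ => rfl, fun _ _ _ _ => rfl,
    fun _ _ _ _ => rfl, fun _ _ _ _ => rfl⟩
  fits := ⟨by norm_num [sevBinN6], by norm_num [sevBinN6], by norm_num [sevBinN6],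
    by norm_num [sevBinN6]⟩
  left := ⟨296, 16, 12, 3, 3, by decide +kernel⟩
  right := ⟨272, 15, 10, 3, 3, by decide +kernel⟩
  up := ⟨322, 17, 12, 3, 4, by decide +kernel⟩
  down := ⟨320, 17, 11, 4, 4, by decide +kernel⟩

/-- The windows of the bin N7. -/
theorem sevBinN7_ok : sevBinN7.Cert7 where
  flat := ⟨fun _ _ _ _ => rfl, fun _ _ _ _ => rfl, fun _ _ _ _ => rfl, fun _ _ _ _ => rfl,
    fun _ _ _ _ => rfl, fun _ _ _ _ => rfl⟩
  fits := ⟨by norm_num [sevBinN7], by norm_num [sevBinN7], by norm_num [sevBinN7],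
    by norm_num [sevBinN7]⟩
  left := ⟨277, 13, 12, 3, 3, by decide +kernel⟩
  right := ⟨252, 12, 10, 3, 3, by decide +kernel⟩
  up := ⟨294, 13, 12, 3, 4, by decide +kernel⟩
  down := ⟨293, 13, 11, 4, 4, by decide +kernel⟩

/-- The windows of the bin P0. -/
theorem sevBinP0_ok : sevBinP0.Cert7 where
  flat := ⟨fun _ _ _ _ => rfl, fun _ _ _ _ => rfl, fun _ _ _ _ => rfl, fun _ _ _ _ => rfl,
    fun _ _ _ _ => rfl, fun _ _ _ _ => rfl⟩
  fits := ⟨by norm_num [sevBinP0], by norm_num [sevBinP0], by norm_num [sevBinP0],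
    by norm_num [sevBinP0]⟩
  left := ⟨308, 13, 12, 3, 3, by decide +kernel⟩
  right := ⟨280, 12, 10, 3, 3, by decide +kernel⟩
  up := ⟨326, 13, 12, 3, 4, by decide +kernel⟩
  down := ⟨325, 13, 11, 4, 4, by decide +kernel⟩

/-- The windows of the bin P1. -/
theorem sevBinP1_ok : sevBinP1.Cert7 where
  flat := ⟨fun _ _ _ _ => rfl, fun _ _ _ _ => rfl, fun _ _ _ _ => rfl, fun _ _ _ _ => rfl,
    fun _ _ _ _ => rfl, fun _ _ _ _ => rfl⟩
  fits := ⟨by norm_num [sevBinP1], by norm_num [sevBinP1], by norm_num [sevBinP1],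
    by norm_num [sevBinP1]⟩
  left := ⟨308, 13, 12, 3, 3, by decide +kernel⟩
  right := ⟨280, 12, 10, 3, 3, by decide +kernel⟩
  up := ⟨326, 13, 12, 3, 4, by decide +kernel⟩
  down := ⟨325, 13, 11, 4, 4, by decide +kernel⟩

/-- The windows of the bin P2. -/
theorem sevBinP2_ok : sevBinP2.Cert7 where
  flat := ⟨fun _ _ _ _ => rfl, fun _ _ _ _ => rfl, fun _ _ _ _ => rfl, fun _ _ _ _ => rfl,
    fun _ _ _ _ => rfl, fun _ _ _ _ => rfl⟩
  fits := ⟨by norm_num [sevBinP2], by norm_num [sevBinP2], by norm_num [sevBinP2],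
    by norm_num [sevBinP2]⟩
  left := ⟨302, 13, 12, 3, 3, by decide +kernel⟩
  right := ⟨274, 12, 10, 3, 3, by decide +kernel⟩
  up := ⟨320, 13, 12, 3, 4, by decide +kernel⟩
  down := ⟨317, 13, 11, 4, 4, by decide +kernel⟩

/-- The windows of the bin P3. -/
theorem sevBinP3_ok : sevBinP3.Cert7 where
  flat := ⟨fun _ _ _ _ => rfl, fun _ _ _ _ => rfl, fun _ _ _ _ => rfl, fun _ _ _ _ => rfl,
    fun _ _ _ _ => rfl, fun _ _ _ _ => rfl⟩
  fits := ⟨by norm_num [sevBinP3], by norm_num [sevBinP3], by norm_num [sevBinP3],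
    by norm_num [sevBinP3]⟩
  left := ⟨302, 13, 12, 3, 3, by decide +kernel⟩
  right := ⟨274, 12, 10, 3, 3, by decide +kernel⟩
  up := ⟨320, 13, 12, 3, 4, by decide +kernel⟩
  down := ⟨317, 13, 11, 4, 4, by decide +kernel⟩

/-- The windows of the bin P4. -/
theorem sevBinP4_ok : sevBinP4.Cert7 where
  flat := ⟨fun _ _ _ _ => rfl, fun _ _ _ _ => rfl, fun _ _ _ _ => rfl, fun _ _ _ _ => rfl,
    fun _ _ _ _ => rfl, fun _ _ _ _ => rfl⟩
  fits := ⟨by norm_num [sevBinP4], by norm_num [sevBinP4], by norm_num [sevBinP4],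
    by norm_num [sevBinP4]⟩
  left := ⟨299, 13, 12, 3, 3, by decide +kernel⟩
  right := ⟨271, 12, 10, 3, 3, by decide +kernel⟩
  up := ⟨317, 13, 12, 3, 4, by decide +kernel⟩
  down := ⟨313, 13, 11, 4, 4, by decide +kernel⟩

/-- The windows of the bin P5. -/
theorem sevBinP5_ok : sevBinP5.Cert7 where
  flat := ⟨fun _ _ _ _ => rfl, fun _ _ _ _ => rfl, fun _ _ _ _ => rfl, fun _ _ _ _ => rfl,
    fun _ _ _ _ => rfl, fun _ _ _ _ => rfl⟩
  fits := ⟨by norm_num [sevBinP5], by norm_num [sevBinP5], by norm_num [sevBinP5],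
    by norm_num [sevBinP5]⟩
  left := ⟨303, 13, 12, 3, 3, by decide +kernel⟩
  right := ⟨274, 12, 10, 3, 3, by decide +kernel⟩
  up := ⟨320, 13, 12, 3, 4, by decide +kernel⟩
  down := ⟨317, 13, 11, 4, 4, by decide +kernel⟩

/-- The windows of the bin P6. -/
theorem sevBinP6_ok : sevBinP6.Cert7 where
  flat := ⟨fun _ _ _ _ => rfl, fun _ _ _ _ => rfl, fun _ _ _ _ => rfl, fun _ _ _ _ => rfl,
    fun _ _ _ _ => rfl, fun _ _ _ _ => rfl⟩
  fits := ⟨by norm_num [sevBinP6], by norm_num [sevBinP6], by norm_num [sevBinP6],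
    by norm_num [sevBinP6]⟩
  left := ⟨313, 13, 12, 3, 3, by decide +kernel⟩
  right := ⟨284, 12, 10, 3, 3, by decide +kernel⟩
  up := ⟨330, 13, 12, 3, 4, by decide +kernel⟩
  down := ⟨330, 13, 11, 4, 4, by decide +kernel⟩

/-- The windows of the bin Q0. -/
theorem sevBinQ0_ok : sevBinQ0.Cert7 where
  flat := ⟨fun _ _ _ _ => rfl, fun _ _ _ _ => rfl, fun _ _ _ _ => rfl, fun _ _ _ _ => rfl,
    fun _ _ _ _ => rfl, fun _ _ _ _ => rfl⟩
  fits := ⟨by norm_num [sevBinQ0], by norm_num [sevBinQ0], by norm_num [sevBinQ0],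
    by norm_num [sevBinQ0]⟩
  left := ⟨268, 13, 12, 3, 3, by decide +kernel⟩
  right := ⟨245, 12, 10, 3, 3, by decide +kernel⟩
  up := ⟨286, 13, 12, 3, 4, by decide +kernel⟩
  down := ⟨284, 13, 11, 4, 4, by decide +kernel⟩

/-- The windows of the bin Q1. -/
theorem sevBinQ1_ok : sevBinQ1.Cert7 where
  flat := ⟨fun _ _ _ _ => rfl, fun _ _ _ _ => rfl, fun _ _ _ _ => rfl, fun _ _ _ _ => rfl,
    fun _ _ _ _ => rfl, fun _ _ _ _ => rfl⟩
  fits := ⟨by norm_num [sevBinQ1], by norm_num [sevBinQ1], by norm_num [sevBinQ1],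
    by norm_num [sevBinQ1]⟩
  left := ⟨297, 16, 12, 3, 3, by decide +kernel⟩
  right := ⟨274, 15, 10, 3, 3, by decide +kernel⟩
  up := ⟨323, 17, 12, 3, 4, by decide +kernel⟩
  down := ⟨322, 17, 11, 4, 4, by decide +kernel⟩

/-- The windows of the bin Q2. -/
theorem sevBinQ2_ok : sevBinQ2.Cert7 where
  flat := ⟨fun _ _ _ _ => rfl, fun _ _ _ _ => rfl, fun _ _ _ _ => rfl, fun _ _ _ _ => rfl,
    fun _ _ _ _ => rfl, fun _ _ _ _ => rfl⟩
  fits := ⟨by norm_num [sevBinQ2], by norm_num [sevBinQ2], by norm_num [sevBinQ2],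
    by norm_num [sevBinQ2]⟩
  left := ⟨271, 13, 12, 3, 3, by decide +kernel⟩
  right := ⟨248, 12, 10, 3, 3, by decide +kernel⟩
  up := ⟨289, 13, 12, 3, 4, by decide +kernel⟩
  down := ⟨288, 13, 11, 4, 4, by decide +kernel⟩

/-- The windows of the bin R0. -/
theorem sevBinR0_ok : sevBinR0.Cert7 where
  flat := ⟨fun _ _ _ _ => rfl, fun _ _ _ _ => rfl, fun _ _ _ _ => rfl, fun _ _ _ _ => rfl,
    fun _ _ _ _ => rfl, fun _ _ _ _ => rfl⟩
  fits := ⟨by norm_num [sevBinR0], by norm_num [sevBinR0], by norm_num [sevBinR0],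
    by norm_num [sevBinR0]⟩
  left := ⟨294, 13, 12, 3, 3, by decide +kernel⟩
  right := ⟨266, 12, 10, 3, 3, by decide +kernel⟩
  up := ⟨312, 13, 12, 3, 4, by decide +kernel⟩
  down := ⟨307, 13, 11, 4, 4, by decide +kernel⟩

/-- The windows of the bin R1. -/
theorem sevBinR1_ok : sevBinR1.Cert7 where
  flat := ⟨fun _ _ _ _ => rfl, fun _ _ _ _ => rfl, fun _ _ _ _ => rfl, fun _ _ _ _ => rfl,
    fun _ _ _ _ => rfl, fun _ _ _ _ => rfl⟩
  fits := ⟨by norm_num [sevBinR1], by norm_num [sevBinR1], by norm_num [sevBinR1],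
    by norm_num [sevBinR1]⟩
  left := ⟨295, 13, 12, 3, 3, by decide +kernel⟩
  right := ⟨267, 12, 10, 3, 3, by decide +kernel⟩
  up := ⟨314, 13, 12, 3, 4, by decide +kernel⟩
  down := ⟨308, 13, 11, 4, 4, by decide +kernel⟩

/-- The windows of the bin R2. -/
theorem sevBinR2_ok : sevBinR2.Cert7 where
  flat := ⟨fun _ _ _ _ => rfl, fun _ _ _ _ => rfl, fun _ _ _ _ => rfl, fun _ _ _ _ => rfl,
    fun _ _ _ _ => rfl, fun _ _ _ _ => rfl⟩
  fits := ⟨by norm_num [sevBinR2], by norm_num [sevBinR2], by norm_num [sevBinR2],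
    by norm_num [sevBinR2]⟩
  left := ⟨302, 13, 12, 3, 3, by decide +kernel⟩
  right := ⟨274, 12, 10, 3, 3, by decide +kernel⟩
  up := ⟨321, 13, 12, 3, 4, by decide +kernel⟩
  down := ⟨317, 13, 11, 4, 4, by decide +kernel⟩

/-- The windows of the bin S0. -/
theorem sevBinS0_ok : sevBinS0.Cert7 where
  flat := ⟨fun _ _ _ _ => rfl, fun _ _ _ _ => rfl, fun _ _ _ _ => rfl, fun _ _ _ _ => rfl,
    fun _ _ _ _ => rfl, fun _ _ _ _ => rfl⟩
  fits := ⟨by norm_num [sevBinS0], by norm_num [sevBinS0], by norm_num [sevBinS0],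
    by norm_num [sevBinS0]⟩
  left := ⟨334, 13, 12, 3, 3, by decide +kernel⟩
  right := ⟨304, 12, 10, 3, 3, by decide +kernel⟩
  up := ⟨352, 13, 12, 3, 4, by decide +kernel⟩
  down := ⟨351, 13, 11, 4, 4, by decide +kernel⟩

/-- The windows of the bin S1. -/
theorem sevBinS1_ok : sevBinS1.Cert7 where
  flat := ⟨fun _ _ _ _ => rfl, fun _ _ _ _ => rfl, fun _ _ _ _ => rfl, fun _ _ _ _ => rfl,
    fun _ _ _ _ => rfl, fun _ _ _ _ => rfl⟩
  fits := ⟨by norm_num [sevBinS1], by norm_num [sevBinS1], by norm_num [sevBinS1],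
    by norm_num [sevBinS1]⟩
  left := ⟨334, 13, 12, 3, 3, by decide +kernel⟩
  right := ⟨304, 12, 10, 3, 3, by decide +kernel⟩
  up := ⟨352, 13, 12, 3, 4, by decide +kernel⟩
  down := ⟨351, 13, 11, 4, 4, by decide +kernel⟩

/-- The windows of the bin S2. -/
theorem sevBinS2_ok : sevBinS2.Cert7 where
  flat := ⟨fun _ _ _ _ => rfl, fun _ _ _ _ => rfl, fun _ _ _ _ => rfl, fun _ _ _ _ => rfl,
    fun _ _ _ _ => rfl, fun _ _ _ _ => rfl⟩
  fits := ⟨by norm_num [sevBinS2], by norm_num [sevBinS2], by norm_num [sevBinS2],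
    by norm_num [sevBinS2]⟩
  left := ⟨328, 13, 12, 3, 3, by decide +kernel⟩
  right := ⟨298, 12, 10, 3, 3, by decide +kernel⟩
  up := ⟨346, 13, 12, 3, 4, by decide +kernel⟩
  down := ⟨343, 13, 11, 4, 4, by decide +kernel⟩

/-- The windows of the bin S3. -/
theorem sevBinS3_ok : sevBinS3.Cert7 where
  flat := ⟨fun _ _ _ _ => rfl, fun _ _ _ _ => rfl, fun _ _ _ _ => rfl, fun _ _ _ _ => rfl,
    fun _ _ _ _ => rfl, fun _ _ _ _ => rfl⟩
  fits := ⟨by norm_num [sevBinS3], by norm_num [sevBinS3], by norm_num [sevBinS3],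
    by norm_num [sevBinS3]⟩
  left := ⟨361, 16, 12, 3, 3, by decide +kernel⟩
  right := ⟨332, 15, 10, 3, 3, by decide +kernel⟩
  up := ⟨390, 17, 12, 3, 4, by decide +kernel⟩
  down := ⟨387, 17, 11, 4, 4, by decide +kernel⟩

/-- The windows of the bin S4. -/
theorem sevBinS4_ok : sevBinS4.Cert7 where
  flat := ⟨fun _ _ _ _ => rfl, fun _ _ _ _ => rfl, fun _ _ _ _ => rfl, fun _ _ _ _ => rfl,
    fun _ _ _ _ => rfl, fun _ _ _ _ => rfl⟩
  fits := ⟨by norm_num [sevBinS4], by norm_num [sevBinS4], by norm_num [sevBinS4],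
    by norm_num [sevBinS4]⟩
  left := ⟨329, 13, 12, 3, 3, by decide +kernel⟩
  right := ⟨298, 12, 10, 3, 3, by decide +kernel⟩
  up := ⟨346, 13, 12, 3, 4, by decide +kernel⟩
  down := ⟨343, 13, 11, 4, 4, by decide +kernel⟩

/-- The windows of the bin S5. -/
theorem sevBinS5_ok : sevBinS5.Cert7 where
  flat := ⟨fun _ _ _ _ => rfl, fun _ _ _ _ => rfl, fun _ _ _ _ => rfl, fun _ _ _ _ => rfl,
    fun _ _ _ _ => rfl, fun _ _ _ _ => rfl⟩
  fits := ⟨by norm_num [sevBinS5], by norm_num [sevBinS5], by norm_num [sevBinS5],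
    by norm_num [sevBinS5]⟩
  left := ⟨339, 13, 12, 3, 3, by decide +kernel⟩
  right := ⟨308, 12, 10, 3, 3, by decide +kernel⟩
  up := ⟨356, 13, 12, 3, 4, by decide +kernel⟩
  down := ⟨356, 13, 11, 4, 4, by decide +kernel⟩

/-- The windows of the bin T0. -/
theorem sevBinT0_ok : sevBinT0.Cert7 where
  flat := ⟨fun _ _ _ _ => rfl, fun _ _ _ _ => rfl, fun _ _ _ _ => rfl, fun _ _ _ _ => rfl,
    fun _ _ _ _ => rfl, fun _ _ _ _ => rfl⟩
  fits := ⟨by norm_num [sevBinT0], by norm_num [sevBinT0], by norm_num [sevBinT0],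
    by norm_num [sevBinT0]⟩
  left := ⟨320, 13, 12, 3, 3, by decide +kernel⟩
  right := ⟨291, 12, 10, 3, 3, by decide +kernel⟩
  up := ⟨338, 13, 12, 3, 4, by decide +kernel⟩
  down := ⟨337, 13, 11, 4, 4, by decide +kernel⟩

/-- The windows of the bin T1. -/
theorem sevBinT1_ok : sevBinT1.Cert7 where
  flat := ⟨fun _ _ _ _ => rfl, fun _ _ _ _ => rfl, fun _ _ _ _ => rfl, fun _ _ _ _ => rfl,
    fun _ _ _ _ => rfl, fun _ _ _ _ => rfl⟩
  fits := ⟨by norm_num [sevBinT1], by norm_num [sevBinT1], by norm_num [sevBinT1],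
    by norm_num [sevBinT1]⟩
  left := ⟨323, 13, 12, 3, 3, by decide +kernel⟩
  right := ⟨294, 12, 10, 3, 3, by decide +kernel⟩
  up := ⟨341, 13, 12, 3, 4, by decide +kernel⟩
  down := ⟨341, 13, 11, 4, 4, by decide +kernel⟩

/-- The windows of the bin T2. -/
theorem sevBinT2_ok : sevBinT2.Cert7 where
  flat := ⟨fun _ _ _ _ => rfl, fun _ _ _ _ => rfl, fun _ _ _ _ => rfl, fun _ _ _ _ => rfl,
    fun _ _ _ _ => rfl, fun _ _ _ _ => rfl⟩
  fits := ⟨by norm_num [sevBinT2], by norm_num [sevBinT2], by norm_num [sevBinT2],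
    by norm_num [sevBinT2]⟩
  left := ⟨316, 13, 12, 3, 3, by decide +kernel⟩
  right := ⟨287, 12, 10, 3, 3, by decide +kernel⟩
  up := ⟨334, 13, 12, 3, 4, by decide +kernel⟩
  down := ⟨332, 13, 11, 4, 4, by decide +kernel⟩

/-- The windows of the bin T3. -/
theorem sevBinT3_ok : sevBinT3.Cert7 where
  flat := ⟨fun _ _ _ _ => rfl, fun _ _ _ _ => rfl, fun _ _ _ _ => rfl, fun _ _ _ _ => rfl,
    fun _ _ _ _ => rfl, fun _ _ _ _ => rfl⟩
  fits := ⟨by norm_num [sevBinT3], by norm_num [sevBinT3], by norm_num [sevBinT3],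
    by norm_num [sevBinT3]⟩
  left := ⟨310, 13, 12, 3, 3, by decide +kernel⟩
  right := ⟨280, 12, 10, 3, 3, by decide +kernel⟩
  up := ⟨328, 13, 12, 3, 4, by decide +kernel⟩
  down := ⟨324, 13, 11, 4, 4, by decide +kernel⟩

/-- The windows of the bin T4. -/
theorem sevBinT4_ok : sevBinT4.Cert7 where
  flat := ⟨fun _ _ _ _ => rfl, fun _ _ _ _ => rfl, fun _ _ _ _ => rfl, fun _ _ _ _ => rfl,
    fun _ _ _ _ => rfl, fun _ _ _ _ => rfl⟩
  fits := ⟨by norm_num [sevBinT4], by norm_num [sevBinT4], by norm_num [sevBinT4],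
    by norm_num [sevBinT4]⟩
  left := ⟨307, 13, 12, 3, 3, by decide +kernel⟩
  right := ⟨278, 12, 10, 3, 3, by decide +kernel⟩
  up := ⟨325, 13, 12, 3, 4, by decide +kernel⟩
  down := ⟨320, 13, 11, 4, 4, by decide +kernel⟩

/-- The windows of the bin T5. -/
theorem sevBinT5_ok : sevBinT5.Cert7 where
  flat := ⟨fun _ _ _ _ => rfl, fun _ _ _ _ => rfl, fun _ _ _ _ => rfl, fun _ _ _ _ => rfl,
    fun _ _ _ _ => rfl, fun _ _ _ _ => rfl⟩
  fits := ⟨by norm_num [sevBinT5], by norm_num [sevBinT5], by norm_num [sevBinT5],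
    by norm_num [sevBinT5]⟩
  left := ⟨317, 13, 12, 3, 3, by decide +kernel⟩
  right := ⟨287, 12, 10, 3, 3, by decide +kernel⟩
  up := ⟨334, 13, 12, 3, 4, by decide +kernel⟩
  down := ⟨332, 13, 11, 4, 4, by decide +kernel⟩

end Vale.Agent.P100.Calib.StripEndD
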