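import Vale.Agent.P100.Calib.SlabStripEndSevCheckA0a
import Vale.Agent.P100.Calib.SlabStripEndSevCheckA0b
import Vale.Agent.P100.Calib.SlabStripEndSevCheckB0a
import Vale.Agent.P100.Calib.SlabStripEndSevCheckB0b
import Vale.Agent.P100.Calib.SlabStripEndSevCheckB1a
import Vale.Agent.P100.Calib.SlabStripEndSevCheckB1b
import Vale.Agent.P100.Calib.SlabStripEndSevCheckB2a
import Vale.Agent.P100.Calib.SlabStripEndSevCheckB3a
import Vale.Agent.P100.Calib.SlabStripEndSevCheckC0a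
import Vale.Agent.P100.Calib.SlabStripEndSevCheckC1a
import Vale.Agent.P100.Calib.SlabStripEndSevCheckC2a
import Vale.Agent.P100.Calib.SlabStripEndSevCheckC3a
import Vale.Agent.P100.Calib.SlabStripEndSevCheckD0a
import Vale.Agent.P100.Calib.SlabStripEndSevCheckD0b
import Vale.Agent.P100.Calib.SlabStripEndSevCheckD1a
import Vale.Agent.P100.Calib.SlabStripEndSevCheckD2a
import Vale.Agent.P100.Calib.SlabStripEndSevCheckD3a
import Vale.Agent.P100.Calib.SlabStripEndSevCheckD4a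
import Vale.Agent.P100.Calib.SlabStripEndSevCheckD5a
import Vale.Agent.P100.Calib.SlabStripEndSevCheckD6a
import Vale.Agent.P100.Calib.SlabStripEndSevCheckD7a
import Vale.Agent.P100.Calib.SlabStripEndSevCheckD8a
import Vale.Agent.P100.Calib.SlabStripEndSevCheckE0a
import Vale.Agent.P100.Calib.SlabStripEndSevCheckE1a
import Vale.Agent.P100.Calib.SlabStripEndSevCheckE2a
import Vale.Agent.P100.Calib.SlabStripEndSevCheckE3a
import Vale.Agent.P100.Calib.SlabStripEndSevCheckE4a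
import Vale.Agent.P100.Calib.SlabStripEndSevCheckF0a
import Vale.Agent.P100.Calib.SlabStripEndSevCheckF0b
import Vale.Agent.P100.Calib.SlabStripEndSevCheckF1a
import Vale.Agent.P100.Calib.SlabStripEndSevCheckF2a
import Vale.Agent.P100.Calib.SlabStripEndSevCheckF3a
import Vale.Agent.P100.Calib.SlabStripEndSevCheckF3b
import Vale.Agent.P100.Calib.SlabStripEndSevCheckF4a
import Vale.Agent.P100.Calib.SlabStripEndSevCheckF5a
import Vale.Agent.P100.Calib.SlabStripEndSevCheckF6a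
import Vale.Agent.P100.Calib.SlabStripEndSevCheckF6b
import Vale.Agent.P100.Calib.SlabStripEndSevCheckF7a
import Vale.Agent.P100.Calib.SlabStripEndSevCheckF7b
import Vale.Agent.P100.Calib.SlabStripEndSevCheckF8a
import Vale.Agent.P100.Calib.SlabStripEndSevCheckF8b
import Vale.Agent.P100.Calib.SlabStripEndSevCheckF9a
import Vale.Agent.P100.Calib.SlabStripEndSevCheckF10a
import Vale.Agent.P100.Calib.SlabStripEndSevCheckG0a
import Vale.Agent.P100.Calib.SlabStripEndSevCheckG0b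
import Vale.Agent.P100.Calib.SlabStripEndSevCheckG1a
import Vale.Agent.P100.Calib.SlabStripEndSevCheckG2a
import Vale.Agent.P100.Calib.SlabStripEndSevCheckG3a
import Vale.Agent.P100.Calib.SlabStripEndSevCheckG4a
import Vale.Agent.P100.Calib.SlabStripEndSevCheckG4b
import Vale.Agent.P100.Calib.SlabStripEndSevCheckG5a
import Vale.Agent.P100.Calib.SlabStripEndSevCheckG5b
import Vale.Agent.P100.Calib.SlabStripEndSevCheckG6a
import Vale.Agent.P100.Calib.SlabStripEndSevCheckG6b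
import Vale.Agent.P100.Calib.SlabStripEndSevCheckG7a
import Vale.Agent.P100.Calib.SlabStripEndSevCheckH0a
import Vale.Agent.P100.Calib.SlabStripEndSevCheckH1a
import Vale.Agent.P100.Calib.SlabStripEndSevCheckH2a
import Vale.Agent.P100.Calib.SlabStripEndSevCheckH3a
import Vale.Agent.P100.Calib.SlabStripEndSevCheckH4a
import Vale.Agent.P100.Calib.SlabStripEndSevCheckH4b
import Vale.Agent.P100.Calib.SlabStripEndSevCheckH5a
import Vale.Agent.P100.Calib.SlabStripEndSevCheckH5b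
import Vale.Agent.P100.Calib.SlabStripEndSevCheckH6a
import Vale.Agent.P100.Calib.SlabStripEndSevCheckH7a
import Vale.Agent.P100.Calib.SlabStripEndSevCheckJ0a
import Vale.Agent.P100.Calib.SlabStripEndSevCheckJ0b
import Vale.Agent.P100.Calib.SlabStripEndSevCheckJ1a
import Vale.Agent.P100.Calib.SlabStripEndSevCheckJ2a
import Vale.Agent.P100.Calib.SlabStripEndSevCheckJ3a
import Vale.Agent.P100.Calib.SlabStripEndSevCheckJ3b
import Vale.Agent.P100.Calib.SlabStripEndSevCheckJ4a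
import Vale.Agent.P100.Calib.SlabStripEndSevCheckJ4b
import Vale.Agent.P100.Calib.SlabStripEndSevCheckJ5a
import Vale.Agent.P100.Calib.SlabStripEndSevCheckJ5b
import Vale.Agent.P100.Calib.SlabStripEndSevCheckJ6a
import Vale.Agent.P100.Calib.SlabStripEndSevCheckJ7a
import Vale.Agent.P100.Calib.SlabStripEndSevCheckK0a
import Vale.Agent.P100.Calib.SlabStripEndSevCheckK1a
import Vale.Agent.P100.Calib.SlabStripEndSevCheckK2a
import Vale.Agent.P100.Calib.SlabStripEndSevCheckK3a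
import Vale.Agent.P100.Calib.SlabStripEndSevCheckK4a
import Vale.Agent.P100.Calib.SlabStripEndSevCheckK5a
import Vale.Agent.P100.Calib.SlabStripEndSevCheckL0a
import Vale.Agent.P100.Calib.SlabStripEndSevCheckL0b
import Vale.Agent.P100.Calib.SlabStripEndSevCheckL1a
import Vale.Agent.P100.Calib.SlabStripEndSevCheckL2a
import Vale.Agent.P100.Calib.SlabStripEndSevCheckL3a
import Vale.Agent.P100.Calib.SlabStripEndSevCheckL3b
import Vale.Agent.P100.Calib.SlabStripEndSevCheckL4a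
import Vale.Agent.P100.Calib.SlabStripEndSevCheckL4b
import Vale.Agent.P100.Calib.SlabStripEndSevCheckL5a
import Vale.Agent.P100.Calib.SlabStripEndSevCheckL5b
import Vale.Agent.P100.Calib.SlabStripEndSevCheckL6a
import Vale.Agent.P100.Calib.SlabStripEndSevCheckL6b
import Vale.Agent.P100.Calib.SlabStripEndSevCheckL7a
import Vale.Agent.P100.Calib.SlabStripEndSevCheckM0a
import Vale.Agent.P100.Calib.SlabStripEndSevCheckM1a
import Vale.Agent.P100.Calib.SlabStripEndSevCheckM2a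
import Vale.Agent.P100.Calib.SlabStripEndSevCheckM3a
import Vale.Agent.P100.Calib.SlabStripEndSevCheckM4a
import Vale.Agent.P100.Calib.SlabStripEndSevCheckM4b
import Vale.Agent.P100.Calib.SlabStripEndSevCheckM5a
import Vale.Agent.P100.Calib.SlabStripEndSevCheckM5b
import Vale.Agent.P100.Calib.SlabStripEndSevCheckM6a
import Vale.Agent.P100.Calib.SlabStripEndSevCheckM6b
import Vale.Agent.P100.Calib.SlabStripEndSevCheckM7a
import Vale.Agent.P100.Calib.SlabStripEndSevCheckM7b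
import Vale.Agent.P100.Calib.SlabStripEndSevCheckM8a
import Vale.Agent.P100.Calib.SlabStripEndSevCheckN0a
import Vale.Agent.P100.Calib.SlabStripEndSevCheckN1a
import Vale.Agent.P100.Calib.SlabStripEndSevCheckN2a
import Vale.Agent.P100.Calib.SlabStripEndSevCheckN3a
import Vale.Agent.P100.Calib.SlabStripEndSevCheckN4a
import Vale.Agent.P100.Calib.SlabStripEndSevCheckN4b
import Vale.Agent.P100.Calib.SlabStripEndSevCheckN5a
import Vale.Agent.P100.Calib.SlabStripEndSevCheckN5b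
import Vale.Agent.P100.Calib.SlabStripEndSevCheckN6a
import Vale.Agent.P100.Calib.SlabStripEndSevCheckN7a
import Vale.Agent.P100.Calib.SlabStripEndSevCheckP0a
import Vale.Agent.P100.Calib.SlabStripEndSevCheckP1a
import Vale.Agent.P100.Calib.SlabStripEndSevCheckP2a
import Vale.Agent.P100.Calib.SlabStripEndSevCheckP3a
import Vale.Agent.P100.Calib.SlabStripEndSevCheckP3b
import Vale.Agent.P100.Calib.SlabStripEndSevCheckP4a
import Vale.Agent.P100.Calib.SlabStripEndSevCheckP4b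
import Vale.Agent.P100.Calib.SlabStripEndSevCheckP5a
import Vale.Agent.P100.Calib.SlabStripEndSevCheckP6a
import Vale.Agent.P100.Calib.SlabStripEndSevCheckQ0a
import Vale.Agent.P100.Calib.SlabStripEndSevCheckQ0b
import Vale.Agent.P100.Calib.SlabStripEndSevCheckQ1a
import Vale.Agent.P100.Calib.SlabStripEndSevCheckQ2a
import Vale.Agent.P100.Calib.SlabStripEndSevCheckR0a
import Vale.Agent.P100.Calib.SlabStripEndSevCheckR0b
import Vale.Agent.P100.Calib.SlabStripEndSevCheckR1a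
import Vale.Agent.P100.Calib.SlabStripEndSevCheckR1b
import Vale.Agent.P100.Calib.SlabStripEndSevCheckR2a
import Vale.Agent.P100.Calib.SlabStripEndSevCheckS0a
import Vale.Agent.P100.Calib.SlabStripEndSevCheckS1a
import Vale.Agent.P100.Calib.SlabStripEndSevCheckS2a
import Vale.Agent.P100.Calib.SlabStripEndSevCheckS3a
import Vale.Agent.P100.Calib.SlabStripEndSevCheckS4a
import Vale.Agent.P100.Calib.SlabStripEndSevCheckS5a
import Vale.Agent.P100.Calib.SlabStripEndSevCheckT0a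
import Vale.Agent.P100.Calib.SlabStripEndSevCheckT1a
import Vale.Agent.P100.Calib.SlabStripEndSevCheckT2a
import Vale.Agent.P100.Calib.SlabStripEndSevCheckT3a
import Vale.Agent.P100.Calib.SlabStripEndSevCheckT4a
import Vale.Agent.P100.Calib.SlabStripEndSevCheckT5a
import Vale.Agent.P100.Calib.SlabStripEndSevWin
import Vale.Agent.P100.Calib.SlabStripEndSevBin

/-!
# The bins are certified
-/

namespace Vale.Agent.P100.Calib.StripEndD

open Pack hiding ev_add ev_mul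
open Pack.Ex StripMid StripEnd

local instance endSevBinsAdd : Add Ex := ⟨Ex.add⟩
local instance endSevBinsSub : Sub Ex := ⟨Ex.sub⟩
local instance endSevBinsMul : Mul Ex := ⟨Ex.mul⟩

/-- The piece `A0a` over its chart. -/
theorem sevPcA0a_over : sevPcA0a.Over sevBinA0 :=
  ⟨fun _ => rfl, fun _ => rfl, fun _ => rfl, fun _ => rfl,
    fun x => by simp only [sevPcA0a, sevBinA0, ev_add, ev_mul, Ex.eval],
    fun x => by
      simp only [sevPcA0a, sevBinA0, Piece.A, Piece.S, ev_add, ev_sub, ev_mul, Ex.eval]; push_cast; ring,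
    rfl, rfl⟩

/-- The piece `A0b` over its chart. -/
theorem sevPcA0b_over : sevPcA0b.Over sevBinA0 :=
  ⟨fun _ => rfl, fun _ => rfl, fun _ => rfl, fun _ => rfl,
    fun x => by simp only [sevPcA0b, sevBinA0, ev_add, ev_mul, Ex.eval],
    fun x => by
      simp only [sevPcA0b, sevBinA0, Piece.A, Piece.S, ev_add, ev_sub, ev_mul, Ex.eval]; push_cast; ring,
    rfl, rfl⟩

/-- The bin A0. -/
theorem sevBinA0_signs : Bin₂ sevBinA0 sevPcA0a sevPcA0b sevBoxA0a sevBoxA0b :=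
  ⟨sevBinA0_ok, ⟨sevPcA0a_cert, sevPcA0a_over, ⟨rfl, rfl, rfl, by norm_num [sevBoxA0a]⟩, rfl, rfl, rfl, rfl⟩,
    ⟨sevPcA0b_cert, sevPcA0b_over, ⟨rfl, rfl, rfl, by norm_num [sevBoxA0b]⟩, rfl, rfl, rfl, rfl⟩,
    by norm_num [sevBinA0, sevBoxA0a, sevBoxA0b], rfl, rfl, rfl, Or.inl rfl⟩

/-- The piece `B0a` over its chart. -/
theorem sevPcB0a_over : sevPcB0a.Over sevBinB0 :=
  ⟨fun _ => rfl, fun _ => rfl, fun _ => rfl, fun _ => rfl,
    fun x => by simp only [sevPcB0a, sevBinB0, ev_add, ev_mul, Ex.eval],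
    fun x => by
      simp only [sevPcB0a, sevBinB0, Piece.A, Piece.S, ev_add, ev_sub, ev_mul, Ex.eval]; push_cast; ring,
    rfl, rfl⟩

/-- The piece `B0b` over its chart. -/
theorem sevPcB0b_over : sevPcB0b.Over sevBinB0 :=
  ⟨fun _ => rfl, fun _ => rfl, fun _ => rfl, fun _ => rfl,
    fun x => by simp only [sevPcB0b, sevBinB0, ev_add, ev_mul, Ex.eval],
    fun x => by
      simp only [sevPcB0b, sevBinB0, Piece.A, Piece.S, ev_add, ev_sub, ev_mul, Ex.eval]; push_cast; ring,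
    rfl, rfl⟩

/-- The bin B0. -/
theorem sevBinB0_signs : Bin₂ sevBinB0 sevPcB0a sevPcB0b sevBoxB0a sevBoxB0b :=
  ⟨sevBinB0_ok, ⟨sevPcB0a_cert, sevPcB0a_over, ⟨rfl, rfl, rfl, by norm_num [sevBoxB0a]⟩, rfl, rfl, rfl, rfl⟩,
    ⟨sevPcB0b_cert, sevPcB0b_over, ⟨rfl, rfl, rfl, by norm_num [sevBoxB0b]⟩, rfl, rfl, rfl, rfl⟩,
    by norm_num [sevBinB0, sevBoxB0a, sevBoxB0b], rfl, rfl, rfl, Or.inl rfl⟩

/-- The piece `B1a` over its chart. -/
theorem sevPcB1a_over : sevPcB1a.Over sevBinB1 :=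
  ⟨fun _ => rfl, fun _ => rfl, fun _ => rfl, fun _ => rfl,
    fun x => by simp only [sevPcB1a, sevBinB1, ev_add, ev_mul, Ex.eval],
    fun x => by
      simp only [sevPcB1a, sevBinB1, Piece.A, Piece.S, ev_add, ev_sub, ev_mul, Ex.eval]; push_cast; ring,
    rfl, rfl⟩

/-- The piece `B1b` over its chart. -/
theorem sevPcB1b_over : sevPcB1b.Over sevBinB1 :=
  ⟨fun _ => rfl, fun _ => rfl, fun _ => rfl, fun _ => rfl,
    fun x => by simp only [sevPcB1b, sevBinB1, ev_add, ev_mul, Ex.eval],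
    fun x => by
      simp only [sevPcB1b, sevBinB1, Piece.A, Piece.S, ev_add, ev_sub, ev_mul, Ex.eval]; push_cast; ring,
    rfl, rfl⟩

/-- The bin B1. -/
theorem sevBinB1_signs : Bin₂ sevBinB1 sevPcB1a sevPcB1b sevBoxB1a sevBoxB1b :=
  ⟨sevBinB1_ok, ⟨sevPcB1a_cert, sevPcB1a_over, ⟨rfl, rfl, rfl, by norm_num [sevBoxB1a]⟩, rfl, rfl, rfl, rfl⟩,
    ⟨sevPcB1b_cert, sevPcB1b_over, ⟨rfl, rfl, rfl, by norm_num [sevBoxB1b]⟩, rfl, rfl, rfl, rfl⟩,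
    by norm_num [sevBinB1, sevBoxB1a, sevBoxB1b], rfl, rfl, rfl, Or.inl rfl⟩

/-- The piece `B2a` over its chart. -/
theorem sevPcB2a_over : sevPcB2a.Over sevBinB2 :=
  ⟨fun _ => rfl, fun _ => rfl, fun _ => rfl, fun _ => rfl,
    fun x => by simp only [sevPcB2a, sevBinB2, ev_add, ev_mul, Ex.eval],
    fun x => by
      simp only [sevPcB2a, sevBinB2, Piece.A, Piece.S, ev_add, ev_sub, ev_mul, Ex.eval]; push_cast; ring,
    rfl, rfl⟩

/-- The bin B2. -/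
theorem sevBinB2_signs : Bin sevBinB2 sevPcB2a sevBoxB2a :=
  ⟨sevBinB2_ok, sevPcB2a_cert, sevPcB2a_over, ⟨rfl, rfl, rfl, rfl⟩, rfl, rfl, rfl, rfl, rfl, rfl, rfl, rfl⟩

/-- The piece `B3a` over its chart. -/
theorem sevPcB3a_over : sevPcB3a.Over sevBinB3 :=
  ⟨fun _ => rfl, fun _ => rfl, fun _ => rfl, fun _ => rfl,
    fun x => by simp only [sevPcB3a, sevBinB3, ev_add, ev_mul, Ex.eval],
    fun x => by
      simp only [sevPcB3a, sevBinB3, Piece.A, Piece.S, ev_add, ev_sub, ev_mul, Ex.eval]; push_cast; ring,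
    rfl, rfl⟩

/-- The bin B3. -/
theorem sevBinB3_signs : Bin sevBinB3 sevPcB3a sevBoxB3a :=
  ⟨sevBinB3_ok, sevPcB3a_cert, sevPcB3a_over, ⟨rfl, rfl, rfl, rfl⟩, rfl, rfl, rfl, rfl, rfl, rfl, rfl, rfl⟩

/-- The piece `C0a` over its chart. -/
theorem sevPcC0a_over : sevPcC0a.Over sevBinC0 :=
  ⟨fun _ => rfl, fun _ => rfl, fun _ => rfl, fun _ => rfl,
    fun x => by simp only [sevPcC0a, sevBinC0, ev_add, ev_mul, Ex.eval],
    fun x => by
      simp only [sevPcC0a, sevBinC0, Piece.A, Piece.S, ev_add, ev_sub, ev_mul, Ex.eval]; push_cast; ring,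
    rfl, rfl⟩

/-- The bin C0. -/
theorem sevBinC0_signs : Bin sevBinC0 sevPcC0a sevBoxC0a :=
  ⟨sevBinC0_ok, sevPcC0a_cert, sevPcC0a_over, ⟨rfl, rfl, rfl, rfl⟩, rfl, rfl, rfl, rfl, rfl, rfl, rfl, rfl⟩

/-- The piece `C1a` over its chart. -/
theorem sevPcC1a_over : sevPcC1a.Over sevBinC1 :=
  ⟨fun _ => rfl, fun _ => rfl, fun _ => rfl, fun _ => rfl,
    fun x => by simp only [sevPcC1a, sevBinC1, ev_add, ev_mul, Ex.eval],
    fun x => by
      simp only [sevPcC1a, sevBinC1, Piece.A, Piece.S, ev_add, ev_sub, ev_mul, Ex.eval]; push_cast; ring,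
    rfl, rfl⟩

/-- The bin C1. -/
theorem sevBinC1_signs : Bin sevBinC1 sevPcC1a sevBoxC1a :=
  ⟨sevBinC1_ok, sevPcC1a_cert, sevPcC1a_over, ⟨rfl, rfl, rfl, rfl⟩, rfl, rfl, rfl, rfl, rfl, rfl, rfl, rfl⟩

/-- The piece `C2a` over its chart. -/
theorem sevPcC2a_over : sevPcC2a.Over sevBinC2 :=
  ⟨fun _ => rfl, fun _ => rfl, fun _ => rfl, fun _ => rfl,
    fun x => by simp only [sevPcC2a, sevBinC2, ev_add, ev_mul, Ex.eval],
    fun x => by
      simp only [sevPcC2a, sevBinC2, Piece.A, Piece.S, ev_add, ev_sub, ev_mul, Ex.eval]; push_cast; ring,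
    rfl, rfl⟩

/-- The bin C2. -/
theorem sevBinC2_signs : Bin sevBinC2 sevPcC2a sevBoxC2a :=
  ⟨sevBinC2_ok, sevPcC2a_cert, sevPcC2a_over, ⟨rfl, rfl, rfl, rfl⟩, rfl, rfl, rfl, rfl, rfl, rfl, rfl, rfl⟩

/-- The piece `C3a` over its chart. -/
theorem sevPcC3a_over : sevPcC3a.Over sevBinC3 :=
  ⟨fun _ => rfl, fun _ => rfl, fun _ => rfl, fun _ => rfl,
    fun x => by simp only [sevPcC3a, sevBinC3, ev_add, ev_mul, Ex.eval],
    fun x => by
      simp only [sevPcC3a, sevBinC3, Piece.A, Piece.S, ev_add, ev_sub, ev_mul, Ex.eval]; push_cast; ring,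
    rfl, rfl⟩

/-- The bin C3. -/
theorem sevBinC3_signs : Bin sevBinC3 sevPcC3a sevBoxC3a :=
  ⟨sevBinC3_ok, sevPcC3a_cert, sevPcC3a_over, ⟨rfl, rfl, rfl, rfl⟩, rfl, rfl, rfl, rfl, rfl, rfl, rfl, rfl⟩

/-- The piece `D0a` over its chart. -/
theorem sevPcD0a_over : sevPcD0a.Over sevBinD0 :=
  ⟨fun _ => rfl, fun _ => rfl, fun _ => rfl, fun _ => rfl,
    fun x => by simp only [sevPcD0a, sevBinD0, ev_add, ev_mul, Ex.eval],
    fun x => by
      simp only [sevPcD0a, sevBinD0, Piece.A, Piece.S, ev_add, ev_sub, ev_mul, Ex.eval]; push_cast; ring,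
    rfl, rfl⟩

/-- The piece `D0b` over its chart. -/
theorem sevPcD0b_over : sevPcD0b.Over sevBinD0 :=
  ⟨fun _ => rfl, fun _ => rfl, fun _ => rfl, fun _ => rfl,
    fun x => by simp only [sevPcD0b, sevBinD0, ev_add, ev_mul, Ex.eval],
    fun x => by
      simp only [sevPcD0b, sevBinD0, Piece.A, Piece.S, ev_add, ev_sub, ev_mul, Ex.eval]; push_cast; ring,
    rfl, rfl⟩

/-- The bin D0. -/
theorem sevBinD0_signs : Bin₂ sevBinD0 sevPcD0a sevPcD0b sevBoxD0a sevBoxD0b :=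
  ⟨sevBinD0_ok, ⟨sevPcD0a_cert, sevPcD0a_over, ⟨rfl, rfl, rfl, by norm_num [sevBoxD0a]⟩, rfl, rfl, rfl, rfl⟩,
    ⟨sevPcD0b_cert, sevPcD0b_over, ⟨rfl, rfl, rfl, by norm_num [sevBoxD0b]⟩, rfl, rfl, rfl, rfl⟩,
    by norm_num [sevBinD0, sevBoxD0a, sevBoxD0b], rfl, rfl, rfl, Or.inl rfl⟩

/-- The piece `D1a` over its chart. -/
theorem sevPcD1a_over : sevPcD1a.Over sevBinD1 :=
  ⟨fun _ => rfl, fun _ => rfl, fun _ => rfl, fun _ => rfl,
    fun x => by simp only [sevPcD1a, sevBinD1, ev_add, ev_mul, Ex.eval],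
    fun x => by
      simp only [sevPcD1a, sevBinD1, Piece.A, Piece.S, ev_add, ev_sub, ev_mul, Ex.eval]; push_cast; ring,
    rfl, rfl⟩

/-- The bin D1. -/
theorem sevBinD1_signs : Bin sevBinD1 sevPcD1a sevBoxD1a :=
  ⟨sevBinD1_ok, sevPcD1a_cert, sevPcD1a_over, ⟨rfl, rfl, rfl, rfl⟩, rfl, rfl, rfl, rfl, rfl, rfl, rfl, rfl⟩

/-- The piece `D2a` over its chart. -/
theorem sevPcD2a_over : sevPcD2a.Over sevBinD2 :=
  ⟨fun _ => rfl, fun _ => rfl, fun _ => rfl, fun _ => rfl,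
    fun x => by simp only [sevPcD2a, sevBinD2, ev_add, ev_mul, Ex.eval],
    fun x => by
      simp only [sevPcD2a, sevBinD2, Piece.A, Piece.S, ev_add, ev_sub, ev_mul, Ex.eval]; push_cast; ring,
    rfl, rfl⟩

/-- The bin D2. -/
theorem sevBinD2_signs : Bin sevBinD2 sevPcD2a sevBoxD2a :=
  ⟨sevBinD2_ok, sevPcD2a_cert, sevPcD2a_over, ⟨rfl, rfl, rfl, rfl⟩, rfl, rfl, rfl, rfl, rfl, rfl, rfl, rfl⟩

/-- The piece `D3a` over its chart. -/
theorem sevPcD3a_over : sevPcD3a.Over sevBinD3 :=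
  ⟨fun _ => rfl, fun _ => rfl, fun _ => rfl, fun _ => rfl,
    fun x => by simp only [sevPcD3a, sevBinD3, ev_add, ev_mul, Ex.eval],
    fun x => by
      simp only [sevPcD3a, sevBinD3, Piece.A, Piece.S, ev_add, ev_sub, ev_mul, Ex.eval]; push_cast; ring,
    rfl, rfl⟩

/-- The bin D3. -/
theorem sevBinD3_signs : Bin sevBinD3 sevPcD3a sevBoxD3a :=
  ⟨sevBinD3_ok, sevPcD3a_cert, sevPcD3a_over, ⟨rfl, rfl, rfl, rfl⟩, rfl, rfl, rfl, rfl, rfl, rfl, rfl, rfl⟩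

/-- The piece `D4a` over its chart. -/
theorem sevPcD4a_over : sevPcD4a.Over sevBinD4 :=
  ⟨fun _ => rfl, fun _ => rfl, fun _ => rfl, fun _ => rfl,
    fun x => by simp only [sevPcD4a, sevBinD4, ev_add, ev_mul, Ex.eval],
    fun x => by
      simp only [sevPcD4a, sevBinD4, Piece.A, Piece.S, ev_add, ev_sub, ev_mul, Ex.eval]; push_cast; ring,
    rfl, rfl⟩

/-- The bin D4. -/
theorem sevBinD4_signs : Bin sevBinD4 sevPcD4a sevBoxD4a :=
  ⟨sevBinD4_ok, sevPcD4a_cert, sevPcD4a_over, ⟨rfl, rfl, rfl, rfl⟩, rfl, rfl, rfl, rfl, rfl, rfl, rfl, rfl⟩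

/-- The piece `D5a` over its chart. -/
theorem sevPcD5a_over : sevPcD5a.Over sevBinD5 :=
  ⟨fun _ => rfl, fun _ => rfl, fun _ => rfl, fun _ => rfl,
    fun x => by simp only [sevPcD5a, sevBinD5, ev_add, ev_mul, Ex.eval],
    fun x => by
      simp only [sevPcD5a, sevBinD5, Piece.A, Piece.S, ev_add, ev_sub, ev_mul, Ex.eval]; push_cast; ring,
    rfl, rfl⟩

/-- The bin D5. -/
theorem sevBinD5_signs : Bin sevBinD5 sevPcD5a sevBoxD5a :=
  ⟨sevBinD5_ok, sevPcD5a_cert, sevPcD5a_over, ⟨rfl, rfl, rfl, rfl⟩, rfl, rfl, rfl, rfl, rfl, rfl, rfl, rfl⟩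

/-- The piece `D6a` over its chart. -/
theorem sevPcD6a_over : sevPcD6a.Over sevBinD6 :=
  ⟨fun _ => rfl, fun _ => rfl, fun _ => rfl, fun _ => rfl,
    fun x => by simp only [sevPcD6a, sevBinD6, ev_add, ev_mul, Ex.eval],
    fun x => by
      simp only [sevPcD6a, sevBinD6, Piece.A, Piece.S, ev_add, ev_sub, ev_mul, Ex.eval]; push_cast; ring,
    rfl, rfl⟩

/-- The bin D6. -/
theorem sevBinD6_signs : Bin sevBinD6 sevPcD6a sevBoxD6a :=
  ⟨sevBinD6_ok, sevPcD6a_cert, sevPcD6a_over, ⟨rfl, rfl, rfl, rfl⟩, rfl, rfl, rfl, rfl, rfl, rfl, rfl, rfl⟩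

/-- The piece `D7a` over its chart. -/
theorem sevPcD7a_over : sevPcD7a.Over sevBinD7 :=
  ⟨fun _ => rfl, fun _ => rfl, fun _ => rfl, fun _ => rfl,
    fun x => by simp only [sevPcD7a, sevBinD7, ev_add, ev_mul, Ex.eval],
    fun x => by
      simp only [sevPcD7a, sevBinD7, Piece.A, Piece.S, ev_add, ev_sub, ev_mul, Ex.eval]; push_cast; ring,
    rfl, rfl⟩

/-- The bin D7. -/
theorem sevBinD7_signs : Bin sevBinD7 sevPcD7a sevBoxD7a :=
  ⟨sevBinD7_ok, sevPcD7a_cert, sevPcD7a_over, ⟨rfl, rfl, rfl, rfl⟩, rfl, rfl, rfl, rfl, rfl, rfl, rfl, rfl⟩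

/-- The piece `D8a` over its chart. -/
theorem sevPcD8a_over : sevPcD8a.Over sevBinD8 :=
  ⟨fun _ => rfl, fun _ => rfl, fun _ => rfl, fun _ => rfl,
    fun x => by simp only [sevPcD8a, sevBinD8, ev_add, ev_mul, Ex.eval],
    fun x => by
      simp only [sevPcD8a, sevBinD8, Piece.A, Piece.S, ev_add, ev_sub, ev_mul, Ex.eval]; push_cast; ring,
    rfl, rfl⟩

/-- The bin D8. -/
theorem sevBinD8_signs : Bin sevBinD8 sevPcD8a sevBoxD8a :=
  ⟨sevBinD8_ok, sevPcD8a_cert, sevPcD8a_over, ⟨rfl, rfl, rfl, rfl⟩, rfl, rfl, rfl, rfl, rfl, rfl, rfl, rfl⟩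

/-- The piece `E0a` over its chart. -/
theorem sevPcE0a_over : sevPcE0a.Over sevBinE0 :=
  ⟨fun _ => rfl, fun _ => rfl, fun _ => rfl, fun _ => rfl,
    fun x => by simp only [sevPcE0a, sevBinE0, ev_add, ev_mul, Ex.eval],
    fun x => by
      simp only [sevPcE0a, sevBinE0, Piece.A, Piece.S, ev_add, ev_sub, ev_mul, Ex.eval]; push_cast; ring,
    rfl, rfl⟩

/-- The bin E0. -/
theorem sevBinE0_signs : Bin sevBinE0 sevPcE0a sevBoxE0a :=
  ⟨sevBinE0_ok, sevPcE0a_cert, sevPcE0a_over, ⟨rfl, rfl, rfl, rfl⟩, rfl, rfl, rfl, rfl, rfl, rfl, rfl, rfl⟩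

/-- The piece `E1a` over its chart. -/
theorem sevPcE1a_over : sevPcE1a.Over sevBinE1 :=
  ⟨fun _ => rfl, fun _ => rfl, fun _ => rfl, fun _ => rfl,
    fun x => by simp only [sevPcE1a, sevBinE1, ev_add, ev_mul, Ex.eval],
    fun x => by
      simp only [sevPcE1a, sevBinE1, Piece.A, Piece.S, ev_add, ev_sub, ev_mul, Ex.eval]; push_cast; ring,
    rfl, rfl⟩

/-- The bin E1. -/
theorem sevBinE1_signs : Bin sevBinE1 sevPcE1a sevBoxE1a :=
  ⟨sevBinE1_ok, sevPcE1a_cert, sevPcE1a_over, ⟨rfl, rfl, rfl, rfl⟩, rfl, rfl, rfl, rfl, rfl, rfl, rfl, rfl⟩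

/-- The piece `E2a` over its chart. -/
theorem sevPcE2a_over : sevPcE2a.Over sevBinE2 :=
  ⟨fun _ => rfl, fun _ => rfl, fun _ => rfl, fun _ => rfl,
    fun x => by simp only [sevPcE2a, sevBinE2, ev_add, ev_mul, Ex.eval],
    fun x => by
      simp only [sevPcE2a, sevBinE2, Piece.A, Piece.S, ev_add, ev_sub, ev_mul, Ex.eval]; push_cast; ring,
    rfl, rfl⟩

/-- The bin E2. -/
theorem sevBinE2_signs : Bin sevBinE2 sevPcE2a sevBoxE2a :=
  ⟨sevBinE2_ok, sevPcE2a_cert, sevPcE2a_over, ⟨rfl, rfl, rfl, rfl⟩, rfl, rfl, rfl, rfl, rfl, rfl, rfl, rfl⟩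

/-- The piece `E3a` over its chart. -/
theorem sevPcE3a_over : sevPcE3a.Over sevBinE3 :=
  ⟨fun _ => rfl, fun _ => rfl, fun _ => rfl, fun _ => rfl,
    fun x => by simp only [sevPcE3a, sevBinE3, ev_add, ev_mul, Ex.eval],
    fun x => by
      simp only [sevPcE3a, sevBinE3, Piece.A, Piece.S, ev_add, ev_sub, ev_mul, Ex.eval]; push_cast; ring,
    rfl, rfl⟩

/-- The bin E3. -/
theorem sevBinE3_signs : Bin sevBinE3 sevPcE3a sevBoxE3a :=
  ⟨sevBinE3_ok, sevPcE3a_cert, sevPcE3a_over, ⟨rfl, rfl, rfl, rfl⟩, rfl, rfl, rfl, rfl, rfl, rfl, rfl, rfl⟩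

/-- The piece `E4a` over its chart. -/
theorem sevPcE4a_over : sevPcE4a.Over sevBinE4 :=
  ⟨fun _ => rfl, fun _ => rfl, fun _ => rfl, fun _ => rfl,
    fun x => by simp only [sevPcE4a, sevBinE4, ev_add, ev_mul, Ex.eval],
    fun x => by
      simp only [sevPcE4a, sevBinE4, Piece.A, Piece.S, ev_add, ev_sub, ev_mul, Ex.eval]; push_cast; ring,
    rfl, rfl⟩

/-- The bin E4. -/
theorem sevBinE4_signs : Bin sevBinE4 sevPcE4a sevBoxE4a :=
  ⟨sevBinE4_ok, sevPcE4a_cert, sevPcE4a_over, ⟨rfl, rfl, rfl, rfl⟩, rfl, rfl, rfl, rfl, rfl, rfl, rfl, rfl⟩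

/-- The piece `F0a` over its chart. -/
theorem sevPcF0a_over : sevPcF0a.Over sevBinF0 :=
  ⟨fun _ => rfl, fun _ => rfl, fun _ => rfl, fun _ => rfl,
    fun x => by simp only [sevPcF0a, sevBinF0, ev_add, ev_mul, Ex.eval],
    fun x => by
      simp only [sevPcF0a, sevBinF0, Piece.A, Piece.S, ev_add, ev_sub, ev_mul, Ex.eval]; push_cast; ring,
    rfl, rfl⟩

/-- The piece `F0b` over its chart. -/
theorem sevPcF0b_over : sevPcF0b.Over sevBinF0 :=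
  ⟨fun _ => rfl, fun _ => rfl, fun _ => rfl, fun _ => rfl,
    fun x => by simp only [sevPcF0b, sevBinF0, ev_add, ev_mul, Ex.eval],
    fun x => by
      simp only [sevPcF0b, sevBinF0, Piece.A, Piece.S, ev_add, ev_sub, ev_mul, Ex.eval]; push_cast; ring,
    rfl, rfl⟩

/-- The bin F0. -/
theorem sevBinF0_signs : Bin₂ sevBinF0 sevPcF0a sevPcF0b sevBoxF0a sevBoxF0b :=
  ⟨sevBinF0_ok, ⟨sevPcF0a_cert, sevPcF0a_over, ⟨rfl, rfl, rfl, by norm_num [sevBoxF0a]⟩, rfl, rfl, rfl, rfl⟩,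
    ⟨sevPcF0b_cert, sevPcF0b_over, ⟨rfl, rfl, rfl, by norm_num [sevBoxF0b]⟩, rfl, rfl, rfl, rfl⟩,
    by norm_num [sevBinF0, sevBoxF0a, sevBoxF0b], rfl, rfl, rfl, Or.inl rfl⟩

/-- The piece `F1a` over its chart. -/
theorem sevPcF1a_over : sevPcF1a.Over sevBinF1 :=
  ⟨fun _ => rfl, fun _ => rfl, fun _ => rfl, fun _ => rfl,
    fun x => by simp only [sevPcF1a, sevBinF1, ev_add, ev_mul, Ex.eval],
    fun x => by
      simp only [sevPcF1a, sevBinF1, Piece.A, Piece.S, ev_add, ev_sub, ev_mul, Ex.eval]; push_cast; ring,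
    rfl, rfl⟩

/-- The bin F1. -/
theorem sevBinF1_signs : Bin sevBinF1 sevPcF1a sevBoxF1a :=
  ⟨sevBinF1_ok, sevPcF1a_cert, sevPcF1a_over, ⟨rfl, rfl, rfl, rfl⟩, rfl, rfl, rfl, rfl, rfl, rfl, rfl, rfl⟩

/-- The piece `F2a` over its chart. -/
theorem sevPcF2a_over : sevPcF2a.Over sevBinF2 :=
  ⟨fun _ => rfl, fun _ => rfl, fun _ => rfl, fun _ => rfl,
    fun x => by simp only [sevPcF2a, sevBinF2, ev_add, ev_mul, Ex.eval],
    fun x => by
      simp only [sevPcF2a, sevBinF2, Piece.A, Piece.S, ev_add, ev_sub, ev_mul, Ex.eval]; push_cast; ring,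
    rfl, rfl⟩

/-- The bin F2. -/
theorem sevBinF2_signs : Bin sevBinF2 sevPcF2a sevBoxF2a :=
  ⟨sevBinF2_ok, sevPcF2a_cert, sevPcF2a_over, ⟨rfl, rfl, rfl, rfl⟩, rfl, rfl, rfl, rfl, rfl, rfl, rfl, rfl⟩

/-- The piece `F3a` over its chart. -/
theorem sevPcF3a_over : sevPcF3a.Over sevBinF3 :=
  ⟨fun _ => rfl, fun _ => rfl, fun _ => rfl, fun _ => rfl,
    fun x => by simp only [sevPcF3a, sevBinF3, ev_add, ev_mul, Ex.eval],
    fun x => by
      simp only [sevPcF3a, sevBinF3, Piece.A, Piece.S, ev_add, ev_sub, ev_mul, Ex.eval]; push_cast; ring,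
    rfl, rfl⟩

/-- The piece `F3b` over its chart. -/
theorem sevPcF3b_over : sevPcF3b.Over sevBinF3 :=
  ⟨fun _ => rfl, fun _ => rfl, fun _ => rfl, fun _ => rfl,
    fun x => by simp only [sevPcF3b, sevBinF3, ev_add, ev_mul, Ex.eval],
    fun x => by
      simp only [sevPcF3b, sevBinF3, Piece.A, Piece.S, ev_add, ev_sub, ev_mul, Ex.eval]; push_cast; ring,
    rfl, rfl⟩

/-- The bin F3. -/
theorem sevBinF3_signs : Bin₂ sevBinF3 sevPcF3a sevPcF3b sevBoxF3a sevBoxF3b :=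
  ⟨sevBinF3_ok, ⟨sevPcF3a_cert, sevPcF3a_over, ⟨rfl, rfl, rfl, by norm_num [sevBoxF3a]⟩, rfl, rfl, rfl, rfl⟩,
    ⟨sevPcF3b_cert, sevPcF3b_over, ⟨rfl, rfl, rfl, by norm_num [sevBoxF3b]⟩, rfl, rfl, rfl, rfl⟩,
    by norm_num [sevBinF3, sevBoxF3a, sevBoxF3b], rfl, rfl, rfl, Or.inl rfl⟩

/-- The piece `F4a` over its chart. -/
theorem sevPcF4a_over : sevPcF4a.Over sevBinF4 :=
  ⟨fun _ => rfl, fun _ => rfl, fun _ => rfl, fun _ => rfl,
    fun x => by simp only [sevPcF4a, sevBinF4, ev_add, ev_mul, Ex.eval],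
    fun x => by
      simp only [sevPcF4a, sevBinF4, Piece.A, Piece.S, ev_add, ev_sub, ev_mul, Ex.eval]; push_cast; ring,
    rfl, rfl⟩

/-- The bin F4. -/
theorem sevBinF4_signs : Bin sevBinF4 sevPcF4a sevBoxF4a :=
  ⟨sevBinF4_ok, sevPcF4a_cert, sevPcF4a_over, ⟨rfl, rfl, rfl, rfl⟩, rfl, rfl, rfl, rfl, rfl, rfl, rfl, rfl⟩

/-- The piece `F5a` over its chart. -/
theorem sevPcF5a_over : sevPcF5a.Over sevBinF5 :=
  ⟨fun _ => rfl, fun _ => rfl, fun _ => rfl, fun _ => rfl,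
    fun x => by simp only [sevPcF5a, sevBinF5, ev_add, ev_mul, Ex.eval],
    fun x => by
      simp only [sevPcF5a, sevBinF5, Piece.A, Piece.S, ev_add, ev_sub, ev_mul, Ex.eval]; push_cast; ring,
    rfl, rfl⟩

/-- The bin F5. -/
theorem sevBinF5_signs : Bin sevBinF5 sevPcF5a sevBoxF5a :=
  ⟨sevBinF5_ok, sevPcF5a_cert, sevPcF5a_over, ⟨rfl, rfl, rfl, rfl⟩, rfl, rfl, rfl, rfl, rfl, rfl, rfl, rfl⟩

/-- The piece `F6a` over its chart. -/
theorem sevPcF6a_over : sevPcF6a.Over sevBinF6 :=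
  ⟨fun _ => rfl, fun _ => rfl, fun _ => rfl, fun _ => rfl,
    fun x => by simp only [sevPcF6a, sevBinF6, ev_add, ev_mul, Ex.eval],
    fun x => by
      simp only [sevPcF6a, sevBinF6, Piece.A, Piece.S, ev_add, ev_sub, ev_mul, Ex.eval]; push_cast; ring,
    rfl, rfl⟩

/-- The piece `F6b` over its chart. -/
theorem sevPcF6b_over : sevPcF6b.Over sevBinF6 :=
  ⟨fun _ => rfl, fun _ => rfl, fun _ => rfl, fun _ => rfl,
    fun x => by simp only [sevPcF6b, sevBinF6, ev_add, ev_mul, Ex.eval],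
    fun x => by
      simp only [sevPcF6b, sevBinF6, Piece.A, Piece.S, ev_add, ev_sub, ev_mul, Ex.eval]; push_cast; ring,
    rfl, rfl⟩

/-- The bin F6. -/
theorem sevBinF6_signs : Bin₂ sevBinF6 sevPcF6a sevPcF6b sevBoxF6a sevBoxF6b :=
  ⟨sevBinF6_ok, ⟨sevPcF6a_cert, sevPcF6a_over, ⟨rfl, rfl, rfl, by norm_num [sevBoxF6a]⟩, rfl, rfl, rfl, rfl⟩,
    ⟨sevPcF6b_cert, sevPcF6b_over, ⟨rfl, rfl, rfl, by norm_num [sevBoxF6b]⟩, rfl, rfl, rfl, rfl⟩,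
    by norm_num [sevBinF6, sevBoxF6a, sevBoxF6b], rfl, rfl, rfl, Or.inl rfl⟩

/-- The piece `F7a` over its chart. -/
theorem sevPcF7a_over : sevPcF7a.Over sevBinF7 :=
  ⟨fun _ => rfl, fun _ => rfl, fun _ => rfl, fun _ => rfl,
    fun x => by simp only [sevPcF7a, sevBinF7, ev_add, ev_mul, Ex.eval],
    fun x => by
      simp only [sevPcF7a, sevBinF7, Piece.A, Piece.S, ev_add, ev_sub, ev_mul, Ex.eval]; push_cast; ring,
    rfl, rfl⟩

/-- The piece `F7b` over its chart. -/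
theorem sevPcF7b_over : sevPcF7b.Over sevBinF7 :=
  ⟨fun _ => rfl, fun _ => rfl, fun _ => rfl, fun _ => rfl,
    fun x => by simp only [sevPcF7b, sevBinF7, ev_add, ev_mul, Ex.eval],
    fun x => by
      simp only [sevPcF7b, sevBinF7, Piece.A, Piece.S, ev_add, ev_sub, ev_mul, Ex.eval]; push_cast; ring,
    rfl, rfl⟩

/-- The bin F7. -/
theorem sevBinF7_signs : Bin₂ sevBinF7 sevPcF7a sevPcF7b sevBoxF7a sevBoxF7b :=
  ⟨sevBinF7_ok, ⟨sevPcF7a_cert, sevPcF7a_over, ⟨rfl, rfl, rfl, by norm_num [sevBoxF7a]⟩, rfl, rfl, rfl, rfl⟩,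
    ⟨sevPcF7b_cert, sevPcF7b_over, ⟨rfl, rfl, rfl, by norm_num [sevBoxF7b]⟩, rfl, rfl, rfl, rfl⟩,
    by norm_num [sevBinF7, sevBoxF7a, sevBoxF7b], rfl, rfl, rfl, Or.inl rfl⟩

/-- The piece `F8a` over its chart. -/
theorem sevPcF8a_over : sevPcF8a.Over sevBinF8 :=
  ⟨fun _ => rfl, fun _ => rfl, fun _ => rfl, fun _ => rfl,
    fun x => by simp only [sevPcF8a, sevBinF8, ev_add, ev_mul, Ex.eval],
    fun x => by
      simp only [sevPcF8a, sevBinF8, Piece.A, Piece.S, ev_add, ev_sub, ev_mul, Ex.eval]; push_cast; ring,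
    rfl, rfl⟩

/-- The piece `F8b` over its chart. -/
theorem sevPcF8b_over : sevPcF8b.Over sevBinF8 :=
  ⟨fun _ => rfl, fun _ => rfl, fun _ => rfl, fun _ => rfl,
    fun x => by simp only [sevPcF8b, sevBinF8, ev_add, ev_mul, Ex.eval],
    fun x => by
      simp only [sevPcF8b, sevBinF8, Piece.A, Piece.S, ev_add, ev_sub, ev_mul, Ex.eval]; push_cast; ring,
    rfl, rfl⟩

/-- The bin F8. -/
theorem sevBinF8_signs : Bin₂ sevBinF8 sevPcF8a sevPcF8b sevBoxF8a sevBoxF8b :=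
  ⟨sevBinF8_ok, ⟨sevPcF8a_cert, sevPcF8a_over, ⟨rfl, rfl, rfl, by norm_num [sevBoxF8a]⟩, rfl, rfl, rfl, rfl⟩,
    ⟨sevPcF8b_cert, sevPcF8b_over, ⟨rfl, rfl, rfl, by norm_num [sevBoxF8b]⟩, rfl, rfl, rfl, rfl⟩,
    by norm_num [sevBinF8, sevBoxF8a, sevBoxF8b], rfl, rfl, rfl, Or.inl rfl⟩

/-- The piece `F9a` over its chart. -/
theorem sevPcF9a_over : sevPcF9a.Over sevBinF9 :=
  ⟨fun _ => rfl, fun _ => rfl, fun _ => rfl, fun _ => rfl,
    fun x => by simp only [sevPcF9a, sevBinF9, ev_add, ev_mul, Ex.eval],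
    fun x => by
      simp only [sevPcF9a, sevBinF9, Piece.A, Piece.S, ev_add, ev_sub, ev_mul, Ex.eval]; push_cast; ring,
    rfl, rfl⟩

/-- The bin F9. -/
theorem sevBinF9_signs : Bin sevBinF9 sevPcF9a sevBoxF9a :=
  ⟨sevBinF9_ok, sevPcF9a_cert, sevPcF9a_over, ⟨rfl, rfl, rfl, rfl⟩, rfl, rfl, rfl, rfl, rfl, rfl, rfl, rfl⟩

/-- The piece `F10a` over its chart. -/
theorem sevPcF10a_over : sevPcF10a.Over sevBinF10 :=
  ⟨fun _ => rfl, fun _ => rfl, fun _ => rfl, fun _ => rfl,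
    fun x => by simp only [sevPcF10a, sevBinF10, ev_add, ev_mul, Ex.eval],
    fun x => by
      simp only [sevPcF10a, sevBinF10, Piece.A, Piece.S, ev_add, ev_sub, ev_mul, Ex.eval]; push_cast; ring,
    rfl, rfl⟩

/-- The bin F10. -/
theorem sevBinF10_signs : Bin sevBinF10 sevPcF10a sevBoxF10a :=
  ⟨sevBinF10_ok, sevPcF10a_cert, sevPcF10a_over, ⟨rfl, rfl, rfl, rfl⟩, rfl, rfl, rfl, rfl, rfl, rfl, rfl, rfl⟩

/-- The piece `G0a` over its chart. -/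
theorem sevPcG0a_over : sevPcG0a.Over sevBinG0 :=
  ⟨fun _ => rfl, fun _ => rfl, fun _ => rfl, fun _ => rfl,
    fun x => by simp only [sevPcG0a, sevBinG0, ev_add, ev_mul, Ex.eval],
    fun x => by
      simp only [sevPcG0a, sevBinG0, Piece.A, Piece.S, ev_add, ev_sub, ev_mul, Ex.eval]; push_cast; ring,
    rfl, rfl⟩

/-- The piece `G0b` over its chart. -/
theorem sevPcG0b_over : sevPcG0b.Over sevBinG0 :=
  ⟨fun _ => rfl, fun _ => rfl, fun _ => rfl, fun _ => rfl,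
    fun x => by simp only [sevPcG0b, sevBinG0, ev_add, ev_mul, Ex.eval],
    fun x => by
      simp only [sevPcG0b, sevBinG0, Piece.A, Piece.S, ev_add, ev_sub, ev_mul, Ex.eval]; push_cast; ring,
    rfl, rfl⟩

/-- The bin G0. -/
theorem sevBinG0_signs : Bin₂ sevBinG0 sevPcG0a sevPcG0b sevBoxG0a sevBoxG0b :=
  ⟨sevBinG0_ok, ⟨sevPcG0a_cert, sevPcG0a_over, ⟨rfl, rfl, rfl, by norm_num [sevBoxG0a]⟩, rfl, rfl, rfl, rfl⟩,
    ⟨sevPcG0b_cert, sevPcG0b_over, ⟨rfl, rfl, rfl, by norm_num [sevBoxG0b]⟩, rfl, rfl, rfl, rfl⟩,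
    by norm_num [sevBinG0, sevBoxG0a, sevBoxG0b], rfl, rfl, rfl, Or.inl rfl⟩

/-- The piece `G1a` over its chart. -/
theorem sevPcG1a_over : sevPcG1a.Over sevBinG1 :=
  ⟨fun _ => rfl, fun _ => rfl, fun _ => rfl, fun _ => rfl,
    fun x => by simp only [sevPcG1a, sevBinG1, ev_add, ev_mul, Ex.eval],
    fun x => by
      simp only [sevPcG1a, sevBinG1, Piece.A, Piece.S, ev_add, ev_sub, ev_mul, Ex.eval]; push_cast; ring,
    rfl, rfl⟩

/-- The bin G1. -/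
theorem sevBinG1_signs : Bin sevBinG1 sevPcG1a sevBoxG1a :=
  ⟨sevBinG1_ok, sevPcG1a_cert, sevPcG1a_over, ⟨rfl, rfl, rfl, rfl⟩, rfl, rfl, rfl, rfl, rfl, rfl, rfl, rfl⟩

/-- The piece `G2a` over its chart. -/
theorem sevPcG2a_over : sevPcG2a.Over sevBinG2 :=
  ⟨fun _ => rfl, fun _ => rfl, fun _ => rfl, fun _ => rfl,
    fun x => by simp only [sevPcG2a, sevBinG2, ev_add, ev_mul, Ex.eval],
    fun x => by
      simp only [sevPcG2a, sevBinG2, Piece.A, Piece.S, ev_add, ev_sub, ev_mul, Ex.eval]; push_cast; ring,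
    rfl, rfl⟩

/-- The bin G2. -/
theorem sevBinG2_signs : Bin sevBinG2 sevPcG2a sevBoxG2a :=
  ⟨sevBinG2_ok, sevPcG2a_cert, sevPcG2a_over, ⟨rfl, rfl, rfl, rfl⟩, rfl, rfl, rfl, rfl, rfl, rfl, rfl, rfl⟩

/-- The piece `G3a` over its chart. -/
theorem sevPcG3a_over : sevPcG3a.Over sevBinG3 :=
  ⟨fun _ => rfl, fun _ => rfl, fun _ => rfl, fun _ => rfl,
    fun x => by simp only [sevPcG3a, sevBinG3, ev_add, ev_mul, Ex.eval],
    fun x => by
      simp only [sevPcG3a, sevBinG3, Piece.A, Piece.S, ev_add, ev_sub, ev_mul, Ex.eval]; push_cast; ring,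
    rfl, rfl⟩

/-- The bin G3. -/
theorem sevBinG3_signs : Bin sevBinG3 sevPcG3a sevBoxG3a :=
  ⟨sevBinG3_ok, sevPcG3a_cert, sevPcG3a_over, ⟨rfl, rfl, rfl, rfl⟩, rfl, rfl, rfl, rfl, rfl, rfl, rfl, rfl⟩

/-- The piece `G4a` over its chart. -/
theorem sevPcG4a_over : sevPcG4a.Over sevBinG4 :=
  ⟨fun _ => rfl, fun _ => rfl, fun _ => rfl, fun _ => rfl,
    fun x => by simp only [sevPcG4a, sevBinG4, ev_add, ev_mul, Ex.eval],
    fun x => by
      simp only [sevPcG4a, sevBinG4, Piece.A, Piece.S, ev_add, ev_sub, ev_mul, Ex.eval]; push_cast; ring,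
    rfl, rfl⟩

/-- The piece `G4b` over its chart. -/
theorem sevPcG4b_over : sevPcG4b.Over sevBinG4 :=
  ⟨fun _ => rfl, fun _ => rfl, fun _ => rfl, fun _ => rfl,
    fun x => by simp only [sevPcG4b, sevBinG4, ev_add, ev_mul, Ex.eval],
    fun x => by
      simp only [sevPcG4b, sevBinG4, Piece.A, Piece.S, ev_add, ev_sub, ev_mul, Ex.eval]; push_cast; ring,
    rfl, rfl⟩

/-- The bin G4. -/
theorem sevBinG4_signs : Bin₂ sevBinG4 sevPcG4a sevPcG4b sevBoxG4a sevBoxG4b :=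
  ⟨sevBinG4_ok, ⟨sevPcG4a_cert, sevPcG4a_over, ⟨rfl, rfl, rfl, by norm_num [sevBoxG4a]⟩, rfl, rfl, rfl, rfl⟩,
    ⟨sevPcG4b_cert, sevPcG4b_over, ⟨rfl, rfl, rfl, by norm_num [sevBoxG4b]⟩, rfl, rfl, rfl, rfl⟩,
    by norm_num [sevBinG4, sevBoxG4a, sevBoxG4b], rfl, rfl, rfl, Or.inl rfl⟩

/-- The piece `G5a` over its chart. -/
theorem sevPcG5a_over : sevPcG5a.Over sevBinG5 :=
  ⟨fun _ => rfl, fun _ => rfl, fun _ => rfl, fun _ => rfl,
    fun x => by simp only [sevPcG5a, sevBinG5, ev_add, ev_mul, Ex.eval],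
    fun x => by
      simp only [sevPcG5a, sevBinG5, Piece.A, Piece.S, ev_add, ev_sub, ev_mul, Ex.eval]; push_cast; ring,
    rfl, rfl⟩

/-- The piece `G5b` over its chart. -/
theorem sevPcG5b_over : sevPcG5b.Over sevBinG5 :=
  ⟨fun _ => rfl, fun _ => rfl, fun _ => rfl, fun _ => rfl,
    fun x => by simp only [sevPcG5b, sevBinG5, ev_add, ev_mul, Ex.eval],
    fun x => by
      simp only [sevPcG5b, sevBinG5, Piece.A, Piece.S, ev_add, ev_sub, ev_mul, Ex.eval]; push_cast; ring,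
    rfl, rfl⟩

/-- The bin G5. -/
theorem sevBinG5_signs : Bin₂ sevBinG5 sevPcG5a sevPcG5b sevBoxG5a sevBoxG5b :=
  ⟨sevBinG5_ok, ⟨sevPcG5a_cert, sevPcG5a_over, ⟨rfl, rfl, rfl, by norm_num [sevBoxG5a]⟩, rfl, rfl, rfl, rfl⟩,
    ⟨sevPcG5b_cert, sevPcG5b_over, ⟨rfl, rfl, rfl, by norm_num [sevBoxG5b]⟩, rfl, rfl, rfl, rfl⟩,
    by norm_num [sevBinG5, sevBoxG5a, sevBoxG5b], rfl, rfl, rfl, Or.inl rfl⟩

/-- The piece `G6a` over its chart. -/
theorem sevPcG6a_over : sevPcG6a.Over sevBinG6 :=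
  ⟨fun _ => rfl, fun _ => rfl, fun _ => rfl, fun _ => rfl,
    fun x => by simp only [sevPcG6a, sevBinG6, ev_add, ev_mul, Ex.eval],
    fun x => by
      simp only [sevPcG6a, sevBinG6, Piece.A, Piece.S, ev_add, ev_sub, ev_mul, Ex.eval]; push_cast; ring,
    rfl, rfl⟩

/-- The piece `G6b` over its chart. -/
theorem sevPcG6b_over : sevPcG6b.Over sevBinG6 :=
  ⟨fun _ => rfl, fun _ => rfl, fun _ => rfl, fun _ => rfl,
    fun x => by simp only [sevPcG6b, sevBinG6, ev_add, ev_mul, Ex.eval],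
    fun x => by
      simp only [sevPcG6b, sevBinG6, Piece.A, Piece.S, ev_add, ev_sub, ev_mul, Ex.eval]; push_cast; ring,
    rfl, rfl⟩

/-- The bin G6. -/
theorem sevBinG6_signs : Bin₂ sevBinG6 sevPcG6a sevPcG6b sevBoxG6a sevBoxG6b :=
  ⟨sevBinG6_ok, ⟨sevPcG6a_cert, sevPcG6a_over, ⟨rfl, rfl, rfl, by norm_num [sevBoxG6a]⟩, rfl, rfl, rfl, rfl⟩,
    ⟨sevPcG6b_cert, sevPcG6b_over, ⟨rfl, rfl, rfl, by norm_num [sevBoxG6b]⟩, rfl, rfl, rfl, rfl⟩,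
    by norm_num [sevBinG6, sevBoxG6a, sevBoxG6b], rfl, rfl, rfl, Or.inl rfl⟩

/-- The piece `G7a` over its chart. -/
theorem sevPcG7a_over : sevPcG7a.Over sevBinG7 :=
  ⟨fun _ => rfl, fun _ => rfl, fun _ => rfl, fun _ => rfl,
    fun x => by simp only [sevPcG7a, sevBinG7, ev_add, ev_mul, Ex.eval],
    fun x => by
      simp only [sevPcG7a, sevBinG7, Piece.A, Piece.S, ev_add, ev_sub, ev_mul, Ex.eval]; push_cast; ring,
    rfl, rfl⟩

/-- The bin G7. -/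
theorem sevBinG7_signs : Bin sevBinG7 sevPcG7a sevBoxG7a :=
  ⟨sevBinG7_ok, sevPcG7a_cert, sevPcG7a_over, ⟨rfl, rfl, rfl, rfl⟩, rfl, rfl, rfl, rfl, rfl, rfl, rfl, rfl⟩

/-- The piece `H0a` over its chart. -/
theorem sevPcH0a_over : sevPcH0a.Over sevBinH0 :=
  ⟨fun _ => rfl, fun _ => rfl, fun _ => rfl, fun _ => rfl,
    fun x => by simp only [sevPcH0a, sevBinH0, ev_add, ev_mul, Ex.eval],
    fun x => by
      simp only [sevPcH0a, sevBinH0, Piece.A, Piece.S, ev_add, ev_sub, ev_mul, Ex.eval]; push_cast; ring,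
    rfl, rfl⟩

/-- The bin H0. -/
theorem sevBinH0_signs : Bin sevBinH0 sevPcH0a sevBoxH0a :=
  ⟨sevBinH0_ok, sevPcH0a_cert, sevPcH0a_over, ⟨rfl, rfl, rfl, rfl⟩, rfl, rfl, rfl, rfl, rfl, rfl, rfl, rfl⟩

/-- The piece `H1a` over its chart. -/
theorem sevPcH1a_over : sevPcH1a.Over sevBinH1 :=
  ⟨fun _ => rfl, fun _ => rfl, fun _ => rfl, fun _ => rfl,
    fun x => by simp only [sevPcH1a, sevBinH1, ev_add, ev_mul, Ex.eval],
    fun x => by
      simp only [sevPcH1a, sevBinH1, Piece.A, Piece.S, ev_add, ev_sub, ev_mul, Ex.eval]; push_cast; ring,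
    rfl, rfl⟩

/-- The bin H1. -/
theorem sevBinH1_signs : Bin sevBinH1 sevPcH1a sevBoxH1a :=
  ⟨sevBinH1_ok, sevPcH1a_cert, sevPcH1a_over, ⟨rfl, rfl, rfl, rfl⟩, rfl, rfl, rfl, rfl, rfl, rfl, rfl, rfl⟩

/-- The piece `H2a` over its chart. -/
theorem sevPcH2a_over : sevPcH2a.Over sevBinH2 :=
  ⟨fun _ => rfl, fun _ => rfl, fun _ => rfl, fun _ => rfl,
    fun x => by simp only [sevPcH2a, sevBinH2, ev_add, ev_mul, Ex.eval],
    fun x => by
      simp only [sevPcH2a, sevBinH2, Piece.A, Piece.S, ev_add, ev_sub, ev_mul, Ex.eval]; push_cast; ring,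
    rfl, rfl⟩

/-- The bin H2. -/
theorem sevBinH2_signs : Bin sevBinH2 sevPcH2a sevBoxH2a :=
  ⟨sevBinH2_ok, sevPcH2a_cert, sevPcH2a_over, ⟨rfl, rfl, rfl, rfl⟩, rfl, rfl, rfl, rfl, rfl, rfl, rfl, rfl⟩

/-- The piece `H3a` over its chart. -/
theorem sevPcH3a_over : sevPcH3a.Over sevBinH3 :=
  ⟨fun _ => rfl, fun _ => rfl, fun _ => rfl, fun _ => rfl,
    fun x => by simp only [sevPcH3a, sevBinH3, ev_add, ev_mul, Ex.eval],
    fun x => by
      simp only [sevPcH3a, sevBinH3, Piece.A, Piece.S, ev_add, ev_sub, ev_mul, Ex.eval]; push_cast; ring,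
    rfl, rfl⟩

/-- The bin H3. -/
theorem sevBinH3_signs : Bin sevBinH3 sevPcH3a sevBoxH3a :=
  ⟨sevBinH3_ok, sevPcH3a_cert, sevPcH3a_over, ⟨rfl, rfl, rfl, rfl⟩, rfl, rfl, rfl, rfl, rfl, rfl, rfl, rfl⟩

/-- The piece `H4a` over its chart. -/
theorem sevPcH4a_over : sevPcH4a.Over sevBinH4 :=
  ⟨fun _ => rfl, fun _ => rfl, fun _ => rfl, fun _ => rfl,
    fun x => by simp only [sevPcH4a, sevBinH4, ev_add, ev_mul, Ex.eval],
    fun x => by
      simp only [sevPcH4a, sevBinH4, Piece.A, Piece.S, ev_add, ev_sub, ev_mul, Ex.eval]; push_cast; ring,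
    rfl, rfl⟩

/-- The piece `H4b` over its chart. -/
theorem sevPcH4b_over : sevPcH4b.Over sevBinH4 :=
  ⟨fun _ => rfl, fun _ => rfl, fun _ => rfl, fun _ => rfl,
    fun x => by simp only [sevPcH4b, sevBinH4, ev_add, ev_mul, Ex.eval],
    fun x => by
      simp only [sevPcH4b, sevBinH4, Piece.A, Piece.S, ev_add, ev_sub, ev_mul, Ex.eval]; push_cast; ring,
    rfl, rfl⟩

/-- The bin H4. -/
theorem sevBinH4_signs : Bin₂ sevBinH4 sevPcH4a sevPcH4b sevBoxH4a sevBoxH4b :=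
  ⟨sevBinH4_ok, ⟨sevPcH4a_cert, sevPcH4a_over, ⟨rfl, rfl, rfl, by norm_num [sevBoxH4a]⟩, rfl, rfl, rfl, rfl⟩,
    ⟨sevPcH4b_cert, sevPcH4b_over, ⟨rfl, rfl, rfl, by norm_num [sevBoxH4b]⟩, rfl, rfl, rfl, rfl⟩,
    by norm_num [sevBinH4, sevBoxH4a, sevBoxH4b], rfl, rfl, rfl, Or.inl rfl⟩

/-- The piece `H5a` over its chart. -/
theorem sevPcH5a_over : sevPcH5a.Over sevBinH5 :=
  ⟨fun _ => rfl, fun _ => rfl, fun _ => rfl, fun _ => rfl,
    fun x => by simp only [sevPcH5a, sevBinH5, ev_add, ev_mul, Ex.eval],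
    fun x => by
      simp only [sevPcH5a, sevBinH5, Piece.A, Piece.S, ev_add, ev_sub, ev_mul, Ex.eval]; push_cast; ring,
    rfl, rfl⟩

/-- The piece `H5b` over its chart. -/
theorem sevPcH5b_over : sevPcH5b.Over sevBinH5 :=
  ⟨fun _ => rfl, fun _ => rfl, fun _ => rfl, fun _ => rfl,
    fun x => by simp only [sevPcH5b, sevBinH5, ev_add, ev_mul, Ex.eval],
    fun x => by
      simp only [sevPcH5b, sevBinH5, Piece.A, Piece.S, ev_add, ev_sub, ev_mul, Ex.eval]; push_cast; ring,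
    rfl, rfl⟩

/-- The bin H5. -/
theorem sevBinH5_signs : Bin₂ sevBinH5 sevPcH5a sevPcH5b sevBoxH5a sevBoxH5b :=
  ⟨sevBinH5_ok, ⟨sevPcH5a_cert, sevPcH5a_over, ⟨rfl, rfl, rfl, by norm_num [sevBoxH5a]⟩, rfl, rfl, rfl, rfl⟩,
    ⟨sevPcH5b_cert, sevPcH5b_over, ⟨rfl, rfl, rfl, by norm_num [sevBoxH5b]⟩, rfl, rfl, rfl, rfl⟩,
    by norm_num [sevBinH5, sevBoxH5a, sevBoxH5b], rfl, rfl, rfl, Or.inl rfl⟩

/-- The piece `H6a` over its chart. -/
theorem sevPcH6a_over : sevPcH6a.Over sevBinH6 :=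
  ⟨fun _ => rfl, fun _ => rfl, fun _ => rfl, fun _ => rfl,
    fun x => by simp only [sevPcH6a, sevBinH6, ev_add, ev_mul, Ex.eval],
    fun x => by
      simp only [sevPcH6a, sevBinH6, Piece.A, Piece.S, ev_add, ev_sub, ev_mul, Ex.eval]; push_cast; ring,
    rfl, rfl⟩

/-- The bin H6. -/
theorem sevBinH6_signs : Bin sevBinH6 sevPcH6a sevBoxH6a :=
  ⟨sevBinH6_ok, sevPcH6a_cert, sevPcH6a_over, ⟨rfl, rfl, rfl, rfl⟩, rfl, rfl, rfl, rfl, rfl, rfl, rfl, rfl⟩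

/-- The piece `H7a` over its chart. -/
theorem sevPcH7a_over : sevPcH7a.Over sevBinH7 :=
  ⟨fun _ => rfl, fun _ => rfl, fun _ => rfl, fun _ => rfl,
    fun x => by simp only [sevPcH7a, sevBinH7, ev_add, ev_mul, Ex.eval],
    fun x => by
      simp only [sevPcH7a, sevBinH7, Piece.A, Piece.S, ev_add, ev_sub, ev_mul, Ex.eval]; push_cast; ring,
    rfl, rfl⟩

/-- The bin H7. -/
theorem sevBinH7_signs : Bin sevBinH7 sevPcH7a sevBoxH7a :=
  ⟨sevBinH7_ok, sevPcH7a_cert, sevPcH7a_over, ⟨rfl, rfl, rfl, rfl⟩, rfl, rfl, rfl, rfl, rfl, rfl, rfl, rfl⟩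

/-- The piece `J0a` over its chart. -/
theorem sevPcJ0a_over : sevPcJ0a.Over sevBinJ0 :=
  ⟨fun _ => rfl, fun _ => rfl, fun _ => rfl, fun _ => rfl,
    fun x => by simp only [sevPcJ0a, sevBinJ0, ev_add, ev_mul, Ex.eval],
    fun x => by
      simp only [sevPcJ0a, sevBinJ0, Piece.A, Piece.S, ev_add, ev_sub, ev_mul, Ex.eval]; push_cast; ring,
    rfl, rfl⟩

/-- The piece `J0b` over its chart. -/
theorem sevPcJ0b_over : sevPcJ0b.Over sevBinJ0 :=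
  ⟨fun _ => rfl, fun _ => rfl, fun _ => rfl, fun _ => rfl,
    fun x => by simp only [sevPcJ0b, sevBinJ0, ev_add, ev_mul, Ex.eval],
    fun x => by
      simp only [sevPcJ0b, sevBinJ0, Piece.A, Piece.S, ev_add, ev_sub, ev_mul, Ex.eval]; push_cast; ring,
    rfl, rfl⟩

/-- The bin J0. -/
theorem sevBinJ0_signs : Bin₂ sevBinJ0 sevPcJ0a sevPcJ0b sevBoxJ0a sevBoxJ0b :=
  ⟨sevBinJ0_ok, ⟨sevPcJ0a_cert, sevPcJ0a_over, ⟨rfl, rfl, rfl, by norm_num [sevBoxJ0a]⟩, rfl, rfl, rfl, rfl⟩,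
    ⟨sevPcJ0b_cert, sevPcJ0b_over, ⟨rfl, rfl, rfl, by norm_num [sevBoxJ0b]⟩, rfl, rfl, rfl, rfl⟩,
    by norm_num [sevBinJ0, sevBoxJ0a, sevBoxJ0b], rfl, rfl, rfl, Or.inl rfl⟩

/-- The piece `J1a` over its chart. -/
theorem sevPcJ1a_over : sevPcJ1a.Over sevBinJ1 :=
  ⟨fun _ => rfl, fun _ => rfl, fun _ => rfl, fun _ => rfl,
    fun x => by simp only [sevPcJ1a, sevBinJ1, ev_add, ev_mul, Ex.eval],
    fun x => by
      simp only [sevPcJ1a, sevBinJ1, Piece.A, Piece.S, ev_add, ev_sub, ev_mul, Ex.eval]; push_cast; ring,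
    rfl, rfl⟩

/-- The bin J1. -/
theorem sevBinJ1_signs : Bin sevBinJ1 sevPcJ1a sevBoxJ1a :=
  ⟨sevBinJ1_ok, sevPcJ1a_cert, sevPcJ1a_over, ⟨rfl, rfl, rfl, rfl⟩, rfl, rfl, rfl, rfl, rfl, rfl, rfl, rfl⟩

/-- The piece `J2a` over its chart. -/
theorem sevPcJ2a_over : sevPcJ2a.Over sevBinJ2 :=
  ⟨fun _ => rfl, fun _ => rfl, fun _ => rfl, fun _ => rfl,
    fun x => by simp only [sevPcJ2a, sevBinJ2, ev_add, ev_mul, Ex.eval],
    fun x => by
      simp only [sevPcJ2a, sevBinJ2, Piece.A, Piece.S, ev_add, ev_sub, ev_mul, Ex.eval]; push_cast; ring,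
    rfl, rfl⟩

/-- The bin J2. -/
theorem sevBinJ2_signs : Bin sevBinJ2 sevPcJ2a sevBoxJ2a :=
  ⟨sevBinJ2_ok, sevPcJ2a_cert, sevPcJ2a_over, ⟨rfl, rfl, rfl, rfl⟩, rfl, rfl, rfl, rfl, rfl, rfl, rfl, rfl⟩

/-- The piece `J3a` over its chart. -/
theorem sevPcJ3a_over : sevPcJ3a.Over sevBinJ3 :=
  ⟨fun _ => rfl, fun _ => rfl, fun _ => rfl, fun _ => rfl,
    fun x => by simp only [sevPcJ3a, sevBinJ3, ev_add, ev_mul, Ex.eval],
    fun x => by
      simp only [sevPcJ3a, sevBinJ3, Piece.A, Piece.S, ev_add, ev_sub, ev_mul, Ex.eval]; push_cast; ring,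
    rfl, rfl⟩

/-- The piece `J3b` over its chart. -/
theorem sevPcJ3b_over : sevPcJ3b.Over sevBinJ3 :=
  ⟨fun _ => rfl, fun _ => rfl, fun _ => rfl, fun _ => rfl,
    fun x => by simp only [sevPcJ3b, sevBinJ3, ev_add, ev_mul, Ex.eval],
    fun x => by
      simp only [sevPcJ3b, sevBinJ3, Piece.A, Piece.S, ev_add, ev_sub, ev_mul, Ex.eval]; push_cast; ring,
    rfl, rfl⟩

/-- The bin J3. -/
theorem sevBinJ3_signs : Bin₂ sevBinJ3 sevPcJ3a sevPcJ3b sevBoxJ3a sevBoxJ3b :=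
  ⟨sevBinJ3_ok, ⟨sevPcJ3a_cert, sevPcJ3a_over, ⟨rfl, rfl, rfl, by norm_num [sevBoxJ3a]⟩, rfl, rfl, rfl, rfl⟩,
    ⟨sevPcJ3b_cert, sevPcJ3b_over, ⟨rfl, rfl, rfl, by norm_num [sevBoxJ3b]⟩, rfl, rfl, rfl, rfl⟩,
    by norm_num [sevBinJ3, sevBoxJ3a, sevBoxJ3b], rfl, rfl, rfl, Or.inl rfl⟩

/-- The piece `J4a` over its chart. -/
theorem sevPcJ4a_over : sevPcJ4a.Over sevBinJ4 :=
  ⟨fun _ => rfl, fun _ => rfl, fun _ => rfl, fun _ => rfl,
    fun x => by simp only [sevPcJ4a, sevBinJ4, ev_add, ev_mul, Ex.eval],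
    fun x => by
      simp only [sevPcJ4a, sevBinJ4, Piece.A, Piece.S, ev_add, ev_sub, ev_mul, Ex.eval]; push_cast; ring,
    rfl, rfl⟩

/-- The piece `J4b` over its chart. -/
theorem sevPcJ4b_over : sevPcJ4b.Over sevBinJ4 :=
  ⟨fun _ => rfl, fun _ => rfl, fun _ => rfl, fun _ => rfl,
    fun x => by simp only [sevPcJ4b, sevBinJ4, ev_add, ev_mul, Ex.eval],
    fun x => by
      simp only [sevPcJ4b, sevBinJ4, Piece.A, Piece.S, ev_add, ev_sub, ev_mul, Ex.eval]; push_cast; ring,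
    rfl, rfl⟩

/-- The bin J4. -/
theorem sevBinJ4_signs : Bin₂ sevBinJ4 sevPcJ4a sevPcJ4b sevBoxJ4a sevBoxJ4b :=
  ⟨sevBinJ4_ok, ⟨sevPcJ4a_cert, sevPcJ4a_over, ⟨rfl, rfl, rfl, by norm_num [sevBoxJ4a]⟩, rfl, rfl, rfl, rfl⟩,
    ⟨sevPcJ4b_cert, sevPcJ4b_over, ⟨rfl, rfl, rfl, by norm_num [sevBoxJ4b]⟩, rfl, rfl, rfl, rfl⟩,
    by norm_num [sevBinJ4, sevBoxJ4a, sevBoxJ4b], rfl, rfl, rfl, Or.inl rfl⟩

/-- The piece `J5a` over its chart. -/
theorem sevPcJ5a_over : sevPcJ5a.Over sevBinJ5 :=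
  ⟨fun _ => rfl, fun _ => rfl, fun _ => rfl, fun _ => rfl,
    fun x => by simp only [sevPcJ5a, sevBinJ5, ev_add, ev_mul, Ex.eval],
    fun x => by
      simp only [sevPcJ5a, sevBinJ5, Piece.A, Piece.S, ev_add, ev_sub, ev_mul, Ex.eval]; push_cast; ring,
    rfl, rfl⟩

/-- The piece `J5b` over its chart. -/
theorem sevPcJ5b_over : sevPcJ5b.Over sevBinJ5 :=
  ⟨fun _ => rfl, fun _ => rfl, fun _ => rfl, fun _ => rfl,
    fun x => by simp only [sevPcJ5b, sevBinJ5, ev_add, ev_mul, Ex.eval],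
    fun x => by
      simp only [sevPcJ5b, sevBinJ5, Piece.A, Piece.S, ev_add, ev_sub, ev_mul, Ex.eval]; push_cast; ring,
    rfl, rfl⟩

/-- The bin J5. -/
theorem sevBinJ5_signs : Bin₂ sevBinJ5 sevPcJ5a sevPcJ5b sevBoxJ5a sevBoxJ5b :=
  ⟨sevBinJ5_ok, ⟨sevPcJ5a_cert, sevPcJ5a_over, ⟨rfl, rfl, rfl, by norm_num [sevBoxJ5a]⟩, rfl, rfl, rfl, rfl⟩,
    ⟨sevPcJ5b_cert, sevPcJ5b_over, ⟨rfl, rfl, rfl, by norm_num [sevBoxJ5b]⟩, rfl, rfl, rfl, rfl⟩,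
    by norm_num [sevBinJ5, sevBoxJ5a, sevBoxJ5b], rfl, rfl, rfl, Or.inr rfl⟩

/-- The piece `J6a` over its chart. -/
theorem sevPcJ6a_over : sevPcJ6a.Over sevBinJ6 :=
  ⟨fun _ => rfl, fun _ => rfl, fun _ => rfl, fun _ => rfl,
    fun x => by simp only [sevPcJ6a, sevBinJ6, ev_add, ev_mul, Ex.eval],
    fun x => by
      simp only [sevPcJ6a, sevBinJ6, Piece.A, Piece.S, ev_add, ev_sub, ev_mul, Ex.eval]; push_cast; ring,
    rfl, rfl⟩

/-- The bin J6. -/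
theorem sevBinJ6_signs : Bin₂ sevBinJ6 sevPcJ6a sevPcJ6a sevBoxJ6a sevBoxJ6a :=
  ⟨sevBinJ6_ok, ⟨sevPcJ6a_cert, sevPcJ6a_over, ⟨rfl, rfl, rfl, by norm_num [sevBoxJ6a]⟩, rfl, rfl, rfl, rfl⟩,
    ⟨sevPcJ6a_cert, sevPcJ6a_over, ⟨rfl, rfl, rfl, by norm_num [sevBoxJ6a]⟩, rfl, rfl, rfl, rfl⟩,
    by norm_num [sevBinJ6, sevBoxJ6a], rfl, rfl, rfl, Or.inr rfl⟩

/-- The piece `J7a` over its chart. -/
theorem sevPcJ7a_over : sevPcJ7a.Over sevBinJ7 :=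
  ⟨fun _ => rfl, fun _ => rfl, fun _ => rfl, fun _ => rfl,
    fun x => by simp only [sevPcJ7a, sevBinJ7, ev_add, ev_mul, Ex.eval],
    fun x => by
      simp only [sevPcJ7a, sevBinJ7, Piece.A, Piece.S, ev_add, ev_sub, ev_mul, Ex.eval]; push_cast; ring,
    rfl, rfl⟩

/-- The bin J7. -/
theorem sevBinJ7_signs : Bin₂ sevBinJ7 sevPcJ7a sevPcJ7a sevBoxJ7a sevBoxJ7a :=
  ⟨sevBinJ7_ok, ⟨sevPcJ7a_cert, sevPcJ7a_over, ⟨rfl, rfl, rfl, by norm_num [sevBoxJ7a]⟩, rfl, rfl, rfl, rfl⟩,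
    ⟨sevPcJ7a_cert, sevPcJ7a_over, ⟨rfl, rfl, rfl, by norm_num [sevBoxJ7a]⟩, rfl, rfl, rfl, rfl⟩,
    by norm_num [sevBinJ7, sevBoxJ7a], rfl, rfl, rfl, Or.inr rfl⟩

/-- The piece `K0a` over its chart. -/
theorem sevPcK0a_over : sevPcK0a.Over sevBinK0 :=
  ⟨fun _ => rfl, fun _ => rfl, fun _ => rfl, fun _ => rfl,
    fun x => by simp only [sevPcK0a, sevBinK0, ev_add, ev_mul, Ex.eval],
    fun x => by
      simp only [sevPcK0a, sevBinK0, Piece.A, Piece.S, ev_add, ev_sub, ev_mul, Ex.eval]; push_cast; ring,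
    rfl, rfl⟩

/-- The bin K0. -/
theorem sevBinK0_signs : Bin sevBinK0 sevPcK0a sevBoxK0a :=
  ⟨sevBinK0_ok, sevPcK0a_cert, sevPcK0a_over, ⟨rfl, rfl, rfl, rfl⟩, rfl, rfl, rfl, rfl, rfl, rfl, rfl, rfl⟩

/-- The piece `K1a` over its chart. -/
theorem sevPcK1a_over : sevPcK1a.Over sevBinK1 :=
  ⟨fun _ => rfl, fun _ => rfl, fun _ => rfl, fun _ => rfl,
    fun x => by simp only [sevPcK1a, sevBinK1, ev_add, ev_mul, Ex.eval],
    fun x => by
      simp only [sevPcK1a, sevBinK1, Piece.A, Piece.S, ev_add, ev_sub, ev_mul, Ex.eval]; push_cast; ring,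
    rfl, rfl⟩

/-- The bin K1. -/
theorem sevBinK1_signs : Bin sevBinK1 sevPcK1a sevBoxK1a :=
  ⟨sevBinK1_ok, sevPcK1a_cert, sevPcK1a_over, ⟨rfl, rfl, rfl, rfl⟩, rfl, rfl, rfl, rfl, rfl, rfl, rfl, rfl⟩

/-- The piece `K2a` over its chart. -/
theorem sevPcK2a_over : sevPcK2a.Over sevBinK2 :=
  ⟨fun _ => rfl, fun _ => rfl, fun _ => rfl, fun _ => rfl,
    fun x => by simp only [sevPcK2a, sevBinK2, ev_add, ev_mul, Ex.eval],
    fun x => by
      simp only [sevPcK2a, sevBinK2, Piece.A, Piece.S, ev_add, ev_sub, ev_mul, Ex.eval]; push_cast; ring,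
    rfl, rfl⟩

/-- The bin K2. -/
theorem sevBinK2_signs : Bin sevBinK2 sevPcK2a sevBoxK2a :=
  ⟨sevBinK2_ok, sevPcK2a_cert, sevPcK2a_over, ⟨rfl, rfl, rfl, rfl⟩, rfl, rfl, rfl, rfl, rfl, rfl, rfl, rfl⟩

/-- The piece `K3a` over its chart. -/
theorem sevPcK3a_over : sevPcK3a.Over sevBinK3 :=
  ⟨fun _ => rfl, fun _ => rfl, fun _ => rfl, fun _ => rfl,
    fun x => by simp only [sevPcK3a, sevBinK3, ev_add, ev_mul, Ex.eval],
    fun x => by
      simp only [sevPcK3a, sevBinK3, Piece.A, Piece.S, ev_add, ev_sub, ev_mul, Ex.eval]; push_cast; ring,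
    rfl, rfl⟩

/-- The bin K3. -/
theorem sevBinK3_signs : Bin sevBinK3 sevPcK3a sevBoxK3a :=
  ⟨sevBinK3_ok, sevPcK3a_cert, sevPcK3a_over, ⟨rfl, rfl, rfl, rfl⟩, rfl, rfl, rfl, rfl, rfl, rfl, rfl, rfl⟩

/-- The piece `K4a` over its chart. -/
theorem sevPcK4a_over : sevPcK4a.Over sevBinK4 :=
  ⟨fun _ => rfl, fun _ => rfl, fun _ => rfl, fun _ => rfl,
    fun x => by simp only [sevPcK4a, sevBinK4, ev_add, ev_mul, Ex.eval],
    fun x => by
      simp only [sevPcK4a, sevBinK4, Piece.A, Piece.S, ev_add, ev_sub, ev_mul, Ex.eval]; push_cast; ring,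
    rfl, rfl⟩

/-- The bin K4. -/
theorem sevBinK4_signs : Bin sevBinK4 sevPcK4a sevBoxK4a :=
  ⟨sevBinK4_ok, sevPcK4a_cert, sevPcK4a_over, ⟨rfl, rfl, rfl, rfl⟩, rfl, rfl, rfl, rfl, rfl, rfl, rfl, rfl⟩

/-- The piece `K5a` over its chart. -/
theorem sevPcK5a_over : sevPcK5a.Over sevBinK5 :=
  ⟨fun _ => rfl, fun _ => rfl, fun _ => rfl, fun _ => rfl,
    fun x => by simp only [sevPcK5a, sevBinK5, ev_add, ev_mul, Ex.eval],
    fun x => by
      simp only [sevPcK5a, sevBinK5, Piece.A, Piece.S, ev_add, ev_sub, ev_mul, Ex.eval]; push_cast; ring,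
    rfl, rfl⟩

/-- The bin K5. -/
theorem sevBinK5_signs : Bin sevBinK5 sevPcK5a sevBoxK5a :=
  ⟨sevBinK5_ok, sevPcK5a_cert, sevPcK5a_over, ⟨rfl, rfl, rfl, rfl⟩, rfl, rfl, rfl, rfl, rfl, rfl, rfl, rfl⟩

/-- The piece `L0a` over its chart. -/
theorem sevPcL0a_over : sevPcL0a.Over sevBinL0 :=
  ⟨fun _ => rfl, fun _ => rfl, fun _ => rfl, fun _ => rfl,
    fun x => by simp only [sevPcL0a, sevBinL0, ev_add, ev_mul, Ex.eval],
    fun x => by
      simp only [sevPcL0a, sevBinL0, Piece.A, Piece.S, ev_add, ev_sub, ev_mul, Ex.eval]; push_cast; ring,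
    rfl, rfl⟩

/-- The piece `L0b` over its chart. -/
theorem sevPcL0b_over : sevPcL0b.Over sevBinL0 :=
  ⟨fun _ => rfl, fun _ => rfl, fun _ => rfl, fun _ => rfl,
    fun x => by simp only [sevPcL0b, sevBinL0, ev_add, ev_mul, Ex.eval],
    fun x => by
      simp only [sevPcL0b, sevBinL0, Piece.A, Piece.S, ev_add, ev_sub, ev_mul, Ex.eval]; push_cast; ring,
    rfl, rfl⟩

/-- The bin L0. -/
theorem sevBinL0_signs : Bin₂ sevBinL0 sevPcL0a sevPcL0b sevBoxL0a sevBoxL0b :=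
  ⟨sevBinL0_ok, ⟨sevPcL0a_cert, sevPcL0a_over, ⟨rfl, rfl, rfl, by norm_num [sevBoxL0a]⟩, rfl, rfl, rfl, rfl⟩,
    ⟨sevPcL0b_cert, sevPcL0b_over, ⟨rfl, rfl, rfl, by norm_num [sevBoxL0b]⟩, rfl, rfl, rfl, rfl⟩,
    by norm_num [sevBinL0, sevBoxL0a, sevBoxL0b], rfl, rfl, rfl, Or.inl rfl⟩

/-- The piece `L1a` over its chart. -/
theorem sevPcL1a_over : sevPcL1a.Over sevBinL1 :=
  ⟨fun _ => rfl, fun _ => rfl, fun _ => rfl, fun _ => rfl,
    fun x => by simp only [sevPcL1a, sevBinL1, ev_add, ev_mul, Ex.eval],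
    fun x => by
      simp only [sevPcL1a, sevBinL1, Piece.A, Piece.S, ev_add, ev_sub, ev_mul, Ex.eval]; push_cast; ring,
    rfl, rfl⟩

/-- The bin L1. -/
theorem sevBinL1_signs : Bin sevBinL1 sevPcL1a sevBoxL1a :=
  ⟨sevBinL1_ok, sevPcL1a_cert, sevPcL1a_over, ⟨rfl, rfl, rfl, rfl⟩, rfl, rfl, rfl, rfl, rfl, rfl, rfl, rfl⟩

/-- The piece `L2a` over its chart. -/
theorem sevPcL2a_over : sevPcL2a.Over sevBinL2 :=
  ⟨fun _ => rfl, fun _ => rfl, fun _ => rfl, fun _ => rfl,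
    fun x => by simp only [sevPcL2a, sevBinL2, ev_add, ev_mul, Ex.eval],
    fun x => by
      simp only [sevPcL2a, sevBinL2, Piece.A, Piece.S, ev_add, ev_sub, ev_mul, Ex.eval]; push_cast; ring,
    rfl, rfl⟩

/-- The bin L2. -/
theorem sevBinL2_signs : Bin sevBinL2 sevPcL2a sevBoxL2a :=
  ⟨sevBinL2_ok, sevPcL2a_cert, sevPcL2a_over, ⟨rfl, rfl, rfl, rfl⟩, rfl, rfl, rfl, rfl, rfl, rfl, rfl, rfl⟩

/-- The piece `L3a` over its chart. -/
theorem sevPcL3a_over : sevPcL3a.Over sevBinL3 :=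
  ⟨fun _ => rfl, fun _ => rfl, fun _ => rfl, fun _ => rfl,
    fun x => by simp only [sevPcL3a, sevBinL3, ev_add, ev_mul, Ex.eval],
    fun x => by
      simp only [sevPcL3a, sevBinL3, Piece.A, Piece.S, ev_add, ev_sub, ev_mul, Ex.eval]; push_cast; ring,
    rfl, rfl⟩

/-- The piece `L3b` over its chart. -/
theorem sevPcL3b_over : sevPcL3b.Over sevBinL3 :=
  ⟨fun _ => rfl, fun _ => rfl, fun _ => rfl, fun _ => rfl,
    fun x => by simp only [sevPcL3b, sevBinL3, ev_add, ev_mul, Ex.eval],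
    fun x => by
      simp only [sevPcL3b, sevBinL3, Piece.A, Piece.S, ev_add, ev_sub, ev_mul, Ex.eval]; push_cast; ring,
    rfl, rfl⟩

/-- The bin L3. -/
theorem sevBinL3_signs : Bin₂ sevBinL3 sevPcL3a sevPcL3b sevBoxL3a sevBoxL3b :=
  ⟨sevBinL3_ok, ⟨sevPcL3a_cert, sevPcL3a_over, ⟨rfl, rfl, rfl, by norm_num [sevBoxL3a]⟩, rfl, rfl, rfl, rfl⟩,
    ⟨sevPcL3b_cert, sevPcL3b_over, ⟨rfl, rfl, rfl, by norm_num [sevBoxL3b]⟩, rfl, rfl, rfl, rfl⟩,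
    by norm_num [sevBinL3, sevBoxL3a, sevBoxL3b], rfl, rfl, rfl, Or.inl rfl⟩

/-- The piece `L4a` over its chart. -/
theorem sevPcL4a_over : sevPcL4a.Over sevBinL4 :=
  ⟨fun _ => rfl, fun _ => rfl, fun _ => rfl, fun _ => rfl,
    fun x => by simp only [sevPcL4a, sevBinL4, ev_add, ev_mul, Ex.eval],
    fun x => by
      simp only [sevPcL4a, sevBinL4, Piece.A, Piece.S, ev_add, ev_sub, ev_mul, Ex.eval]; push_cast; ring,
    rfl, rfl⟩

/-- The piece `L4b` over its chart. -/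
theorem sevPcL4b_over : sevPcL4b.Over sevBinL4 :=
  ⟨fun _ => rfl, fun _ => rfl, fun _ => rfl, fun _ => rfl,
    fun x => by simp only [sevPcL4b, sevBinL4, ev_add, ev_mul, Ex.eval],
    fun x => by
      simp only [sevPcL4b, sevBinL4, Piece.A, Piece.S, ev_add, ev_sub, ev_mul, Ex.eval]; push_cast; ring,
    rfl, rfl⟩

/-- The bin L4. -/
theorem sevBinL4_signs : Bin₂ sevBinL4 sevPcL4a sevPcL4b sevBoxL4a sevBoxL4b :=
  ⟨sevBinL4_ok, ⟨sevPcL4a_cert, sevPcL4a_over, ⟨rfl, rfl, rfl, by norm_num [sevBoxL4a]⟩, rfl, rfl, rfl, rfl⟩,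
    ⟨sevPcL4b_cert, sevPcL4b_over, ⟨rfl, rfl, rfl, by norm_num [sevBoxL4b]⟩, rfl, rfl, rfl, rfl⟩,
    by norm_num [sevBinL4, sevBoxL4a, sevBoxL4b], rfl, rfl, rfl, Or.inl rfl⟩

/-- The piece `L5a` over its chart. -/
theorem sevPcL5a_over : sevPcL5a.Over sevBinL5 :=
  ⟨fun _ => rfl, fun _ => rfl, fun _ => rfl, fun _ => rfl,
    fun x => by simp only [sevPcL5a, sevBinL5, ev_add, ev_mul, Ex.eval],
    fun x => by
      simp only [sevPcL5a, sevBinL5, Piece.A, Piece.S, ev_add, ev_sub, ev_mul, Ex.eval]; push_cast; ring,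
    rfl, rfl⟩

/-- The piece `L5b` over its chart. -/
theorem sevPcL5b_over : sevPcL5b.Over sevBinL5 :=
  ⟨fun _ => rfl, fun _ => rfl, fun _ => rfl, fun _ => rfl,
    fun x => by simp only [sevPcL5b, sevBinL5, ev_add, ev_mul, Ex.eval],
    fun x => by
      simp only [sevPcL5b, sevBinL5, Piece.A, Piece.S, ev_add, ev_sub, ev_mul, Ex.eval]; push_cast; ring,
    rfl, rfl⟩

/-- The bin L5. -/
theorem sevBinL5_signs : Bin₂ sevBinL5 sevPcL5a sevPcL5b sevBoxL5a sevBoxL5b :=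
  ⟨sevBinL5_ok, ⟨sevPcL5a_cert, sevPcL5a_over, ⟨rfl, rfl, rfl, by norm_num [sevBoxL5a]⟩, rfl, rfl, rfl, rfl⟩,
    ⟨sevPcL5b_cert, sevPcL5b_over, ⟨rfl, rfl, rfl, by norm_num [sevBoxL5b]⟩, rfl, rfl, rfl, rfl⟩,
    by norm_num [sevBinL5, sevBoxL5a, sevBoxL5b], rfl, rfl, rfl, Or.inl rfl⟩

/-- The piece `L6a` over its chart. -/
theorem sevPcL6a_over : sevPcL6a.Over sevBinL6 :=
  ⟨fun _ => rfl, fun _ => rfl, fun _ => rfl, fun _ => rfl,
    fun x => by simp only [sevPcL6a, sevBinL6, ev_add, ev_mul, Ex.eval],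
    fun x => by
      simp only [sevPcL6a, sevBinL6, Piece.A, Piece.S, ev_add, ev_sub, ev_mul, Ex.eval]; push_cast; ring,
    rfl, rfl⟩

/-- The piece `L6b` over its chart. -/
theorem sevPcL6b_over : sevPcL6b.Over sevBinL6 :=
  ⟨fun _ => rfl, fun _ => rfl, fun _ => rfl, fun _ => rfl,
    fun x => by simp only [sevPcL6b, sevBinL6, ev_add, ev_mul, Ex.eval],
    fun x => by
      simp only [sevPcL6b, sevBinL6, Piece.A, Piece.S, ev_add, ev_sub, ev_mul, Ex.eval]; push_cast; ring,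
    rfl, rfl⟩

/-- The bin L6. -/
theorem sevBinL6_signs : Bin₂ sevBinL6 sevPcL6a sevPcL6b sevBoxL6a sevBoxL6b :=
  ⟨sevBinL6_ok, ⟨sevPcL6a_cert, sevPcL6a_over, ⟨rfl, rfl, rfl, by norm_num [sevBoxL6a]⟩, rfl, rfl, rfl, rfl⟩,
    ⟨sevPcL6b_cert, sevPcL6b_over, ⟨rfl, rfl, rfl, by norm_num [sevBoxL6b]⟩, rfl, rfl, rfl, rfl⟩,
    by norm_num [sevBinL6, sevBoxL6a, sevBoxL6b], rfl, rfl, rfl, Or.inl rfl⟩

/-- The piece `L7a` over its chart. -/
theorem sevPcL7a_over : sevPcL7a.Over sevBinL7 :=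
  ⟨fun _ => rfl, fun _ => rfl, fun _ => rfl, fun _ => rfl,
    fun x => by simp only [sevPcL7a, sevBinL7, ev_add, ev_mul, Ex.eval],
    fun x => by
      simp only [sevPcL7a, sevBinL7, Piece.A, Piece.S, ev_add, ev_sub, ev_mul, Ex.eval]; push_cast; ring,
    rfl, rfl⟩

/-- The bin L7. -/
theorem sevBinL7_signs : Bin sevBinL7 sevPcL7a sevBoxL7a :=
  ⟨sevBinL7_ok, sevPcL7a_cert, sevPcL7a_over, ⟨rfl, rfl, rfl, rfl⟩, rfl, rfl, rfl, rfl, rfl, rfl, rfl, rfl⟩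

/-- The piece `M0a` over its chart. -/
theorem sevPcM0a_over : sevPcM0a.Over sevBinM0 :=
  ⟨fun _ => rfl, fun _ => rfl, fun _ => rfl, fun _ => rfl,
    fun x => by simp only [sevPcM0a, sevBinM0, ev_add, ev_mul, Ex.eval],
    fun x => by
      simp only [sevPcM0a, sevBinM0, Piece.A, Piece.S, ev_add, ev_sub, ev_mul, Ex.eval]; push_cast; ring,
    rfl, rfl⟩

/-- The bin M0. -/
theorem sevBinM0_signs : Bin sevBinM0 sevPcM0a sevBoxM0a :=
  ⟨sevBinM0_ok, sevPcM0a_cert, sevPcM0a_over, ⟨rfl, rfl, rfl, rfl⟩, rfl, rfl, rfl, rfl, rfl, rfl, rfl, rfl⟩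

/-- The piece `M1a` over its chart. -/
theorem sevPcM1a_over : sevPcM1a.Over sevBinM1 :=
  ⟨fun _ => rfl, fun _ => rfl, fun _ => rfl, fun _ => rfl,
    fun x => by simp only [sevPcM1a, sevBinM1, ev_add, ev_mul, Ex.eval],
    fun x => by
      simp only [sevPcM1a, sevBinM1, Piece.A, Piece.S, ev_add, ev_sub, ev_mul, Ex.eval]; push_cast; ring,
    rfl, rfl⟩

/-- The bin M1. -/
theorem sevBinM1_signs : Bin sevBinM1 sevPcM1a sevBoxM1a :=
  ⟨sevBinM1_ok, sevPcM1a_cert, sevPcM1a_over, ⟨rfl, rfl, rfl, rfl⟩, rfl, rfl, rfl, rfl, rfl, rfl, rfl, rfl⟩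

/-- The piece `M2a` over its chart. -/
theorem sevPcM2a_over : sevPcM2a.Over sevBinM2 :=
  ⟨fun _ => rfl, fun _ => rfl, fun _ => rfl, fun _ => rfl,
    fun x => by simp only [sevPcM2a, sevBinM2, ev_add, ev_mul, Ex.eval],
    fun x => by
      simp only [sevPcM2a, sevBinM2, Piece.A, Piece.S, ev_add, ev_sub, ev_mul, Ex.eval]; push_cast; ring,
    rfl, rfl⟩

/-- The bin M2. -/
theorem sevBinM2_signs : Bin sevBinM2 sevPcM2a sevBoxM2a :=
  ⟨sevBinM2_ok, sevPcM2a_cert, sevPcM2a_over, ⟨rfl, rfl, rfl, rfl⟩, rfl, rfl, rfl, rfl, rfl, rfl, rfl, rfl⟩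

/-- The piece `M3a` over its chart. -/
theorem sevPcM3a_over : sevPcM3a.Over sevBinM3 :=
  ⟨fun _ => rfl, fun _ => rfl, fun _ => rfl, fun _ => rfl,
    fun x => by simp only [sevPcM3a, sevBinM3, ev_add, ev_mul, Ex.eval],
    fun x => by
      simp only [sevPcM3a, sevBinM3, Piece.A, Piece.S, ev_add, ev_sub, ev_mul, Ex.eval]; push_cast; ring,
    rfl, rfl⟩

/-- The bin M3. -/
theorem sevBinM3_signs : Bin sevBinM3 sevPcM3a sevBoxM3a :=
  ⟨sevBinM3_ok, sevPcM3a_cert, sevPcM3a_over, ⟨rfl, rfl, rfl, rfl⟩, rfl, rfl, rfl, rfl, rfl, rfl, rfl, rfl⟩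

/-- The piece `M4a` over its chart. -/
theorem sevPcM4a_over : sevPcM4a.Over sevBinM4 :=
  ⟨fun _ => rfl, fun _ => rfl, fun _ => rfl, fun _ => rfl,
    fun x => by simp only [sevPcM4a, sevBinM4, ev_add, ev_mul, Ex.eval],
    fun x => by
      simp only [sevPcM4a, sevBinM4, Piece.A, Piece.S, ev_add, ev_sub, ev_mul, Ex.eval]; push_cast; ring,
    rfl, rfl⟩

/-- The piece `M4b` over its chart. -/
theorem sevPcM4b_over : sevPcM4b.Over sevBinM4 :=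
  ⟨fun _ => rfl, fun _ => rfl, fun _ => rfl, fun _ => rfl,
    fun x => by simp only [sevPcM4b, sevBinM4, ev_add, ev_mul, Ex.eval],
    fun x => by
      simp only [sevPcM4b, sevBinM4, Piece.A, Piece.S, ev_add, ev_sub, ev_mul, Ex.eval]; push_cast; ring,
    rfl, rfl⟩

/-- The bin M4. -/
theorem sevBinM4_signs : Bin₂ sevBinM4 sevPcM4a sevPcM4b sevBoxM4a sevBoxM4b :=
  ⟨sevBinM4_ok, ⟨sevPcM4a_cert, sevPcM4a_over, ⟨rfl, rfl, rfl, by norm_num [sevBoxM4a]⟩, rfl, rfl, rfl, rfl⟩,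
    ⟨sevPcM4b_cert, sevPcM4b_over, ⟨rfl, rfl, rfl, by norm_num [sevBoxM4b]⟩, rfl, rfl, rfl, rfl⟩,
    by norm_num [sevBinM4, sevBoxM4a, sevBoxM4b], rfl, rfl, rfl, Or.inl rfl⟩

/-- The piece `M5a` over its chart. -/
theorem sevPcM5a_over : sevPcM5a.Over sevBinM5 :=
  ⟨fun _ => rfl, fun _ => rfl, fun _ => rfl, fun _ => rfl,
    fun x => by simp only [sevPcM5a, sevBinM5, ev_add, ev_mul, Ex.eval],
    fun x => by
      simp only [sevPcM5a, sevBinM5, Piece.A, Piece.S, ev_add, ev_sub, ev_mul, Ex.eval]; push_cast; ring,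
    rfl, rfl⟩

/-- The piece `M5b` over its chart. -/
theorem sevPcM5b_over : sevPcM5b.Over sevBinM5 :=
  ⟨fun _ => rfl, fun _ => rfl, fun _ => rfl, fun _ => rfl,
    fun x => by simp only [sevPcM5b, sevBinM5, ev_add, ev_mul, Ex.eval],
    fun x => by
      simp only [sevPcM5b, sevBinM5, Piece.A, Piece.S, ev_add, ev_sub, ev_mul, Ex.eval]; push_cast; ring,
    rfl, rfl⟩

/-- The bin M5. -/
theorem sevBinM5_signs : Bin₂ sevBinM5 sevPcM5a sevPcM5b sevBoxM5a sevBoxM5b :=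
  ⟨sevBinM5_ok, ⟨sevPcM5a_cert, sevPcM5a_over, ⟨rfl, rfl, rfl, by norm_num [sevBoxM5a]⟩, rfl, rfl, rfl, rfl⟩,
    ⟨sevPcM5b_cert, sevPcM5b_over, ⟨rfl, rfl, rfl, by norm_num [sevBoxM5b]⟩, rfl, rfl, rfl, rfl⟩,
    by norm_num [sevBinM5, sevBoxM5a, sevBoxM5b], rfl, rfl, rfl, Or.inl rfl⟩

/-- The piece `M6a` over its chart. -/
theorem sevPcM6a_over : sevPcM6a.Over sevBinM6 :=
  ⟨fun _ => rfl, fun _ => rfl, fun _ => rfl, fun _ => rfl,
    fun x => by simp only [sevPcM6a, sevBinM6, ev_add, ev_mul, Ex.eval],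
    fun x => by
      simp only [sevPcM6a, sevBinM6, Piece.A, Piece.S, ev_add, ev_sub, ev_mul, Ex.eval]; push_cast; ring,
    rfl, rfl⟩

/-- The piece `M6b` over its chart. -/
theorem sevPcM6b_over : sevPcM6b.Over sevBinM6 :=
  ⟨fun _ => rfl, fun _ => rfl, fun _ => rfl, fun _ => rfl,
    fun x => by simp only [sevPcM6b, sevBinM6, ev_add, ev_mul, Ex.eval],
    fun x => by
      simp only [sevPcM6b, sevBinM6, Piece.A, Piece.S, ev_add, ev_sub, ev_mul, Ex.eval]; push_cast; ring,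
    rfl, rfl⟩

/-- The bin M6. -/
theorem sevBinM6_signs : Bin₂ sevBinM6 sevPcM6a sevPcM6b sevBoxM6a sevBoxM6b :=
  ⟨sevBinM6_ok, ⟨sevPcM6a_cert, sevPcM6a_over, ⟨rfl, rfl, rfl, by norm_num [sevBoxM6a]⟩, rfl, rfl, rfl, rfl⟩,
    ⟨sevPcM6b_cert, sevPcM6b_over, ⟨rfl, rfl, rfl, by norm_num [sevBoxM6b]⟩, rfl, rfl, rfl, rfl⟩,
    by norm_num [sevBinM6, sevBoxM6a, sevBoxM6b], rfl, rfl, rfl, Or.inl rfl⟩

/-- The piece `M7a` over its chart. -/
theorem sevPcM7a_over : sevPcM7a.Over sevBinM7 :=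
  ⟨fun _ => rfl, fun _ => rfl, fun _ => rfl, fun _ => rfl,
    fun x => by simp only [sevPcM7a, sevBinM7, ev_add, ev_mul, Ex.eval],
    fun x => by
      simp only [sevPcM7a, sevBinM7, Piece.A, Piece.S, ev_add, ev_sub, ev_mul, Ex.eval]; push_cast; ring,
    rfl, rfl⟩

/-- The piece `M7b` over its chart. -/
theorem sevPcM7b_over : sevPcM7b.Over sevBinM7 :=
  ⟨fun _ => rfl, fun _ => rfl, fun _ => rfl, fun _ => rfl,
    fun x => by simp only [sevPcM7b, sevBinM7, ev_add, ev_mul, Ex.eval],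
    fun x => by
      simp only [sevPcM7b, sevBinM7, Piece.A, Piece.S, ev_add, ev_sub, ev_mul, Ex.eval]; push_cast; ring,
    rfl, rfl⟩

/-- The bin M7. -/
theorem sevBinM7_signs : Bin₂ sevBinM7 sevPcM7a sevPcM7b sevBoxM7a sevBoxM7b :=
  ⟨sevBinM7_ok, ⟨sevPcM7a_cert, sevPcM7a_over, ⟨rfl, rfl, rfl, by norm_num [sevBoxM7a]⟩, rfl, rfl, rfl, rfl⟩,
    ⟨sevPcM7b_cert, sevPcM7b_over, ⟨rfl, rfl, rfl, by norm_num [sevBoxM7b]⟩, rfl, rfl, rfl, rfl⟩,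
    by norm_num [sevBinM7, sevBoxM7a, sevBoxM7b], rfl, rfl, rfl, Or.inl rfl⟩

/-- The piece `M8a` over its chart. -/
theorem sevPcM8a_over : sevPcM8a.Over sevBinM8 :=
  ⟨fun _ => rfl, fun _ => rfl, fun _ => rfl, fun _ => rfl,
    fun x => by simp only [sevPcM8a, sevBinM8, ev_add, ev_mul, Ex.eval],
    fun x => by
      simp only [sevPcM8a, sevBinM8, Piece.A, Piece.S, ev_add, ev_sub, ev_mul, Ex.eval]; push_cast; ring,
    rfl, rfl⟩

/-- The bin M8. -/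
theorem sevBinM8_signs : Bin sevBinM8 sevPcM8a sevBoxM8a :=
  ⟨sevBinM8_ok, sevPcM8a_cert, sevPcM8a_over, ⟨rfl, rfl, rfl, rfl⟩, rfl, rfl, rfl, rfl, rfl, rfl, rfl, rfl⟩

/-- The piece `N0a` over its chart. -/
theorem sevPcN0a_over : sevPcN0a.Over sevBinN0 :=
  ⟨fun _ => rfl, fun _ => rfl, fun _ => rfl, fun _ => rfl,
    fun x => by simp only [sevPcN0a, sevBinN0, ev_add, ev_mul, Ex.eval],
    fun x => by
      simp only [sevPcN0a, sevBinN0, Piece.A, Piece.S, ev_add, ev_sub, ev_mul, Ex.eval]; push_cast; ring,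
    rfl, rfl⟩

/-- The bin N0. -/
theorem sevBinN0_signs : Bin sevBinN0 sevPcN0a sevBoxN0a :=
  ⟨sevBinN0_ok, sevPcN0a_cert, sevPcN0a_over, ⟨rfl, rfl, rfl, rfl⟩, rfl, rfl, rfl, rfl, rfl, rfl, rfl, rfl⟩

/-- The piece `N1a` over its chart. -/
theorem sevPcN1a_over : sevPcN1a.Over sevBinN1 :=
  ⟨fun _ => rfl, fun _ => rfl, fun _ => rfl, fun _ => rfl,
    fun x => by simp only [sevPcN1a, sevBinN1, ev_add, ev_mul, Ex.eval],
    fun x => by
      simp only [sevPcN1a, sevBinN1, Piece.A, Piece.S, ev_add, ev_sub, ev_mul, Ex.eval]; push_cast; ring,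
    rfl, rfl⟩

/-- The bin N1. -/
theorem sevBinN1_signs : Bin sevBinN1 sevPcN1a sevBoxN1a :=
  ⟨sevBinN1_ok, sevPcN1a_cert, sevPcN1a_over, ⟨rfl, rfl, rfl, rfl⟩, rfl, rfl, rfl, rfl, rfl, rfl, rfl, rfl⟩

/-- The piece `N2a` over its chart. -/
theorem sevPcN2a_over : sevPcN2a.Over sevBinN2 :=
  ⟨fun _ => rfl, fun _ => rfl, fun _ => rfl, fun _ => rfl,
    fun x => by simp only [sevPcN2a, sevBinN2, ev_add, ev_mul, Ex.eval],
    fun x => by
      simp only [sevPcN2a, sevBinN2, Piece.A, Piece.S, ev_add, ev_sub, ev_mul, Ex.eval]; push_cast; ring,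
    rfl, rfl⟩

/-- The bin N2. -/
theorem sevBinN2_signs : Bin sevBinN2 sevPcN2a sevBoxN2a :=
  ⟨sevBinN2_ok, sevPcN2a_cert, sevPcN2a_over, ⟨rfl, rfl, rfl, rfl⟩, rfl, rfl, rfl, rfl, rfl, rfl, rfl, rfl⟩

/-- The piece `N3a` over its chart. -/
theorem sevPcN3a_over : sevPcN3a.Over sevBinN3 :=
  ⟨fun _ => rfl, fun _ => rfl, fun _ => rfl, fun _ => rfl,
    fun x => by simp only [sevPcN3a, sevBinN3, ev_add, ev_mul, Ex.eval],
    fun x => by
      simp only [sevPcN3a, sevBinN3, Piece.A, Piece.S, ev_add, ev_sub, ev_mul, Ex.eval]; push_cast; ring,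
    rfl, rfl⟩

/-- The bin N3. -/
theorem sevBinN3_signs : Bin sevBinN3 sevPcN3a sevBoxN3a :=
  ⟨sevBinN3_ok, sevPcN3a_cert, sevPcN3a_over, ⟨rfl, rfl, rfl, rfl⟩, rfl, rfl, rfl, rfl, rfl, rfl, rfl, rfl⟩

/-- The piece `N4a` over its chart. -/
theorem sevPcN4a_over : sevPcN4a.Over sevBinN4 :=
  ⟨fun _ => rfl, fun _ => rfl, fun _ => rfl, fun _ => rfl,
    fun x => by simp only [sevPcN4a, sevBinN4, ev_add, ev_mul, Ex.eval],
    fun x => by
      simp only [sevPcN4a, sevBinN4, Piece.A, Piece.S, ev_add, ev_sub, ev_mul, Ex.eval]; push_cast; ring,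
    rfl, rfl⟩

/-- The piece `N4b` over its chart. -/
theorem sevPcN4b_over : sevPcN4b.Over sevBinN4 :=
  ⟨fun _ => rfl, fun _ => rfl, fun _ => rfl, fun _ => rfl,
    fun x => by simp only [sevPcN4b, sevBinN4, ev_add, ev_mul, Ex.eval],
    fun x => by
      simp only [sevPcN4b, sevBinN4, Piece.A, Piece.S, ev_add, ev_sub, ev_mul, Ex.eval]; push_cast; ring,
    rfl, rfl⟩

/-- The bin N4. -/
theorem sevBinN4_signs : Bin₂ sevBinN4 sevPcN4a sevPcN4b sevBoxN4a sevBoxN4b :=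
  ⟨sevBinN4_ok, ⟨sevPcN4a_cert, sevPcN4a_over, ⟨rfl, rfl, rfl, by norm_num [sevBoxN4a]⟩, rfl, rfl, rfl, rfl⟩,
    ⟨sevPcN4b_cert, sevPcN4b_over, ⟨rfl, rfl, rfl, by norm_num [sevBoxN4b]⟩, rfl, rfl, rfl, rfl⟩,
    by norm_num [sevBinN4, sevBoxN4a, sevBoxN4b], rfl, rfl, rfl, Or.inl rfl⟩

/-- The piece `N5a` over its chart. -/
theorem sevPcN5a_over : sevPcN5a.Over sevBinN5 :=
  ⟨fun _ => rfl, fun _ => rfl, fun _ => rfl, fun _ => rfl,
    fun x => by simp only [sevPcN5a, sevBinN5, ev_add, ev_mul, Ex.eval],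
    fun x => by
      simp only [sevPcN5a, sevBinN5, Piece.A, Piece.S, ev_add, ev_sub, ev_mul, Ex.eval]; push_cast; ring,
    rfl, rfl⟩

/-- The piece `N5b` over its chart. -/
theorem sevPcN5b_over : sevPcN5b.Over sevBinN5 :=
  ⟨fun _ => rfl, fun _ => rfl, fun _ => rfl, fun _ => rfl,
    fun x => by simp only [sevPcN5b, sevBinN5, ev_add, ev_mul, Ex.eval],
    fun x => by
      simp only [sevPcN5b, sevBinN5, Piece.A, Piece.S, ev_add, ev_sub, ev_mul, Ex.eval]; push_cast; ring,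
    rfl, rfl⟩

/-- The bin N5. -/
theorem sevBinN5_signs : Bin₂ sevBinN5 sevPcN5a sevPcN5b sevBoxN5a sevBoxN5b :=
  ⟨sevBinN5_ok, ⟨sevPcN5a_cert, sevPcN5a_over, ⟨rfl, rfl, rfl, by norm_num [sevBoxN5a]⟩, rfl, rfl, rfl, rfl⟩,
    ⟨sevPcN5b_cert, sevPcN5b_over, ⟨rfl, rfl, rfl, by norm_num [sevBoxN5b]⟩, rfl, rfl, rfl, rfl⟩,
    by norm_num [sevBinN5, sevBoxN5a, sevBoxN5b], rfl, rfl, rfl, Or.inr rfl⟩

/-- The piece `N6a` over its chart. -/
theorem sevPcN6a_over : sevPcN6a.Over sevBinN6 :=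
  ⟨fun _ => rfl, fun _ => rfl, fun _ => rfl, fun _ => rfl,
    fun x => by simp only [sevPcN6a, sevBinN6, ev_add, ev_mul, Ex.eval],
    fun x => by
      simp only [sevPcN6a, sevBinN6, Piece.A, Piece.S, ev_add, ev_sub, ev_mul, Ex.eval]; push_cast; ring,
    rfl, rfl⟩

/-- The bin N6. -/
theorem sevBinN6_signs : Bin₂ sevBinN6 sevPcN6a sevPcN6a sevBoxN6a sevBoxN6a :=
  ⟨sevBinN6_ok, ⟨sevPcN6a_cert, sevPcN6a_over, ⟨rfl, rfl, rfl, by norm_num [sevBoxN6a]⟩, rfl, rfl, rfl, rfl⟩,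
    ⟨sevPcN6a_cert, sevPcN6a_over, ⟨rfl, rfl, rfl, by norm_num [sevBoxN6a]⟩, rfl, rfl, rfl, rfl⟩,
    by norm_num [sevBinN6, sevBoxN6a], rfl, rfl, rfl, Or.inr rfl⟩

/-- The piece `N7a` over its chart. -/
theorem sevPcN7a_over : sevPcN7a.Over sevBinN7 :=
  ⟨fun _ => rfl, fun _ => rfl, fun _ => rfl, fun _ => rfl,
    fun x => by simp only [sevPcN7a, sevBinN7, ev_add, ev_mul, Ex.eval],
    fun x => by
      simp only [sevPcN7a, sevBinN7, Piece.A, Piece.S, ev_add, ev_sub, ev_mul, Ex.eval]; push_cast; ring,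
    rfl, rfl⟩

/-- The bin N7. -/
theorem sevBinN7_signs : Bin₂ sevBinN7 sevPcN7a sevPcN7a sevBoxN7a sevBoxN7a :=
  ⟨sevBinN7_ok, ⟨sevPcN7a_cert, sevPcN7a_over, ⟨rfl, rfl, rfl, by norm_num [sevBoxN7a]⟩, rfl, rfl, rfl, rfl⟩,
    ⟨sevPcN7a_cert, sevPcN7a_over, ⟨rfl, rfl, rfl, by norm_num [sevBoxN7a]⟩, rfl, rfl, rfl, rfl⟩,
    by norm_num [sevBinN7, sevBoxN7a], rfl, rfl, rfl, Or.inr rfl⟩

/-- The piece `P0a` over its chart. -/
theorem sevPcP0a_over : sevPcP0a.Over sevBinP0 :=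
  ⟨fun _ => rfl, fun _ => rfl, fun _ => rfl, fun _ => rfl,
    fun x => by simp only [sevPcP0a, sevBinP0, ev_add, ev_mul, Ex.eval],
    fun x => by
      simp only [sevPcP0a, sevBinP0, Piece.A, Piece.S, ev_add, ev_sub, ev_mul, Ex.eval]; push_cast; ring,
    rfl, rfl⟩

/-- The bin P0. -/
theorem sevBinP0_signs : Bin₂ sevBinP0 sevPcP0a sevPcP0a sevBoxP0a sevBoxP0a :=
  ⟨sevBinP0_ok, ⟨sevPcP0a_cert, sevPcP0a_over, ⟨rfl, rfl, rfl, by norm_num [sevBoxP0a]⟩, rfl, rfl, rfl, rfl⟩,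
    ⟨sevPcP0a_cert, sevPcP0a_over, ⟨rfl, rfl, rfl, by norm_num [sevBoxP0a]⟩, rfl, rfl, rfl, rfl⟩,
    by norm_num [sevBinP0, sevBoxP0a], rfl, rfl, rfl, Or.inr rfl⟩

/-- The piece `P1a` over its chart. -/
theorem sevPcP1a_over : sevPcP1a.Over sevBinP1 :=
  ⟨fun _ => rfl, fun _ => rfl, fun _ => rfl, fun _ => rfl,
    fun x => by simp only [sevPcP1a, sevBinP1, ev_add, ev_mul, Ex.eval],
    fun x => by
      simp only [sevPcP1a, sevBinP1, Piece.A, Piece.S, ev_add, ev_sub, ev_mul, Ex.eval]; push_cast; ring,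
    rfl, rfl⟩

/-- The bin P1. -/
theorem sevBinP1_signs : Bin₂ sevBinP1 sevPcP1a sevPcP1a sevBoxP1a sevBoxP1a :=
  ⟨sevBinP1_ok, ⟨sevPcP1a_cert, sevPcP1a_over, ⟨rfl, rfl, rfl, by norm_num [sevBoxP1a]⟩, rfl, rfl, rfl, rfl⟩,
    ⟨sevPcP1a_cert, sevPcP1a_over, ⟨rfl, rfl, rfl, by norm_num [sevBoxP1a]⟩, rfl, rfl, rfl, rfl⟩,
    by norm_num [sevBinP1, sevBoxP1a], rfl, rfl, rfl, Or.inr rfl⟩

/-- The piece `P2a` over its chart. -/
theorem sevPcP2a_over : sevPcP2a.Over sevBinP2 :=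
  ⟨fun _ => rfl, fun _ => rfl, fun _ => rfl, fun _ => rfl,
    fun x => by simp only [sevPcP2a, sevBinP2, ev_add, ev_mul, Ex.eval],
    fun x => by
      simp only [sevPcP2a, sevBinP2, Piece.A, Piece.S, ev_add, ev_sub, ev_mul, Ex.eval]; push_cast; ring,
    rfl, rfl⟩

/-- The bin P2. -/
theorem sevBinP2_signs : Bin₂ sevBinP2 sevPcP2a sevPcP2a sevBoxP2a sevBoxP2a :=
  ⟨sevBinP2_ok, ⟨sevPcP2a_cert, sevPcP2a_over, ⟨rfl, rfl, rfl, by norm_num [sevBoxP2a]⟩, rfl, rfl, rfl, rfl⟩,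
    ⟨sevPcP2a_cert, sevPcP2a_over, ⟨rfl, rfl, rfl, by norm_num [sevBoxP2a]⟩, rfl, rfl, rfl, rfl⟩,
    by norm_num [sevBinP2, sevBoxP2a], rfl, rfl, rfl, Or.inr rfl⟩

/-- The piece `P3a` over its chart. -/
theorem sevPcP3a_over : sevPcP3a.Over sevBinP3 :=
  ⟨fun _ => rfl, fun _ => rfl, fun _ => rfl, fun _ => rfl,
    fun x => by simp only [sevPcP3a, sevBinP3, ev_add, ev_mul, Ex.eval],
    fun x => by
      simp only [sevPcP3a, sevBinP3, Piece.A, Piece.S, ev_add, ev_sub, ev_mul, Ex.eval]; push_cast; ring,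
    rfl, rfl⟩

/-- The piece `P3b` over its chart. -/
theorem sevPcP3b_over : sevPcP3b.Over sevBinP3 :=
  ⟨fun _ => rfl, fun _ => rfl, fun _ => rfl, fun _ => rfl,
    fun x => by simp only [sevPcP3b, sevBinP3, ev_add, ev_mul, Ex.eval],
    fun x => by
      simp only [sevPcP3b, sevBinP3, Piece.A, Piece.S, ev_add, ev_sub, ev_mul, Ex.eval]; push_cast; ring,
    rfl, rfl⟩

/-- The bin P3. -/
theorem sevBinP3_signs : Bin₂ sevBinP3 sevPcP3a sevPcP3b sevBoxP3a sevBoxP3b :=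
  ⟨sevBinP3_ok, ⟨sevPcP3a_cert, sevPcP3a_over, ⟨rfl, rfl, rfl, by norm_num [sevBoxP3a]⟩, rfl, rfl, rfl, rfl⟩,
    ⟨sevPcP3b_cert, sevPcP3b_over, ⟨rfl, rfl, rfl, by norm_num [sevBoxP3b]⟩, rfl, rfl, rfl, rfl⟩,
    by norm_num [sevBinP3, sevBoxP3a, sevBoxP3b], rfl, rfl, rfl, Or.inr rfl⟩

/-- The piece `P4a` over its chart. -/
theorem sevPcP4a_over : sevPcP4a.Over sevBinP4 :=
  ⟨fun _ => rfl, fun _ => rfl, fun _ => rfl, fun _ => rfl,
    fun x => by simp only [sevPcP4a, sevBinP4, ev_add, ev_mul, Ex.eval],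
    fun x => by
      simp only [sevPcP4a, sevBinP4, Piece.A, Piece.S, ev_add, ev_sub, ev_mul, Ex.eval]; push_cast; ring,
    rfl, rfl⟩

/-- The piece `P4b` over its chart. -/
theorem sevPcP4b_over : sevPcP4b.Over sevBinP4 :=
  ⟨fun _ => rfl, fun _ => rfl, fun _ => rfl, fun _ => rfl,
    fun x => by simp only [sevPcP4b, sevBinP4, ev_add, ev_mul, Ex.eval],
    fun x => by
      simp only [sevPcP4b, sevBinP4, Piece.A, Piece.S, ev_add, ev_sub, ev_mul, Ex.eval]; push_cast; ring,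
    rfl, rfl⟩

/-- The bin P4. -/
theorem sevBinP4_signs : Bin₂ sevBinP4 sevPcP4a sevPcP4b sevBoxP4a sevBoxP4b :=
  ⟨sevBinP4_ok, ⟨sevPcP4a_cert, sevPcP4a_over, ⟨rfl, rfl, rfl, by norm_num [sevBoxP4a]⟩, rfl, rfl, rfl, rfl⟩,
    ⟨sevPcP4b_cert, sevPcP4b_over, ⟨rfl, rfl, rfl, by norm_num [sevBoxP4b]⟩, rfl, rfl, rfl, rfl⟩,
    by norm_num [sevBinP4, sevBoxP4a, sevBoxP4b], rfl, rfl, rfl, Or.inr rfl⟩

/-- The piece `P5a` over its chart. -/
theorem sevPcP5a_over : sevPcP5a.Over sevBinP5 :=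
  ⟨fun _ => rfl, fun _ => rfl, fun _ => rfl, fun _ => rfl,
    fun x => by simp only [sevPcP5a, sevBinP5, ev_add, ev_mul, Ex.eval],
    fun x => by
      simp only [sevPcP5a, sevBinP5, Piece.A, Piece.S, ev_add, ev_sub, ev_mul, Ex.eval]; push_cast; ring,
    rfl, rfl⟩

/-- The bin P5. -/
theorem sevBinP5_signs : Bin₂ sevBinP5 sevPcP5a sevPcP5a sevBoxP5a sevBoxP5a :=
  ⟨sevBinP5_ok, ⟨sevPcP5a_cert, sevPcP5a_over, ⟨rfl, rfl, rfl, by norm_num [sevBoxP5a]⟩, rfl, rfl, rfl, rfl⟩,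
    ⟨sevPcP5a_cert, sevPcP5a_over, ⟨rfl, rfl, rfl, by norm_num [sevBoxP5a]⟩, rfl, rfl, rfl, rfl⟩,
    by norm_num [sevBinP5, sevBoxP5a], rfl, rfl, rfl, Or.inr rfl⟩

/-- The piece `P6a` over its chart. -/
theorem sevPcP6a_over : sevPcP6a.Over sevBinP6 :=
  ⟨fun _ => rfl, fun _ => rfl, fun _ => rfl, fun _ => rfl,
    fun x => by simp only [sevPcP6a, sevBinP6, ev_add, ev_mul, Ex.eval],
    fun x => by
      simp only [sevPcP6a, sevBinP6, Piece.A, Piece.S, ev_add, ev_sub, ev_mul, Ex.eval]; push_cast; ring,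
    rfl, rfl⟩

/-- The bin P6. -/
theorem sevBinP6_signs : Bin₂ sevBinP6 sevPcP6a sevPcP6a sevBoxP6a sevBoxP6a :=
  ⟨sevBinP6_ok, ⟨sevPcP6a_cert, sevPcP6a_over, ⟨rfl, rfl, rfl, by norm_num [sevBoxP6a]⟩, rfl, rfl, rfl, rfl⟩,
    ⟨sevPcP6a_cert, sevPcP6a_over, ⟨rfl, rfl, rfl, by norm_num [sevBoxP6a]⟩, rfl, rfl, rfl, rfl⟩,
    by norm_num [sevBinP6, sevBoxP6a], rfl, rfl, rfl, Or.inr rfl⟩

/-- The piece `Q0a` over its chart. -/
theorem sevPcQ0a_over : sevPcQ0a.Over sevBinQ0 :=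
  ⟨fun _ => rfl, fun _ => rfl, fun _ => rfl, fun _ => rfl,
    fun x => by simp only [sevPcQ0a, sevBinQ0, ev_add, ev_mul, Ex.eval],
    fun x => by
      simp only [sevPcQ0a, sevBinQ0, Piece.A, Piece.S, ev_add, ev_sub, ev_mul, Ex.eval]; push_cast; ring,
    rfl, rfl⟩

/-- The piece `Q0b` over its chart. -/
theorem sevPcQ0b_over : sevPcQ0b.Over sevBinQ0 :=
  ⟨fun _ => rfl, fun _ => rfl, fun _ => rfl, fun _ => rfl,
    fun x => by simp only [sevPcQ0b, sevBinQ0, ev_add, ev_mul, Ex.eval],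
    fun x => by
      simp only [sevPcQ0b, sevBinQ0, Piece.A, Piece.S, ev_add, ev_sub, ev_mul, Ex.eval]; push_cast; ring,
    rfl, rfl⟩

/-- The bin Q0. -/
theorem sevBinQ0_signs : Bin₂ sevBinQ0 sevPcQ0a sevPcQ0b sevBoxQ0a sevBoxQ0b :=
  ⟨sevBinQ0_ok, ⟨sevPcQ0a_cert, sevPcQ0a_over, ⟨rfl, rfl, rfl, by norm_num [sevBoxQ0a]⟩, rfl, rfl, rfl, rfl⟩,
    ⟨sevPcQ0b_cert, sevPcQ0b_over, ⟨rfl, rfl, rfl, by norm_num [sevBoxQ0b]⟩, rfl, rfl, rfl, rfl⟩,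
    by norm_num [sevBinQ0, sevBoxQ0a, sevBoxQ0b], rfl, rfl, rfl, Or.inr rfl⟩

/-- The piece `Q1a` over its chart. -/
theorem sevPcQ1a_over : sevPcQ1a.Over sevBinQ1 :=
  ⟨fun _ => rfl, fun _ => rfl, fun _ => rfl, fun _ => rfl,
    fun x => by simp only [sevPcQ1a, sevBinQ1, ev_add, ev_mul, Ex.eval],
    fun x => by
      simp only [sevPcQ1a, sevBinQ1, Piece.A, Piece.S, ev_add, ev_sub, ev_mul, Ex.eval]; push_cast; ring,
    rfl, rfl⟩

/-- The bin Q1. -/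
theorem sevBinQ1_signs : Bin₂ sevBinQ1 sevPcQ1a sevPcQ1a sevBoxQ1a sevBoxQ1a :=
  ⟨sevBinQ1_ok, ⟨sevPcQ1a_cert, sevPcQ1a_over, ⟨rfl, rfl, rfl, by norm_num [sevBoxQ1a]⟩, rfl, rfl, rfl, rfl⟩,
    ⟨sevPcQ1a_cert, sevPcQ1a_over, ⟨rfl, rfl, rfl, by norm_num [sevBoxQ1a]⟩, rfl, rfl, rfl, rfl⟩,
    by norm_num [sevBinQ1, sevBoxQ1a], rfl, rfl, rfl, Or.inr rfl⟩

/-- The piece `Q2a` over its chart. -/
theorem sevPcQ2a_over : sevPcQ2a.Over sevBinQ2 :=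
  ⟨fun _ => rfl, fun _ => rfl, fun _ => rfl, fun _ => rfl,
    fun x => by simp only [sevPcQ2a, sevBinQ2, ev_add, ev_mul, Ex.eval],
    fun x => by
      simp only [sevPcQ2a, sevBinQ2, Piece.A, Piece.S, ev_add, ev_sub, ev_mul, Ex.eval]; push_cast; ring,
    rfl, rfl⟩

/-- The bin Q2. -/
theorem sevBinQ2_signs : Bin₂ sevBinQ2 sevPcQ2a sevPcQ2a sevBoxQ2a sevBoxQ2a :=
  ⟨sevBinQ2_ok, ⟨sevPcQ2a_cert, sevPcQ2a_over, ⟨rfl, rfl, rfl, by norm_num [sevBoxQ2a]⟩, rfl, rfl, rfl, rfl⟩,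
    ⟨sevPcQ2a_cert, sevPcQ2a_over, ⟨rfl, rfl, rfl, by norm_num [sevBoxQ2a]⟩, rfl, rfl, rfl, rfl⟩,
    by norm_num [sevBinQ2, sevBoxQ2a], rfl, rfl, rfl, Or.inr rfl⟩

/-- The piece `R0a` over its chart. -/
theorem sevPcR0a_over : sevPcR0a.Over sevBinR0 :=
  ⟨fun _ => rfl, fun _ => rfl, fun _ => rfl, fun _ => rfl,
    fun x => by simp only [sevPcR0a, sevBinR0, ev_add, ev_mul, Ex.eval],
    fun x => by
      simp only [sevPcR0a, sevBinR0, Piece.A, Piece.S, ev_add, ev_sub, ev_mul, Ex.eval]; push_cast; ring,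
    rfl, rfl⟩

/-- The piece `R0b` over its chart. -/
theorem sevPcR0b_over : sevPcR0b.Over sevBinR0 :=
  ⟨fun _ => rfl, fun _ => rfl, fun _ => rfl, fun _ => rfl,
    fun x => by simp only [sevPcR0b, sevBinR0, ev_add, ev_mul, Ex.eval],
    fun x => by
      simp only [sevPcR0b, sevBinR0, Piece.A, Piece.S, ev_add, ev_sub, ev_mul, Ex.eval]; push_cast; ring,
    rfl, rfl⟩

/-- The bin R0. -/
theorem sevBinR0_signs : Bin₂ sevBinR0 sevPcR0a sevPcR0b sevBoxR0a sevBoxR0b :=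
  ⟨sevBinR0_ok, ⟨sevPcR0a_cert, sevPcR0a_over, ⟨rfl, rfl, rfl, by norm_num [sevBoxR0a]⟩, rfl, rfl, rfl, rfl⟩,
    ⟨sevPcR0b_cert, sevPcR0b_over, ⟨rfl, rfl, rfl, by norm_num [sevBoxR0b]⟩, rfl, rfl, rfl, rfl⟩,
    by norm_num [sevBinR0, sevBoxR0a, sevBoxR0b], rfl, rfl, rfl, Or.inr rfl⟩

/-- The piece `R1a` over its chart. -/
theorem sevPcR1a_over : sevPcR1a.Over sevBinR1 :=
  ⟨fun _ => rfl, fun _ => rfl, fun _ => rfl, fun _ => rfl,
    fun x => by simp only [sevPcR1a, sevBinR1, ev_add, ev_mul, Ex.eval],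
    fun x => by
      simp only [sevPcR1a, sevBinR1, Piece.A, Piece.S, ev_add, ev_sub, ev_mul, Ex.eval]; push_cast; ring,
    rfl, rfl⟩

/-- The piece `R1b` over its chart. -/
theorem sevPcR1b_over : sevPcR1b.Over sevBinR1 :=
  ⟨fun _ => rfl, fun _ => rfl, fun _ => rfl, fun _ => rfl,
    fun x => by simp only [sevPcR1b, sevBinR1, ev_add, ev_mul, Ex.eval],
    fun x => by
      simp only [sevPcR1b, sevBinR1, Piece.A, Piece.S, ev_add, ev_sub, ev_mul, Ex.eval]; push_cast; ring,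
    rfl, rfl⟩

/-- The bin R1. -/
theorem sevBinR1_signs : Bin₂ sevBinR1 sevPcR1a sevPcR1b sevBoxR1a sevBoxR1b :=
  ⟨sevBinR1_ok, ⟨sevPcR1a_cert, sevPcR1a_over, ⟨rfl, rfl, rfl, by norm_num [sevBoxR1a]⟩, rfl, rfl, rfl, rfl⟩,
    ⟨sevPcR1b_cert, sevPcR1b_over, ⟨rfl, rfl, rfl, by norm_num [sevBoxR1b]⟩, rfl, rfl, rfl, rfl⟩,
    by norm_num [sevBinR1, sevBoxR1a, sevBoxR1b], rfl, rfl, rfl, Or.inr rfl⟩

/-- The piece `R2a` over its chart. -/
theorem sevPcR2a_over : sevPcR2a.Over sevBinR2 :=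
  ⟨fun _ => rfl, fun _ => rfl, fun _ => rfl, fun _ => rfl,
    fun x => by simp only [sevPcR2a, sevBinR2, ev_add, ev_mul, Ex.eval],
    fun x => by
      simp only [sevPcR2a, sevBinR2, Piece.A, Piece.S, ev_add, ev_sub, ev_mul, Ex.eval]; push_cast; ring,
    rfl, rfl⟩

/-- The bin R2. -/
theorem sevBinR2_signs : Bin₂ sevBinR2 sevPcR2a sevPcR2a sevBoxR2a sevBoxR2a :=
  ⟨sevBinR2_ok, ⟨sevPcR2a_cert, sevPcR2a_over, ⟨rfl, rfl, rfl, by norm_num [sevBoxR2a]⟩, rfl, rfl, rfl, rfl⟩,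
    ⟨sevPcR2a_cert, sevPcR2a_over, ⟨rfl, rfl, rfl, by norm_num [sevBoxR2a]⟩, rfl, rfl, rfl, rfl⟩,
    by norm_num [sevBinR2, sevBoxR2a], rfl, rfl, rfl, Or.inr rfl⟩

/-- The piece `S0a` over its chart. -/
theorem sevPcS0a_over : sevPcS0a.Over sevBinS0 :=
  ⟨fun _ => rfl, fun _ => rfl, fun _ => rfl, fun _ => rfl,
    fun x => by simp only [sevPcS0a, sevBinS0, ev_add, ev_mul, Ex.eval],
    fun x => by
      simp only [sevPcS0a, sevBinS0, Piece.A, Piece.S, ev_add, ev_sub, ev_mul, Ex.eval]; push_cast; ring,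
    rfl, rfl⟩

/-- The bin S0. -/
theorem sevBinS0_signs : Bin₂ sevBinS0 sevPcS0a sevPcS0a sevBoxS0a sevBoxS0a :=
  ⟨sevBinS0_ok, ⟨sevPcS0a_cert, sevPcS0a_over, ⟨rfl, rfl, rfl, by norm_num [sevBoxS0a]⟩, rfl, rfl, rfl, rfl⟩,
    ⟨sevPcS0a_cert, sevPcS0a_over, ⟨rfl, rfl, rfl, by norm_num [sevBoxS0a]⟩, rfl, rfl, rfl, rfl⟩,
    by norm_num [sevBinS0, sevBoxS0a], rfl, rfl, rfl, Or.inr rfl⟩

/-- The piece `S1a` over its chart. -/
theorem sevPcS1a_over : sevPcS1a.Over sevBinS1 :=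
  ⟨fun _ => rfl, fun _ => rfl, fun _ => rfl, fun _ => rfl,
    fun x => by simp only [sevPcS1a, sevBinS1, ev_add, ev_mul, Ex.eval],
    fun x => by
      simp only [sevPcS1a, sevBinS1, Piece.A, Piece.S, ev_add, ev_sub, ev_mul, Ex.eval]; push_cast; ring,
    rfl, rfl⟩

/-- The bin S1. -/
theorem sevBinS1_signs : Bin₂ sevBinS1 sevPcS1a sevPcS1a sevBoxS1a sevBoxS1a :=
  ⟨sevBinS1_ok, ⟨sevPcS1a_cert, sevPcS1a_over, ⟨rfl, rfl, rfl, by norm_num [sevBoxS1a]⟩, rfl, rfl, rfl, rfl⟩,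
    ⟨sevPcS1a_cert, sevPcS1a_over, ⟨rfl, rfl, rfl, by norm_num [sevBoxS1a]⟩, rfl, rfl, rfl, rfl⟩,
    by norm_num [sevBinS1, sevBoxS1a], rfl, rfl, rfl, Or.inr rfl⟩

/-- The piece `S2a` over its chart. -/
theorem sevPcS2a_over : sevPcS2a.Over sevBinS2 :=
  ⟨fun _ => rfl, fun _ => rfl, fun _ => rfl, fun _ => rfl,
    fun x => by simp only [sevPcS2a, sevBinS2, ev_add, ev_mul, Ex.eval],
    fun x => by
      simp only [sevPcS2a, sevBinS2, Piece.A, Piece.S, ev_add, ev_sub, ev_mul, Ex.eval]; push_cast; ring,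
    rfl, rfl⟩

/-- The bin S2. -/
theorem sevBinS2_signs : Bin₂ sevBinS2 sevPcS2a sevPcS2a sevBoxS2a sevBoxS2a :=
  ⟨sevBinS2_ok, ⟨sevPcS2a_cert, sevPcS2a_over, ⟨rfl, rfl, rfl, by norm_num [sevBoxS2a]⟩, rfl, rfl, rfl, rfl⟩,
    ⟨sevPcS2a_cert, sevPcS2a_over, ⟨rfl, rfl, rfl, by norm_num [sevBoxS2a]⟩, rfl, rfl, rfl, rfl⟩,
    by norm_num [sevBinS2, sevBoxS2a], rfl, rfl, rfl, Or.inr rfl⟩

/-- The piece `S3a` over its chart. -/
theorem sevPcS3a_over : sevPcS3a.Over sevBinS3 :=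
  ⟨fun _ => rfl, fun _ => rfl, fun _ => rfl, fun _ => rfl,
    fun x => by simp only [sevPcS3a, sevBinS3, ev_add, ev_mul, Ex.eval],
    fun x => by
      simp only [sevPcS3a, sevBinS3, Piece.A, Piece.S, ev_add, ev_sub, ev_mul, Ex.eval]; push_cast; ring,
    rfl, rfl⟩

/-- The bin S3. -/
theorem sevBinS3_signs : Bin₂ sevBinS3 sevPcS3a sevPcS3a sevBoxS3a sevBoxS3a :=
  ⟨sevBinS3_ok, ⟨sevPcS3a_cert, sevPcS3a_over, ⟨rfl, rfl, rfl, by norm_num [sevBoxS3a]⟩, rfl, rfl, rfl, rfl⟩,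
    ⟨sevPcS3a_cert, sevPcS3a_over, ⟨rfl, rfl, rfl, by norm_num [sevBoxS3a]⟩, rfl, rfl, rfl, rfl⟩,
    by norm_num [sevBinS3, sevBoxS3a], rfl, rfl, rfl, Or.inr rfl⟩

/-- The piece `S4a` over its chart. -/
theorem sevPcS4a_over : sevPcS4a.Over sevBinS4 :=
  ⟨fun _ => rfl, fun _ => rfl, fun _ => rfl, fun _ => rfl,
    fun x => by simp only [sevPcS4a, sevBinS4, ev_add, ev_mul, Ex.eval],
    fun x => by
      simp only [sevPcS4a, sevBinS4, Piece.A, Piece.S, ev_add, ev_sub, ev_mul, Ex.eval]; push_cast; ring,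
    rfl, rfl⟩

/-- The bin S4. -/
theorem sevBinS4_signs : Bin₂ sevBinS4 sevPcS4a sevPcS4a sevBoxS4a sevBoxS4a :=
  ⟨sevBinS4_ok, ⟨sevPcS4a_cert, sevPcS4a_over, ⟨rfl, rfl, rfl, by norm_num [sevBoxS4a]⟩, rfl, rfl, rfl, rfl⟩,
    ⟨sevPcS4a_cert, sevPcS4a_over, ⟨rfl, rfl, rfl, by norm_num [sevBoxS4a]⟩, rfl, rfl, rfl, rfl⟩,
    by norm_num [sevBinS4, sevBoxS4a], rfl, rfl, rfl, Or.inr rfl⟩

/-- The piece `S5a` over its chart. -/
theorem sevPcS5a_over : sevPcS5a.Over sevBinS5 :=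
  ⟨fun _ => rfl, fun _ => rfl, fun _ => rfl, fun _ => rfl,
    fun x => by simp only [sevPcS5a, sevBinS5, ev_add, ev_mul, Ex.eval],
    fun x => by
      simp only [sevPcS5a, sevBinS5, Piece.A, Piece.S, ev_add, ev_sub, ev_mul, Ex.eval]; push_cast; ring,
    rfl, rfl⟩

/-- The bin S5. -/
theorem sevBinS5_signs : Bin₂ sevBinS5 sevPcS5a sevPcS5a sevBoxS5a sevBoxS5a :=
  ⟨sevBinS5_ok, ⟨sevPcS5a_cert, sevPcS5a_over, ⟨rfl, rfl, rfl, by norm_num [sevBoxS5a]⟩, rfl, rfl, rfl, rfl⟩,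
    ⟨sevPcS5a_cert, sevPcS5a_over, ⟨rfl, rfl, rfl, by norm_num [sevBoxS5a]⟩, rfl, rfl, rfl, rfl⟩,
    by norm_num [sevBinS5, sevBoxS5a], rfl, rfl, rfl, Or.inr rfl⟩

/-- The piece `T0a` over its chart. -/
theorem sevPcT0a_over : sevPcT0a.Over sevBinT0 :=
  ⟨fun _ => rfl, fun _ => rfl, fun _ => rfl, fun _ => rfl,
    fun x => by simp only [sevPcT0a, sevBinT0, ev_add, ev_mul, Ex.eval],
    fun x => by
      simp only [sevPcT0a, sevBinT0, Piece.A, Piece.S, ev_add, ev_sub, ev_mul, Ex.eval]; push_cast; ring,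
    rfl, rfl⟩

/-- The bin T0. -/
theorem sevBinT0_signs : Bin₂ sevBinT0 sevPcT0a sevPcT0a sevBoxT0a sevBoxT0a :=
  ⟨sevBinT0_ok, ⟨sevPcT0a_cert, sevPcT0a_over, ⟨rfl, rfl, rfl, by norm_num [sevBoxT0a]⟩, rfl, rfl, rfl, rfl⟩,
    ⟨sevPcT0a_cert, sevPcT0a_over, ⟨rfl, rfl, rfl, by norm_num [sevBoxT0a]⟩, rfl, rfl, rfl, rfl⟩,
    by norm_num [sevBinT0, sevBoxT0a], rfl, rfl, rfl, Or.inr rfl⟩

/-- The piece `T1a` over its chart. -/
theorem sevPcT1a_over : sevPcT1a.Over sevBinT1 :=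
  ⟨fun _ => rfl, fun _ => rfl, fun _ => rfl, fun _ => rfl,
    fun x => by simp only [sevPcT1a, sevBinT1, ev_add, ev_mul, Ex.eval],
    fun x => by
      simp only [sevPcT1a, sevBinT1, Piece.A, Piece.S, ev_add, ev_sub, ev_mul, Ex.eval]; push_cast; ring,
    rfl, rfl⟩

/-- The bin T1. -/
theorem sevBinT1_signs : Bin₂ sevBinT1 sevPcT1a sevPcT1a sevBoxT1a sevBoxT1a :=
  ⟨sevBinT1_ok, ⟨sevPcT1a_cert, sevPcT1a_over, ⟨rfl, rfl, rfl, by norm_num [sevBoxT1a]⟩, rfl, rfl, rfl, rfl⟩,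
    ⟨sevPcT1a_cert, sevPcT1a_over, ⟨rfl, rfl, rfl, by norm_num [sevBoxT1a]⟩, rfl, rfl, rfl, rfl⟩,
    by norm_num [sevBinT1, sevBoxT1a], rfl, rfl, rfl, Or.inr rfl⟩

/-- The piece `T2a` over its chart. -/
theorem sevPcT2a_over : sevPcT2a.Over sevBinT2 :=
  ⟨fun _ => rfl, fun _ => rfl, fun _ => rfl, fun _ => rfl,
    fun x => by simp only [sevPcT2a, sevBinT2, ev_add, ev_mul, Ex.eval],
    fun x => by
      simp only [sevPcT2a, sevBinT2, Piece.A, Piece.S, ev_add, ev_sub, ev_mul, Ex.eval]; push_cast; ring,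
    rfl, rfl⟩

/-- The bin T2. -/
theorem sevBinT2_signs : Bin₂ sevBinT2 sevPcT2a sevPcT2a sevBoxT2a sevBoxT2a :=
  ⟨sevBinT2_ok, ⟨sevPcT2a_cert, sevPcT2a_over, ⟨rfl, rfl, rfl, by norm_num [sevBoxT2a]⟩, rfl, rfl, rfl, rfl⟩,
    ⟨sevPcT2a_cert, sevPcT2a_over, ⟨rfl, rfl, rfl, by norm_num [sevBoxT2a]⟩, rfl, rfl, rfl, rfl⟩,
    by norm_num [sevBinT2, sevBoxT2a], rfl, rfl, rfl, Or.inr rfl⟩

/-- The piece `T3a` over its chart. -/
theorem sevPcT3a_over : sevPcT3a.Over sevBinT3 :=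
  ⟨fun _ => rfl, fun _ => rfl, fun _ => rfl, fun _ => rfl,
    fun x => by simp only [sevPcT3a, sevBinT3, ev_add, ev_mul, Ex.eval],
    fun x => by
      simp only [sevPcT3a, sevBinT3, Piece.A, Piece.S, ev_add, ev_sub, ev_mul, Ex.eval]; push_cast; ring,
    rfl, rfl⟩

/-- The bin T3. -/
theorem sevBinT3_signs : Bin₂ sevBinT3 sevPcT3a sevPcT3a sevBoxT3a sevBoxT3a :=
  ⟨sevBinT3_ok, ⟨sevPcT3a_cert, sevPcT3a_over, ⟨rfl, rfl, rfl, by norm_num [sevBoxT3a]⟩, rfl, rfl, rfl, rfl⟩,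
    ⟨sevPcT3a_cert, sevPcT3a_over, ⟨rfl, rfl, rfl, by norm_num [sevBoxT3a]⟩, rfl, rfl, rfl, rfl⟩,
    by norm_num [sevBinT3, sevBoxT3a], rfl, rfl, rfl, Or.inr rfl⟩

/-- The piece `T4a` over its chart. -/
theorem sevPcT4a_over : sevPcT4a.Over sevBinT4 :=
  ⟨fun _ => rfl, fun _ => rfl, fun _ => rfl, fun _ => rfl,
    fun x => by simp only [sevPcT4a, sevBinT4, ev_add, ev_mul, Ex.eval],
    fun x => by
      simp only [sevPcT4a, sevBinT4, Piece.A, Piece.S, ev_add, ev_sub, ev_mul, Ex.eval]; push_cast; ring,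
    rfl, rfl⟩

/-- The bin T4. -/
theorem sevBinT4_signs : Bin₂ sevBinT4 sevPcT4a sevPcT4a sevBoxT4a sevBoxT4a :=
  ⟨sevBinT4_ok, ⟨sevPcT4a_cert, sevPcT4a_over, ⟨rfl, rfl, rfl, by norm_num [sevBoxT4a]⟩, rfl, rfl, rfl, rfl⟩,
    ⟨sevPcT4a_cert, sevPcT4a_over, ⟨rfl, rfl, rfl, by norm_num [sevBoxT4a]⟩, rfl, rfl, rfl, rfl⟩,
    by norm_num [sevBinT4, sevBoxT4a], rfl, rfl, rfl, Or.inr rfl⟩

/-- The piece `T5a` over its chart. -/
theorem sevPcT5a_over : sevPcT5a.Over sevBinT5 :=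
  ⟨fun _ => rfl, fun _ => rfl, fun _ => rfl, fun _ => rfl,
    fun x => by simp only [sevPcT5a, sevBinT5, ev_add, ev_mul, Ex.eval],
    fun x => by
      simp only [sevPcT5a, sevBinT5, Piece.A, Piece.S, ev_add, ev_sub, ev_mul, Ex.eval]; push_cast; ring,
    rfl, rfl⟩

/-- The bin T5. -/
theorem sevBinT5_signs : Bin₂ sevBinT5 sevPcT5a sevPcT5a sevBoxT5a sevBoxT5a :=
  ⟨sevBinT5_ok, ⟨sevPcT5a_cert, sevPcT5a_over, ⟨rfl, rfl, rfl, by norm_num [sevBoxT5a]⟩, rfl, rfl, rfl, rfl⟩,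
    ⟨sevPcT5a_cert, sevPcT5a_over, ⟨rfl, rfl, rfl, by norm_num [sevBoxT5a]⟩, rfl, rfl, rfl, rfl⟩,
    by norm_num [sevBinT5, sevBoxT5a], rfl, rfl, rfl, Or.inr rfl⟩

end Vale.Agent.P100.Calib.StripEndD
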