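import Vale.Agent.P100.Calib.SlabStripEndDExpr
import Vale.Agent.P100.Calib.SlabStripEndCert
import Vale.Agent.P100.Calib.SlabStripEndChart

/-!
# The bins `A` of the `D` region for `N` between seven and twenty

`x = (d, I / d, (1 - u) / d, t)`, with `v` affine in `t`.
-/

namespace Vale.Agent.P100.Calib.StripEndD

open Pack hiding ev_add ev_mul
open Pack.Ex StripMid StripEnd

local instance endSevDataAAdd : Add Ex := ⟨Ex.add⟩
local instance endSevDataASub : Sub Ex := ⟨Ex.sub⟩
local instance endSevDataAMul : Mul Ex := ⟨Ex.mul⟩

/-- The chart of the bin `A0`. -/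
def sevBinA0 : EndChart where
  I := var 0 * var 1
  d := var 0
  w := var 0 * var 2
  den := num 100
  n₀ := (num 1 - num 2 * (var 0 * var 1) - var 0) * ((num 39) * var 1 + (num 81) * var 0 + num 8)
  n₁ := (num 1 - num 2 * (var 0 * var 1) - var 0) * ((num 89) * var 1 + (num 69) * var 0 + num (-27))
  q₀ := (5, 9, 100)
  q₁ := (111, 160, 200)
  q₂ := (0, 21, 500)
  q₃ := (0, 1, 1)
  t₀ := (0, 1)
  t₁ := (1, 1)
  mu₀ := (205, 100)
  mu₁ := (258, 100)

/-- The piece `A0a`. -/
def sevPcA0a : Piece where
  I := var 0 * var 1
  d := var 0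
  w := var 0 * var 2
  o := sevBinA0.n₀ + sevBinA0.n₁ * var 3
  den := num 100
  vn := num 2 * (((num 89) * var 1 + (num 69) * var 0 + num (-27)) * var 3 + (num 39) * var 1 + (num 81) * var 0 + num 8)
  vs := num 1
  mu := ⟨(205, 100), (258, 100)⟩
  pn := fun b => cond b
    ((((((num 482202) * var 0 + num 4450000) * var 0) * var 1 + (((num 373842) * var 0 + num 3544815) * var 0 + num 633899) * var 0 + num (-2225000)) * var 1 + (((num 186921) * var 0 + num 1464936) * var 0 + num (-2326857)) * var 0 + num 675000) * var 3 + ((((num 211302) * var 0 + num 1950000) * var 0) * var 1 + (((num 438858) * var 0 + num 4198995) * var 0 + num 1269349) * var 0 + num (-975000)) * var 1 + (((num 219429) * var 0 + num 1827243) * var 0 + num (-1846672)) * var 0 + num 2300000)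
    (((((num 4450000) * var 0) * var 1 + ((num 3450000) * var 0 + num 875000) * var 0 + num (-2225000)) * var 1 + ((num 1725000) * var 0 + num (-2400000)) * var 0 + num 675000) * var 3 + (((num 1950000) * var 0) * var 1 + ((num 4050000) * var 0 + num 1375000) * var 0 + num (-975000)) * var 1 + ((num 2025000) * var 0 + num (-1825000)) * var 0 + num 2300000)
  pd := num 25000
  en := fun b => cond b
    (((((num 766500) * var 0) * var 1) * var 3 + (((num (-154322000)) * var 0) * var 1 + ((num 86103500) * var 0 + num 28616000) * var 0) * var 1 + num 193158) * var 3 + (((num (-41774250)) * var 0) * var 1 + ((num 137331250) * var 0 + num 164286500) * var 0) * var 1 + (num 34457241) * var 0 + num 1652574)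
    (((((num 732000) * var 0) * var 1) * var 3 + (((num (-147376000)) * var 0) * var 1 + ((num 82228000) * var 0 + num 27328000) * var 0) * var 1) * var 3 + (((num (-39894000)) * var 0) * var 1 + ((num 131150000) * var 0 + num 156892000) * var 0) * var 1)
  kk := fun b => cond b
    (((num 171360) * var 0) * var 3 + ((num 101745) * var 0) * var 1 + ((num 32403105) * var 0 + num 1531530) * var 0)
    (num 0)
  f0 := num 12500000
  wn := fun b => cond b
    ((((((num (-14240)) * var 0 * var 0) * var 1 + (((num (-11040)) * var 0 + num 8580) * var 0 + num 7120) * var 0) * var 1 + (((num (-5520)) * var 0 + num 7680) * var 0 + num (-2160)) * var 0) * var 1) * var 3 + ((((num (-6240)) * var 0 * var 0) * var 1 + (((num (-34540)) * var 0 + num (-4389)) * var 0 + num 3120) * var 0) * var 1 + (((num (-6480)) * var 0 + num (-2160)) * var 0 + num (-7360)) * var 0) * var 1)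
    ((((((num (-14240)) * var 0 * var 0) * var 1 + (((num (-11040)) * var 0 + num 8580) * var 0 + num 7120) * var 0) * var 1 + (((num (-5520)) * var 0 + num 7680) * var 0 + num (-2160)) * var 0) * var 1) * var 3 + ((((num (-6240)) * var 0 * var 0) * var 1 + (((num (-34540)) * var 0 + num (-6149)) * var 0 + num 3120) * var 0) * var 1 + (((num (-6480)) * var 0 + num (-2160)) * var 0 + num (-7360)) * var 0) * var 1)
  wd := num 1000
  tn := fun b => cond b
    (((num 126882) * var 1 + num (-42294)) * var 3 + (num 63441) * var 1 + (num 613263) * var 0 + num 2093553)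
    (num 0)
  td := ((num (-65500000)) * var 1 + num 12500000) * var 3 + (num (-28500000)) * var 1 + (num 3000000) * var 0 + num 85000000
  cn := num 1 - var 0 * var 1 - var 1 * (num 1 - num 2 * (var 0 * var 1))
  cd := (num 1 - num 2 * (var 0 * var 1)) * (num 1 - num 2 * (var 0 * var 1))
  kn := var 0 * var 1 * ((((num 925673) * var 1 + num (-507371)) * var 3 + (num 291615) * var 1 + (num (-444321)) * var 0 + num (-321976)) * var 3 + ((num (-66705)) * var 1 + (num (-2065195)) * var 0 + num 198850) * var 1 + (num (-3788764)) * var 0 + num 762801)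
  kd := ((num (-13100)) * var 1 + num 2500) * var 3 + (num (-5700)) * var 1 + (num 600) * var 0 + num 17000
  k2n := (((num 637) * var 0) * var 3 + ((num (-4291)) * var 0) * var 1 + (num 1974) * var 0) * var 3 + ((num 3969) * var 0) * var 1 + ((num (-6633)) * var 0 + num (-1284)) * var 0
  k2d := num 100

/-- Its ranges. -/
def sevBoxA0a : EBox :=
  ⟨(5, 9, 100), (111, 160, 200), (0, 21, 500), (0, 3, 5)⟩

/-- The piece `A0b`. -/
def sevPcA0b : Piece where
  I := var 0 * var 1
  d := var 0
  w := var 0 * var 2
  o := sevBinA0.n₀ + sevBinA0.n₁ * var 3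
  den := num 100
  vn := num 2 * (((num 89) * var 1 + (num 69) * var 0 + num (-27)) * var 3 + (num 39) * var 1 + (num 81) * var 0 + num 8)
  vs := num 1
  mu := ⟨(205, 100), (258, 100)⟩
  pn := fun b => cond b
    ((((((num 482202) * var 0 + num 4450000) * var 0) * var 1 + (((num 373842) * var 0 + num 3544815) * var 0 + num 633899) * var 0 + num (-2225000)) * var 1 + (((num 186921) * var 0 + num 1464936) * var 0 + num (-2326857)) * var 0 + num 675000) * var 3 + ((((num 211302) * var 0 + num 1950000) * var 0) * var 1 + (((num 438858) * var 0 + num 4198995) * var 0 + num 1269349) * var 0 + num (-975000)) * var 1 + (((num 219429) * var 0 + num 1827243) * var 0 + num (-1846672)) * var 0 + num 2300000)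
    (((((num 4450000) * var 0) * var 1 + ((num 3450000) * var 0 + num 875000) * var 0 + num (-2225000)) * var 1 + ((num 1725000) * var 0 + num (-2400000)) * var 0 + num 675000) * var 3 + (((num 1950000) * var 0) * var 1 + ((num 4050000) * var 0 + num 1375000) * var 0 + num (-975000)) * var 1 + ((num 2025000) * var 0 + num (-1825000)) * var 0 + num 2300000)
  pd := num 25000
  en := fun b => cond b
    (((((num 9324000) * var 0) * var 1) * var 3 + (((num (-630924000)) * var 0) * var 1 + ((num 424242000) * var 0 + num 101010000) * var 0) * var 1 + num 783216) * var 3 + (((num (-166796000)) * var 0) * var 1 + ((num 452732000) * var 0 + num 677026000) * var 0) * var 1 + (num 143915940) * var 0 + num 6396264)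
    (((((num 8613000) * var 0) * var 1) * var 3 + (((num (-582813000)) * var 0) * var 1 + ((num 391891500) * var 0 + num 93307500) * var 0) * var 1) * var 3 + (((num (-154077000)) * var 0) * var 1 + ((num 418209000) * var 0 + num 625399500) * var 0) * var 1)
  kk := fun b => cond b
    (((num 664671) * var 0) * var 3 + ((num 1157814) * var 0) * var 1 + ((num 136536288) * var 0 + num 5188722) * var 0)
    (num 0)
  f0 := num 50000000
  wn := fun b => cond b
    ((((((num (-7120)) * var 0 * var 0) * var 1 + (((num (-5520)) * var 0 + num 2660) * var 0 + num 3560) * var 0) * var 1 + (((num (-2760)) * var 0 + num 3840) * var 0 + num (-1080)) * var 0) * var 1) * var 3 + ((((num (-3120)) * var 0 * var 0) * var 1 + (((num (-13250)) * var 0 + num (-1831)) * var 0 + num 1560) * var 0) * var 1 + (((num (-3240)) * var 0 + num (-1080)) * var 0 + num (-3680)) * var 0) * var 1)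
    ((((((num (-7120)) * var 0 * var 0) * var 1 + (((num (-5520)) * var 0 + num 2660) * var 0 + num 3560) * var 0) * var 1 + (((num (-2760)) * var 0 + num 3840) * var 0 + num (-1080)) * var 0) * var 1) * var 3 + ((((num (-3120)) * var 0 * var 0) * var 1 + (((num (-13250)) * var 0 + num (-2229)) * var 0 + num 1560) * var 0) * var 1 + (((num (-3240)) * var 0 + num (-1080)) * var 0 + num (-3680)) * var 0) * var 1)
  wd := num 500
  tn := fun b => cond b
    (((num 672) * var 1) * var 3 + (num 3360) * var 1 + (num 18144) * var 0 + num 65856)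
    (num 0)
  td := ((num (-1906250)) * var 1 + num 312500) * var 3 + (num (-1015625)) * var 1 + (num 609375) * var 0 + num 2687500
  cn := num 1 - var 0 * var 1 - var 1 * (num 1 - num 2 * (var 0 * var 1))
  cd := (num 1 - num 2 * (var 0 * var 1)) * (num 1 - num 2 * (var 0 * var 1))
  kn := var 0 * var 1 * ((((num 15228771) * var 1 + num (-7744036)) * var 3 + (num (-17996428)) * var 1 + (num (-717986)) * var 0 + num 8646105) * var 3 + ((num 2712786) * var 1 + (num (-16137057)) * var 0 + num 3270052) * var 1 + (num 6676854) * var 0 + num (-1449286))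
  kd := ((num (-12200)) * var 1 + num 2000) * var 3 + (num (-6500)) * var 1 + (num 3900) * var 0 + num 17200
  k2n := (((num 846) * var 0) * var 3 + ((num (-4263)) * var 0) * var 1 + (num 763) * var 0) * var 3 + ((num 4234) * var 0) * var 1 + ((num 950) * var 0 + num (-1417)) * var 0
  k2d := num 100

/-- Its ranges. -/
def sevBoxA0b : EBox :=
  ⟨(5, 9, 100), (111, 160, 200), (0, 21, 500), (3, 5, 5)⟩

end Vale.Agent.P100.Calib.StripEndD
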