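import Vale.Agent.P100.Calib.SlabStripEndDExpr
import Vale.Agent.P100.Calib.SlabStripEndCert
import Vale.Agent.P100.Calib.SlabStripEndChart

/-!
# The bins `K` of the `D` region for `N` between seven and twenty

`x = (d, I / d, (1 - u) / d, t)`, with `v` affine in `t`.
-/

namespace Vale.Agent.P100.Calib.StripEndD

open Pack hiding ev_add ev_mul
open Pack.Ex StripMid StripEnd

local instance endSevDataKAdd : Add Ex := ⟨Ex.add⟩
local instance endSevDataKSub : Sub Ex := ⟨Ex.sub⟩
local instance endSevDataKMul : Mul Ex := ⟨Ex.mul⟩

/-- The chart of the bin `K0`. -/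
def sevBinK0 : EndChart where
  I := var 0 * var 1
  d := var 0
  w := var 0 * var 2
  den := num 100
  n₀ := (num 1 - num 2 * (var 0 * var 1) - var 0) * ((num 55) * var 1 + (num 170) * var 0 + num (-18))
  n₁ := (num 1 - num 2 * (var 0 * var 1) - var 0) * ((num 111) * var 1 + (num (-53)) * var 0 + num (-26))
  q₀ := (31, 34, 200)
  q₁ := (325, 363, 500)
  q₂ := (0, 11, 200)
  q₃ := (0, 1, 1)
  t₀ := (0, 1)
  t₁ := (1, 1)
  mu₀ := (229, 100)
  mu₁ := (326, 100)

/-- The piece `K0a`. -/
def sevPcK0a : Piece where
  I := var 0 * var 1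
  d := var 0
  w := var 0 * var 2
  o := sevBinK0.n₀ + sevBinK0.n₁ * var 3
  den := num 100
  vn := num 2 * (((num 111) * var 1 + (num (-53)) * var 0 + num (-26)) * var 3 + (num 55) * var 1 + (num 170) * var 0 + num (-18))
  vs := num 1
  mu := ⟨(229, 100), (326, 100)⟩
  pn := fun b => cond b
    ((((((num 398046) * var 0 + num 2220000) * var 0) * var 1 + (((num (-190058)) * var 0 + num (-954213)) * var 0 + num 390977) * var 0 + num (-1110000)) * var 1 + (((num (-95029)) * var 0 + num (-481589)) * var 0 + num 316618) * var 0 + num 260000) * var 3 + ((((num 197230) * var 0 + num 1100000) * var 0) * var 1 + (((num 609620) * var 0 + num 3434067) * var 0 + num 91385) * var 0 + num (-550000)) * var 1 + (((num 304810) * var 0 + num 1362916) * var 0 + num (-1847726)) * var 0 + num 1180000)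
    (((((num 2220000) * var 0) * var 1 + ((num (-1060000)) * var 0 + num 590000) * var 0 + num (-1110000)) * var 1 + ((num (-530000)) * var 0 + num 270000) * var 0 + num 260000) * var 3 + (((num 1100000) * var 0) * var 1 + ((num 3400000) * var 0 + num 190000) * var 0 + num (-550000)) * var 1 + ((num 1700000) * var 0 + num (-1880000)) * var 0 + num 1180000)
  pd := num 10000
  en := fun b => cond b
    ((((num (-90815000)) * var 0) * var 1 + num 1341725) * var 3 + (((num (-142065000)) * var 0) * var 1 + ((num 221605000) * var 0 + num 312830000) * var 0) * var 1 + (num 52383650) * var 0 + num 5975750)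
    ((((num (-85144600)) * var 0) * var 1) * var 3 + (((num (-133194600)) * var 0) * var 1 + ((num 207768200) * var 0 + num 293297200) * var 0) * var 1)
  kk := fun b => cond b
    (((num 1198890) * var 0) * var 3 + ((num 2808828) * var 0) * var 1 + ((num 53299224) * var 0 + num 3299802) * var 0)
    (num 0)
  f0 := num 20000000
  wn := fun b => cond b
    ((((((num (-17760)) * var 0 * var 0) * var 1 + (((num 8480) * var 0 + num 6270) * var 0 + num 8880) * var 0) * var 1 + (((num 4240) * var 0 + num (-2160)) * var 0 + num (-2080)) * var 0) * var 1) * var 3 + ((((num (-8800)) * var 0 * var 0) * var 1 + (((num (-59510)) * var 0 + num (-1232)) * var 0 + num 4400) * var 0) * var 1 + (((num (-13600)) * var 0 + num 7040) * var 0 + num (-9440)) * var 0) * var 1)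
    ((((((num (-17760)) * var 0 * var 0) * var 1 + (((num 8480) * var 0 + num 6270) * var 0 + num 8880) * var 0) * var 1 + (((num 4240) * var 0 + num (-2160)) * var 0 + num (-2080)) * var 0) * var 1) * var 3 + ((((num (-8800)) * var 0 * var 0) * var 1 + (((num (-59510)) * var 0 + num (-2775)) * var 0 + num 4400) * var 0) * var 1 + (((num (-13600)) * var 0 + num 7040) * var 0 + num (-9440)) * var 0) * var 1)
  wd := num 1000
  tn := fun b => cond b
    (((num 56430) * var 1 + num (-23463)) * var 3 + (num 5049) * var 1 + (num (-10989)) * var 0 + num 20790)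
    (num 0)
  td := num 500000
  cn := num 1 - var 0 * var 1 - var 1 * (num 1 - num 2 * (var 0 * var 1))
  cd := (num 1 - num 2 * (var 0 * var 1)) * (num 1 - num 2 * (var 0 * var 1))
  kn := var 0 * var 1 * ((((num 41911) * var 1 + num (-24059)) * var 3 + (num (-14988)) * var 1 + (num (-29241)) * var 0 + num 13821) * var 3 + ((num (-710)) * var 1 + (num (-48875)) * var 0 + num 12077) * var 1 + (num 30764) * var 0 + num (-4690))
  kd := num 100
  k2n := (((num (-37)) * var 0) * var 3 + ((num (-2173)) * var 0) * var 1 + (num 1371) * var 0) * var 3 + ((num 2610) * var 0) * var 1 + ((num 532) * var 0 + num (-1247)) * var 0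
  k2d := num 100

/-- Its ranges. -/
def sevBoxK0a : EBox :=
  ⟨(31, 34, 200), (325, 363, 500), (0, 11, 200), (0, 1, 1)⟩

/-- The chart of the bin `K1`. -/
def sevBinK1 : EndChart where
  I := var 0 * var 1
  d := var 0
  w := var 0 * var 2
  den := num 100
  n₀ := (num 1 - num 2 * (var 0 * var 1) - var 0) * ((num 48) * var 1 + (num 104) * var 0 + num (-7))
  n₁ := (num 1 - num 2 * (var 0 * var 1) - var 0) * ((num 74) * var 1 + (num 3) * var 0 + num (-14))
  q₀ := (31, 34, 200)
  q₁ := (325, 363, 500)
  q₂ := (11, 26, 200)
  q₃ := (0, 1, 1)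
  t₀ := (0, 1)
  t₁ := (1, 1)
  mu₀ := (219, 100)
  mu₁ := (316, 100)

/-- The piece `K1a`. -/
def sevPcK1a : Piece where
  I := var 0 * var 1
  d := var 0
  w := var 0 * var 2
  o := sevBinK1.n₀ + sevBinK1.n₁ * var 3
  den := num 100
  vn := num 2 * (((num 74) * var 1 + (num 3) * var 0 + num (-14)) * var 3 + (num 48) * var 1 + (num 104) * var 0 + num (-7))
  vs := num 1
  mu := ⟨(219, 100), (316, 100)⟩
  pn := fun b => cond b
    ((((((num 1215968) * var 0 + num 2960000) * var 0) * var 1 + (((num 49296) * var 0 + num 497936) * var 0 + num 312016) * var 0 + num (-1480000)) * var 1 + (((num 24648) * var 0 + num (-79672)) * var 0 + num (-224976)) * var 0 + num 280000) * var 3 + ((((num 788736) * var 0 + num 1920000) * var 0) * var 1 + (((num 1708928) * var 0 + num 4439344) * var 0 + num 285632) * var 0 + num (-960000)) * var 1 + (((num 854464) * var 0 + num 1168024) * var 0 + num (-2162488)) * var 0 + num 2140000)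
    ((((((num 356532) * var 0 + num 2960000) * var 0) * var 1 + (((num 14454) * var 0 + num 230814) * var 0 + num 741734) * var 0 + num (-1480000)) * var 1 + (((num 7227) * var 0 + num 19047) * var 0 + num (-306274)) * var 0 + num 280000) * var 3 + ((((num 231264) * var 0 + num 1920000) * var 0) * var 1 + (((num 501072) * var 0 + num 4241906) * var 0 + num 564368) * var 0 + num (-960000)) * var 1 + (((num 250536) * var 0 + num 1812601) * var 0 + num (-2203137)) * var 0 + num 2140000)
  pd := num 20000
  en := fun b => cond b
    ((((num (-80250600)) * var 0) * var 1 + num 2628054) * var 3 + (((num (-53908800)) * var 0) * var 1 + ((num 186026200) * var 0 + num 266276800) * var 0) * var 1 + (num 130101946) * var 0 + num 12609350)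
    ((((num (-76477800)) * var 0) * var 1 + num 1059597) * var 3 + (((num (-51374400)) * var 0) * var 1 + ((num 177280600) * var 0 + num 253758400) * var 0) * var 1 + (num 52455403) * var 0 + num 5083925)
  kk := fun b => cond b
    (((num 2470936) * var 0) * var 3 + ((num 4753866) * var 0) * var 1 + ((num 119330094) * var 0 + num 9534590) * var 0)
    (((num 979616) * var 0) * var 3 + ((num 1884696) * var 0) * var 1 + ((num 47309064) * var 0 + num 3780040) * var 0)
  f0 := num 20000000
  wn := fun b => cond b
    ((((((num (-2368000)) * var 0 * var 0) * var 1 + (((num (-96000)) * var 0 + num 1386880) * var 0 + num 1184000) * var 0) * var 1 + (((num (-50640)) * var 0 + num 481110) * var 0 + num (-191440)) * var 0) * var 1 + (((num (-1320)) * var 0 + num 7480) * var 0 + num (-6160)) * var 0) * var 3 + ((((num (-1536000)) * var 0 * var 0) * var 1 + (((num (-12248000)) * var 0 + num (-587640)) * var 0 + num 768000) * var 0) * var 1 + (((num (-1726150)) * var 0 + num 346753) * var 0 + num (-1690880)) * var 0) * var 1 + (((num (-45760)) * var 0 + num 48840) * var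 0 + num (-3080)) * var 0)
    ((((((num (-2368000)) * var 0 * var 0) * var 1 + (((num (-96000)) * var 0 + num 1386880) * var 0 + num 1184000) * var 0) * var 1 + (((num (-50640)) * var 0 + num 481110) * var 0 + num (-191440)) * var 0) * var 1 + (((num (-1320)) * var 0 + num 7480) * var 0 + num (-6160)) * var 0) * var 3 + ((((num (-1536000)) * var 0 * var 0) * var 1 + (((num (-12248000)) * var 0 + num (-808840)) * var 0 + num 768000) * var 0) * var 1 + (((num (-1726150)) * var 0 + num 334587) * var 0 + num (-1690880)) * var 0) * var 1 + (((num (-45760)) * var 0 + num 48840) * var 0 + num (-3080)) * var 0)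
  wd := num 200000
  tn := fun b => cond b
    (((num 1212536) * var 1 + num (-340600)) * var 3 + (num 258856) * var 1 + (num (-613080)) * var 0 + num 885560)
    (((num 472857) * var 1 + num (-132825)) * var 3 + (num 100947) * var 1 + (num (-239085)) * var 0 + num 345345)
  td := num 10000000
  cn := num 1 - var 0 * var 1 - var 1 * (num 1 - num 2 * (var 0 * var 1))
  cd := (num 1 - num 2 * (var 0 * var 1)) * (num 1 - num 2 * (var 0 * var 1))
  kn := var 0 * var 1 * ((((num 18954) * var 1 + num (-9508)) * var 3 + (num (-4774)) * var 1 + (num (-3702)) * var 0 + num 3675) * var 3 + ((num (-1659)) * var 1 + (num (-29311)) * var 0 + num 9066) * var 1 + (num 17652) * var 0 + num (-2409))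
  kd := num 100
  k2n := (((num (-78)) * var 0) * var 3 + ((num (-1047)) * var 0) * var 1 + (num 731) * var 0) * var 3 + ((num 1306) * var 0) * var 1 + ((num 710) * var 0 + num (-729)) * var 0
  k2d := num 100

/-- Its ranges. -/
def sevBoxK1a : EBox :=
  ⟨(31, 34, 200), (325, 363, 500), (11, 26, 200), (0, 1, 1)⟩

/-- The chart of the bin `K2`. -/
def sevBinK2 : EndChart where
  I := var 0 * var 1
  d := var 0
  w := var 0 * var 2
  den := num 100
  n₀ := (num 1 - num 2 * (var 0 * var 1) - var 0) * ((num 42) * var 1 + (num 73) * var 0 + num (-4))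
  n₁ := (num 1 - num 2 * (var 0 * var 1) - var 0) * ((num 63) * var 1 + (num 17) * var 0 + num (-11))
  q₀ := (31, 34, 200)
  q₁ := (325, 363, 500)
  q₂ := (13, 28, 100)
  q₃ := (0, 1, 1)
  t₀ := (0, 1)
  t₁ := (1, 1)
  mu₀ := (206, 100)
  mu₁ := (308, 100)

/-- The piece `K2a`. -/
def sevPcK2a : Piece where
  I := var 0 * var 1
  d := var 0
  w := var 0 * var 2
  o := sevBinK2.n₀ + sevBinK2.n₁ * var 3
  den := num 100
  vn := num 2 * (((num 63) * var 1 + (num 17) * var 0 + num (-11)) * var 3 + (num 42) * var 1 + (num 73) * var 0 + num (-4))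
  vs := num 1
  mu := ⟨(206, 100), (308, 100)⟩
  pn := fun b => cond b
    ((((((num 543312) * var 0 + num 630000) * var 0) * var 1 + (((num 146608) * var 0 + num 346792) * var 0 + num (-66656)) * var 0 + num (-315000)) * var 1 + (((num 73304) * var 0 + num (-35736)) * var 0 + num (-92568)) * var 0 + num 55000) * var 3 + ((((num 362208) * var 0 + num 420000) * var 0) * var 1 + (((num 629552) * var 0 + num 876608) * var 0 + num (-11104)) * var 0 + num (-210000)) * var 1 + (((num 314776) * var 0 + num 32976) * var 0 + num (-367752)) * var 0 + num 520000)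
    ((((((num 168714) * var 0 + num 630000) * var 0) * var 1 + (((num 45526) * var 0 + num 224899) * var 0 + num 120643) * var 0 + num (-315000)) * var 1 + (((num 22763) * var 0 + num 47508) * var 0 + num (-125271)) * var 0 + num 55000) * var 3 + ((((num 112476) * var 0 + num 420000) * var 0) * var 1 + (((num 195494) * var 0 + num 775526) * var 0 + num 113762) * var 0 + num (-210000)) * var 1 + (((num 97747) * var 0 + num 261897) * var 0 + num (-379644)) * var 0 + num 520000)
  pd := num 5000
  en := fun b => cond b
    ((((num (-36756000)) * var 0) * var 1 + num 2487156) * var 3 + (((num 2960900) * var 0) * var 1 + ((num 42677800) * var 0 + num 127114500) * var 0) * var 1 + (num 137937100) * var 0 + num 13264832)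
    ((((num (-35064000)) * var 0) * var 1 + num 1101594) * var 3 + (((num 2824600) * var 0) * var 1 + ((num 40713200) * var 0 + num 121263000) * var 0) * var 1 + (num 61094150) * var 0 + num 5875168)
  kk := fun b => cond b
    (((num 2396044) * var 0) * var 3 + ((num 4128124) * var 0) * var 1 + ((num 122429188) * var 0 + num 11200784) * var 0)
    (((num 1047709) * var 0) * var 3 + ((num 1805089) * var 0) * var 1 + ((num 53534143) * var 0 + num 4897724) * var 0)
  f0 := num 10000000
  wn := fun b => cond b
    ((((((num (-1008000)) * var 0 * var 0) * var 1 + (((num (-272000)) * var 0 + num 723480) * var 0 + num 504000) * var 0) * var 1 + (((num (-153680)) * var 0 + num 480360) * var 0 + num (-55240)) * var 0) * var 1 + (((num (-8840)) * var 0 + num 14560) * var 0 + num (-5720)) * var 0) * var 3 + ((((num (-672000)) * var 0 * var 0) * var 1 + (((num (-7056000)) * var 0 + num (-385180)) * var 0 + num 336000) * var 0) * var 1 + (((num (-383280)) * var 0 + num (-74605)) * var 0 + num (-810160)) * var 0) * var 1 + (((num (-37960)) * var 0 + num 40040) * var 0 + num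 (-2080)) * var 0)
    ((((((num (-1008000)) * var 0 * var 0) * var 1 + (((num (-272000)) * var 0 + num 723480) * var 0 + num 504000) * var 0) * var 1 + (((num (-153680)) * var 0 + num 480360) * var 0 + num (-55240)) * var 0) * var 1 + (((num (-8840)) * var 0 + num 14560) * var 0 + num (-5720)) * var 0) * var 3 + ((((num (-672000)) * var 0 * var 0) * var 1 + (((num (-7056000)) * var 0 + num (-483580)) * var 0 + num 336000) * var 0) * var 1 + (((num (-383280)) * var 0 + num (-87397)) * var 0 + num (-810160)) * var 0) * var 1 + (((num (-37960)) * var 0 + num 40040) * var 0 + num (-2080)) * var 0)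
  wd := num 100000
  tn := fun b => cond b
    (((num 141400) * var 1 + num (-22624)) * var 3 + (num 48076) * var 1 + (num (-73528)) * var 0 + num 158368)
    (((num 64350) * var 1 + num (-10296)) * var 3 + (num 21879) * var 1 + (num (-33462)) * var 0 + num 72072)
  td := num 1000000
  cn := num 1 - var 0 * var 1 - var 1 * (num 1 - num 2 * (var 0 * var 1))
  cd := (num 1 - num 2 * (var 0 * var 1)) * (num 1 - num 2 * (var 0 * var 1))
  kn := var 0 * var 1 * ((((num 15226) * var 1 + num (-7310)) * var 3 + (num (-2665)) * var 1 + (num 484) * var 0 + num 2201) * var 3 + ((num (-1645)) * var 1 + (num (-19940)) * var 0 + num 7511) * var 1 + (num 13357) * var 0 + num (-1727))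
  kd := num 100
  k2n := (((num (-64)) * var 0) * var 3 + ((num (-740)) * var 0) * var 1 + (num 555) * var 0) * var 3 + ((num 955) * var 0) * var 1 + ((num 643) * var 0 + num (-567)) * var 0
  k2d := num 100

/-- Its ranges. -/
def sevBoxK2a : EBox :=
  ⟨(31, 34, 200), (325, 363, 500), (13, 28, 100), (0, 1, 1)⟩

/-- The chart of the bin `K3`. -/
def sevBinK3 : EndChart where
  I := var 0 * var 1
  d := var 0
  w := var 0 * var 2
  den := num 100
  n₀ := (num 1 - num 2 * (var 0 * var 1) - var 0) * ((num 48) * var 1 + (num 116) * var 0 + num (-19))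
  n₁ := (num 1 - num 2 * (var 0 * var 1) - var 0) * ((num 29) * var 1 + (num (-5)) * var 0 + num 10)
  q₀ := (31, 34, 200)
  q₁ := (325, 363, 500)
  q₂ := (7, 10, 25)
  q₃ := (0, 1, 1)
  t₀ := (0, 1)
  t₁ := (1, 1)
  mu₀ := (193, 100)
  mu₁ := (299, 100)

/-- The piece `K3a`. -/
def sevPcK3a : Piece where
  I := var 0 * var 1
  d := var 0
  w := var 0 * var 2
  o := sevBinK3.n₀ + sevBinK3.n₁ * var 3
  den := num 100
  vn := num 2 * (((num 29) * var 1 + (num (-5)) * var 0 + num 10) * var 3 + (num 48) * var 1 + (num 116) * var 0 + num (-19))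
  vs := num 1
  mu := ⟨(193, 100), (299, 100)⟩
  pn := fun b => cond b
    ((((((num 173420) * var 0 + num 145000) * var 0) * var 1 + (((num (-29900)) * var 0 + num 121510) * var 0 + num 35790) * var 0 + num (-72500)) * var 1 + (((num (-14950)) * var 0 + num 32350) * var 0 + num 7600) * var 0 + num (-25000)) * var 3 + ((((num 287040) * var 0 + num 240000) * var 0) * var 1 + (((num 693680) * var 0 + num 609900) * var 0 + num (-118520)) * var 0 + num (-120000)) * var 1 + (((num 346840) * var 0 + num (-113650)) * var 0 + num (-280690)) * var 0 + num 297500)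
    ((((((num 78358) * var 0 + num 145000) * var 0) * var 1 + (((num (-13510)) * var 0 + num 41199) * var 0 + num 83321) * var 0 + num (-72500)) * var 1 + (((num (-6755)) * var 0 + num 7765) * var 0 + num 23990) * var 0 + num (-25000)) * var 3 + ((((num 129696) * var 0 + num 240000) * var 0) * var 1 + (((num 313432) * var 0 + num 593510) * var 0 + num (-39848)) * var 0 + num (-120000)) * var 1 + (((num 156716) * var 0 + num 107615) * var 0 + num (-311831)) * var 0 + num 297500)
  pd := num 2500
  en := fun b => cond b
    ((((num (-6483350)) * var 0) * var 1 + num 571760) * var 3 + (((num 8372200) * var 0) * var 1 + ((num (-25984450)) * var 0 + num 32850675) * var 0) * var 1 + (num 50090260) * var 0 + num 4512820)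
    ((((num (-6203950)) * var 0) * var 1 + num 382984) * var 3 + (((num 8011400) * var 0) * var 1 + ((num (-24864650)) * var 0 + num 31434975) * var 0) * var 1 + (num 33552134) * var 0 + num 3022838)
  kk := fun b => cond b
    (((num 678480) * var 0) * var 3 + ((num 1151360) * var 0) * var 1 + ((num 42960120) * var 0 + num 4153120) * var 0)
    (((num 449064) * var 0) * var 3 + ((num 762048) * var 0) * var 1 + ((num 28433916) * var 0 + num 2748816) * var 0)
  f0 := num 2500000
  wn := fun b => cond b
    ((((((num (-116000)) * var 0 * var 0) * var 1 + (((num 20000) * var 0 + num 133760) * var 0 + num 58000) * var 0) * var 1 + (((num 12800) * var 0 + num 87250) * var 0 + num 28120) * var 0) * var 1 + (((num 1400) * var 0 + num (-4200)) * var 0 + num 2800) * var 0) * var 3 + ((((num (-192000)) * var 0 * var 0) * var 1 + (((num (-2062500)) * var 0 + num (-107555)) * var 0 + num 96000) * var 0) * var 1 + (((num 196960) * var 0 + num 64071) * var 0 + num (-224560)) * var 0) * var 1 + (((num (-32480)) * var 0 + num 37800) * var 0 + num (-5320)) * var 0)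
    ((((((num (-116000)) * var 0 * var 0) * var 1 + (((num 20000) * var 0 + num 133760) * var 0 + num 58000) * var 0) * var 1 + (((num 12800) * var 0 + num 87250) * var 0 + num 28120) * var 0) * var 1 + (((num 1400) * var 0 + num (-4200)) * var 0 + num 2800) * var 0) * var 3 + ((((num (-192000)) * var 0 * var 0) * var 1 + (((num (-2062500)) * var 0 + num (-130980)) * var 0 + num 96000) * var 0) * var 1 + (((num 196960) * var 0 + num 57512) * var 0 + num (-224560)) * var 0) * var 1 + (((num (-32480)) * var 0 + num 37800) * var 0 + num (-5320)) * var 0)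
  wd := num 25000
  tn := fun b => cond b
    (((num 171870) * var 1 + num 50550) * var 3 + (num 212310) * var 1 + (num 121320) * var 0 + num 424620)
    (((num 117453) * var 1 + num 34545) * var 3 + (num 145089) * var 1 + (num 82908) * var 0 + num 290178)
  td := num 2500000
  cn := num 1 - var 0 * var 1 - var 1 * (num 1 - num 2 * (var 0 * var 1))
  cd := (num 1 - num 2 * (var 0 * var 1)) * (num 1 - num 2 * (var 0 * var 1))
  kn := var 0 * var 1 * ((((num 1941) * var 1 + num (-350)) * var 3 + (num 1803) * var 1 + (num 3568) * var 0 + num (-1418)) * var 3 + ((num (-732)) * var 1 + (num (-4676)) * var 0 + num 3414) * var 1 + (num 5476) * var 0 + num (-347))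
  kd := num 100
  k2n := (((num (-62)) * var 0) * var 3 + ((num (-371)) * var 0) * var 1 + (num 354) * var 0) * var 3 + ((num 633) * var 0) * var 1 + ((num 493) * var 0 + num (-422)) * var 0
  k2d := num 100

/-- Its ranges. -/
def sevBoxK3a : EBox :=
  ⟨(31, 34, 200), (325, 363, 500), (7, 10, 25), (0, 1, 1)⟩

/-- The chart of the bin `K4`. -/
def sevBinK4 : EndChart where
  I := var 0 * var 1
  d := var 0
  w := var 0 * var 2
  den := num 100
  n₀ := (num 1 - num 2 * (var 0 * var 1) - var 0) * ((num 37) * var 1 + (num 74) * var 0 + num (-9))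
  n₁ := (num 1 - num 2 * (var 0 * var 1) - var 0) * ((num 45) * var 1 + (num (-3)) * var 0 + num (-3))
  q₀ := (31, 34, 200)
  q₁ := (325, 363, 500)
  q₂ := (10, 14, 25)
  q₃ := (0, 1, 1)
  t₀ := (0, 1)
  t₁ := (1, 1)
  mu₀ := (178, 100)
  mu₁ := (295, 100)

/-- The piece `K4a`. -/
def sevPcK4a : Piece where
  I := var 0 * var 1
  d := var 0
  w := var 0 * var 2
  o := sevBinK4.n₀ + sevBinK4.n₁ * var 3
  den := num 100
  vn := num 2 * (((num 45) * var 1 + (num (-3)) * var 0 + num (-3)) * var 3 + (num 37) * var 1 + (num 74) * var 0 + num (-9))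
  vs := num 1
  mu := ⟨(178, 100), (295, 100)⟩
  pn := fun b => cond b
    ((((((num 37170) * var 0 + num 22500) * var 0) * var 1 + (((num (-2478)) * var 0 + num 14607) * var 0 + num (-8835)) * var 0 + num (-11250)) * var 1 + (((num (-1239)) * var 0 + num (-750)) * var 0 + num 1239) * var 0 + num 750) * var 3 + ((((num 30562) * var 0 + num 18500) * var 0) * var 1 + (((num 61124) * var 0 + num 44847) * var 0 + num (-10531)) * var 0 + num (-9250)) * var 1 + (((num 30562) * var 0 + num (-15779)) * var 0 + num (-17033)) * var 0 + num 27250)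
    ((((((num 16020) * var 0 + num 22500) * var 0) * var 1 + (((num (-1068)) * var 0 + num 5442) * var 0 + num 1740) * var 0 + num (-11250)) * var 1 + (((num (-534)) * var 0 + num (-750)) * var 0 + num 534) * var 0 + num 750) * var 3 + ((((num 13172) * var 0 + num 18500) * var 0) * var 1 + (((num 26344) * var 0 + num 40382) * var 0 + num (-1836)) * var 0 + num (-9250)) * var 1 + (((num 13172) * var 0 + num 3726) * var 0 + num (-19148)) * var 0 + num 27250)
  pd := num 250
  en := fun b => cond b
    ((((num (-5411300)) * var 0) * var 1 + num 700406) * var 3 + (((num 13553775) * var 0) * var 1 + ((num (-38057775)) * var 0 + num 32187025) * var 0) * var 1 + (num 67310446) * var 0 + num 6532358)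
    ((((num (-5172800)) * var 0) * var 1 + num 478240) * var 3 + (((num 12956400) * var 0) * var 1 + ((num (-36380400)) * var 0 + num 30768400) * var 0) * var 1 + (num 45959840) * var 0 + num 4460320)
  kk := fun b => cond b
    (((num 848302) * var 0) * var 3 + ((num 1466556) * var 0) * var 1 + ((num 57210062) * var 0 + num 6168162) * var 0)
    (((num 573480) * var 0) * var 3 + ((num 991440) * var 0) * var 1 + ((num 38675880) * var 0 + num 4169880) * var 0)
  f0 := num 2500000
  wn := fun b => cond b
    ((((((num (-36000)) * var 0 * var 0) * var 1 + (((num 2400) * var 0 + num 28250) * var 0 + num 18000) * var 0) * var 1 + (((num 1680) * var 0 + num 32480) * var 0 + num 2400) * var 0) * var 1 + ((num 240) * var 0 * var 0 + num (-240)) * var 0) * var 3 + ((((num (-29600)) * var 0 * var 0) * var 1 + (((num (-518400)) * var 0 + num (-15475)) * var 0 + num 14800) * var 0) * var 1 + (((num 66640) * var 0 + num (-8282)) * var 0 + num (-40640)) * var 0) * var 1 + (((num (-5920)) * var 0 + num 6640) * var 0 + num (-720)) * var 0)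
    ((((((num (-36000)) * var 0 * var 0) * var 1 + (((num 2400) * var 0 + num 28250) * var 0 + num 18000) * var 0) * var 1 + (((num 1680) * var 0 + num 32480) * var 0 + num 2400) * var 0) * var 1 + ((num 240) * var 0 * var 0 + num (-240)) * var 0) * var 3 + ((((num (-29600)) * var 0 * var 0) * var 1 + (((num (-518400)) * var 0 + num (-23865)) * var 0 + num 14800) * var 0) * var 1 + (((num 66640) * var 0 + num (-11638)) * var 0 + num (-40640)) * var 0) * var 1 + (((num (-5920)) * var 0 + num 6640) * var 0 + num (-720)) * var 0)
  wd := num 5000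
  tn := fun b => cond b
    (((num 26999) * var 1 + num (-1421)) * var 3 + (num 21315) * var 1 + (num 8526) * var 0 + num 59682)
    (((num 19038) * var 1 + num (-1002)) * var 3 + (num 15030) * var 1 + (num 6012) * var 0 + num 42084)
  td := num 250000
  cn := num 1 - var 0 * var 1 - var 1 * (num 1 - num 2 * (var 0 * var 1))
  cd := (num 1 - num 2 * (var 0 * var 1)) * (num 1 - num 2 * (var 0 * var 1))
  kn := var 0 * var 1 * ((((num 2854) * var 1 + num (-1214)) * var 3 + (num 1475) * var 1 + (num 2486) * var 0 + num (-1094)) * var 3 + ((num (-635)) * var 1 + (num (-2941)) * var 0 + num 2760) * var 1 + (num 3842) * var 0 + num 7)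
  kd := num 100
  k2n := (((num (-47)) * var 0) * var 3 + ((num (-232)) * var 0) * var 1 + (num 255) * var 0) * var 3 + ((num 504) * var 0) * var 1 + ((num 288) * var 0 + num (-316)) * var 0
  k2d := num 100

/-- Its ranges. -/
def sevBoxK4a : EBox :=
  ⟨(31, 34, 200), (325, 363, 500), (10, 14, 25), (0, 1, 1)⟩

/-- The chart of the bin `K5`. -/
def sevBinK5 : EndChart where
  I := var 0 * var 1
  d := var 0
  w := var 0 * var 2
  den := num 100
  n₀ := (num 1 - num 2 * (var 0 * var 1) - var 0) * ((num 11) * var 1 + (num 81) * var 0)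
  n₁ := (num 1 - num 2 * (var 0 * var 1) - var 0) * ((num 69) * var 1 + (num 47) * var 0 + num (-25))
  q₀ := (31, 34, 200)
  q₁ := (325, 363, 500)
  q₂ := (14, 25, 25)
  q₃ := (0, 1, 1)
  t₀ := (0, 1)
  t₁ := (1, 1)
  mu₀ := (127, 100)
  mu₁ := (304, 100)

/-- The piece `K5a`. -/
def sevPcK5a : Piece where
  I := var 0 * var 1
  d := var 0
  w := var 0 * var 2
  o := sevBinK5.n₀ + sevBinK5.n₁ * var 3
  den := num 100
  vn := num 2 * (((num 69) * var 1 + (num 47) * var 0 + num (-25)) * var 3 + (num 11) * var 1 + (num 81) * var 0)
  vs := num 1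
  mu := ⟨(127, 100), (304, 100)⟩
  pn := fun b => cond b
    ((((((num 524400) * var 0 + num 172500) * var 0) * var 1 + (((num 357200) * var 0 + num 189700) * var 0 + num (-238450)) * var 0 + num (-86250)) * var 1 + (((num 178600) * var 0 + num (-214850)) * var 0 + num 5000) * var 0 + num 31250) * var 3 + ((((num 83600) * var 0 + num 27500) * var 0) * var 1 + (((num 615600) * var 0 + num 244300) * var 0 + num (-28050)) * var 0 + num (-13750)) * var 1 + (((num 307800) * var 0 + num (-206550)) * var 0 + num (-101250)) * var 0 + num 125000)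
    ((((((num 122682) * var 0 + num 172500) * var 0) * var 1 + (((num 83566) * var 0 + num 134391) * var 0 + num (-37591)) * var 0 + num (-86250)) * var 1 + (((num 41783) * var 0 + num (-5258)) * var 0 + num (-67775)) * var 0 + num 31250) * var 3 + ((((num 19558) * var 0 + num 27500) * var 0) * var 1 + (((num 144018) * var 0 + num 212279) * var 0 + num 3971) * var 0 + num (-13750)) * var 1 + (((num 72009) * var 0 + num 29241) * var 0 + num (-101250)) * var 0 + num 125000)
  pd := num 1250
  en := fun b => cond b
    ((((num (-5865300)) * var 0) * var 1 + num 1363425) * var 3 + (((num 21969150) * var 0) * var 1 + ((num (-69251700)) * var 0 + num 34317150) * var 0) * var 1 + (num 115248000) * var 0 + num 11884950)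
    ((((num (-5517600)) * var 0) * var 1 + num 718256) * var 3 + (((num 20666800) * var 0) * var 1 + ((num (-65146400)) * var 0 + num 32282800) * var 0) * var 1 + (num 60712960) * var 0 + num 6261024)
  kk := fun b => cond b
    (((num 1450400) * var 0) * var 3 + ((num 1864800) * var 0) * var 1 + ((num 99870400) * var 0 + num 11499600) * var 0)
    (((num 756560) * var 0) * var 3 + ((num 972720) * var 0) * var 1 + ((num 52094560) * var 0 + num 5998440) * var 0)
  f0 := num 2500000
  wn := fun b => cond b
    ((((((num (-138000)) * var 0 * var 0) * var 1 + (((num (-94000)) * var 0 + num 51235) * var 0 + num 69000) * var 0) * var 1 + (((num (-73320)) * var 0 + num 233350) * var 0 + num (-5680)) * var 0) * var 1 + (((num (-13160)) * var 0 + num 20160) * var 0 + num (-7000)) * var 0) * var 3 + ((((num (-22000)) * var 0 * var 0) * var 1 + (((num (-1682125)) * var 0 + num (-12235)) * var 0 + num 11000) * var 0) * var 1 + (((num 521840) * var 0 + num (-98492)) * var 0 + num (-96920)) * var 0) * var 1 + ((num (-22680)) * var 0 + num 22680) * var 0 * var 0)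
    ((((((num (-138000)) * var 0 * var 0) * var 1 + (((num (-94000)) * var 0 + num 51235) * var 0 + num 69000) * var 0) * var 1 + (((num (-73320)) * var 0 + num 233350) * var 0 + num (-5680)) * var 0) * var 1 + (((num (-13160)) * var 0 + num 20160) * var 0 + num (-7000)) * var 0) * var 3 + ((((num (-22000)) * var 0 * var 0) * var 1 + (((num (-1682125)) * var 0 + num (-54485)) * var 0 + num 11000) * var 0) * var 1 + (((num 521840) * var 0 + num (-122152)) * var 0 + num (-96920)) * var 0) * var 1 + ((num (-22680)) * var 0 + num 22680) * var 0 * var 0)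
  wd := num 12500
  tn := fun b => cond b
    (((num 184125) * var 1 + num (-12275)) * var 3 + (num 85925) * var 1 + (num 466450) * var 0 + num 417350)
    (((num 110145) * var 1 + num (-7343)) * var 3 + (num 51401) * var 1 + (num 279034) * var 0 + num 249662)
  td := num 1250000
  cn := num 1 - var 0 * var 1 - var 1 * (num 1 - num 2 * (var 0 * var 1))
  cd := (num 1 - num 2 * (var 0 * var 1)) * (num 1 - num 2 * (var 0 * var 1))
  kn := var 0 * var 1 * ((((num 5078) * var 1 + num (-2355)) * var 3 + (num 703) * var 1 + (num 10760) * var 0 + num (-1833)) * var 3 + ((num (-1087)) * var 1 + (num (-1586)) * var 0 + num 2467) * var 1 + (num 1907) * var 0 + num 592)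
  kd := num 100
  k2n := (((num 123) * var 0) * var 3 + ((num (-761)) * var 0) * var 1 + (num 375) * var 0) * var 3 + ((num 923) * var 0) * var 1 + ((num 908) * var 0 + num (-579)) * var 0
  k2d := num 100

/-- Its ranges. -/
def sevBoxK5a : EBox :=
  ⟨(31, 34, 200), (325, 363, 500), (14, 25, 25), (0, 1, 1)⟩

end Vale.Agent.P100.Calib.StripEndD
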