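import Vale.Agent.P100.Calib.SlabStripEndSevBins

/-!
# The `D` charts for `N` between seven and twenty
-/

set_option linter.unusedVariables false
set_option linter.unusedTactic false
set_option linter.unreachableTactic false

namespace Vale.Agent.P100.Calib.StripEndD

open Pack hiding ev_add ev_mul
open Pack.Ex Band StripMid StripEnd

local instance endSevSignsAdd : Add Ex := ⟨Ex.add⟩
local instance endSevSignsSub : Sub Ex := ⟨Ex.sub⟩
local instance endSevSignsMul : Mul Ex := ⟨Ex.mul⟩

theorem atA0 {n : ℕ} {a b u v t H : ℝ} (hb : Closed.All.ChartBox n (b - a) (a + b))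
    (hF : Closed.All.ChartFacts (b - a) (a + b) u v t)
    (hH : Closed.chH (b - a) (a + b) u v t = H) (hB : EndBands7 a b u v H) (hk : DHigh a b)
    (h1 : (1 / 20 : ℝ) < b - a) (h2 : b - a ≤ (9 / 100 : ℝ)) (h3 : (111 / 200 : ℝ) * (b - a) < allStabI a b)
    (h4 : allStabI a b ≤ (4 / 5 : ℝ) * (b - a)) (h5 : (0 / 1 : ℝ) * (b - a) < 1 - u)
    (h6 : 1 - u ≤ (21 / 500 : ℝ) * (b - a)) : Closed.Strip.ChartSigns (b - a) (a + b) u v t := by
  have hd := (end_facts7 hB).2.1
  exact sevBinA0_signs.signs hb hF hH hB hk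
    ⟨by norm_num [sevBinA0], by norm_num [sevBinA0]; linarith, by norm_num [sevBinA0]; linarith⟩
    (inU_div hd (by norm_num [sevBinA0]) (by norm_num [sevBinA0]; linarith) (by norm_num [sevBinA0]; linarith))
    (inU_div hd (by norm_num [sevBinA0]) (by norm_num [sevBinA0]; linarith) (by norm_num [sevBinA0]; linarith))

theorem atB0 {n : ℕ} {a b u v t H : ℝ} (hb : Closed.All.ChartBox n (b - a) (a + b))
    (hF : Closed.All.ChartFacts (b - a) (a + b) u v t)
    (hH : Closed.chH (b - a) (a + b) u v t = H) (hB : EndBands7 a b u v H) (hk : DHigh a b)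
    (h1 : (1 / 20 : ℝ) < b - a) (h2 : b - a ≤ (9 / 100 : ℝ)) (h3 : (4 / 5 : ℝ) * (b - a) < allStabI a b)
    (h4 : allStabI a b ≤ (1 / 1 : ℝ) * (b - a)) (h5 : (0 / 1 : ℝ) * (b - a) < 1 - u)
    (h6 : 1 - u ≤ (3 / 1000 : ℝ) * (b - a)) : Closed.Strip.ChartSigns (b - a) (a + b) u v t := by
  have hd := (end_facts7 hB).2.1
  exact sevBinB0_signs.signs hb hF hH hB hk
    ⟨by norm_num [sevBinB0], by norm_num [sevBinB0]; linarith, by norm_num [sevBinB0]; linarith⟩
    (inU_div hd (by norm_num [sevBinB0]) (by norm_num [sevBinB0]; linarith) (by norm_num [sevBinB0]; linarith))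
    (inU_div hd (by norm_num [sevBinB0]) (by norm_num [sevBinB0]; linarith) (by norm_num [sevBinB0]; linarith))

theorem atB1 {n : ℕ} {a b u v t H : ℝ} (hb : Closed.All.ChartBox n (b - a) (a + b))
    (hF : Closed.All.ChartFacts (b - a) (a + b) u v t)
    (hH : Closed.chH (b - a) (a + b) u v t = H) (hB : EndBands7 a b u v H) (hk : DHigh a b)
    (h1 : (1 / 20 : ℝ) < b - a) (h2 : b - a ≤ (9 / 100 : ℝ)) (h3 : (4 / 5 : ℝ) * (b - a) < allStabI a b)
    (h4 : allStabI a b ≤ (1 / 1 : ℝ) * (b - a)) (h5 : (3 / 1000 : ℝ) * (b - a) < 1 - u)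
    (h6 : 1 - u ≤ (1 / 100 : ℝ) * (b - a)) : Closed.Strip.ChartSigns (b - a) (a + b) u v t := by
  have hd := (end_facts7 hB).2.1
  exact sevBinB1_signs.signs hb hF hH hB hk
    ⟨by norm_num [sevBinB1], by norm_num [sevBinB1]; linarith, by norm_num [sevBinB1]; linarith⟩
    (inU_div hd (by norm_num [sevBinB1]) (by norm_num [sevBinB1]; linarith) (by norm_num [sevBinB1]; linarith))
    (inU_div hd (by norm_num [sevBinB1]) (by norm_num [sevBinB1]; linarith) (by norm_num [sevBinB1]; linarith))

theorem atB2 {n : ℕ} {a b u v t H : ℝ} (hb : Closed.All.ChartBox n (b - a) (a + b))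
    (hF : Closed.All.ChartFacts (b - a) (a + b) u v t)
    (hH : Closed.chH (b - a) (a + b) u v t = H) (hB : EndBands7 a b u v H) (hk : DHigh a b)
    (h1 : (1 / 20 : ℝ) < b - a) (h2 : b - a ≤ (9 / 100 : ℝ)) (h3 : (4 / 5 : ℝ) * (b - a) < allStabI a b)
    (h4 : allStabI a b ≤ (1 / 1 : ℝ) * (b - a)) (h5 : (1 / 100 : ℝ) * (b - a) < 1 - u)
    (h6 : 1 - u ≤ (3 / 100 : ℝ) * (b - a)) : Closed.Strip.ChartSigns (b - a) (a + b) u v t := by
  have hd := (end_facts7 hB).2.1
  exact sevBinB2_signs.signs hb hF hH hB hk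
    ⟨by norm_num [sevBinB2], by norm_num [sevBinB2]; linarith, by norm_num [sevBinB2]; linarith⟩
    (inU_div hd (by norm_num [sevBinB2]) (by norm_num [sevBinB2]; linarith) (by norm_num [sevBinB2]; linarith))
    (inU_div hd (by norm_num [sevBinB2]) (by norm_num [sevBinB2]; linarith) (by norm_num [sevBinB2]; linarith))

theorem atB3 {n : ℕ} {a b u v t H : ℝ} (hb : Closed.All.ChartBox n (b - a) (a + b))
    (hF : Closed.All.ChartFacts (b - a) (a + b) u v t)
    (hH : Closed.chH (b - a) (a + b) u v t = H) (hB : EndBands7 a b u v H) (hk : DHigh a b)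
    (h1 : (1 / 20 : ℝ) < b - a) (h2 : b - a ≤ (9 / 100 : ℝ)) (h3 : (4 / 5 : ℝ) * (b - a) < allStabI a b)
    (h4 : allStabI a b ≤ (1 / 1 : ℝ) * (b - a)) (h5 : (3 / 100 : ℝ) * (b - a) < 1 - u)
    (h6 : 1 - u ≤ (21 / 500 : ℝ) * (b - a)) : Closed.Strip.ChartSigns (b - a) (a + b) u v t := by
  have hd := (end_facts7 hB).2.1
  exact sevBinB3_signs.signs hb hF hH hB hk
    ⟨by norm_num [sevBinB3], by norm_num [sevBinB3]; linarith, by norm_num [sevBinB3]; linarith⟩
    (inU_div hd (by norm_num [sevBinB3]) (by norm_num [sevBinB3]; linarith) (by norm_num [sevBinB3]; linarith))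
    (inU_div hd (by norm_num [sevBinB3]) (by norm_num [sevBinB3]; linarith) (by norm_num [sevBinB3]; linarith))

theorem atC0 {n : ℕ} {a b u v t H : ℝ} (hb : Closed.All.ChartBox n (b - a) (a + b))
    (hF : Closed.All.ChartFacts (b - a) (a + b) u v t)
    (hH : Closed.chH (b - a) (a + b) u v t = H) (hB : EndBands7 a b u v H) (hk : DHigh a b)
    (h1 : (1 / 20 : ℝ) < b - a) (h2 : b - a ≤ (9 / 100 : ℝ)) (h3 : (111 / 200 : ℝ) * (b - a) < allStabI a b)
    (h4 : allStabI a b ≤ (1 / 1 : ℝ) * (b - a)) (h5 : (21 / 500 : ℝ) * (b - a) < 1 - u)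
    (h6 : 1 - u ≤ (1 / 10 : ℝ) * (b - a)) : Closed.Strip.ChartSigns (b - a) (a + b) u v t := by
  have hd := (end_facts7 hB).2.1
  exact sevBinC0_signs.signs hb hF hH hB hk
    ⟨by norm_num [sevBinC0], by norm_num [sevBinC0]; linarith, by norm_num [sevBinC0]; linarith⟩
    (inU_div hd (by norm_num [sevBinC0]) (by norm_num [sevBinC0]; linarith) (by norm_num [sevBinC0]; linarith))
    (inU_div hd (by norm_num [sevBinC0]) (by norm_num [sevBinC0]; linarith) (by norm_num [sevBinC0]; linarith))

theorem atC1 {n : ℕ} {a b u v t H : ℝ} (hb : Closed.All.ChartBox n (b - a) (a + b))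
    (hF : Closed.All.ChartFacts (b - a) (a + b) u v t)
    (hH : Closed.chH (b - a) (a + b) u v t = H) (hB : EndBands7 a b u v H) (hk : DHigh a b)
    (h1 : (1 / 20 : ℝ) < b - a) (h2 : b - a ≤ (9 / 100 : ℝ)) (h3 : (111 / 200 : ℝ) * (b - a) < allStabI a b)
    (h4 : allStabI a b ≤ (1 / 1 : ℝ) * (b - a)) (h5 : (1 / 10 : ℝ) * (b - a) < 1 - u)
    (h6 : 1 - u ≤ (11 / 50 : ℝ) * (b - a)) : Closed.Strip.ChartSigns (b - a) (a + b) u v t := by
  have hd := (end_facts7 hB).2.1
  exact sevBinC1_signs.signs hb hF hH hB hk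
    ⟨by norm_num [sevBinC1], by norm_num [sevBinC1]; linarith, by norm_num [sevBinC1]; linarith⟩
    (inU_div hd (by norm_num [sevBinC1]) (by norm_num [sevBinC1]; linarith) (by norm_num [sevBinC1]; linarith))
    (inU_div hd (by norm_num [sevBinC1]) (by norm_num [sevBinC1]; linarith) (by norm_num [sevBinC1]; linarith))

theorem atC2 {n : ℕ} {a b u v t H : ℝ} (hb : Closed.All.ChartBox n (b - a) (a + b))
    (hF : Closed.All.ChartFacts (b - a) (a + b) u v t)
    (hH : Closed.chH (b - a) (a + b) u v t = H) (hB : EndBands7 a b u v H) (hk : DHigh a b)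
    (h1 : (1 / 20 : ℝ) < b - a) (h2 : b - a ≤ (9 / 100 : ℝ)) (h3 : (111 / 200 : ℝ) * (b - a) < allStabI a b)
    (h4 : allStabI a b ≤ (1 / 1 : ℝ) * (b - a)) (h5 : (11 / 50 : ℝ) * (b - a) < 1 - u)
    (h6 : 1 - u ≤ (12 / 25 : ℝ) * (b - a)) : Closed.Strip.ChartSigns (b - a) (a + b) u v t := by
  have hd := (end_facts7 hB).2.1
  exact sevBinC2_signs.signs hb hF hH hB hk
    ⟨by norm_num [sevBinC2], by norm_num [sevBinC2]; linarith, by norm_num [sevBinC2]; linarith⟩
    (inU_div hd (by norm_num [sevBinC2]) (by norm_num [sevBinC2]; linarith) (by norm_num [sevBinC2]; linarith))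
    (inU_div hd (by norm_num [sevBinC2]) (by norm_num [sevBinC2]; linarith) (by norm_num [sevBinC2]; linarith))

theorem atC3 {n : ℕ} {a b u v t H : ℝ} (hb : Closed.All.ChartBox n (b - a) (a + b))
    (hF : Closed.All.ChartFacts (b - a) (a + b) u v t)
    (hH : Closed.chH (b - a) (a + b) u v t = H) (hB : EndBands7 a b u v H) (hk : DHigh a b)
    (h1 : (1 / 20 : ℝ) < b - a) (h2 : b - a ≤ (9 / 100 : ℝ)) (h3 : (111 / 200 : ℝ) * (b - a) < allStabI a b)
    (h4 : allStabI a b ≤ (1 / 1 : ℝ) * (b - a)) (h5 : (12 / 25 : ℝ) * (b - a) < 1 - u)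
    (h6 : 1 - u ≤ (1 / 1 : ℝ) * (b - a)) : Closed.Strip.ChartSigns (b - a) (a + b) u v t := by
  have hd := (end_facts7 hB).2.1
  exact sevBinC3_signs.signs hb hF hH hB hk
    ⟨by norm_num [sevBinC3], by norm_num [sevBinC3]; linarith, by norm_num [sevBinC3]; linarith⟩
    (inU_div hd (by norm_num [sevBinC3]) (by norm_num [sevBinC3]; linarith) (by norm_num [sevBinC3]; linarith))
    (inU_div hd (by norm_num [sevBinC3]) (by norm_num [sevBinC3]; linarith) (by norm_num [sevBinC3]; linarith))

theorem atD0 {n : ℕ} {a b u v t H : ℝ} (hb : Closed.All.ChartBox n (b - a) (a + b))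
    (hF : Closed.All.ChartFacts (b - a) (a + b) u v t)
    (hH : Closed.chH (b - a) (a + b) u v t = H) (hB : EndBands7 a b u v H) (hk : DHigh a b)
    (h1 : (9 / 100 : ℝ) < b - a) (h2 : b - a ≤ (13 / 100 : ℝ)) (h3 : (7 / 10 : ℝ) * (b - a) < allStabI a b)
    (h4 : allStabI a b ≤ (1 / 1 : ℝ) * (b - a)) (h5 : (0 / 1 : ℝ) * (b - a) < 1 - u)
    (h6 : 1 - u ≤ (1 / 100 : ℝ) * (b - a)) : Closed.Strip.ChartSigns (b - a) (a + b) u v t := by
  have hd := (end_facts7 hB).2.1
  exact sevBinD0_signs.signs hb hF hH hB hk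
    ⟨by norm_num [sevBinD0], by norm_num [sevBinD0]; linarith, by norm_num [sevBinD0]; linarith⟩
    (inU_div hd (by norm_num [sevBinD0]) (by norm_num [sevBinD0]; linarith) (by norm_num [sevBinD0]; linarith))
    (inU_div hd (by norm_num [sevBinD0]) (by norm_num [sevBinD0]; linarith) (by norm_num [sevBinD0]; linarith))

theorem atD1 {n : ℕ} {a b u v t H : ℝ} (hb : Closed.All.ChartBox n (b - a) (a + b))
    (hF : Closed.All.ChartFacts (b - a) (a + b) u v t)
    (hH : Closed.chH (b - a) (a + b) u v t = H) (hB : EndBands7 a b u v H) (hk : DHigh a b)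
    (h1 : (9 / 100 : ℝ) < b - a) (h2 : b - a ≤ (13 / 100 : ℝ)) (h3 : (7 / 10 : ℝ) * (b - a) < allStabI a b)
    (h4 : allStabI a b ≤ (1 / 1 : ℝ) * (b - a)) (h5 : (1 / 100 : ℝ) * (b - a) < 1 - u)
    (h6 : 1 - u ≤ (3 / 100 : ℝ) * (b - a)) : Closed.Strip.ChartSigns (b - a) (a + b) u v t := by
  have hd := (end_facts7 hB).2.1
  exact sevBinD1_signs.signs hb hF hH hB hk
    ⟨by norm_num [sevBinD1], by norm_num [sevBinD1]; linarith, by norm_num [sevBinD1]; linarith⟩
    (inU_div hd (by norm_num [sevBinD1]) (by norm_num [sevBinD1]; linarith) (by norm_num [sevBinD1]; linarith))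
    (inU_div hd (by norm_num [sevBinD1]) (by norm_num [sevBinD1]; linarith) (by norm_num [sevBinD1]; linarith))

theorem atD2 {n : ℕ} {a b u v t H : ℝ} (hb : Closed.All.ChartBox n (b - a) (a + b))
    (hF : Closed.All.ChartFacts (b - a) (a + b) u v t)
    (hH : Closed.chH (b - a) (a + b) u v t = H) (hB : EndBands7 a b u v H) (hk : DHigh a b)
    (h1 : (9 / 100 : ℝ) < b - a) (h2 : b - a ≤ (13 / 100 : ℝ)) (h3 : (7 / 10 : ℝ) * (b - a) < allStabI a b)
    (h4 : allStabI a b ≤ (1 / 1 : ℝ) * (b - a)) (h5 : (3 / 100 : ℝ) * (b - a) < 1 - u)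
    (h6 : 1 - u ≤ (11 / 200 : ℝ) * (b - a)) : Closed.Strip.ChartSigns (b - a) (a + b) u v t := by
  have hd := (end_facts7 hB).2.1
  exact sevBinD2_signs.signs hb hF hH hB hk
    ⟨by norm_num [sevBinD2], by norm_num [sevBinD2]; linarith, by norm_num [sevBinD2]; linarith⟩
    (inU_div hd (by norm_num [sevBinD2]) (by norm_num [sevBinD2]; linarith) (by norm_num [sevBinD2]; linarith))
    (inU_div hd (by norm_num [sevBinD2]) (by norm_num [sevBinD2]; linarith) (by norm_num [sevBinD2]; linarith))

theorem atD3 {n : ℕ} {a b u v t H : ℝ} (hb : Closed.All.ChartBox n (b - a) (a + b))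
    (hF : Closed.All.ChartFacts (b - a) (a + b) u v t)
    (hH : Closed.chH (b - a) (a + b) u v t = H) (hB : EndBands7 a b u v H) (hk : DHigh a b)
    (h1 : (9 / 100 : ℝ) < b - a) (h2 : b - a ≤ (13 / 100 : ℝ)) (h3 : (7 / 10 : ℝ) * (b - a) < allStabI a b)
    (h4 : allStabI a b ≤ (1 / 1 : ℝ) * (b - a)) (h5 : (11 / 200 : ℝ) * (b - a) < 1 - u)
    (h6 : 1 - u ≤ (1 / 10 : ℝ) * (b - a)) : Closed.Strip.ChartSigns (b - a) (a + b) u v t := by
  have hd := (end_facts7 hB).2.1
  exact sevBinD3_signs.signs hb hF hH hB hk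
    ⟨by norm_num [sevBinD3], by norm_num [sevBinD3]; linarith, by norm_num [sevBinD3]; linarith⟩
    (inU_div hd (by norm_num [sevBinD3]) (by norm_num [sevBinD3]; linarith) (by norm_num [sevBinD3]; linarith))
    (inU_div hd (by norm_num [sevBinD3]) (by norm_num [sevBinD3]; linarith) (by norm_num [sevBinD3]; linarith))

theorem atD4 {n : ℕ} {a b u v t H : ℝ} (hb : Closed.All.ChartBox n (b - a) (a + b))
    (hF : Closed.All.ChartFacts (b - a) (a + b) u v t)
    (hH : Closed.chH (b - a) (a + b) u v t = H) (hB : EndBands7 a b u v H) (hk : DHigh a b)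
    (h1 : (9 / 100 : ℝ) < b - a) (h2 : b - a ≤ (13 / 100 : ℝ)) (h3 : (7 / 10 : ℝ) * (b - a) < allStabI a b)
    (h4 : allStabI a b ≤ (1 / 1 : ℝ) * (b - a)) (h5 : (1 / 10 : ℝ) * (b - a) < 1 - u)
    (h6 : 1 - u ≤ (17 / 100 : ℝ) * (b - a)) : Closed.Strip.ChartSigns (b - a) (a + b) u v t := by
  have hd := (end_facts7 hB).2.1
  exact sevBinD4_signs.signs hb hF hH hB hk
    ⟨by norm_num [sevBinD4], by norm_num [sevBinD4]; linarith, by norm_num [sevBinD4]; linarith⟩
    (inU_div hd (by norm_num [sevBinD4]) (by norm_num [sevBinD4]; linarith) (by norm_num [sevBinD4]; linarith))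
    (inU_div hd (by norm_num [sevBinD4]) (by norm_num [sevBinD4]; linarith) (by norm_num [sevBinD4]; linarith))

theorem atD5 {n : ℕ} {a b u v t H : ℝ} (hb : Closed.All.ChartBox n (b - a) (a + b))
    (hF : Closed.All.ChartFacts (b - a) (a + b) u v t)
    (hH : Closed.chH (b - a) (a + b) u v t = H) (hB : EndBands7 a b u v H) (hk : DHigh a b)
    (h1 : (9 / 100 : ℝ) < b - a) (h2 : b - a ≤ (13 / 100 : ℝ)) (h3 : (7 / 10 : ℝ) * (b - a) < allStabI a b)
    (h4 : allStabI a b ≤ (1 / 1 : ℝ) * (b - a)) (h5 : (17 / 100 : ℝ) * (b - a) < 1 - u)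
    (h6 : 1 - u ≤ (7 / 25 : ℝ) * (b - a)) : Closed.Strip.ChartSigns (b - a) (a + b) u v t := by
  have hd := (end_facts7 hB).2.1
  exact sevBinD5_signs.signs hb hF hH hB hk
    ⟨by norm_num [sevBinD5], by norm_num [sevBinD5]; linarith, by norm_num [sevBinD5]; linarith⟩
    (inU_div hd (by norm_num [sevBinD5]) (by norm_num [sevBinD5]; linarith) (by norm_num [sevBinD5]; linarith))
    (inU_div hd (by norm_num [sevBinD5]) (by norm_num [sevBinD5]; linarith) (by norm_num [sevBinD5]; linarith))

theorem atD6 {n : ℕ} {a b u v t H : ℝ} (hb : Closed.All.ChartBox n (b - a) (a + b))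
    (hF : Closed.All.ChartFacts (b - a) (a + b) u v t)
    (hH : Closed.chH (b - a) (a + b) u v t = H) (hB : EndBands7 a b u v H) (hk : DHigh a b)
    (h1 : (9 / 100 : ℝ) < b - a) (h2 : b - a ≤ (13 / 100 : ℝ)) (h3 : (7 / 10 : ℝ) * (b - a) < allStabI a b)
    (h4 : allStabI a b ≤ (1 / 1 : ℝ) * (b - a)) (h5 : (7 / 25 : ℝ) * (b - a) < 1 - u)
    (h6 : 1 - u ≤ (12 / 25 : ℝ) * (b - a)) : Closed.Strip.ChartSigns (b - a) (a + b) u v t := by
  have hd := (end_facts7 hB).2.1
  exact sevBinD6_signs.signs hb hF hH hB hk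
    ⟨by norm_num [sevBinD6], by norm_num [sevBinD6]; linarith, by norm_num [sevBinD6]; linarith⟩
    (inU_div hd (by norm_num [sevBinD6]) (by norm_num [sevBinD6]; linarith) (by norm_num [sevBinD6]; linarith))
    (inU_div hd (by norm_num [sevBinD6]) (by norm_num [sevBinD6]; linarith) (by norm_num [sevBinD6]; linarith))

theorem atD7 {n : ℕ} {a b u v t H : ℝ} (hb : Closed.All.ChartBox n (b - a) (a + b))
    (hF : Closed.All.ChartFacts (b - a) (a + b) u v t)
    (hH : Closed.chH (b - a) (a + b) u v t = H) (hB : EndBands7 a b u v H) (hk : DHigh a b)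
    (h1 : (9 / 100 : ℝ) < b - a) (h2 : b - a ≤ (13 / 100 : ℝ)) (h3 : (7 / 10 : ℝ) * (b - a) < allStabI a b)
    (h4 : allStabI a b ≤ (1 / 1 : ℝ) * (b - a)) (h5 : (12 / 25 : ℝ) * (b - a) < 1 - u)
    (h6 : 1 - u ≤ (9 / 10 : ℝ) * (b - a)) : Closed.Strip.ChartSigns (b - a) (a + b) u v t := by
  have hd := (end_facts7 hB).2.1
  exact sevBinD7_signs.signs hb hF hH hB hk
    ⟨by norm_num [sevBinD7], by norm_num [sevBinD7]; linarith, by norm_num [sevBinD7]; linarith⟩
    (inU_div hd (by norm_num [sevBinD7]) (by norm_num [sevBinD7]; linarith) (by norm_num [sevBinD7]; linarith))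
    (inU_div hd (by norm_num [sevBinD7]) (by norm_num [sevBinD7]; linarith) (by norm_num [sevBinD7]; linarith))

theorem atD8 {n : ℕ} {a b u v t H : ℝ} (hb : Closed.All.ChartBox n (b - a) (a + b))
    (hF : Closed.All.ChartFacts (b - a) (a + b) u v t)
    (hH : Closed.chH (b - a) (a + b) u v t = H) (hB : EndBands7 a b u v H) (hk : DHigh a b)
    (h1 : (9 / 100 : ℝ) < b - a) (h2 : b - a ≤ (13 / 100 : ℝ)) (h3 : (7 / 10 : ℝ) * (b - a) < allStabI a b)
    (h4 : allStabI a b ≤ (1 / 1 : ℝ) * (b - a)) (h5 : (9 / 10 : ℝ) * (b - a) < 1 - u)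
    (h6 : 1 - u ≤ (1 / 1 : ℝ) * (b - a)) : Closed.Strip.ChartSigns (b - a) (a + b) u v t := by
  have hd := (end_facts7 hB).2.1
  exact sevBinD8_signs.signs hb hF hH hB hk
    ⟨by norm_num [sevBinD8], by norm_num [sevBinD8]; linarith, by norm_num [sevBinD8]; linarith⟩
    (inU_div hd (by norm_num [sevBinD8]) (by norm_num [sevBinD8]; linarith) (by norm_num [sevBinD8]; linarith))
    (inU_div hd (by norm_num [sevBinD8]) (by norm_num [sevBinD8]; linarith) (by norm_num [sevBinD8]; linarith))

theorem atE0 {n : ℕ} {a b u v t H : ℝ} (hb : Closed.All.ChartBox n (b - a) (a + b))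
    (hF : Closed.All.ChartFacts (b - a) (a + b) u v t)
    (hH : Closed.chH (b - a) (a + b) u v t = H) (hB : EndBands7 a b u v H) (hk : DHigh a b)
    (h1 : (9 / 100 : ℝ) < b - a) (h2 : b - a ≤ (13 / 100 : ℝ)) (h3 : (48 / 125 : ℝ) * (b - a) < allStabI a b)
    (h4 : allStabI a b ≤ (7 / 10 : ℝ) * (b - a)) (h5 : (0 / 1 : ℝ) * (b - a) < 1 - u)
    (h6 : 1 - u ≤ (11 / 200 : ℝ) * (b - a)) : Closed.Strip.ChartSigns (b - a) (a + b) u v t := by
  have hd := (end_facts7 hB).2.1
  exact sevBinE0_signs.signs hb hF hH hB hk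
    ⟨by norm_num [sevBinE0], by norm_num [sevBinE0]; linarith, by norm_num [sevBinE0]; linarith⟩
    (inU_div hd (by norm_num [sevBinE0]) (by norm_num [sevBinE0]; linarith) (by norm_num [sevBinE0]; linarith))
    (inU_div hd (by norm_num [sevBinE0]) (by norm_num [sevBinE0]; linarith) (by norm_num [sevBinE0]; linarith))

theorem atE1 {n : ℕ} {a b u v t H : ℝ} (hb : Closed.All.ChartBox n (b - a) (a + b))
    (hF : Closed.All.ChartFacts (b - a) (a + b) u v t)
    (hH : Closed.chH (b - a) (a + b) u v t = H) (hB : EndBands7 a b u v H) (hk : DHigh a b)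
    (h1 : (9 / 100 : ℝ) < b - a) (h2 : b - a ≤ (13 / 100 : ℝ)) (h3 : (48 / 125 : ℝ) * (b - a) < allStabI a b)
    (h4 : allStabI a b ≤ (7 / 10 : ℝ) * (b - a)) (h5 : (11 / 200 : ℝ) * (b - a) < 1 - u)
    (h6 : 1 - u ≤ (13 / 100 : ℝ) * (b - a)) : Closed.Strip.ChartSigns (b - a) (a + b) u v t := by
  have hd := (end_facts7 hB).2.1
  exact sevBinE1_signs.signs hb hF hH hB hk
    ⟨by norm_num [sevBinE1], by norm_num [sevBinE1]; linarith, by norm_num [sevBinE1]; linarith⟩
    (inU_div hd (by norm_num [sevBinE1]) (by norm_num [sevBinE1]; linarith) (by norm_num [sevBinE1]; linarith))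
    (inU_div hd (by norm_num [sevBinE1]) (by norm_num [sevBinE1]; linarith) (by norm_num [sevBinE1]; linarith))

theorem atE2 {n : ℕ} {a b u v t H : ℝ} (hb : Closed.All.ChartBox n (b - a) (a + b))
    (hF : Closed.All.ChartFacts (b - a) (a + b) u v t)
    (hH : Closed.chH (b - a) (a + b) u v t = H) (hB : EndBands7 a b u v H) (hk : DHigh a b)
    (h1 : (9 / 100 : ℝ) < b - a) (h2 : b - a ≤ (13 / 100 : ℝ)) (h3 : (48 / 125 : ℝ) * (b - a) < allStabI a b)
    (h4 : allStabI a b ≤ (7 / 10 : ℝ) * (b - a)) (h5 : (13 / 100 : ℝ) * (b - a) < 1 - u)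
    (h6 : 1 - u ≤ (17 / 50 : ℝ) * (b - a)) : Closed.Strip.ChartSigns (b - a) (a + b) u v t := by
  have hd := (end_facts7 hB).2.1
  exact sevBinE2_signs.signs hb hF hH hB hk
    ⟨by norm_num [sevBinE2], by norm_num [sevBinE2]; linarith, by norm_num [sevBinE2]; linarith⟩
    (inU_div hd (by norm_num [sevBinE2]) (by norm_num [sevBinE2]; linarith) (by norm_num [sevBinE2]; linarith))
    (inU_div hd (by norm_num [sevBinE2]) (by norm_num [sevBinE2]; linarith) (by norm_num [sevBinE2]; linarith))

theorem atE3 {n : ℕ} {a b u v t H : ℝ} (hb : Closed.All.ChartBox n (b - a) (a + b))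
    (hF : Closed.All.ChartFacts (b - a) (a + b) u v t)
    (hH : Closed.chH (b - a) (a + b) u v t = H) (hB : EndBands7 a b u v H) (hk : DHigh a b)
    (h1 : (9 / 100 : ℝ) < b - a) (h2 : b - a ≤ (13 / 100 : ℝ)) (h3 : (48 / 125 : ℝ) * (b - a) < allStabI a b)
    (h4 : allStabI a b ≤ (7 / 10 : ℝ) * (b - a)) (h5 : (17 / 50 : ℝ) * (b - a) < 1 - u)
    (h6 : 1 - u ≤ (33 / 50 : ℝ) * (b - a)) : Closed.Strip.ChartSigns (b - a) (a + b) u v t := by
  have hd := (end_facts7 hB).2.1
  exact sevBinE3_signs.signs hb hF hH hB hk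
    ⟨by norm_num [sevBinE3], by norm_num [sevBinE3]; linarith, by norm_num [sevBinE3]; linarith⟩
    (inU_div hd (by norm_num [sevBinE3]) (by norm_num [sevBinE3]; linarith) (by norm_num [sevBinE3]; linarith))
    (inU_div hd (by norm_num [sevBinE3]) (by norm_num [sevBinE3]; linarith) (by norm_num [sevBinE3]; linarith))

theorem atE4 {n : ℕ} {a b u v t H : ℝ} (hb : Closed.All.ChartBox n (b - a) (a + b))
    (hF : Closed.All.ChartFacts (b - a) (a + b) u v t)
    (hH : Closed.chH (b - a) (a + b) u v t = H) (hB : EndBands7 a b u v H) (hk : DHigh a b)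
    (h1 : (9 / 100 : ℝ) < b - a) (h2 : b - a ≤ (13 / 100 : ℝ)) (h3 : (48 / 125 : ℝ) * (b - a) < allStabI a b)
    (h4 : allStabI a b ≤ (7 / 10 : ℝ) * (b - a)) (h5 : (33 / 50 : ℝ) * (b - a) < 1 - u)
    (h6 : 1 - u ≤ (1 / 1 : ℝ) * (b - a)) : Closed.Strip.ChartSigns (b - a) (a + b) u v t := by
  have hd := (end_facts7 hB).2.1
  exact sevBinE4_signs.signs hb hF hH hB hk
    ⟨by norm_num [sevBinE4], by norm_num [sevBinE4]; linarith, by norm_num [sevBinE4]; linarith⟩
    (inU_div hd (by norm_num [sevBinE4]) (by norm_num [sevBinE4]; linarith) (by norm_num [sevBinE4]; linarith))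
    (inU_div hd (by norm_num [sevBinE4]) (by norm_num [sevBinE4]; linarith) (by norm_num [sevBinE4]; linarith))

theorem atF0 {n : ℕ} {a b u v t H : ℝ} (hb : Closed.All.ChartBox n (b - a) (a + b))
    (hF : Closed.All.ChartFacts (b - a) (a + b) u v t)
    (hH : Closed.chH (b - a) (a + b) u v t = H) (hB : EndBands7 a b u v H) (hk : DHigh a b)
    (h1 : (13 / 100 : ℝ) < b - a) (h2 : b - a ≤ (31 / 200 : ℝ)) (h3 : (13 / 20 : ℝ) * (b - a) < allStabI a b)
    (h4 : allStabI a b ≤ (481 / 500 : ℝ) * (b - a)) (h5 : (0 / 1 : ℝ) * (b - a) < 1 - u)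
    (h6 : 1 - u ≤ (11 / 500 : ℝ) * (b - a)) : Closed.Strip.ChartSigns (b - a) (a + b) u v t := by
  have hd := (end_facts7 hB).2.1
  exact sevBinF0_signs.signs hb hF hH hB hk
    ⟨by norm_num [sevBinF0], by norm_num [sevBinF0]; linarith, by norm_num [sevBinF0]; linarith⟩
    (inU_div hd (by norm_num [sevBinF0]) (by norm_num [sevBinF0]; linarith) (by norm_num [sevBinF0]; linarith))
    (inU_div hd (by norm_num [sevBinF0]) (by norm_num [sevBinF0]; linarith) (by norm_num [sevBinF0]; linarith))

theorem atF1 {n : ℕ} {a b u v t H : ℝ} (hb : Closed.All.ChartBox n (b - a) (a + b))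
    (hF : Closed.All.ChartFacts (b - a) (a + b) u v t)
    (hH : Closed.chH (b - a) (a + b) u v t = H) (hB : EndBands7 a b u v H) (hk : DHigh a b)
    (h1 : (13 / 100 : ℝ) < b - a) (h2 : b - a ≤ (31 / 200 : ℝ)) (h3 : (13 / 20 : ℝ) * (b - a) < allStabI a b)
    (h4 : allStabI a b ≤ (481 / 500 : ℝ) * (b - a)) (h5 : (11 / 500 : ℝ) * (b - a) < 1 - u)
    (h6 : 1 - u ≤ (21 / 500 : ℝ) * (b - a)) : Closed.Strip.ChartSigns (b - a) (a + b) u v t := by
  have hd := (end_facts7 hB).2.1
  exact sevBinF1_signs.signs hb hF hH hB hk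
    ⟨by norm_num [sevBinF1], by norm_num [sevBinF1]; linarith, by norm_num [sevBinF1]; linarith⟩
    (inU_div hd (by norm_num [sevBinF1]) (by norm_num [sevBinF1]; linarith) (by norm_num [sevBinF1]; linarith))
    (inU_div hd (by norm_num [sevBinF1]) (by norm_num [sevBinF1]; linarith) (by norm_num [sevBinF1]; linarith))

theorem atF2 {n : ℕ} {a b u v t H : ℝ} (hb : Closed.All.ChartBox n (b - a) (a + b))
    (hF : Closed.All.ChartFacts (b - a) (a + b) u v t)
    (hH : Closed.chH (b - a) (a + b) u v t = H) (hB : EndBands7 a b u v H) (hk : DHigh a b)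
    (h1 : (13 / 100 : ℝ) < b - a) (h2 : b - a ≤ (31 / 200 : ℝ)) (h3 : (13 / 20 : ℝ) * (b - a) < allStabI a b)
    (h4 : allStabI a b ≤ (481 / 500 : ℝ) * (b - a)) (h5 : (21 / 500 : ℝ) * (b - a) < 1 - u)
    (h6 : 1 - u ≤ (3 / 40 : ℝ) * (b - a)) : Closed.Strip.ChartSigns (b - a) (a + b) u v t := by
  have hd := (end_facts7 hB).2.1
  exact sevBinF2_signs.signs hb hF hH hB hk
    ⟨by norm_num [sevBinF2], by norm_num [sevBinF2]; linarith, by norm_num [sevBinF2]; linarith⟩
    (inU_div hd (by norm_num [sevBinF2]) (by norm_num [sevBinF2]; linarith) (by norm_num [sevBinF2]; linarith))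
    (inU_div hd (by norm_num [sevBinF2]) (by norm_num [sevBinF2]; linarith) (by norm_num [sevBinF2]; linarith))

theorem atF3 {n : ℕ} {a b u v t H : ℝ} (hb : Closed.All.ChartBox n (b - a) (a + b))
    (hF : Closed.All.ChartFacts (b - a) (a + b) u v t)
    (hH : Closed.chH (b - a) (a + b) u v t = H) (hB : EndBands7 a b u v H) (hk : DHigh a b)
    (h1 : (13 / 100 : ℝ) < b - a) (h2 : b - a ≤ (31 / 200 : ℝ)) (h3 : (13 / 20 : ℝ) * (b - a) < allStabI a b)
    (h4 : allStabI a b ≤ (481 / 500 : ℝ) * (b - a)) (h5 : (3 / 40 : ℝ) * (b - a) < 1 - u)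
    (h6 : 1 - u ≤ (13 / 100 : ℝ) * (b - a)) : Closed.Strip.ChartSigns (b - a) (a + b) u v t := by
  have hd := (end_facts7 hB).2.1
  exact sevBinF3_signs.signs hb hF hH hB hk
    ⟨by norm_num [sevBinF3], by norm_num [sevBinF3]; linarith, by norm_num [sevBinF3]; linarith⟩
    (inU_div hd (by norm_num [sevBinF3]) (by norm_num [sevBinF3]; linarith) (by norm_num [sevBinF3]; linarith))
    (inU_div hd (by norm_num [sevBinF3]) (by norm_num [sevBinF3]; linarith) (by norm_num [sevBinF3]; linarith))

theorem atF4 {n : ℕ} {a b u v t H : ℝ} (hb : Closed.All.ChartBox n (b - a) (a + b))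
    (hF : Closed.All.ChartFacts (b - a) (a + b) u v t)
    (hH : Closed.chH (b - a) (a + b) u v t = H) (hB : EndBands7 a b u v H) (hk : DHigh a b)
    (h1 : (13 / 100 : ℝ) < b - a) (h2 : b - a ≤ (31 / 200 : ℝ)) (h3 : (13 / 20 : ℝ) * (b - a) < allStabI a b)
    (h4 : allStabI a b ≤ (481 / 500 : ℝ) * (b - a)) (h5 : (13 / 100 : ℝ) * (b - a) < 1 - u)
    (h6 : 1 - u ≤ (11 / 50 : ℝ) * (b - a)) : Closed.Strip.ChartSigns (b - a) (a + b) u v t := by
  have hd := (end_facts7 hB).2.1
  exact sevBinF4_signs.signs hb hF hH hB hk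
    ⟨by norm_num [sevBinF4], by norm_num [sevBinF4]; linarith, by norm_num [sevBinF4]; linarith⟩
    (inU_div hd (by norm_num [sevBinF4]) (by norm_num [sevBinF4]; linarith) (by norm_num [sevBinF4]; linarith))
    (inU_div hd (by norm_num [sevBinF4]) (by norm_num [sevBinF4]; linarith) (by norm_num [sevBinF4]; linarith))

theorem atF5 {n : ℕ} {a b u v t H : ℝ} (hb : Closed.All.ChartBox n (b - a) (a + b))
    (hF : Closed.All.ChartFacts (b - a) (a + b) u v t)
    (hH : Closed.chH (b - a) (a + b) u v t = H) (hB : EndBands7 a b u v H) (hk : DHigh a b)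
    (h1 : (13 / 100 : ℝ) < b - a) (h2 : b - a ≤ (31 / 200 : ℝ)) (h3 : (13 / 20 : ℝ) * (b - a) < allStabI a b)
    (h4 : allStabI a b ≤ (481 / 500 : ℝ) * (b - a)) (h5 : (11 / 50 : ℝ) * (b - a) < 1 - u)
    (h6 : 1 - u ≤ (17 / 50 : ℝ) * (b - a)) : Closed.Strip.ChartSigns (b - a) (a + b) u v t := by
  have hd := (end_facts7 hB).2.1
  exact sevBinF5_signs.signs hb hF hH hB hk
    ⟨by norm_num [sevBinF5], by norm_num [sevBinF5]; linarith, by norm_num [sevBinF5]; linarith⟩
    (inU_div hd (by norm_num [sevBinF5]) (by norm_num [sevBinF5]; linarith) (by norm_num [sevBinF5]; linarith))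
    (inU_div hd (by norm_num [sevBinF5]) (by norm_num [sevBinF5]; linarith) (by norm_num [sevBinF5]; linarith))

theorem atF6 {n : ℕ} {a b u v t H : ℝ} (hb : Closed.All.ChartBox n (b - a) (a + b))
    (hF : Closed.All.ChartFacts (b - a) (a + b) u v t)
    (hH : Closed.chH (b - a) (a + b) u v t = H) (hB : EndBands7 a b u v H) (hk : DHigh a b)
    (h1 : (13 / 100 : ℝ) < b - a) (h2 : b - a ≤ (31 / 200 : ℝ)) (h3 : (13 / 20 : ℝ) * (b - a) < allStabI a b)
    (h4 : allStabI a b ≤ (481 / 500 : ℝ) * (b - a)) (h5 : (17 / 50 : ℝ) * (b - a) < 1 - u)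
    (h6 : 1 - u ≤ (2 / 5 : ℝ) * (b - a)) : Closed.Strip.ChartSigns (b - a) (a + b) u v t := by
  have hd := (end_facts7 hB).2.1
  exact sevBinF6_signs.signs hb hF hH hB hk
    ⟨by norm_num [sevBinF6], by norm_num [sevBinF6]; linarith, by norm_num [sevBinF6]; linarith⟩
    (inU_div hd (by norm_num [sevBinF6]) (by norm_num [sevBinF6]; linarith) (by norm_num [sevBinF6]; linarith))
    (inU_div hd (by norm_num [sevBinF6]) (by norm_num [sevBinF6]; linarith) (by norm_num [sevBinF6]; linarith))

theorem atF7 {n : ℕ} {a b u v t H : ℝ} (hb : Closed.All.ChartBox n (b - a) (a + b))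
    (hF : Closed.All.ChartFacts (b - a) (a + b) u v t)
    (hH : Closed.chH (b - a) (a + b) u v t = H) (hB : EndBands7 a b u v H) (hk : DHigh a b)
    (h1 : (13 / 100 : ℝ) < b - a) (h2 : b - a ≤ (31 / 200 : ℝ)) (h3 : (13 / 20 : ℝ) * (b - a) < allStabI a b)
    (h4 : allStabI a b ≤ (481 / 500 : ℝ) * (b - a)) (h5 : (2 / 5 : ℝ) * (b - a) < 1 - u)
    (h6 : 1 - u ≤ (12 / 25 : ℝ) * (b - a)) : Closed.Strip.ChartSigns (b - a) (a + b) u v t := by
  have hd := (end_facts7 hB).2.1
  exact sevBinF7_signs.signs hb hF hH hB hk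
    ⟨by norm_num [sevBinF7], by norm_num [sevBinF7]; linarith, by norm_num [sevBinF7]; linarith⟩
    (inU_div hd (by norm_num [sevBinF7]) (by norm_num [sevBinF7]; linarith) (by norm_num [sevBinF7]; linarith))
    (inU_div hd (by norm_num [sevBinF7]) (by norm_num [sevBinF7]; linarith) (by norm_num [sevBinF7]; linarith))

theorem atF8 {n : ℕ} {a b u v t H : ℝ} (hb : Closed.All.ChartBox n (b - a) (a + b))
    (hF : Closed.All.ChartFacts (b - a) (a + b) u v t)
    (hH : Closed.chH (b - a) (a + b) u v t = H) (hB : EndBands7 a b u v H) (hk : DHigh a b)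
    (h1 : (13 / 100 : ℝ) < b - a) (h2 : b - a ≤ (31 / 200 : ℝ)) (h3 : (13 / 20 : ℝ) * (b - a) < allStabI a b)
    (h4 : allStabI a b ≤ (481 / 500 : ℝ) * (b - a)) (h5 : (12 / 25 : ℝ) * (b - a) < 1 - u)
    (h6 : 1 - u ≤ (14 / 25 : ℝ) * (b - a)) : Closed.Strip.ChartSigns (b - a) (a + b) u v t := by
  have hd := (end_facts7 hB).2.1
  exact sevBinF8_signs.signs hb hF hH hB hk
    ⟨by norm_num [sevBinF8], by norm_num [sevBinF8]; linarith, by norm_num [sevBinF8]; linarith⟩
    (inU_div hd (by norm_num [sevBinF8]) (by norm_num [sevBinF8]; linarith) (by norm_num [sevBinF8]; linarith))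
    (inU_div hd (by norm_num [sevBinF8]) (by norm_num [sevBinF8]; linarith) (by norm_num [sevBinF8]; linarith))

theorem atF9 {n : ℕ} {a b u v t H : ℝ} (hb : Closed.All.ChartBox n (b - a) (a + b))
    (hF : Closed.All.ChartFacts (b - a) (a + b) u v t)
    (hH : Closed.chH (b - a) (a + b) u v t = H) (hB : EndBands7 a b u v H) (hk : DHigh a b)
    (h1 : (13 / 100 : ℝ) < b - a) (h2 : b - a ≤ (31 / 200 : ℝ)) (h3 : (13 / 20 : ℝ) * (b - a) < allStabI a b)
    (h4 : allStabI a b ≤ (481 / 500 : ℝ) * (b - a)) (h5 : (14 / 25 : ℝ) * (b - a) < 1 - u)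
    (h6 : 1 - u ≤ (9 / 10 : ℝ) * (b - a)) : Closed.Strip.ChartSigns (b - a) (a + b) u v t := by
  have hd := (end_facts7 hB).2.1
  exact sevBinF9_signs.signs hb hF hH hB hk
    ⟨by norm_num [sevBinF9], by norm_num [sevBinF9]; linarith, by norm_num [sevBinF9]; linarith⟩
    (inU_div hd (by norm_num [sevBinF9]) (by norm_num [sevBinF9]; linarith) (by norm_num [sevBinF9]; linarith))
    (inU_div hd (by norm_num [sevBinF9]) (by norm_num [sevBinF9]; linarith) (by norm_num [sevBinF9]; linarith))

theorem atF10 {n : ℕ} {a b u v t H : ℝ} (hb : Closed.All.ChartBox n (b - a) (a + b))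
    (hF : Closed.All.ChartFacts (b - a) (a + b) u v t)
    (hH : Closed.chH (b - a) (a + b) u v t = H) (hB : EndBands7 a b u v H) (hk : DHigh a b)
    (h1 : (13 / 100 : ℝ) < b - a) (h2 : b - a ≤ (31 / 200 : ℝ)) (h3 : (13 / 20 : ℝ) * (b - a) < allStabI a b)
    (h4 : allStabI a b ≤ (481 / 500 : ℝ) * (b - a)) (h5 : (9 / 10 : ℝ) * (b - a) < 1 - u)
    (h6 : 1 - u ≤ (1 / 1 : ℝ) * (b - a)) : Closed.Strip.ChartSigns (b - a) (a + b) u v t := by
  have hd := (end_facts7 hB).2.1
  exact sevBinF10_signs.signs hb hF hH hB hk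
    ⟨by norm_num [sevBinF10], by norm_num [sevBinF10]; linarith, by norm_num [sevBinF10]; linarith⟩
    (inU_div hd (by norm_num [sevBinF10]) (by norm_num [sevBinF10]; linarith) (by norm_num [sevBinF10]; linarith))
    (inU_div hd (by norm_num [sevBinF10]) (by norm_num [sevBinF10]; linarith) (by norm_num [sevBinF10]; linarith))

theorem atG0 {n : ℕ} {a b u v t H : ℝ} (hb : Closed.All.ChartBox n (b - a) (a + b))
    (hF : Closed.All.ChartFacts (b - a) (a + b) u v t)
    (hH : Closed.chH (b - a) (a + b) u v t = H) (hB : EndBands7 a b u v H) (hk : DHigh a b)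
    (h1 : (13 / 100 : ℝ) < b - a) (h2 : b - a ≤ (17 / 100 : ℝ)) (h3 : (147 / 500 : ℝ) * (b - a) < allStabI a b)
    (h4 : allStabI a b ≤ (13 / 20 : ℝ) * (b - a)) (h5 : (0 / 1 : ℝ) * (b - a) < 1 - u)
    (h6 : 1 - u ≤ (11 / 200 : ℝ) * (b - a)) : Closed.Strip.ChartSigns (b - a) (a + b) u v t := by
  have hd := (end_facts7 hB).2.1
  exact sevBinG0_signs.signs hb hF hH hB hk
    ⟨by norm_num [sevBinG0], by norm_num [sevBinG0]; linarith, by norm_num [sevBinG0]; linarith⟩
    (inU_div hd (by norm_num [sevBinG0]) (by norm_num [sevBinG0]; linarith) (by norm_num [sevBinG0]; linarith))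
    (inU_div hd (by norm_num [sevBinG0]) (by norm_num [sevBinG0]; linarith) (by norm_num [sevBinG0]; linarith))

theorem atG1 {n : ℕ} {a b u v t H : ℝ} (hb : Closed.All.ChartBox n (b - a) (a + b))
    (hF : Closed.All.ChartFacts (b - a) (a + b) u v t)
    (hH : Closed.chH (b - a) (a + b) u v t = H) (hB : EndBands7 a b u v H) (hk : DHigh a b)
    (h1 : (13 / 100 : ℝ) < b - a) (h2 : b - a ≤ (17 / 100 : ℝ)) (h3 : (147 / 500 : ℝ) * (b - a) < allStabI a b)
    (h4 : allStabI a b ≤ (13 / 20 : ℝ) * (b - a)) (h5 : (11 / 200 : ℝ) * (b - a) < 1 - u)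
    (h6 : 1 - u ≤ (13 / 100 : ℝ) * (b - a)) : Closed.Strip.ChartSigns (b - a) (a + b) u v t := by
  have hd := (end_facts7 hB).2.1
  exact sevBinG1_signs.signs hb hF hH hB hk
    ⟨by norm_num [sevBinG1], by norm_num [sevBinG1]; linarith, by norm_num [sevBinG1]; linarith⟩
    (inU_div hd (by norm_num [sevBinG1]) (by norm_num [sevBinG1]; linarith) (by norm_num [sevBinG1]; linarith))
    (inU_div hd (by norm_num [sevBinG1]) (by norm_num [sevBinG1]; linarith) (by norm_num [sevBinG1]; linarith))

theorem atG2 {n : ℕ} {a b u v t H : ℝ} (hb : Closed.All.ChartBox n (b - a) (a + b))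
    (hF : Closed.All.ChartFacts (b - a) (a + b) u v t)
    (hH : Closed.chH (b - a) (a + b) u v t = H) (hB : EndBands7 a b u v H) (hk : DHigh a b)
    (h1 : (13 / 100 : ℝ) < b - a) (h2 : b - a ≤ (17 / 100 : ℝ)) (h3 : (147 / 500 : ℝ) * (b - a) < allStabI a b)
    (h4 : allStabI a b ≤ (13 / 20 : ℝ) * (b - a)) (h5 : (13 / 100 : ℝ) * (b - a) < 1 - u)
    (h6 : 1 - u ≤ (7 / 25 : ℝ) * (b - a)) : Closed.Strip.ChartSigns (b - a) (a + b) u v t := by
  have hd := (end_facts7 hB).2.1
  exact sevBinG2_signs.signs hb hF hH hB hk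
    ⟨by norm_num [sevBinG2], by norm_num [sevBinG2]; linarith, by norm_num [sevBinG2]; linarith⟩
    (inU_div hd (by norm_num [sevBinG2]) (by norm_num [sevBinG2]; linarith) (by norm_num [sevBinG2]; linarith))
    (inU_div hd (by norm_num [sevBinG2]) (by norm_num [sevBinG2]; linarith) (by norm_num [sevBinG2]; linarith))

theorem atG3 {n : ℕ} {a b u v t H : ℝ} (hb : Closed.All.ChartBox n (b - a) (a + b))
    (hF : Closed.All.ChartFacts (b - a) (a + b) u v t)
    (hH : Closed.chH (b - a) (a + b) u v t = H) (hB : EndBands7 a b u v H) (hk : DHigh a b)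
    (h1 : (13 / 100 : ℝ) < b - a) (h2 : b - a ≤ (17 / 100 : ℝ)) (h3 : (147 / 500 : ℝ) * (b - a) < allStabI a b)
    (h4 : allStabI a b ≤ (13 / 20 : ℝ) * (b - a)) (h5 : (7 / 25 : ℝ) * (b - a) < 1 - u)
    (h6 : 1 - u ≤ (2 / 5 : ℝ) * (b - a)) : Closed.Strip.ChartSigns (b - a) (a + b) u v t := by
  have hd := (end_facts7 hB).2.1
  exact sevBinG3_signs.signs hb hF hH hB hk
    ⟨by norm_num [sevBinG3], by norm_num [sevBinG3]; linarith, by norm_num [sevBinG3]; linarith⟩
    (inU_div hd (by norm_num [sevBinG3]) (by norm_num [sevBinG3]; linarith) (by norm_num [sevBinG3]; linarith))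
    (inU_div hd (by norm_num [sevBinG3]) (by norm_num [sevBinG3]; linarith) (by norm_num [sevBinG3]; linarith))

theorem atG4 {n : ℕ} {a b u v t H : ℝ} (hb : Closed.All.ChartBox n (b - a) (a + b))
    (hF : Closed.All.ChartFacts (b - a) (a + b) u v t)
    (hH : Closed.chH (b - a) (a + b) u v t = H) (hB : EndBands7 a b u v H) (hk : DHigh a b)
    (h1 : (13 / 100 : ℝ) < b - a) (h2 : b - a ≤ (17 / 100 : ℝ)) (h3 : (147 / 500 : ℝ) * (b - a) < allStabI a b)
    (h4 : allStabI a b ≤ (13 / 20 : ℝ) * (b - a)) (h5 : (2 / 5 : ℝ) * (b - a) < 1 - u)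
    (h6 : 1 - u ≤ (12 / 25 : ℝ) * (b - a)) : Closed.Strip.ChartSigns (b - a) (a + b) u v t := by
  have hd := (end_facts7 hB).2.1
  exact sevBinG4_signs.signs hb hF hH hB hk
    ⟨by norm_num [sevBinG4], by norm_num [sevBinG4]; linarith, by norm_num [sevBinG4]; linarith⟩
    (inU_div hd (by norm_num [sevBinG4]) (by norm_num [sevBinG4]; linarith) (by norm_num [sevBinG4]; linarith))
    (inU_div hd (by norm_num [sevBinG4]) (by norm_num [sevBinG4]; linarith) (by norm_num [sevBinG4]; linarith))

theorem atG5 {n : ℕ} {a b u v t H : ℝ} (hb : Closed.All.ChartBox n (b - a) (a + b))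
    (hF : Closed.All.ChartFacts (b - a) (a + b) u v t)
    (hH : Closed.chH (b - a) (a + b) u v t = H) (hB : EndBands7 a b u v H) (hk : DHigh a b)
    (h1 : (13 / 100 : ℝ) < b - a) (h2 : b - a ≤ (17 / 100 : ℝ)) (h3 : (147 / 500 : ℝ) * (b - a) < allStabI a b)
    (h4 : allStabI a b ≤ (13 / 20 : ℝ) * (b - a)) (h5 : (12 / 25 : ℝ) * (b - a) < 1 - u)
    (h6 : 1 - u ≤ (14 / 25 : ℝ) * (b - a)) : Closed.Strip.ChartSigns (b - a) (a + b) u v t := by
  have hd := (end_facts7 hB).2.1
  exact sevBinG5_signs.signs hb hF hH hB hk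
    ⟨by norm_num [sevBinG5], by norm_num [sevBinG5]; linarith, by norm_num [sevBinG5]; linarith⟩
    (inU_div hd (by norm_num [sevBinG5]) (by norm_num [sevBinG5]; linarith) (by norm_num [sevBinG5]; linarith))
    (inU_div hd (by norm_num [sevBinG5]) (by norm_num [sevBinG5]; linarith) (by norm_num [sevBinG5]; linarith))

theorem atG6 {n : ℕ} {a b u v t H : ℝ} (hb : Closed.All.ChartBox n (b - a) (a + b))
    (hF : Closed.All.ChartFacts (b - a) (a + b) u v t)
    (hH : Closed.chH (b - a) (a + b) u v t = H) (hB : EndBands7 a b u v H) (hk : DHigh a b)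
    (h1 : (13 / 100 : ℝ) < b - a) (h2 : b - a ≤ (17 / 100 : ℝ)) (h3 : (147 / 500 : ℝ) * (b - a) < allStabI a b)
    (h4 : allStabI a b ≤ (13 / 20 : ℝ) * (b - a)) (h5 : (14 / 25 : ℝ) * (b - a) < 1 - u)
    (h6 : 1 - u ≤ (33 / 50 : ℝ) * (b - a)) : Closed.Strip.ChartSigns (b - a) (a + b) u v t := by
  have hd := (end_facts7 hB).2.1
  exact sevBinG6_signs.signs hb hF hH hB hk
    ⟨by norm_num [sevBinG6], by norm_num [sevBinG6]; linarith, by norm_num [sevBinG6]; linarith⟩
    (inU_div hd (by norm_num [sevBinG6]) (by norm_num [sevBinG6]; linarith) (by norm_num [sevBinG6]; linarith))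
    (inU_div hd (by norm_num [sevBinG6]) (by norm_num [sevBinG6]; linarith) (by norm_num [sevBinG6]; linarith))

theorem atG7 {n : ℕ} {a b u v t H : ℝ} (hb : Closed.All.ChartBox n (b - a) (a + b))
    (hF : Closed.All.ChartFacts (b - a) (a + b) u v t)
    (hH : Closed.chH (b - a) (a + b) u v t = H) (hB : EndBands7 a b u v H) (hk : DHigh a b)
    (h1 : (13 / 100 : ℝ) < b - a) (h2 : b - a ≤ (17 / 100 : ℝ)) (h3 : (147 / 500 : ℝ) * (b - a) < allStabI a b)
    (h4 : allStabI a b ≤ (13 / 20 : ℝ) * (b - a)) (h5 : (33 / 50 : ℝ) * (b - a) < 1 - u)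
    (h6 : 1 - u ≤ (1 / 1 : ℝ) * (b - a)) : Closed.Strip.ChartSigns (b - a) (a + b) u v t := by
  have hd := (end_facts7 hB).2.1
  exact sevBinG7_signs.signs hb hF hH hB hk
    ⟨by norm_num [sevBinG7], by norm_num [sevBinG7]; linarith, by norm_num [sevBinG7]; linarith⟩
    (inU_div hd (by norm_num [sevBinG7]) (by norm_num [sevBinG7]; linarith) (by norm_num [sevBinG7]; linarith))
    (inU_div hd (by norm_num [sevBinG7]) (by norm_num [sevBinG7]; linarith) (by norm_num [sevBinG7]; linarith))

theorem atH0 {n : ℕ} {a b u v t H : ℝ} (hb : Closed.All.ChartBox n (b - a) (a + b))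
    (hF : Closed.All.ChartFacts (b - a) (a + b) u v t)
    (hH : Closed.chH (b - a) (a + b) u v t = H) (hB : EndBands7 a b u v H) (hk : DHigh a b)
    (h1 : (17 / 100 : ℝ) < b - a) (h2 : b - a ≤ (1 / 5 : ℝ)) (h3 : (1 / 4 : ℝ) * (b - a) < allStabI a b)
    (h4 : allStabI a b ≤ (9 / 20 : ℝ) * (b - a)) (h5 : (0 / 1 : ℝ) * (b - a) < 1 - u)
    (h6 : 1 - u ≤ (1 / 100 : ℝ) * (b - a)) : Closed.Strip.ChartSigns (b - a) (a + b) u v t := by
  have hd := (end_facts7 hB).2.1
  exact sevBinH0_signs.signs hb hF hH hB hk
    ⟨by norm_num [sevBinH0], by norm_num [sevBinH0]; linarith, by norm_num [sevBinH0]; linarith⟩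
    (inU_div hd (by norm_num [sevBinH0]) (by norm_num [sevBinH0]; linarith) (by norm_num [sevBinH0]; linarith))
    (inU_div hd (by norm_num [sevBinH0]) (by norm_num [sevBinH0]; linarith) (by norm_num [sevBinH0]; linarith))

theorem atH1 {n : ℕ} {a b u v t H : ℝ} (hb : Closed.All.ChartBox n (b - a) (a + b))
    (hF : Closed.All.ChartFacts (b - a) (a + b) u v t)
    (hH : Closed.chH (b - a) (a + b) u v t = H) (hB : EndBands7 a b u v H) (hk : DHigh a b)
    (h1 : (17 / 100 : ℝ) < b - a) (h2 : b - a ≤ (1 / 5 : ℝ)) (h3 : (1 / 4 : ℝ) * (b - a) < allStabI a b)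
    (h4 : allStabI a b ≤ (9 / 20 : ℝ) * (b - a)) (h5 : (1 / 100 : ℝ) * (b - a) < 1 - u)
    (h6 : 1 - u ≤ (3 / 40 : ℝ) * (b - a)) : Closed.Strip.ChartSigns (b - a) (a + b) u v t := by
  have hd := (end_facts7 hB).2.1
  exact sevBinH1_signs.signs hb hF hH hB hk
    ⟨by norm_num [sevBinH1], by norm_num [sevBinH1]; linarith, by norm_num [sevBinH1]; linarith⟩
    (inU_div hd (by norm_num [sevBinH1]) (by norm_num [sevBinH1]; linarith) (by norm_num [sevBinH1]; linarith))
    (inU_div hd (by norm_num [sevBinH1]) (by norm_num [sevBinH1]; linarith) (by norm_num [sevBinH1]; linarith))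

theorem atH2 {n : ℕ} {a b u v t H : ℝ} (hb : Closed.All.ChartBox n (b - a) (a + b))
    (hF : Closed.All.ChartFacts (b - a) (a + b) u v t)
    (hH : Closed.chH (b - a) (a + b) u v t = H) (hB : EndBands7 a b u v H) (hk : DHigh a b)
    (h1 : (17 / 100 : ℝ) < b - a) (h2 : b - a ≤ (1 / 5 : ℝ)) (h3 : (1 / 4 : ℝ) * (b - a) < allStabI a b)
    (h4 : allStabI a b ≤ (9 / 20 : ℝ) * (b - a)) (h5 : (3 / 40 : ℝ) * (b - a) < 1 - u)
    (h6 : 1 - u ≤ (11 / 50 : ℝ) * (b - a)) : Closed.Strip.ChartSigns (b - a) (a + b) u v t := by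
  have hd := (end_facts7 hB).2.1
  exact sevBinH2_signs.signs hb hF hH hB hk
    ⟨by norm_num [sevBinH2], by norm_num [sevBinH2]; linarith, by norm_num [sevBinH2]; linarith⟩
    (inU_div hd (by norm_num [sevBinH2]) (by norm_num [sevBinH2]; linarith) (by norm_num [sevBinH2]; linarith))
    (inU_div hd (by norm_num [sevBinH2]) (by norm_num [sevBinH2]; linarith) (by norm_num [sevBinH2]; linarith))

theorem atH3 {n : ℕ} {a b u v t H : ℝ} (hb : Closed.All.ChartBox n (b - a) (a + b))
    (hF : Closed.All.ChartFacts (b - a) (a + b) u v t)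
    (hH : Closed.chH (b - a) (a + b) u v t = H) (hB : EndBands7 a b u v H) (hk : DHigh a b)
    (h1 : (17 / 100 : ℝ) < b - a) (h2 : b - a ≤ (1 / 5 : ℝ)) (h3 : (1 / 4 : ℝ) * (b - a) < allStabI a b)
    (h4 : allStabI a b ≤ (9 / 20 : ℝ) * (b - a)) (h5 : (11 / 50 : ℝ) * (b - a) < 1 - u)
    (h6 : 1 - u ≤ (2 / 5 : ℝ) * (b - a)) : Closed.Strip.ChartSigns (b - a) (a + b) u v t := by
  have hd := (end_facts7 hB).2.1
  exact sevBinH3_signs.signs hb hF hH hB hk
    ⟨by norm_num [sevBinH3], by norm_num [sevBinH3]; linarith, by norm_num [sevBinH3]; linarith⟩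
    (inU_div hd (by norm_num [sevBinH3]) (by norm_num [sevBinH3]; linarith) (by norm_num [sevBinH3]; linarith))
    (inU_div hd (by norm_num [sevBinH3]) (by norm_num [sevBinH3]; linarith) (by norm_num [sevBinH3]; linarith))

theorem atH4 {n : ℕ} {a b u v t H : ℝ} (hb : Closed.All.ChartBox n (b - a) (a + b))
    (hF : Closed.All.ChartFacts (b - a) (a + b) u v t)
    (hH : Closed.chH (b - a) (a + b) u v t = H) (hB : EndBands7 a b u v H) (hk : DHigh a b)
    (h1 : (17 / 100 : ℝ) < b - a) (h2 : b - a ≤ (1 / 5 : ℝ)) (h3 : (1 / 4 : ℝ) * (b - a) < allStabI a b)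
    (h4 : allStabI a b ≤ (9 / 20 : ℝ) * (b - a)) (h5 : (2 / 5 : ℝ) * (b - a) < 1 - u)
    (h6 : 1 - u ≤ (12 / 25 : ℝ) * (b - a)) : Closed.Strip.ChartSigns (b - a) (a + b) u v t := by
  have hd := (end_facts7 hB).2.1
  exact sevBinH4_signs.signs hb hF hH hB hk
    ⟨by norm_num [sevBinH4], by norm_num [sevBinH4]; linarith, by norm_num [sevBinH4]; linarith⟩
    (inU_div hd (by norm_num [sevBinH4]) (by norm_num [sevBinH4]; linarith) (by norm_num [sevBinH4]; linarith))
    (inU_div hd (by norm_num [sevBinH4]) (by norm_num [sevBinH4]; linarith) (by norm_num [sevBinH4]; linarith))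

theorem atH5 {n : ℕ} {a b u v t H : ℝ} (hb : Closed.All.ChartBox n (b - a) (a + b))
    (hF : Closed.All.ChartFacts (b - a) (a + b) u v t)
    (hH : Closed.chH (b - a) (a + b) u v t = H) (hB : EndBands7 a b u v H) (hk : DHigh a b)
    (h1 : (17 / 100 : ℝ) < b - a) (h2 : b - a ≤ (1 / 5 : ℝ)) (h3 : (1 / 4 : ℝ) * (b - a) < allStabI a b)
    (h4 : allStabI a b ≤ (9 / 20 : ℝ) * (b - a)) (h5 : (12 / 25 : ℝ) * (b - a) < 1 - u)
    (h6 : 1 - u ≤ (14 / 25 : ℝ) * (b - a)) : Closed.Strip.ChartSigns (b - a) (a + b) u v t := by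
  have hd := (end_facts7 hB).2.1
  exact sevBinH5_signs.signs hb hF hH hB hk
    ⟨by norm_num [sevBinH5], by norm_num [sevBinH5]; linarith, by norm_num [sevBinH5]; linarith⟩
    (inU_div hd (by norm_num [sevBinH5]) (by norm_num [sevBinH5]; linarith) (by norm_num [sevBinH5]; linarith))
    (inU_div hd (by norm_num [sevBinH5]) (by norm_num [sevBinH5]; linarith) (by norm_num [sevBinH5]; linarith))

theorem atH6 {n : ℕ} {a b u v t H : ℝ} (hb : Closed.All.ChartBox n (b - a) (a + b))
    (hF : Closed.All.ChartFacts (b - a) (a + b) u v t)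
    (hH : Closed.chH (b - a) (a + b) u v t = H) (hB : EndBands7 a b u v H) (hk : DHigh a b)
    (h1 : (17 / 100 : ℝ) < b - a) (h2 : b - a ≤ (1 / 5 : ℝ)) (h3 : (1 / 4 : ℝ) * (b - a) < allStabI a b)
    (h4 : allStabI a b ≤ (9 / 20 : ℝ) * (b - a)) (h5 : (14 / 25 : ℝ) * (b - a) < 1 - u)
    (h6 : 1 - u ≤ (39 / 50 : ℝ) * (b - a)) : Closed.Strip.ChartSigns (b - a) (a + b) u v t := by
  have hd := (end_facts7 hB).2.1
  exact sevBinH6_signs.signs hb hF hH hB hk
    ⟨by norm_num [sevBinH6], by norm_num [sevBinH6]; linarith, by norm_num [sevBinH6]; linarith⟩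
    (inU_div hd (by norm_num [sevBinH6]) (by norm_num [sevBinH6]; linarith) (by norm_num [sevBinH6]; linarith))
    (inU_div hd (by norm_num [sevBinH6]) (by norm_num [sevBinH6]; linarith) (by norm_num [sevBinH6]; linarith))

theorem atH7 {n : ℕ} {a b u v t H : ℝ} (hb : Closed.All.ChartBox n (b - a) (a + b))
    (hF : Closed.All.ChartFacts (b - a) (a + b) u v t)
    (hH : Closed.chH (b - a) (a + b) u v t = H) (hB : EndBands7 a b u v H) (hk : DHigh a b)
    (h1 : (17 / 100 : ℝ) < b - a) (h2 : b - a ≤ (1 / 5 : ℝ)) (h3 : (1 / 4 : ℝ) * (b - a) < allStabI a b)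
    (h4 : allStabI a b ≤ (9 / 20 : ℝ) * (b - a)) (h5 : (39 / 50 : ℝ) * (b - a) < 1 - u)
    (h6 : 1 - u ≤ (1 / 1 : ℝ) * (b - a)) : Closed.Strip.ChartSigns (b - a) (a + b) u v t := by
  have hd := (end_facts7 hB).2.1
  exact sevBinH7_signs.signs hb hF hH hB hk
    ⟨by norm_num [sevBinH7], by norm_num [sevBinH7]; linarith, by norm_num [sevBinH7]; linarith⟩
    (inU_div hd (by norm_num [sevBinH7]) (by norm_num [sevBinH7]; linarith) (by norm_num [sevBinH7]; linarith))
    (inU_div hd (by norm_num [sevBinH7]) (by norm_num [sevBinH7]; linarith) (by norm_num [sevBinH7]; linarith))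

theorem atJ0 {n : ℕ} {a b u v t H : ℝ} (hb : Closed.All.ChartBox n (b - a) (a + b))
    (hF : Closed.All.ChartFacts (b - a) (a + b) u v t)
    (hH : Closed.chH (b - a) (a + b) u v t = H) (hB : EndBands7 a b u v H) (hk : DHigh a b)
    (h1 : (17 / 100 : ℝ) < b - a) (h2 : b - a ≤ (1 / 5 : ℝ)) (h3 : (9 / 20 : ℝ) * (b - a) < allStabI a b)
    (h4 : allStabI a b ≤ (31 / 50 : ℝ) * (b - a)) (h5 : (0 / 1 : ℝ) * (b - a) < 1 - u)
    (h6 : 1 - u ≤ (21 / 500 : ℝ) * (b - a)) : Closed.Strip.ChartSigns (b - a) (a + b) u v t := by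
  have hd := (end_facts7 hB).2.1
  exact sevBinJ0_signs.signs hb hF hH hB hk
    ⟨by norm_num [sevBinJ0], by norm_num [sevBinJ0]; linarith, by norm_num [sevBinJ0]; linarith⟩
    (inU_div hd (by norm_num [sevBinJ0]) (by norm_num [sevBinJ0]; linarith) (by norm_num [sevBinJ0]; linarith))
    (inU_div hd (by norm_num [sevBinJ0]) (by norm_num [sevBinJ0]; linarith) (by norm_num [sevBinJ0]; linarith))

theorem atJ1 {n : ℕ} {a b u v t H : ℝ} (hb : Closed.All.ChartBox n (b - a) (a + b))
    (hF : Closed.All.ChartFacts (b - a) (a + b) u v t)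
    (hH : Closed.chH (b - a) (a + b) u v t = H) (hB : EndBands7 a b u v H) (hk : DHigh a b)
    (h1 : (17 / 100 : ℝ) < b - a) (h2 : b - a ≤ (1 / 5 : ℝ)) (h3 : (9 / 20 : ℝ) * (b - a) < allStabI a b)
    (h4 : allStabI a b ≤ (31 / 50 : ℝ) * (b - a)) (h5 : (21 / 500 : ℝ) * (b - a) < 1 - u)
    (h6 : 1 - u ≤ (13 / 100 : ℝ) * (b - a)) : Closed.Strip.ChartSigns (b - a) (a + b) u v t := by
  have hd := (end_facts7 hB).2.1
  exact sevBinJ1_signs.signs hb hF hH hB hk
    ⟨by norm_num [sevBinJ1], by norm_num [sevBinJ1]; linarith, by norm_num [sevBinJ1]; linarith⟩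
    (inU_div hd (by norm_num [sevBinJ1]) (by norm_num [sevBinJ1]; linarith) (by norm_num [sevBinJ1]; linarith))
    (inU_div hd (by norm_num [sevBinJ1]) (by norm_num [sevBinJ1]; linarith) (by norm_num [sevBinJ1]; linarith))

theorem atJ2 {n : ℕ} {a b u v t H : ℝ} (hb : Closed.All.ChartBox n (b - a) (a + b))
    (hF : Closed.All.ChartFacts (b - a) (a + b) u v t)
    (hH : Closed.chH (b - a) (a + b) u v t = H) (hB : EndBands7 a b u v H) (hk : DHigh a b)
    (h1 : (17 / 100 : ℝ) < b - a) (h2 : b - a ≤ (1 / 5 : ℝ)) (h3 : (9 / 20 : ℝ) * (b - a) < allStabI a b)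
    (h4 : allStabI a b ≤ (31 / 50 : ℝ) * (b - a)) (h5 : (13 / 100 : ℝ) * (b - a) < 1 - u)
    (h6 : 1 - u ≤ (7 / 25 : ℝ) * (b - a)) : Closed.Strip.ChartSigns (b - a) (a + b) u v t := by
  have hd := (end_facts7 hB).2.1
  exact sevBinJ2_signs.signs hb hF hH hB hk
    ⟨by norm_num [sevBinJ2], by norm_num [sevBinJ2]; linarith, by norm_num [sevBinJ2]; linarith⟩
    (inU_div hd (by norm_num [sevBinJ2]) (by norm_num [sevBinJ2]; linarith) (by norm_num [sevBinJ2]; linarith))
    (inU_div hd (by norm_num [sevBinJ2]) (by norm_num [sevBinJ2]; linarith) (by norm_num [sevBinJ2]; linarith))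

theorem atJ3 {n : ℕ} {a b u v t H : ℝ} (hb : Closed.All.ChartBox n (b - a) (a + b))
    (hF : Closed.All.ChartFacts (b - a) (a + b) u v t)
    (hH : Closed.chH (b - a) (a + b) u v t = H) (hB : EndBands7 a b u v H) (hk : DHigh a b)
    (h1 : (17 / 100 : ℝ) < b - a) (h2 : b - a ≤ (1 / 5 : ℝ)) (h3 : (9 / 20 : ℝ) * (b - a) < allStabI a b)
    (h4 : allStabI a b ≤ (31 / 50 : ℝ) * (b - a)) (h5 : (7 / 25 : ℝ) * (b - a) < 1 - u)
    (h6 : 1 - u ≤ (17 / 50 : ℝ) * (b - a)) : Closed.Strip.ChartSigns (b - a) (a + b) u v t := by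
  have hd := (end_facts7 hB).2.1
  exact sevBinJ3_signs.signs hb hF hH hB hk
    ⟨by norm_num [sevBinJ3], by norm_num [sevBinJ3]; linarith, by norm_num [sevBinJ3]; linarith⟩
    (inU_div hd (by norm_num [sevBinJ3]) (by norm_num [sevBinJ3]; linarith) (by norm_num [sevBinJ3]; linarith))
    (inU_div hd (by norm_num [sevBinJ3]) (by norm_num [sevBinJ3]; linarith) (by norm_num [sevBinJ3]; linarith))

theorem atJ4 {n : ℕ} {a b u v t H : ℝ} (hb : Closed.All.ChartBox n (b - a) (a + b))
    (hF : Closed.All.ChartFacts (b - a) (a + b) u v t)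
    (hH : Closed.chH (b - a) (a + b) u v t = H) (hB : EndBands7 a b u v H) (hk : DHigh a b)
    (h1 : (17 / 100 : ℝ) < b - a) (h2 : b - a ≤ (1 / 5 : ℝ)) (h3 : (9 / 20 : ℝ) * (b - a) < allStabI a b)
    (h4 : allStabI a b ≤ (31 / 50 : ℝ) * (b - a)) (h5 : (17 / 50 : ℝ) * (b - a) < 1 - u)
    (h6 : 1 - u ≤ (2 / 5 : ℝ) * (b - a)) : Closed.Strip.ChartSigns (b - a) (a + b) u v t := by
  have hd := (end_facts7 hB).2.1
  exact sevBinJ4_signs.signs hb hF hH hB hk
    ⟨by norm_num [sevBinJ4], by norm_num [sevBinJ4]; linarith, by norm_num [sevBinJ4]; linarith⟩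
    (inU_div hd (by norm_num [sevBinJ4]) (by norm_num [sevBinJ4]; linarith) (by norm_num [sevBinJ4]; linarith))
    (inU_div hd (by norm_num [sevBinJ4]) (by norm_num [sevBinJ4]; linarith) (by norm_num [sevBinJ4]; linarith))

theorem atJ5 {n : ℕ} {a b u v t H : ℝ} (hb : Closed.All.ChartBox n (b - a) (a + b))
    (hF : Closed.All.ChartFacts (b - a) (a + b) u v t)
    (hH : Closed.chH (b - a) (a + b) u v t = H) (hB : EndBands7 a b u v H) (hk : DHigh a b)
    (h1 : (17 / 100 : ℝ) < b - a) (h2 : b - a ≤ (37 / 200 : ℝ)) (h3 : (9 / 20 : ℝ) * (b - a) < allStabI a b)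
    (h4 : allStabI a b ≤ (31 / 50 : ℝ) * (b - a)) (h5 : (2 / 5 : ℝ) * (b - a) < 1 - u)
    (h6 : 1 - u ≤ (12 / 25 : ℝ) * (b - a)) : Closed.Strip.ChartSigns (b - a) (a + b) u v t := by
  have hd := (end_facts7 hB).2.1
  exact sevBinJ5_signs.signs hb hF hH hB hk
    ⟨by norm_num [sevBinJ5], by norm_num [sevBinJ5]; linarith, by norm_num [sevBinJ5]; linarith⟩
    (inU_div hd (by norm_num [sevBinJ5]) (by norm_num [sevBinJ5]; linarith) (by norm_num [sevBinJ5]; linarith))
    (inU_div hd (by norm_num [sevBinJ5]) (by norm_num [sevBinJ5]; linarith) (by norm_num [sevBinJ5]; linarith))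

theorem atJ6 {n : ℕ} {a b u v t H : ℝ} (hb : Closed.All.ChartBox n (b - a) (a + b))
    (hF : Closed.All.ChartFacts (b - a) (a + b) u v t)
    (hH : Closed.chH (b - a) (a + b) u v t = H) (hB : EndBands7 a b u v H) (hk : DHigh a b)
    (h1 : (17 / 100 : ℝ) < b - a) (h2 : b - a ≤ (37 / 200 : ℝ)) (h3 : (9 / 20 : ℝ) * (b - a) < allStabI a b)
    (h4 : allStabI a b ≤ (31 / 50 : ℝ) * (b - a)) (h5 : (12 / 25 : ℝ) * (b - a) < 1 - u)
    (h6 : 1 - u ≤ (33 / 50 : ℝ) * (b - a)) : Closed.Strip.ChartSigns (b - a) (a + b) u v t := by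
  have hd := (end_facts7 hB).2.1
  exact sevBinJ6_signs.signs hb hF hH hB hk
    ⟨by norm_num [sevBinJ6], by norm_num [sevBinJ6]; linarith, by norm_num [sevBinJ6]; linarith⟩
    (inU_div hd (by norm_num [sevBinJ6]) (by norm_num [sevBinJ6]; linarith) (by norm_num [sevBinJ6]; linarith))
    (inU_div hd (by norm_num [sevBinJ6]) (by norm_num [sevBinJ6]; linarith) (by norm_num [sevBinJ6]; linarith))

theorem atJ7 {n : ℕ} {a b u v t H : ℝ} (hb : Closed.All.ChartBox n (b - a) (a + b))
    (hF : Closed.All.ChartFacts (b - a) (a + b) u v t)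
    (hH : Closed.chH (b - a) (a + b) u v t = H) (hB : EndBands7 a b u v H) (hk : DHigh a b)
    (h1 : (17 / 100 : ℝ) < b - a) (h2 : b - a ≤ (37 / 200 : ℝ)) (h3 : (9 / 20 : ℝ) * (b - a) < allStabI a b)
    (h4 : allStabI a b ≤ (31 / 50 : ℝ) * (b - a)) (h5 : (33 / 50 : ℝ) * (b - a) < 1 - u)
    (h6 : 1 - u ≤ (1 / 1 : ℝ) * (b - a)) : Closed.Strip.ChartSigns (b - a) (a + b) u v t := by
  have hd := (end_facts7 hB).2.1
  exact sevBinJ7_signs.signs hb hF hH hB hk
    ⟨by norm_num [sevBinJ7], by norm_num [sevBinJ7]; linarith, by norm_num [sevBinJ7]; linarith⟩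
    (inU_div hd (by norm_num [sevBinJ7]) (by norm_num [sevBinJ7]; linarith) (by norm_num [sevBinJ7]; linarith))
    (inU_div hd (by norm_num [sevBinJ7]) (by norm_num [sevBinJ7]; linarith) (by norm_num [sevBinJ7]; linarith))

theorem atK0 {n : ℕ} {a b u v t H : ℝ} (hb : Closed.All.ChartBox n (b - a) (a + b))
    (hF : Closed.All.ChartFacts (b - a) (a + b) u v t)
    (hH : Closed.chH (b - a) (a + b) u v t = H) (hB : EndBands7 a b u v H) (hk : DHigh a b)
    (h1 : (31 / 200 : ℝ) < b - a) (h2 : b - a ≤ (17 / 100 : ℝ)) (h3 : (13 / 20 : ℝ) * (b - a) < allStabI a b)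
    (h4 : allStabI a b ≤ (363 / 500 : ℝ) * (b - a)) (h5 : (0 / 1 : ℝ) * (b - a) < 1 - u)
    (h6 : 1 - u ≤ (11 / 200 : ℝ) * (b - a)) : Closed.Strip.ChartSigns (b - a) (a + b) u v t := by
  have hd := (end_facts7 hB).2.1
  exact sevBinK0_signs.signs hb hF hH hB hk
    ⟨by norm_num [sevBinK0], by norm_num [sevBinK0]; linarith, by norm_num [sevBinK0]; linarith⟩
    (inU_div hd (by norm_num [sevBinK0]) (by norm_num [sevBinK0]; linarith) (by norm_num [sevBinK0]; linarith))
    (inU_div hd (by norm_num [sevBinK0]) (by norm_num [sevBinK0]; linarith) (by norm_num [sevBinK0]; linarith))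

theorem atK1 {n : ℕ} {a b u v t H : ℝ} (hb : Closed.All.ChartBox n (b - a) (a + b))
    (hF : Closed.All.ChartFacts (b - a) (a + b) u v t)
    (hH : Closed.chH (b - a) (a + b) u v t = H) (hB : EndBands7 a b u v H) (hk : DHigh a b)
    (h1 : (31 / 200 : ℝ) < b - a) (h2 : b - a ≤ (17 / 100 : ℝ)) (h3 : (13 / 20 : ℝ) * (b - a) < allStabI a b)
    (h4 : allStabI a b ≤ (363 / 500 : ℝ) * (b - a)) (h5 : (11 / 200 : ℝ) * (b - a) < 1 - u)
    (h6 : 1 - u ≤ (13 / 100 : ℝ) * (b - a)) : Closed.Strip.ChartSigns (b - a) (a + b) u v t := by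
  have hd := (end_facts7 hB).2.1
  exact sevBinK1_signs.signs hb hF hH hB hk
    ⟨by norm_num [sevBinK1], by norm_num [sevBinK1]; linarith, by norm_num [sevBinK1]; linarith⟩
    (inU_div hd (by norm_num [sevBinK1]) (by norm_num [sevBinK1]; linarith) (by norm_num [sevBinK1]; linarith))
    (inU_div hd (by norm_num [sevBinK1]) (by norm_num [sevBinK1]; linarith) (by norm_num [sevBinK1]; linarith))

theorem atK2 {n : ℕ} {a b u v t H : ℝ} (hb : Closed.All.ChartBox n (b - a) (a + b))
    (hF : Closed.All.ChartFacts (b - a) (a + b) u v t)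
    (hH : Closed.chH (b - a) (a + b) u v t = H) (hB : EndBands7 a b u v H) (hk : DHigh a b)
    (h1 : (31 / 200 : ℝ) < b - a) (h2 : b - a ≤ (17 / 100 : ℝ)) (h3 : (13 / 20 : ℝ) * (b - a) < allStabI a b)
    (h4 : allStabI a b ≤ (363 / 500 : ℝ) * (b - a)) (h5 : (13 / 100 : ℝ) * (b - a) < 1 - u)
    (h6 : 1 - u ≤ (7 / 25 : ℝ) * (b - a)) : Closed.Strip.ChartSigns (b - a) (a + b) u v t := by
  have hd := (end_facts7 hB).2.1
  exact sevBinK2_signs.signs hb hF hH hB hk
    ⟨by norm_num [sevBinK2], by norm_num [sevBinK2]; linarith, by norm_num [sevBinK2]; linarith⟩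
    (inU_div hd (by norm_num [sevBinK2]) (by norm_num [sevBinK2]; linarith) (by norm_num [sevBinK2]; linarith))
    (inU_div hd (by norm_num [sevBinK2]) (by norm_num [sevBinK2]; linarith) (by norm_num [sevBinK2]; linarith))

theorem atK3 {n : ℕ} {a b u v t H : ℝ} (hb : Closed.All.ChartBox n (b - a) (a + b))
    (hF : Closed.All.ChartFacts (b - a) (a + b) u v t)
    (hH : Closed.chH (b - a) (a + b) u v t = H) (hB : EndBands7 a b u v H) (hk : DHigh a b)
    (h1 : (31 / 200 : ℝ) < b - a) (h2 : b - a ≤ (17 / 100 : ℝ)) (h3 : (13 / 20 : ℝ) * (b - a) < allStabI a b)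
    (h4 : allStabI a b ≤ (363 / 500 : ℝ) * (b - a)) (h5 : (7 / 25 : ℝ) * (b - a) < 1 - u)
    (h6 : 1 - u ≤ (2 / 5 : ℝ) * (b - a)) : Closed.Strip.ChartSigns (b - a) (a + b) u v t := by
  have hd := (end_facts7 hB).2.1
  exact sevBinK3_signs.signs hb hF hH hB hk
    ⟨by norm_num [sevBinK3], by norm_num [sevBinK3]; linarith, by norm_num [sevBinK3]; linarith⟩
    (inU_div hd (by norm_num [sevBinK3]) (by norm_num [sevBinK3]; linarith) (by norm_num [sevBinK3]; linarith))
    (inU_div hd (by norm_num [sevBinK3]) (by norm_num [sevBinK3]; linarith) (by norm_num [sevBinK3]; linarith))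

theorem atK4 {n : ℕ} {a b u v t H : ℝ} (hb : Closed.All.ChartBox n (b - a) (a + b))
    (hF : Closed.All.ChartFacts (b - a) (a + b) u v t)
    (hH : Closed.chH (b - a) (a + b) u v t = H) (hB : EndBands7 a b u v H) (hk : DHigh a b)
    (h1 : (31 / 200 : ℝ) < b - a) (h2 : b - a ≤ (17 / 100 : ℝ)) (h3 : (13 / 20 : ℝ) * (b - a) < allStabI a b)
    (h4 : allStabI a b ≤ (363 / 500 : ℝ) * (b - a)) (h5 : (2 / 5 : ℝ) * (b - a) < 1 - u)
    (h6 : 1 - u ≤ (14 / 25 : ℝ) * (b - a)) : Closed.Strip.ChartSigns (b - a) (a + b) u v t := by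
  have hd := (end_facts7 hB).2.1
  exact sevBinK4_signs.signs hb hF hH hB hk
    ⟨by norm_num [sevBinK4], by norm_num [sevBinK4]; linarith, by norm_num [sevBinK4]; linarith⟩
    (inU_div hd (by norm_num [sevBinK4]) (by norm_num [sevBinK4]; linarith) (by norm_num [sevBinK4]; linarith))
    (inU_div hd (by norm_num [sevBinK4]) (by norm_num [sevBinK4]; linarith) (by norm_num [sevBinK4]; linarith))

theorem atK5 {n : ℕ} {a b u v t H : ℝ} (hb : Closed.All.ChartBox n (b - a) (a + b))
    (hF : Closed.All.ChartFacts (b - a) (a + b) u v t)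
    (hH : Closed.chH (b - a) (a + b) u v t = H) (hB : EndBands7 a b u v H) (hk : DHigh a b)
    (h1 : (31 / 200 : ℝ) < b - a) (h2 : b - a ≤ (17 / 100 : ℝ)) (h3 : (13 / 20 : ℝ) * (b - a) < allStabI a b)
    (h4 : allStabI a b ≤ (363 / 500 : ℝ) * (b - a)) (h5 : (14 / 25 : ℝ) * (b - a) < 1 - u)
    (h6 : 1 - u ≤ (1 / 1 : ℝ) * (b - a)) : Closed.Strip.ChartSigns (b - a) (a + b) u v t := by
  have hd := (end_facts7 hB).2.1
  exact sevBinK5_signs.signs hb hF hH hB hk
    ⟨by norm_num [sevBinK5], by norm_num [sevBinK5]; linarith, by norm_num [sevBinK5]; linarith⟩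
    (inU_div hd (by norm_num [sevBinK5]) (by norm_num [sevBinK5]; linarith) (by norm_num [sevBinK5]; linarith))
    (inU_div hd (by norm_num [sevBinK5]) (by norm_num [sevBinK5]; linarith) (by norm_num [sevBinK5]; linarith))

theorem atL0 {n : ℕ} {a b u v t H : ℝ} (hb : Closed.All.ChartBox n (b - a) (a + b))
    (hF : Closed.All.ChartFacts (b - a) (a + b) u v t)
    (hH : Closed.chH (b - a) (a + b) u v t = H) (hB : EndBands7 a b u v H) (hk : DHigh a b)
    (h1 : (1 / 5 : ℝ) < b - a) (h2 : b - a ≤ (6 / 25 : ℝ)) (h3 : (26 / 125 : ℝ) * (b - a) < allStabI a b)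
    (h4 : allStabI a b ≤ (8 / 25 : ℝ) * (b - a)) (h5 : (0 / 1 : ℝ) * (b - a) < 1 - u)
    (h6 : 1 - u ≤ (3 / 100 : ℝ) * (b - a)) : Closed.Strip.ChartSigns (b - a) (a + b) u v t := by
  have hd := (end_facts7 hB).2.1
  exact sevBinL0_signs.signs hb hF hH hB hk
    ⟨by norm_num [sevBinL0], by norm_num [sevBinL0]; linarith, by norm_num [sevBinL0]; linarith⟩
    (inU_div hd (by norm_num [sevBinL0]) (by norm_num [sevBinL0]; linarith) (by norm_num [sevBinL0]; linarith))
    (inU_div hd (by norm_num [sevBinL0]) (by norm_num [sevBinL0]; linarith) (by norm_num [sevBinL0]; linarith))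

theorem atL1 {n : ℕ} {a b u v t H : ℝ} (hb : Closed.All.ChartBox n (b - a) (a + b))
    (hF : Closed.All.ChartFacts (b - a) (a + b) u v t)
    (hH : Closed.chH (b - a) (a + b) u v t = H) (hB : EndBands7 a b u v H) (hk : DHigh a b)
    (h1 : (1 / 5 : ℝ) < b - a) (h2 : b - a ≤ (6 / 25 : ℝ)) (h3 : (26 / 125 : ℝ) * (b - a) < allStabI a b)
    (h4 : allStabI a b ≤ (8 / 25 : ℝ) * (b - a)) (h5 : (3 / 100 : ℝ) * (b - a) < 1 - u)
    (h6 : 1 - u ≤ (13 / 100 : ℝ) * (b - a)) : Closed.Strip.ChartSigns (b - a) (a + b) u v t := by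
  have hd := (end_facts7 hB).2.1
  exact sevBinL1_signs.signs hb hF hH hB hk
    ⟨by norm_num [sevBinL1], by norm_num [sevBinL1]; linarith, by norm_num [sevBinL1]; linarith⟩
    (inU_div hd (by norm_num [sevBinL1]) (by norm_num [sevBinL1]; linarith) (by norm_num [sevBinL1]; linarith))
    (inU_div hd (by norm_num [sevBinL1]) (by norm_num [sevBinL1]; linarith) (by norm_num [sevBinL1]; linarith))

theorem atL2 {n : ℕ} {a b u v t H : ℝ} (hb : Closed.All.ChartBox n (b - a) (a + b))
    (hF : Closed.All.ChartFacts (b - a) (a + b) u v t)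
    (hH : Closed.chH (b - a) (a + b) u v t = H) (hB : EndBands7 a b u v H) (hk : DHigh a b)
    (h1 : (1 / 5 : ℝ) < b - a) (h2 : b - a ≤ (6 / 25 : ℝ)) (h3 : (26 / 125 : ℝ) * (b - a) < allStabI a b)
    (h4 : allStabI a b ≤ (8 / 25 : ℝ) * (b - a)) (h5 : (13 / 100 : ℝ) * (b - a) < 1 - u)
    (h6 : 1 - u ≤ (17 / 50 : ℝ) * (b - a)) : Closed.Strip.ChartSigns (b - a) (a + b) u v t := by
  have hd := (end_facts7 hB).2.1
  exact sevBinL2_signs.signs hb hF hH hB hk
    ⟨by norm_num [sevBinL2], by norm_num [sevBinL2]; linarith, by norm_num [sevBinL2]; linarith⟩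
    (inU_div hd (by norm_num [sevBinL2]) (by norm_num [sevBinL2]; linarith) (by norm_num [sevBinL2]; linarith))
    (inU_div hd (by norm_num [sevBinL2]) (by norm_num [sevBinL2]; linarith) (by norm_num [sevBinL2]; linarith))

theorem atL3 {n : ℕ} {a b u v t H : ℝ} (hb : Closed.All.ChartBox n (b - a) (a + b))
    (hF : Closed.All.ChartFacts (b - a) (a + b) u v t)
    (hH : Closed.chH (b - a) (a + b) u v t = H) (hB : EndBands7 a b u v H) (hk : DHigh a b)
    (h1 : (1 / 5 : ℝ) < b - a) (h2 : b - a ≤ (6 / 25 : ℝ)) (h3 : (26 / 125 : ℝ) * (b - a) < allStabI a b)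
    (h4 : allStabI a b ≤ (8 / 25 : ℝ) * (b - a)) (h5 : (17 / 50 : ℝ) * (b - a) < 1 - u)
    (h6 : 1 - u ≤ (2 / 5 : ℝ) * (b - a)) : Closed.Strip.ChartSigns (b - a) (a + b) u v t := by
  have hd := (end_facts7 hB).2.1
  exact sevBinL3_signs.signs hb hF hH hB hk
    ⟨by norm_num [sevBinL3], by norm_num [sevBinL3]; linarith, by norm_num [sevBinL3]; linarith⟩
    (inU_div hd (by norm_num [sevBinL3]) (by norm_num [sevBinL3]; linarith) (by norm_num [sevBinL3]; linarith))
    (inU_div hd (by norm_num [sevBinL3]) (by norm_num [sevBinL3]; linarith) (by norm_num [sevBinL3]; linarith))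

theorem atL4 {n : ℕ} {a b u v t H : ℝ} (hb : Closed.All.ChartBox n (b - a) (a + b))
    (hF : Closed.All.ChartFacts (b - a) (a + b) u v t)
    (hH : Closed.chH (b - a) (a + b) u v t = H) (hB : EndBands7 a b u v H) (hk : DHigh a b)
    (h1 : (1 / 5 : ℝ) < b - a) (h2 : b - a ≤ (6 / 25 : ℝ)) (h3 : (26 / 125 : ℝ) * (b - a) < allStabI a b)
    (h4 : allStabI a b ≤ (8 / 25 : ℝ) * (b - a)) (h5 : (2 / 5 : ℝ) * (b - a) < 1 - u)
    (h6 : 1 - u ≤ (12 / 25 : ℝ) * (b - a)) : Closed.Strip.ChartSigns (b - a) (a + b) u v t := by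
  have hd := (end_facts7 hB).2.1
  exact sevBinL4_signs.signs hb hF hH hB hk
    ⟨by norm_num [sevBinL4], by norm_num [sevBinL4]; linarith, by norm_num [sevBinL4]; linarith⟩
    (inU_div hd (by norm_num [sevBinL4]) (by norm_num [sevBinL4]; linarith) (by norm_num [sevBinL4]; linarith))
    (inU_div hd (by norm_num [sevBinL4]) (by norm_num [sevBinL4]; linarith) (by norm_num [sevBinL4]; linarith))

theorem atL5 {n : ℕ} {a b u v t H : ℝ} (hb : Closed.All.ChartBox n (b - a) (a + b))
    (hF : Closed.All.ChartFacts (b - a) (a + b) u v t)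
    (hH : Closed.chH (b - a) (a + b) u v t = H) (hB : EndBands7 a b u v H) (hk : DHigh a b)
    (h1 : (1 / 5 : ℝ) < b - a) (h2 : b - a ≤ (6 / 25 : ℝ)) (h3 : (26 / 125 : ℝ) * (b - a) < allStabI a b)
    (h4 : allStabI a b ≤ (8 / 25 : ℝ) * (b - a)) (h5 : (12 / 25 : ℝ) * (b - a) < 1 - u)
    (h6 : 1 - u ≤ (14 / 25 : ℝ) * (b - a)) : Closed.Strip.ChartSigns (b - a) (a + b) u v t := by
  have hd := (end_facts7 hB).2.1
  exact sevBinL5_signs.signs hb hF hH hB hk
    ⟨by norm_num [sevBinL5], by norm_num [sevBinL5]; linarith, by norm_num [sevBinL5]; linarith⟩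
    (inU_div hd (by norm_num [sevBinL5]) (by norm_num [sevBinL5]; linarith) (by norm_num [sevBinL5]; linarith))
    (inU_div hd (by norm_num [sevBinL5]) (by norm_num [sevBinL5]; linarith) (by norm_num [sevBinL5]; linarith))

theorem atL6 {n : ℕ} {a b u v t H : ℝ} (hb : Closed.All.ChartBox n (b - a) (a + b))
    (hF : Closed.All.ChartFacts (b - a) (a + b) u v t)
    (hH : Closed.chH (b - a) (a + b) u v t = H) (hB : EndBands7 a b u v H) (hk : DHigh a b)
    (h1 : (1 / 5 : ℝ) < b - a) (h2 : b - a ≤ (6 / 25 : ℝ)) (h3 : (26 / 125 : ℝ) * (b - a) < allStabI a b)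
    (h4 : allStabI a b ≤ (8 / 25 : ℝ) * (b - a)) (h5 : (14 / 25 : ℝ) * (b - a) < 1 - u)
    (h6 : 1 - u ≤ (33 / 50 : ℝ) * (b - a)) : Closed.Strip.ChartSigns (b - a) (a + b) u v t := by
  have hd := (end_facts7 hB).2.1
  exact sevBinL6_signs.signs hb hF hH hB hk
    ⟨by norm_num [sevBinL6], by norm_num [sevBinL6]; linarith, by norm_num [sevBinL6]; linarith⟩
    (inU_div hd (by norm_num [sevBinL6]) (by norm_num [sevBinL6]; linarith) (by norm_num [sevBinL6]; linarith))
    (inU_div hd (by norm_num [sevBinL6]) (by norm_num [sevBinL6]; linarith) (by norm_num [sevBinL6]; linarith))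

theorem atL7 {n : ℕ} {a b u v t H : ℝ} (hb : Closed.All.ChartBox n (b - a) (a + b))
    (hF : Closed.All.ChartFacts (b - a) (a + b) u v t)
    (hH : Closed.chH (b - a) (a + b) u v t = H) (hB : EndBands7 a b u v H) (hk : DHigh a b)
    (h1 : (1 / 5 : ℝ) < b - a) (h2 : b - a ≤ (6 / 25 : ℝ)) (h3 : (26 / 125 : ℝ) * (b - a) < allStabI a b)
    (h4 : allStabI a b ≤ (8 / 25 : ℝ) * (b - a)) (h5 : (33 / 50 : ℝ) * (b - a) < 1 - u)
    (h6 : 1 - u ≤ (1 / 1 : ℝ) * (b - a)) : Closed.Strip.ChartSigns (b - a) (a + b) u v t := by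
  have hd := (end_facts7 hB).2.1
  exact sevBinL7_signs.signs hb hF hH hB hk
    ⟨by norm_num [sevBinL7], by norm_num [sevBinL7]; linarith, by norm_num [sevBinL7]; linarith⟩
    (inU_div hd (by norm_num [sevBinL7]) (by norm_num [sevBinL7]; linarith) (by norm_num [sevBinL7]; linarith))
    (inU_div hd (by norm_num [sevBinL7]) (by norm_num [sevBinL7]; linarith) (by norm_num [sevBinL7]; linarith))

theorem atM0 {n : ℕ} {a b u v t H : ℝ} (hb : Closed.All.ChartBox n (b - a) (a + b))
    (hF : Closed.All.ChartFacts (b - a) (a + b) u v t)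
    (hH : Closed.chH (b - a) (a + b) u v t = H) (hB : EndBands7 a b u v H) (hk : DHigh a b)
    (h1 : (1 / 5 : ℝ) < b - a) (h2 : b - a ≤ (11 / 50 : ℝ)) (h3 : (8 / 25 : ℝ) * (b - a) < allStabI a b)
    (h4 : allStabI a b ≤ (9 / 20 : ℝ) * (b - a)) (h5 : (0 / 1 : ℝ) * (b - a) < 1 - u)
    (h6 : 1 - u ≤ (3 / 200 : ℝ) * (b - a)) : Closed.Strip.ChartSigns (b - a) (a + b) u v t := by
  have hd := (end_facts7 hB).2.1
  exact sevBinM0_signs.signs hb hF hH hB hk
    ⟨by norm_num [sevBinM0], by norm_num [sevBinM0]; linarith, by norm_num [sevBinM0]; linarith⟩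
    (inU_div hd (by norm_num [sevBinM0]) (by norm_num [sevBinM0]; linarith) (by norm_num [sevBinM0]; linarith))
    (inU_div hd (by norm_num [sevBinM0]) (by norm_num [sevBinM0]; linarith) (by norm_num [sevBinM0]; linarith))

theorem atM1 {n : ℕ} {a b u v t H : ℝ} (hb : Closed.All.ChartBox n (b - a) (a + b))
    (hF : Closed.All.ChartFacts (b - a) (a + b) u v t)
    (hH : Closed.chH (b - a) (a + b) u v t = H) (hB : EndBands7 a b u v H) (hk : DHigh a b)
    (h1 : (1 / 5 : ℝ) < b - a) (h2 : b - a ≤ (11 / 50 : ℝ)) (h3 : (8 / 25 : ℝ) * (b - a) < allStabI a b)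
    (h4 : allStabI a b ≤ (9 / 20 : ℝ) * (b - a)) (h5 : (3 / 200 : ℝ) * (b - a) < 1 - u)
    (h6 : 1 - u ≤ (3 / 40 : ℝ) * (b - a)) : Closed.Strip.ChartSigns (b - a) (a + b) u v t := by
  have hd := (end_facts7 hB).2.1
  exact sevBinM1_signs.signs hb hF hH hB hk
    ⟨by norm_num [sevBinM1], by norm_num [sevBinM1]; linarith, by norm_num [sevBinM1]; linarith⟩
    (inU_div hd (by norm_num [sevBinM1]) (by norm_num [sevBinM1]; linarith) (by norm_num [sevBinM1]; linarith))
    (inU_div hd (by norm_num [sevBinM1]) (by norm_num [sevBinM1]; linarith) (by norm_num [sevBinM1]; linarith))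

theorem atM2 {n : ℕ} {a b u v t H : ℝ} (hb : Closed.All.ChartBox n (b - a) (a + b))
    (hF : Closed.All.ChartFacts (b - a) (a + b) u v t)
    (hH : Closed.chH (b - a) (a + b) u v t = H) (hB : EndBands7 a b u v H) (hk : DHigh a b)
    (h1 : (1 / 5 : ℝ) < b - a) (h2 : b - a ≤ (11 / 50 : ℝ)) (h3 : (8 / 25 : ℝ) * (b - a) < allStabI a b)
    (h4 : allStabI a b ≤ (9 / 20 : ℝ) * (b - a)) (h5 : (3 / 40 : ℝ) * (b - a) < 1 - u)
    (h6 : 1 - u ≤ (11 / 50 : ℝ) * (b - a)) : Closed.Strip.ChartSigns (b - a) (a + b) u v t := by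
  have hd := (end_facts7 hB).2.1
  exact sevBinM2_signs.signs hb hF hH hB hk
    ⟨by norm_num [sevBinM2], by norm_num [sevBinM2]; linarith, by norm_num [sevBinM2]; linarith⟩
    (inU_div hd (by norm_num [sevBinM2]) (by norm_num [sevBinM2]; linarith) (by norm_num [sevBinM2]; linarith))
    (inU_div hd (by norm_num [sevBinM2]) (by norm_num [sevBinM2]; linarith) (by norm_num [sevBinM2]; linarith))

theorem atM3 {n : ℕ} {a b u v t H : ℝ} (hb : Closed.All.ChartBox n (b - a) (a + b))
    (hF : Closed.All.ChartFacts (b - a) (a + b) u v t)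
    (hH : Closed.chH (b - a) (a + b) u v t = H) (hB : EndBands7 a b u v H) (hk : DHigh a b)
    (h1 : (1 / 5 : ℝ) < b - a) (h2 : b - a ≤ (11 / 50 : ℝ)) (h3 : (8 / 25 : ℝ) * (b - a) < allStabI a b)
    (h4 : allStabI a b ≤ (9 / 20 : ℝ) * (b - a)) (h5 : (11 / 50 : ℝ) * (b - a) < 1 - u)
    (h6 : 1 - u ≤ (17 / 50 : ℝ) * (b - a)) : Closed.Strip.ChartSigns (b - a) (a + b) u v t := by
  have hd := (end_facts7 hB).2.1
  exact sevBinM3_signs.signs hb hF hH hB hk
    ⟨by norm_num [sevBinM3], by norm_num [sevBinM3]; linarith, by norm_num [sevBinM3]; linarith⟩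
    (inU_div hd (by norm_num [sevBinM3]) (by norm_num [sevBinM3]; linarith) (by norm_num [sevBinM3]; linarith))
    (inU_div hd (by norm_num [sevBinM3]) (by norm_num [sevBinM3]; linarith) (by norm_num [sevBinM3]; linarith))

theorem atM4 {n : ℕ} {a b u v t H : ℝ} (hb : Closed.All.ChartBox n (b - a) (a + b))
    (hF : Closed.All.ChartFacts (b - a) (a + b) u v t)
    (hH : Closed.chH (b - a) (a + b) u v t = H) (hB : EndBands7 a b u v H) (hk : DHigh a b)
    (h1 : (1 / 5 : ℝ) < b - a) (h2 : b - a ≤ (11 / 50 : ℝ)) (h3 : (8 / 25 : ℝ) * (b - a) < allStabI a b)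
    (h4 : allStabI a b ≤ (9 / 20 : ℝ) * (b - a)) (h5 : (17 / 50 : ℝ) * (b - a) < 1 - u)
    (h6 : 1 - u ≤ (2 / 5 : ℝ) * (b - a)) : Closed.Strip.ChartSigns (b - a) (a + b) u v t := by
  have hd := (end_facts7 hB).2.1
  exact sevBinM4_signs.signs hb hF hH hB hk
    ⟨by norm_num [sevBinM4], by norm_num [sevBinM4]; linarith, by norm_num [sevBinM4]; linarith⟩
    (inU_div hd (by norm_num [sevBinM4]) (by norm_num [sevBinM4]; linarith) (by norm_num [sevBinM4]; linarith))
    (inU_div hd (by norm_num [sevBinM4]) (by norm_num [sevBinM4]; linarith) (by norm_num [sevBinM4]; linarith))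

theorem atM5 {n : ℕ} {a b u v t H : ℝ} (hb : Closed.All.ChartBox n (b - a) (a + b))
    (hF : Closed.All.ChartFacts (b - a) (a + b) u v t)
    (hH : Closed.chH (b - a) (a + b) u v t = H) (hB : EndBands7 a b u v H) (hk : DHigh a b)
    (h1 : (1 / 5 : ℝ) < b - a) (h2 : b - a ≤ (11 / 50 : ℝ)) (h3 : (8 / 25 : ℝ) * (b - a) < allStabI a b)
    (h4 : allStabI a b ≤ (9 / 20 : ℝ) * (b - a)) (h5 : (2 / 5 : ℝ) * (b - a) < 1 - u)
    (h6 : 1 - u ≤ (12 / 25 : ℝ) * (b - a)) : Closed.Strip.ChartSigns (b - a) (a + b) u v t := by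
  have hd := (end_facts7 hB).2.1
  exact sevBinM5_signs.signs hb hF hH hB hk
    ⟨by norm_num [sevBinM5], by norm_num [sevBinM5]; linarith, by norm_num [sevBinM5]; linarith⟩
    (inU_div hd (by norm_num [sevBinM5]) (by norm_num [sevBinM5]; linarith) (by norm_num [sevBinM5]; linarith))
    (inU_div hd (by norm_num [sevBinM5]) (by norm_num [sevBinM5]; linarith) (by norm_num [sevBinM5]; linarith))

theorem atM6 {n : ℕ} {a b u v t H : ℝ} (hb : Closed.All.ChartBox n (b - a) (a + b))
    (hF : Closed.All.ChartFacts (b - a) (a + b) u v t)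
    (hH : Closed.chH (b - a) (a + b) u v t = H) (hB : EndBands7 a b u v H) (hk : DHigh a b)
    (h1 : (1 / 5 : ℝ) < b - a) (h2 : b - a ≤ (11 / 50 : ℝ)) (h3 : (8 / 25 : ℝ) * (b - a) < allStabI a b)
    (h4 : allStabI a b ≤ (9 / 20 : ℝ) * (b - a)) (h5 : (12 / 25 : ℝ) * (b - a) < 1 - u)
    (h6 : 1 - u ≤ (14 / 25 : ℝ) * (b - a)) : Closed.Strip.ChartSigns (b - a) (a + b) u v t := by
  have hd := (end_facts7 hB).2.1
  exact sevBinM6_signs.signs hb hF hH hB hk
    ⟨by norm_num [sevBinM6], by norm_num [sevBinM6]; linarith, by norm_num [sevBinM6]; linarith⟩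
    (inU_div hd (by norm_num [sevBinM6]) (by norm_num [sevBinM6]; linarith) (by norm_num [sevBinM6]; linarith))
    (inU_div hd (by norm_num [sevBinM6]) (by norm_num [sevBinM6]; linarith) (by norm_num [sevBinM6]; linarith))

theorem atM7 {n : ℕ} {a b u v t H : ℝ} (hb : Closed.All.ChartBox n (b - a) (a + b))
    (hF : Closed.All.ChartFacts (b - a) (a + b) u v t)
    (hH : Closed.chH (b - a) (a + b) u v t = H) (hB : EndBands7 a b u v H) (hk : DHigh a b)
    (h1 : (1 / 5 : ℝ) < b - a) (h2 : b - a ≤ (11 / 50 : ℝ)) (h3 : (8 / 25 : ℝ) * (b - a) < allStabI a b)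
    (h4 : allStabI a b ≤ (9 / 20 : ℝ) * (b - a)) (h5 : (14 / 25 : ℝ) * (b - a) < 1 - u)
    (h6 : 1 - u ≤ (33 / 50 : ℝ) * (b - a)) : Closed.Strip.ChartSigns (b - a) (a + b) u v t := by
  have hd := (end_facts7 hB).2.1
  exact sevBinM7_signs.signs hb hF hH hB hk
    ⟨by norm_num [sevBinM7], by norm_num [sevBinM7]; linarith, by norm_num [sevBinM7]; linarith⟩
    (inU_div hd (by norm_num [sevBinM7]) (by norm_num [sevBinM7]; linarith) (by norm_num [sevBinM7]; linarith))
    (inU_div hd (by norm_num [sevBinM7]) (by norm_num [sevBinM7]; linarith) (by norm_num [sevBinM7]; linarith))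

theorem atM8 {n : ℕ} {a b u v t H : ℝ} (hb : Closed.All.ChartBox n (b - a) (a + b))
    (hF : Closed.All.ChartFacts (b - a) (a + b) u v t)
    (hH : Closed.chH (b - a) (a + b) u v t = H) (hB : EndBands7 a b u v H) (hk : DHigh a b)
    (h1 : (1 / 5 : ℝ) < b - a) (h2 : b - a ≤ (11 / 50 : ℝ)) (h3 : (8 / 25 : ℝ) * (b - a) < allStabI a b)
    (h4 : allStabI a b ≤ (9 / 20 : ℝ) * (b - a)) (h5 : (33 / 50 : ℝ) * (b - a) < 1 - u)
    (h6 : 1 - u ≤ (1 / 1 : ℝ) * (b - a)) : Closed.Strip.ChartSigns (b - a) (a + b) u v t := by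
  have hd := (end_facts7 hB).2.1
  exact sevBinM8_signs.signs hb hF hH hB hk
    ⟨by norm_num [sevBinM8], by norm_num [sevBinM8]; linarith, by norm_num [sevBinM8]; linarith⟩
    (inU_div hd (by norm_num [sevBinM8]) (by norm_num [sevBinM8]; linarith) (by norm_num [sevBinM8]; linarith))
    (inU_div hd (by norm_num [sevBinM8]) (by norm_num [sevBinM8]; linarith) (by norm_num [sevBinM8]; linarith))

theorem atN0 {n : ℕ} {a b u v t H : ℝ} (hb : Closed.All.ChartBox n (b - a) (a + b))
    (hF : Closed.All.ChartFacts (b - a) (a + b) u v t)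
    (hH : Closed.chH (b - a) (a + b) u v t = H) (hB : EndBands7 a b u v H) (hk : DHigh a b)
    (h1 : (11 / 50 : ℝ) < b - a) (h2 : b - a ≤ (6 / 25 : ℝ)) (h3 : (8 / 25 : ℝ) * (b - a) < allStabI a b)
    (h4 : allStabI a b ≤ (91 / 250 : ℝ) * (b - a)) (h5 : (0 / 1 : ℝ) * (b - a) < 1 - u)
    (h6 : 1 - u ≤ (3 / 500 : ℝ) * (b - a)) : Closed.Strip.ChartSigns (b - a) (a + b) u v t := by
  have hd := (end_facts7 hB).2.1
  exact sevBinN0_signs.signs hb hF hH hB hk
    ⟨by norm_num [sevBinN0], by norm_num [sevBinN0]; linarith, by norm_num [sevBinN0]; linarith⟩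
    (inU_div hd (by norm_num [sevBinN0]) (by norm_num [sevBinN0]; linarith) (by norm_num [sevBinN0]; linarith))
    (inU_div hd (by norm_num [sevBinN0]) (by norm_num [sevBinN0]; linarith) (by norm_num [sevBinN0]; linarith))

theorem atN1 {n : ℕ} {a b u v t H : ℝ} (hb : Closed.All.ChartBox n (b - a) (a + b))
    (hF : Closed.All.ChartFacts (b - a) (a + b) u v t)
    (hH : Closed.chH (b - a) (a + b) u v t = H) (hB : EndBands7 a b u v H) (hk : DHigh a b)
    (h1 : (11 / 50 : ℝ) < b - a) (h2 : b - a ≤ (6 / 25 : ℝ)) (h3 : (8 / 25 : ℝ) * (b - a) < allStabI a b)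
    (h4 : allStabI a b ≤ (91 / 250 : ℝ) * (b - a)) (h5 : (3 / 500 : ℝ) * (b - a) < 1 - u)
    (h6 : 1 - u ≤ (11 / 200 : ℝ) * (b - a)) : Closed.Strip.ChartSigns (b - a) (a + b) u v t := by
  have hd := (end_facts7 hB).2.1
  exact sevBinN1_signs.signs hb hF hH hB hk
    ⟨by norm_num [sevBinN1], by norm_num [sevBinN1]; linarith, by norm_num [sevBinN1]; linarith⟩
    (inU_div hd (by norm_num [sevBinN1]) (by norm_num [sevBinN1]; linarith) (by norm_num [sevBinN1]; linarith))
    (inU_div hd (by norm_num [sevBinN1]) (by norm_num [sevBinN1]; linarith) (by norm_num [sevBinN1]; linarith))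

theorem atN2 {n : ℕ} {a b u v t H : ℝ} (hb : Closed.All.ChartBox n (b - a) (a + b))
    (hF : Closed.All.ChartFacts (b - a) (a + b) u v t)
    (hH : Closed.chH (b - a) (a + b) u v t = H) (hB : EndBands7 a b u v H) (hk : DHigh a b)
    (h1 : (11 / 50 : ℝ) < b - a) (h2 : b - a ≤ (6 / 25 : ℝ)) (h3 : (8 / 25 : ℝ) * (b - a) < allStabI a b)
    (h4 : allStabI a b ≤ (91 / 250 : ℝ) * (b - a)) (h5 : (11 / 200 : ℝ) * (b - a) < 1 - u)
    (h6 : 1 - u ≤ (11 / 50 : ℝ) * (b - a)) : Closed.Strip.ChartSigns (b - a) (a + b) u v t := by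
  have hd := (end_facts7 hB).2.1
  exact sevBinN2_signs.signs hb hF hH hB hk
    ⟨by norm_num [sevBinN2], by norm_num [sevBinN2]; linarith, by norm_num [sevBinN2]; linarith⟩
    (inU_div hd (by norm_num [sevBinN2]) (by norm_num [sevBinN2]; linarith) (by norm_num [sevBinN2]; linarith))
    (inU_div hd (by norm_num [sevBinN2]) (by norm_num [sevBinN2]; linarith) (by norm_num [sevBinN2]; linarith))

theorem atN3 {n : ℕ} {a b u v t H : ℝ} (hb : Closed.All.ChartBox n (b - a) (a + b))
    (hF : Closed.All.ChartFacts (b - a) (a + b) u v t)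
    (hH : Closed.chH (b - a) (a + b) u v t = H) (hB : EndBands7 a b u v H) (hk : DHigh a b)
    (h1 : (11 / 50 : ℝ) < b - a) (h2 : b - a ≤ (6 / 25 : ℝ)) (h3 : (8 / 25 : ℝ) * (b - a) < allStabI a b)
    (h4 : allStabI a b ≤ (91 / 250 : ℝ) * (b - a)) (h5 : (11 / 50 : ℝ) * (b - a) < 1 - u)
    (h6 : 1 - u ≤ (17 / 50 : ℝ) * (b - a)) : Closed.Strip.ChartSigns (b - a) (a + b) u v t := by
  have hd := (end_facts7 hB).2.1
  exact sevBinN3_signs.signs hb hF hH hB hk
    ⟨by norm_num [sevBinN3], by norm_num [sevBinN3]; linarith, by norm_num [sevBinN3]; linarith⟩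
    (inU_div hd (by norm_num [sevBinN3]) (by norm_num [sevBinN3]; linarith) (by norm_num [sevBinN3]; linarith))
    (inU_div hd (by norm_num [sevBinN3]) (by norm_num [sevBinN3]; linarith) (by norm_num [sevBinN3]; linarith))

theorem atN4 {n : ℕ} {a b u v t H : ℝ} (hb : Closed.All.ChartBox n (b - a) (a + b))
    (hF : Closed.All.ChartFacts (b - a) (a + b) u v t)
    (hH : Closed.chH (b - a) (a + b) u v t = H) (hB : EndBands7 a b u v H) (hk : DHigh a b)
    (h1 : (11 / 50 : ℝ) < b - a) (h2 : b - a ≤ (6 / 25 : ℝ)) (h3 : (8 / 25 : ℝ) * (b - a) < allStabI a b)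
    (h4 : allStabI a b ≤ (91 / 250 : ℝ) * (b - a)) (h5 : (17 / 50 : ℝ) * (b - a) < 1 - u)
    (h6 : 1 - u ≤ (2 / 5 : ℝ) * (b - a)) : Closed.Strip.ChartSigns (b - a) (a + b) u v t := by
  have hd := (end_facts7 hB).2.1
  exact sevBinN4_signs.signs hb hF hH hB hk
    ⟨by norm_num [sevBinN4], by norm_num [sevBinN4]; linarith, by norm_num [sevBinN4]; linarith⟩
    (inU_div hd (by norm_num [sevBinN4]) (by norm_num [sevBinN4]; linarith) (by norm_num [sevBinN4]; linarith))
    (inU_div hd (by norm_num [sevBinN4]) (by norm_num [sevBinN4]; linarith) (by norm_num [sevBinN4]; linarith))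

theorem atN5 {n : ℕ} {a b u v t H : ℝ} (hb : Closed.All.ChartBox n (b - a) (a + b))
    (hF : Closed.All.ChartFacts (b - a) (a + b) u v t)
    (hH : Closed.chH (b - a) (a + b) u v t = H) (hB : EndBands7 a b u v H) (hk : DHigh a b)
    (h1 : (11 / 50 : ℝ) < b - a) (h2 : b - a ≤ (23 / 100 : ℝ)) (h3 : (8 / 25 : ℝ) * (b - a) < allStabI a b)
    (h4 : allStabI a b ≤ (91 / 250 : ℝ) * (b - a)) (h5 : (2 / 5 : ℝ) * (b - a) < 1 - u)
    (h6 : 1 - u ≤ (12 / 25 : ℝ) * (b - a)) : Closed.Strip.ChartSigns (b - a) (a + b) u v t := by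
  have hd := (end_facts7 hB).2.1
  exact sevBinN5_signs.signs hb hF hH hB hk
    ⟨by norm_num [sevBinN5], by norm_num [sevBinN5]; linarith, by norm_num [sevBinN5]; linarith⟩
    (inU_div hd (by norm_num [sevBinN5]) (by norm_num [sevBinN5]; linarith) (by norm_num [sevBinN5]; linarith))
    (inU_div hd (by norm_num [sevBinN5]) (by norm_num [sevBinN5]; linarith) (by norm_num [sevBinN5]; linarith))

theorem atN6 {n : ℕ} {a b u v t H : ℝ} (hb : Closed.All.ChartBox n (b - a) (a + b))
    (hF : Closed.All.ChartFacts (b - a) (a + b) u v t)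
    (hH : Closed.chH (b - a) (a + b) u v t = H) (hB : EndBands7 a b u v H) (hk : DHigh a b)
    (h1 : (11 / 50 : ℝ) < b - a) (h2 : b - a ≤ (23 / 100 : ℝ)) (h3 : (8 / 25 : ℝ) * (b - a) < allStabI a b)
    (h4 : allStabI a b ≤ (91 / 250 : ℝ) * (b - a)) (h5 : (12 / 25 : ℝ) * (b - a) < 1 - u)
    (h6 : 1 - u ≤ (33 / 50 : ℝ) * (b - a)) : Closed.Strip.ChartSigns (b - a) (a + b) u v t := by
  have hd := (end_facts7 hB).2.1
  exact sevBinN6_signs.signs hb hF hH hB hk
    ⟨by norm_num [sevBinN6], by norm_num [sevBinN6]; linarith, by norm_num [sevBinN6]; linarith⟩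
    (inU_div hd (by norm_num [sevBinN6]) (by norm_num [sevBinN6]; linarith) (by norm_num [sevBinN6]; linarith))
    (inU_div hd (by norm_num [sevBinN6]) (by norm_num [sevBinN6]; linarith) (by norm_num [sevBinN6]; linarith))

theorem atN7 {n : ℕ} {a b u v t H : ℝ} (hb : Closed.All.ChartBox n (b - a) (a + b))
    (hF : Closed.All.ChartFacts (b - a) (a + b) u v t)
    (hH : Closed.chH (b - a) (a + b) u v t = H) (hB : EndBands7 a b u v H) (hk : DHigh a b)
    (h1 : (11 / 50 : ℝ) < b - a) (h2 : b - a ≤ (23 / 100 : ℝ)) (h3 : (8 / 25 : ℝ) * (b - a) < allStabI a b)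
    (h4 : allStabI a b ≤ (91 / 250 : ℝ) * (b - a)) (h5 : (33 / 50 : ℝ) * (b - a) < 1 - u)
    (h6 : 1 - u ≤ (91 / 100 : ℝ) * (b - a)) : Closed.Strip.ChartSigns (b - a) (a + b) u v t := by
  have hd := (end_facts7 hB).2.1
  exact sevBinN7_signs.signs hb hF hH hB hk
    ⟨by norm_num [sevBinN7], by norm_num [sevBinN7]; linarith, by norm_num [sevBinN7]; linarith⟩
    (inU_div hd (by norm_num [sevBinN7]) (by norm_num [sevBinN7]; linarith) (by norm_num [sevBinN7]; linarith))
    (inU_div hd (by norm_num [sevBinN7]) (by norm_num [sevBinN7]; linarith) (by norm_num [sevBinN7]; linarith))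

theorem atP0 {n : ℕ} {a b u v t H : ℝ} (hb : Closed.All.ChartBox n (b - a) (a + b))
    (hF : Closed.All.ChartFacts (b - a) (a + b) u v t)
    (hH : Closed.chH (b - a) (a + b) u v t = H) (hB : EndBands7 a b u v H) (hk : DHigh a b)
    (h1 : (6 / 25 : ℝ) < b - a) (h2 : b - a ≤ (63 / 250 : ℝ)) (h3 : (89 / 500 : ℝ) * (b - a) < allStabI a b)
    (h4 : allStabI a b ≤ (73 / 250 : ℝ) * (b - a)) (h5 : (0 / 1 : ℝ) * (b - a) < 1 - u)
    (h6 : 1 - u ≤ (3 / 200 : ℝ) * (b - a)) : Closed.Strip.ChartSigns (b - a) (a + b) u v t := by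
  have hd := (end_facts7 hB).2.1
  exact sevBinP0_signs.signs hb hF hH hB hk
    ⟨by norm_num [sevBinP0], by norm_num [sevBinP0]; linarith, by norm_num [sevBinP0]; linarith⟩
    (inU_div hd (by norm_num [sevBinP0]) (by norm_num [sevBinP0]; linarith) (by norm_num [sevBinP0]; linarith))
    (inU_div hd (by norm_num [sevBinP0]) (by norm_num [sevBinP0]; linarith) (by norm_num [sevBinP0]; linarith))

theorem atP1 {n : ℕ} {a b u v t H : ℝ} (hb : Closed.All.ChartBox n (b - a) (a + b))
    (hF : Closed.All.ChartFacts (b - a) (a + b) u v t)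
    (hH : Closed.chH (b - a) (a + b) u v t = H) (hB : EndBands7 a b u v H) (hk : DHigh a b)
    (h1 : (6 / 25 : ℝ) < b - a) (h2 : b - a ≤ (63 / 250 : ℝ)) (h3 : (89 / 500 : ℝ) * (b - a) < allStabI a b)
    (h4 : allStabI a b ≤ (73 / 250 : ℝ) * (b - a)) (h5 : (3 / 200 : ℝ) * (b - a) < 1 - u)
    (h6 : 1 - u ≤ (1 / 10 : ℝ) * (b - a)) : Closed.Strip.ChartSigns (b - a) (a + b) u v t := by
  have hd := (end_facts7 hB).2.1
  exact sevBinP1_signs.signs hb hF hH hB hk
    ⟨by norm_num [sevBinP1], by norm_num [sevBinP1]; linarith, by norm_num [sevBinP1]; linarith⟩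
    (inU_div hd (by norm_num [sevBinP1]) (by norm_num [sevBinP1]; linarith) (by norm_num [sevBinP1]; linarith))
    (inU_div hd (by norm_num [sevBinP1]) (by norm_num [sevBinP1]; linarith) (by norm_num [sevBinP1]; linarith))

theorem atP2 {n : ℕ} {a b u v t H : ℝ} (hb : Closed.All.ChartBox n (b - a) (a + b))
    (hF : Closed.All.ChartFacts (b - a) (a + b) u v t)
    (hH : Closed.chH (b - a) (a + b) u v t = H) (hB : EndBands7 a b u v H) (hk : DHigh a b)
    (h1 : (6 / 25 : ℝ) < b - a) (h2 : b - a ≤ (63 / 250 : ℝ)) (h3 : (89 / 500 : ℝ) * (b - a) < allStabI a b)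
    (h4 : allStabI a b ≤ (73 / 250 : ℝ) * (b - a)) (h5 : (1 / 10 : ℝ) * (b - a) < 1 - u)
    (h6 : 1 - u ≤ (17 / 50 : ℝ) * (b - a)) : Closed.Strip.ChartSigns (b - a) (a + b) u v t := by
  have hd := (end_facts7 hB).2.1
  exact sevBinP2_signs.signs hb hF hH hB hk
    ⟨by norm_num [sevBinP2], by norm_num [sevBinP2]; linarith, by norm_num [sevBinP2]; linarith⟩
    (inU_div hd (by norm_num [sevBinP2]) (by norm_num [sevBinP2]; linarith) (by norm_num [sevBinP2]; linarith))
    (inU_div hd (by norm_num [sevBinP2]) (by norm_num [sevBinP2]; linarith) (by norm_num [sevBinP2]; linarith))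

theorem atP3 {n : ℕ} {a b u v t H : ℝ} (hb : Closed.All.ChartBox n (b - a) (a + b))
    (hF : Closed.All.ChartFacts (b - a) (a + b) u v t)
    (hH : Closed.chH (b - a) (a + b) u v t = H) (hB : EndBands7 a b u v H) (hk : DHigh a b)
    (h1 : (6 / 25 : ℝ) < b - a) (h2 : b - a ≤ (63 / 250 : ℝ)) (h3 : (89 / 500 : ℝ) * (b - a) < allStabI a b)
    (h4 : allStabI a b ≤ (73 / 250 : ℝ) * (b - a)) (h5 : (17 / 50 : ℝ) * (b - a) < 1 - u)
    (h6 : 1 - u ≤ (2 / 5 : ℝ) * (b - a)) : Closed.Strip.ChartSigns (b - a) (a + b) u v t := by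
  have hd := (end_facts7 hB).2.1
  exact sevBinP3_signs.signs hb hF hH hB hk
    ⟨by norm_num [sevBinP3], by norm_num [sevBinP3]; linarith, by norm_num [sevBinP3]; linarith⟩
    (inU_div hd (by norm_num [sevBinP3]) (by norm_num [sevBinP3]; linarith) (by norm_num [sevBinP3]; linarith))
    (inU_div hd (by norm_num [sevBinP3]) (by norm_num [sevBinP3]; linarith) (by norm_num [sevBinP3]; linarith))

theorem atP4 {n : ℕ} {a b u v t H : ℝ} (hb : Closed.All.ChartBox n (b - a) (a + b))
    (hF : Closed.All.ChartFacts (b - a) (a + b) u v t)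
    (hH : Closed.chH (b - a) (a + b) u v t = H) (hB : EndBands7 a b u v H) (hk : DHigh a b)
    (h1 : (6 / 25 : ℝ) < b - a) (h2 : b - a ≤ (63 / 250 : ℝ)) (h3 : (89 / 500 : ℝ) * (b - a) < allStabI a b)
    (h4 : allStabI a b ≤ (73 / 250 : ℝ) * (b - a)) (h5 : (2 / 5 : ℝ) * (b - a) < 1 - u)
    (h6 : 1 - u ≤ (12 / 25 : ℝ) * (b - a)) : Closed.Strip.ChartSigns (b - a) (a + b) u v t := by
  have hd := (end_facts7 hB).2.1
  exact sevBinP4_signs.signs hb hF hH hB hk
    ⟨by norm_num [sevBinP4], by norm_num [sevBinP4]; linarith, by norm_num [sevBinP4]; linarith⟩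
    (inU_div hd (by norm_num [sevBinP4]) (by norm_num [sevBinP4]; linarith) (by norm_num [sevBinP4]; linarith))
    (inU_div hd (by norm_num [sevBinP4]) (by norm_num [sevBinP4]; linarith) (by norm_num [sevBinP4]; linarith))

theorem atP5 {n : ℕ} {a b u v t H : ℝ} (hb : Closed.All.ChartBox n (b - a) (a + b))
    (hF : Closed.All.ChartFacts (b - a) (a + b) u v t)
    (hH : Closed.chH (b - a) (a + b) u v t = H) (hB : EndBands7 a b u v H) (hk : DHigh a b)
    (h1 : (6 / 25 : ℝ) < b - a) (h2 : b - a ≤ (63 / 250 : ℝ)) (h3 : (89 / 500 : ℝ) * (b - a) < allStabI a b)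
    (h4 : allStabI a b ≤ (73 / 250 : ℝ) * (b - a)) (h5 : (12 / 25 : ℝ) * (b - a) < 1 - u)
    (h6 : 1 - u ≤ (33 / 50 : ℝ) * (b - a)) : Closed.Strip.ChartSigns (b - a) (a + b) u v t := by
  have hd := (end_facts7 hB).2.1
  exact sevBinP5_signs.signs hb hF hH hB hk
    ⟨by norm_num [sevBinP5], by norm_num [sevBinP5]; linarith, by norm_num [sevBinP5]; linarith⟩
    (inU_div hd (by norm_num [sevBinP5]) (by norm_num [sevBinP5]; linarith) (by norm_num [sevBinP5]; linarith))
    (inU_div hd (by norm_num [sevBinP5]) (by norm_num [sevBinP5]; linarith) (by norm_num [sevBinP5]; linarith))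

theorem atP6 {n : ℕ} {a b u v t H : ℝ} (hb : Closed.All.ChartBox n (b - a) (a + b))
    (hF : Closed.All.ChartFacts (b - a) (a + b) u v t)
    (hH : Closed.chH (b - a) (a + b) u v t = H) (hB : EndBands7 a b u v H) (hk : DHigh a b)
    (h1 : (6 / 25 : ℝ) < b - a) (h2 : b - a ≤ (63 / 250 : ℝ)) (h3 : (89 / 500 : ℝ) * (b - a) < allStabI a b)
    (h4 : allStabI a b ≤ (73 / 250 : ℝ) * (b - a)) (h5 : (33 / 50 : ℝ) * (b - a) < 1 - u)
    (h6 : 1 - u ≤ (417 / 500 : ℝ) * (b - a)) : Closed.Strip.ChartSigns (b - a) (a + b) u v t := by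
  have hd := (end_facts7 hB).2.1
  exact sevBinP6_signs.signs hb hF hH hB hk
    ⟨by norm_num [sevBinP6], by norm_num [sevBinP6]; linarith, by norm_num [sevBinP6]; linarith⟩
    (inU_div hd (by norm_num [sevBinP6]) (by norm_num [sevBinP6]; linarith) (by norm_num [sevBinP6]; linarith))
    (inU_div hd (by norm_num [sevBinP6]) (by norm_num [sevBinP6]; linarith) (by norm_num [sevBinP6]; linarith))

theorem atQ0 {n : ℕ} {a b u v t H : ℝ} (hb : Closed.All.ChartBox n (b - a) (a + b))
    (hF : Closed.All.ChartFacts (b - a) (a + b) u v t)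
    (hH : Closed.chH (b - a) (a + b) u v t = H) (hB : EndBands7 a b u v H) (hk : DHigh a b)
    (h1 : (37 / 200 : ℝ) < b - a) (h2 : b - a ≤ (1 / 5 : ℝ)) (h3 : (9 / 20 : ℝ) * (b - a) < allStabI a b)
    (h4 : allStabI a b ≤ (53 / 100 : ℝ) * (b - a)) (h5 : (2 / 5 : ℝ) * (b - a) < 1 - u)
    (h6 : 1 - u ≤ (12 / 25 : ℝ) * (b - a)) : Closed.Strip.ChartSigns (b - a) (a + b) u v t := by
  have hd := (end_facts7 hB).2.1
  exact sevBinQ0_signs.signs hb hF hH hB hk
    ⟨by norm_num [sevBinQ0], by norm_num [sevBinQ0]; linarith, by norm_num [sevBinQ0]; linarith⟩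
    (inU_div hd (by norm_num [sevBinQ0]) (by norm_num [sevBinQ0]; linarith) (by norm_num [sevBinQ0]; linarith))
    (inU_div hd (by norm_num [sevBinQ0]) (by norm_num [sevBinQ0]; linarith) (by norm_num [sevBinQ0]; linarith))

theorem atQ1 {n : ℕ} {a b u v t H : ℝ} (hb : Closed.All.ChartBox n (b - a) (a + b))
    (hF : Closed.All.ChartFacts (b - a) (a + b) u v t)
    (hH : Closed.chH (b - a) (a + b) u v t = H) (hB : EndBands7 a b u v H) (hk : DHigh a b)
    (h1 : (37 / 200 : ℝ) < b - a) (h2 : b - a ≤ (1 / 5 : ℝ)) (h3 : (9 / 20 : ℝ) * (b - a) < allStabI a b)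
    (h4 : allStabI a b ≤ (53 / 100 : ℝ) * (b - a)) (h5 : (12 / 25 : ℝ) * (b - a) < 1 - u)
    (h6 : 1 - u ≤ (33 / 50 : ℝ) * (b - a)) : Closed.Strip.ChartSigns (b - a) (a + b) u v t := by
  have hd := (end_facts7 hB).2.1
  exact sevBinQ1_signs.signs hb hF hH hB hk
    ⟨by norm_num [sevBinQ1], by norm_num [sevBinQ1]; linarith, by norm_num [sevBinQ1]; linarith⟩
    (inU_div hd (by norm_num [sevBinQ1]) (by norm_num [sevBinQ1]; linarith) (by norm_num [sevBinQ1]; linarith))
    (inU_div hd (by norm_num [sevBinQ1]) (by norm_num [sevBinQ1]; linarith) (by norm_num [sevBinQ1]; linarith))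

theorem atQ2 {n : ℕ} {a b u v t H : ℝ} (hb : Closed.All.ChartBox n (b - a) (a + b))
    (hF : Closed.All.ChartFacts (b - a) (a + b) u v t)
    (hH : Closed.chH (b - a) (a + b) u v t = H) (hB : EndBands7 a b u v H) (hk : DHigh a b)
    (h1 : (37 / 200 : ℝ) < b - a) (h2 : b - a ≤ (1 / 5 : ℝ)) (h3 : (9 / 20 : ℝ) * (b - a) < allStabI a b)
    (h4 : allStabI a b ≤ (53 / 100 : ℝ) * (b - a)) (h5 : (33 / 50 : ℝ) * (b - a) < 1 - u)
    (h6 : 1 - u ≤ (1 / 1 : ℝ) * (b - a)) : Closed.Strip.ChartSigns (b - a) (a + b) u v t := by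
  have hd := (end_facts7 hB).2.1
  exact sevBinQ2_signs.signs hb hF hH hB hk
    ⟨by norm_num [sevBinQ2], by norm_num [sevBinQ2]; linarith, by norm_num [sevBinQ2]; linarith⟩
    (inU_div hd (by norm_num [sevBinQ2]) (by norm_num [sevBinQ2]; linarith) (by norm_num [sevBinQ2]; linarith))
    (inU_div hd (by norm_num [sevBinQ2]) (by norm_num [sevBinQ2]; linarith) (by norm_num [sevBinQ2]; linarith))

theorem atR0 {n : ℕ} {a b u v t H : ℝ} (hb : Closed.All.ChartBox n (b - a) (a + b))
    (hF : Closed.All.ChartFacts (b - a) (a + b) u v t)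
    (hH : Closed.chH (b - a) (a + b) u v t = H) (hB : EndBands7 a b u v H) (hk : DHigh a b)
    (h1 : (23 / 100 : ℝ) < b - a) (h2 : b - a ≤ (6 / 25 : ℝ)) (h3 : (8 / 25 : ℝ) * (b - a) < allStabI a b)
    (h4 : allStabI a b ≤ (327 / 1000 : ℝ) * (b - a)) (h5 : (2 / 5 : ℝ) * (b - a) < 1 - u)
    (h6 : 1 - u ≤ (12 / 25 : ℝ) * (b - a)) : Closed.Strip.ChartSigns (b - a) (a + b) u v t := by
  have hd := (end_facts7 hB).2.1
  exact sevBinR0_signs.signs hb hF hH hB hk
    ⟨by norm_num [sevBinR0], by norm_num [sevBinR0]; linarith, by norm_num [sevBinR0]; linarith⟩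
    (inU_div hd (by norm_num [sevBinR0]) (by norm_num [sevBinR0]; linarith) (by norm_num [sevBinR0]; linarith))
    (inU_div hd (by norm_num [sevBinR0]) (by norm_num [sevBinR0]; linarith) (by norm_num [sevBinR0]; linarith))

theorem atR1 {n : ℕ} {a b u v t H : ℝ} (hb : Closed.All.ChartBox n (b - a) (a + b))
    (hF : Closed.All.ChartFacts (b - a) (a + b) u v t)
    (hH : Closed.chH (b - a) (a + b) u v t = H) (hB : EndBands7 a b u v H) (hk : DHigh a b)
    (h1 : (23 / 100 : ℝ) < b - a) (h2 : b - a ≤ (6 / 25 : ℝ)) (h3 : (8 / 25 : ℝ) * (b - a) < allStabI a b)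
    (h4 : allStabI a b ≤ (327 / 1000 : ℝ) * (b - a)) (h5 : (12 / 25 : ℝ) * (b - a) < 1 - u)
    (h6 : 1 - u ≤ (14 / 25 : ℝ) * (b - a)) : Closed.Strip.ChartSigns (b - a) (a + b) u v t := by
  have hd := (end_facts7 hB).2.1
  exact sevBinR1_signs.signs hb hF hH hB hk
    ⟨by norm_num [sevBinR1], by norm_num [sevBinR1]; linarith, by norm_num [sevBinR1]; linarith⟩
    (inU_div hd (by norm_num [sevBinR1]) (by norm_num [sevBinR1]; linarith) (by norm_num [sevBinR1]; linarith))
    (inU_div hd (by norm_num [sevBinR1]) (by norm_num [sevBinR1]; linarith) (by norm_num [sevBinR1]; linarith))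

theorem atR2 {n : ℕ} {a b u v t H : ℝ} (hb : Closed.All.ChartBox n (b - a) (a + b))
    (hF : Closed.All.ChartFacts (b - a) (a + b) u v t)
    (hH : Closed.chH (b - a) (a + b) u v t = H) (hB : EndBands7 a b u v H) (hk : DHigh a b)
    (h1 : (23 / 100 : ℝ) < b - a) (h2 : b - a ≤ (6 / 25 : ℝ)) (h3 : (8 / 25 : ℝ) * (b - a) < allStabI a b)
    (h4 : allStabI a b ≤ (327 / 1000 : ℝ) * (b - a)) (h5 : (14 / 25 : ℝ) * (b - a) < 1 - u)
    (h6 : 1 - u ≤ (87 / 100 : ℝ) * (b - a)) : Closed.Strip.ChartSigns (b - a) (a + b) u v t := by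
  have hd := (end_facts7 hB).2.1
  exact sevBinR2_signs.signs hb hF hH hB hk
    ⟨by norm_num [sevBinR2], by norm_num [sevBinR2]; linarith, by norm_num [sevBinR2]; linarith⟩
    (inU_div hd (by norm_num [sevBinR2]) (by norm_num [sevBinR2]; linarith) (by norm_num [sevBinR2]; linarith))
    (inU_div hd (by norm_num [sevBinR2]) (by norm_num [sevBinR2]; linarith) (by norm_num [sevBinR2]; linarith))

theorem atS0 {n : ℕ} {a b u v t H : ℝ} (hb : Closed.All.ChartBox n (b - a) (a + b))
    (hF : Closed.All.ChartFacts (b - a) (a + b) u v t)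
    (hH : Closed.chH (b - a) (a + b) u v t = H) (hB : EndBands7 a b u v H) (hk : DHigh a b)
    (h1 : (63 / 250 : ℝ) < b - a) (h2 : b - a ≤ (53 / 200 : ℝ)) (h3 : (89 / 500 : ℝ) * (b - a) < allStabI a b)
    (h4 : allStabI a b ≤ (127 / 500 : ℝ) * (b - a)) (h5 : (0 / 1 : ℝ) * (b - a) < 1 - u)
    (h6 : 1 - u ≤ (3 / 200 : ℝ) * (b - a)) : Closed.Strip.ChartSigns (b - a) (a + b) u v t := by
  have hd := (end_facts7 hB).2.1
  exact sevBinS0_signs.signs hb hF hH hB hk
    ⟨by norm_num [sevBinS0], by norm_num [sevBinS0]; linarith, by norm_num [sevBinS0]; linarith⟩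
    (inU_div hd (by norm_num [sevBinS0]) (by norm_num [sevBinS0]; linarith) (by norm_num [sevBinS0]; linarith))
    (inU_div hd (by norm_num [sevBinS0]) (by norm_num [sevBinS0]; linarith) (by norm_num [sevBinS0]; linarith))

theorem atS1 {n : ℕ} {a b u v t H : ℝ} (hb : Closed.All.ChartBox n (b - a) (a + b))
    (hF : Closed.All.ChartFacts (b - a) (a + b) u v t)
    (hH : Closed.chH (b - a) (a + b) u v t = H) (hB : EndBands7 a b u v H) (hk : DHigh a b)
    (h1 : (63 / 250 : ℝ) < b - a) (h2 : b - a ≤ (53 / 200 : ℝ)) (h3 : (89 / 500 : ℝ) * (b - a) < allStabI a b)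
    (h4 : allStabI a b ≤ (127 / 500 : ℝ) * (b - a)) (h5 : (3 / 200 : ℝ) * (b - a) < 1 - u)
    (h6 : 1 - u ≤ (1 / 10 : ℝ) * (b - a)) : Closed.Strip.ChartSigns (b - a) (a + b) u v t := by
  have hd := (end_facts7 hB).2.1
  exact sevBinS1_signs.signs hb hF hH hB hk
    ⟨by norm_num [sevBinS1], by norm_num [sevBinS1]; linarith, by norm_num [sevBinS1]; linarith⟩
    (inU_div hd (by norm_num [sevBinS1]) (by norm_num [sevBinS1]; linarith) (by norm_num [sevBinS1]; linarith))
    (inU_div hd (by norm_num [sevBinS1]) (by norm_num [sevBinS1]; linarith) (by norm_num [sevBinS1]; linarith))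

theorem atS2 {n : ℕ} {a b u v t H : ℝ} (hb : Closed.All.ChartBox n (b - a) (a + b))
    (hF : Closed.All.ChartFacts (b - a) (a + b) u v t)
    (hH : Closed.chH (b - a) (a + b) u v t = H) (hB : EndBands7 a b u v H) (hk : DHigh a b)
    (h1 : (63 / 250 : ℝ) < b - a) (h2 : b - a ≤ (53 / 200 : ℝ)) (h3 : (89 / 500 : ℝ) * (b - a) < allStabI a b)
    (h4 : allStabI a b ≤ (127 / 500 : ℝ) * (b - a)) (h5 : (1 / 10 : ℝ) * (b - a) < 1 - u)
    (h6 : 1 - u ≤ (17 / 50 : ℝ) * (b - a)) : Closed.Strip.ChartSigns (b - a) (a + b) u v t := by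
  have hd := (end_facts7 hB).2.1
  exact sevBinS2_signs.signs hb hF hH hB hk
    ⟨by norm_num [sevBinS2], by norm_num [sevBinS2]; linarith, by norm_num [sevBinS2]; linarith⟩
    (inU_div hd (by norm_num [sevBinS2]) (by norm_num [sevBinS2]; linarith) (by norm_num [sevBinS2]; linarith))
    (inU_div hd (by norm_num [sevBinS2]) (by norm_num [sevBinS2]; linarith) (by norm_num [sevBinS2]; linarith))

theorem atS3 {n : ℕ} {a b u v t H : ℝ} (hb : Closed.All.ChartBox n (b - a) (a + b))
    (hF : Closed.All.ChartFacts (b - a) (a + b) u v t)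
    (hH : Closed.chH (b - a) (a + b) u v t = H) (hB : EndBands7 a b u v H) (hk : DHigh a b)
    (h1 : (63 / 250 : ℝ) < b - a) (h2 : b - a ≤ (53 / 200 : ℝ)) (h3 : (89 / 500 : ℝ) * (b - a) < allStabI a b)
    (h4 : allStabI a b ≤ (127 / 500 : ℝ) * (b - a)) (h5 : (17 / 50 : ℝ) * (b - a) < 1 - u)
    (h6 : 1 - u ≤ (12 / 25 : ℝ) * (b - a)) : Closed.Strip.ChartSigns (b - a) (a + b) u v t := by
  have hd := (end_facts7 hB).2.1
  exact sevBinS3_signs.signs hb hF hH hB hk
    ⟨by norm_num [sevBinS3], by norm_num [sevBinS3]; linarith, by norm_num [sevBinS3]; linarith⟩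
    (inU_div hd (by norm_num [sevBinS3]) (by norm_num [sevBinS3]; linarith) (by norm_num [sevBinS3]; linarith))
    (inU_div hd (by norm_num [sevBinS3]) (by norm_num [sevBinS3]; linarith) (by norm_num [sevBinS3]; linarith))

theorem atS4 {n : ℕ} {a b u v t H : ℝ} (hb : Closed.All.ChartBox n (b - a) (a + b))
    (hF : Closed.All.ChartFacts (b - a) (a + b) u v t)
    (hH : Closed.chH (b - a) (a + b) u v t = H) (hB : EndBands7 a b u v H) (hk : DHigh a b)
    (h1 : (63 / 250 : ℝ) < b - a) (h2 : b - a ≤ (53 / 200 : ℝ)) (h3 : (89 / 500 : ℝ) * (b - a) < allStabI a b)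
    (h4 : allStabI a b ≤ (127 / 500 : ℝ) * (b - a)) (h5 : (12 / 25 : ℝ) * (b - a) < 1 - u)
    (h6 : 1 - u ≤ (33 / 50 : ℝ) * (b - a)) : Closed.Strip.ChartSigns (b - a) (a + b) u v t := by
  have hd := (end_facts7 hB).2.1
  exact sevBinS4_signs.signs hb hF hH hB hk
    ⟨by norm_num [sevBinS4], by norm_num [sevBinS4]; linarith, by norm_num [sevBinS4]; linarith⟩
    (inU_div hd (by norm_num [sevBinS4]) (by norm_num [sevBinS4]; linarith) (by norm_num [sevBinS4]; linarith))
    (inU_div hd (by norm_num [sevBinS4]) (by norm_num [sevBinS4]; linarith) (by norm_num [sevBinS4]; linarith))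

theorem atS5 {n : ℕ} {a b u v t H : ℝ} (hb : Closed.All.ChartBox n (b - a) (a + b))
    (hF : Closed.All.ChartFacts (b - a) (a + b) u v t)
    (hH : Closed.chH (b - a) (a + b) u v t = H) (hB : EndBands7 a b u v H) (hk : DHigh a b)
    (h1 : (63 / 250 : ℝ) < b - a) (h2 : b - a ≤ (53 / 200 : ℝ)) (h3 : (89 / 500 : ℝ) * (b - a) < allStabI a b)
    (h4 : allStabI a b ≤ (127 / 500 : ℝ) * (b - a)) (h5 : (33 / 50 : ℝ) * (b - a) < 1 - u)
    (h6 : 1 - u ≤ (397 / 500 : ℝ) * (b - a)) : Closed.Strip.ChartSigns (b - a) (a + b) u v t := by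
  have hd := (end_facts7 hB).2.1
  exact sevBinS5_signs.signs hb hF hH hB hk
    ⟨by norm_num [sevBinS5], by norm_num [sevBinS5]; linarith, by norm_num [sevBinS5]; linarith⟩
    (inU_div hd (by norm_num [sevBinS5]) (by norm_num [sevBinS5]; linarith) (by norm_num [sevBinS5]; linarith))
    (inU_div hd (by norm_num [sevBinS5]) (by norm_num [sevBinS5]; linarith) (by norm_num [sevBinS5]; linarith))

theorem atT0 {n : ℕ} {a b u v t H : ℝ} (hb : Closed.All.ChartBox n (b - a) (a + b))
    (hF : Closed.All.ChartFacts (b - a) (a + b) u v t)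
    (hH : Closed.chH (b - a) (a + b) u v t = H) (hB : EndBands7 a b u v H) (hk : DHigh a b)
    (h1 : (53 / 200 : ℝ) < b - a) (h2 : b - a ≤ (7 / 25 : ℝ)) (h3 : (89 / 500 : ℝ) * (b - a) < allStabI a b)
    (h4 : allStabI a b ≤ (217 / 1000 : ℝ) * (b - a)) (h5 : (0 / 1 : ℝ) * (b - a) < 1 - u)
    (h6 : 1 - u ≤ (3 / 500 : ℝ) * (b - a)) : Closed.Strip.ChartSigns (b - a) (a + b) u v t := by
  have hd := (end_facts7 hB).2.1
  exact sevBinT0_signs.signs hb hF hH hB hk
    ⟨by norm_num [sevBinT0], by norm_num [sevBinT0]; linarith, by norm_num [sevBinT0]; linarith⟩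
    (inU_div hd (by norm_num [sevBinT0]) (by norm_num [sevBinT0]; linarith) (by norm_num [sevBinT0]; linarith))
    (inU_div hd (by norm_num [sevBinT0]) (by norm_num [sevBinT0]; linarith) (by norm_num [sevBinT0]; linarith))

theorem atT1 {n : ℕ} {a b u v t H : ℝ} (hb : Closed.All.ChartBox n (b - a) (a + b))
    (hF : Closed.All.ChartFacts (b - a) (a + b) u v t)
    (hH : Closed.chH (b - a) (a + b) u v t = H) (hB : EndBands7 a b u v H) (hk : DHigh a b)
    (h1 : (53 / 200 : ℝ) < b - a) (h2 : b - a ≤ (7 / 25 : ℝ)) (h3 : (89 / 500 : ℝ) * (b - a) < allStabI a b)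
    (h4 : allStabI a b ≤ (217 / 1000 : ℝ) * (b - a)) (h5 : (3 / 500 : ℝ) * (b - a) < 1 - u)
    (h6 : 1 - u ≤ (11 / 200 : ℝ) * (b - a)) : Closed.Strip.ChartSigns (b - a) (a + b) u v t := by
  have hd := (end_facts7 hB).2.1
  exact sevBinT1_signs.signs hb hF hH hB hk
    ⟨by norm_num [sevBinT1], by norm_num [sevBinT1]; linarith, by norm_num [sevBinT1]; linarith⟩
    (inU_div hd (by norm_num [sevBinT1]) (by norm_num [sevBinT1]; linarith) (by norm_num [sevBinT1]; linarith))
    (inU_div hd (by norm_num [sevBinT1]) (by norm_num [sevBinT1]; linarith) (by norm_num [sevBinT1]; linarith))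

theorem atT2 {n : ℕ} {a b u v t H : ℝ} (hb : Closed.All.ChartBox n (b - a) (a + b))
    (hF : Closed.All.ChartFacts (b - a) (a + b) u v t)
    (hH : Closed.chH (b - a) (a + b) u v t = H) (hB : EndBands7 a b u v H) (hk : DHigh a b)
    (h1 : (53 / 200 : ℝ) < b - a) (h2 : b - a ≤ (7 / 25 : ℝ)) (h3 : (89 / 500 : ℝ) * (b - a) < allStabI a b)
    (h4 : allStabI a b ≤ (217 / 1000 : ℝ) * (b - a)) (h5 : (11 / 200 : ℝ) * (b - a) < 1 - u)
    (h6 : 1 - u ≤ (11 / 50 : ℝ) * (b - a)) : Closed.Strip.ChartSigns (b - a) (a + b) u v t := by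
  have hd := (end_facts7 hB).2.1
  exact sevBinT2_signs.signs hb hF hH hB hk
    ⟨by norm_num [sevBinT2], by norm_num [sevBinT2]; linarith, by norm_num [sevBinT2]; linarith⟩
    (inU_div hd (by norm_num [sevBinT2]) (by norm_num [sevBinT2]; linarith) (by norm_num [sevBinT2]; linarith))
    (inU_div hd (by norm_num [sevBinT2]) (by norm_num [sevBinT2]; linarith) (by norm_num [sevBinT2]; linarith))

theorem atT3 {n : ℕ} {a b u v t H : ℝ} (hb : Closed.All.ChartBox n (b - a) (a + b))
    (hF : Closed.All.ChartFacts (b - a) (a + b) u v t)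
    (hH : Closed.chH (b - a) (a + b) u v t = H) (hB : EndBands7 a b u v H) (hk : DHigh a b)
    (h1 : (53 / 200 : ℝ) < b - a) (h2 : b - a ≤ (7 / 25 : ℝ)) (h3 : (89 / 500 : ℝ) * (b - a) < allStabI a b)
    (h4 : allStabI a b ≤ (217 / 1000 : ℝ) * (b - a)) (h5 : (11 / 50 : ℝ) * (b - a) < 1 - u)
    (h6 : 1 - u ≤ (2 / 5 : ℝ) * (b - a)) : Closed.Strip.ChartSigns (b - a) (a + b) u v t := by
  have hd := (end_facts7 hB).2.1
  exact sevBinT3_signs.signs hb hF hH hB hk
    ⟨by norm_num [sevBinT3], by norm_num [sevBinT3]; linarith, by norm_num [sevBinT3]; linarith⟩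
    (inU_div hd (by norm_num [sevBinT3]) (by norm_num [sevBinT3]; linarith) (by norm_num [sevBinT3]; linarith))
    (inU_div hd (by norm_num [sevBinT3]) (by norm_num [sevBinT3]; linarith) (by norm_num [sevBinT3]; linarith))

theorem atT4 {n : ℕ} {a b u v t H : ℝ} (hb : Closed.All.ChartBox n (b - a) (a + b))
    (hF : Closed.All.ChartFacts (b - a) (a + b) u v t)
    (hH : Closed.chH (b - a) (a + b) u v t = H) (hB : EndBands7 a b u v H) (hk : DHigh a b)
    (h1 : (53 / 200 : ℝ) < b - a) (h2 : b - a ≤ (7 / 25 : ℝ)) (h3 : (89 / 500 : ℝ) * (b - a) < allStabI a b)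
    (h4 : allStabI a b ≤ (217 / 1000 : ℝ) * (b - a)) (h5 : (2 / 5 : ℝ) * (b - a) < 1 - u)
    (h6 : 1 - u ≤ (14 / 25 : ℝ) * (b - a)) : Closed.Strip.ChartSigns (b - a) (a + b) u v t := by
  have hd := (end_facts7 hB).2.1
  exact sevBinT4_signs.signs hb hF hH hB hk
    ⟨by norm_num [sevBinT4], by norm_num [sevBinT4]; linarith, by norm_num [sevBinT4]; linarith⟩
    (inU_div hd (by norm_num [sevBinT4]) (by norm_num [sevBinT4]; linarith) (by norm_num [sevBinT4]; linarith))
    (inU_div hd (by norm_num [sevBinT4]) (by norm_num [sevBinT4]; linarith) (by norm_num [sevBinT4]; linarith))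

theorem atT5 {n : ℕ} {a b u v t H : ℝ} (hb : Closed.All.ChartBox n (b - a) (a + b))
    (hF : Closed.All.ChartFacts (b - a) (a + b) u v t)
    (hH : Closed.chH (b - a) (a + b) u v t = H) (hB : EndBands7 a b u v H) (hk : DHigh a b)
    (h1 : (53 / 200 : ℝ) < b - a) (h2 : b - a ≤ (7 / 25 : ℝ)) (h3 : (89 / 500 : ℝ) * (b - a) < allStabI a b)
    (h4 : allStabI a b ≤ (217 / 1000 : ℝ) * (b - a)) (h5 : (14 / 25 : ℝ) * (b - a) < 1 - u)
    (h6 : 1 - u ≤ (151 / 200 : ℝ) * (b - a)) : Closed.Strip.ChartSigns (b - a) (a + b) u v t := by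
  have hd := (end_facts7 hB).2.1
  exact sevBinT5_signs.signs hb hF hH hB hk
    ⟨by norm_num [sevBinT5], by norm_num [sevBinT5]; linarith, by norm_num [sevBinT5]; linarith⟩
    (inU_div hd (by norm_num [sevBinT5]) (by norm_num [sevBinT5]; linarith) (by norm_num [sevBinT5]; linarith))
    (inU_div hd (by norm_num [sevBinT5]) (by norm_num [sevBinT5]; linarith) (by norm_num [sevBinT5]; linarith))

theorem sevRow0_0 {n : ℕ} {a b u v t H : ℝ} (hb : Closed.All.ChartBox n (b - a) (a + b))
    (hF : Closed.All.ChartFacts (b - a) (a + b) u v t)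
    (hH : Closed.chH (b - a) (a + b) u v t = H) (hB : EndBands7 a b u v H) (hk : DHigh a b)
    (hI0 : 1 / 20 < allStabI a b) (hw5 : 1 - u ≤ 1 / 5) (hId : allStabI a b ≤ b - a)
    (hwd : 1 - u ≤ b - a) (hd0 : (1 / 20 : ℝ) < b - a)
    (hd1 : b - a ≤ (9 / 100 : ℝ))
    (h0 : allStabI a b ≤ ((4 / 5 : ℝ) * (b - a))) : Closed.Strip.ChartSigns (b - a) (a + b) u v t := by
  obtain ⟨hI, hd, hw, eS, hcap⟩ := end_facts7 hB
  rcases le_or_gt (1 - u) ((21 / 500 : ℝ) * (b - a)) with h1 | h1
  · exact atA0 hb hF hH hB hk (by first | assumption | linarith) (by first | assumption | linarith) (by first | assumption | linarith) (by first | assumption | linarith)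
      (by first | assumption | linarith) (by first | assumption | linarith)
  rcases le_or_gt (1 - u) ((1 / 10 : ℝ) * (b - a)) with h2 | h2
  · exact atC0 hb hF hH hB hk (by first | assumption | linarith) (by first | assumption | linarith) (by first | assumption | linarith) (by first | assumption | linarith)
      (by first | assumption | linarith) (by first | assumption | linarith)
  rcases le_or_gt (1 - u) ((11 / 50 : ℝ) * (b - a)) with h3 | h3
  · exact atC1 hb hF hH hB hk (by first | assumption | linarith) (by first | assumption | linarith) (by first | assumption | linarith) (by first | assumption | linarith)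
      (by first | assumption | linarith) (by first | assumption | linarith)
  rcases le_or_gt (1 - u) ((12 / 25 : ℝ) * (b - a)) with h4 | h4
  · exact atC2 hb hF hH hB hk (by first | assumption | linarith) (by first | assumption | linarith) (by first | assumption | linarith) (by first | assumption | linarith)
      (by first | assumption | linarith) (by first | assumption | linarith)
  exact atC3 hb hF hH hB hk (by first | assumption | linarith) (by first | assumption | linarith) (by first | assumption | linarith) (by first | assumption | linarith)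
    (by first | assumption | linarith) (by first | assumption | linarith)

theorem sevRow0_1 {n : ℕ} {a b u v t H : ℝ} (hb : Closed.All.ChartBox n (b - a) (a + b))
    (hF : Closed.All.ChartFacts (b - a) (a + b) u v t)
    (hH : Closed.chH (b - a) (a + b) u v t = H) (hB : EndBands7 a b u v H) (hk : DHigh a b)
    (hI0 : 1 / 20 < allStabI a b) (hw5 : 1 - u ≤ 1 / 5) (hId : allStabI a b ≤ b - a)
    (hwd : 1 - u ≤ b - a) (hd0 : (1 / 20 : ℝ) < b - a)
    (hd1 : b - a ≤ (9 / 100 : ℝ))
    (h0 : allStabI a b > ((4 / 5 : ℝ) * (b - a))) : Closed.Strip.ChartSigns (b - a) (a + b) u v t := by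
  obtain ⟨hI, hd, hw, eS, hcap⟩ := end_facts7 hB
  rcases le_or_gt (1 - u) ((3 / 1000 : ℝ) * (b - a)) with h1 | h1
  · exact atB0 hb hF hH hB hk (by first | assumption | linarith) (by first | assumption | linarith) (by first | assumption | linarith) (by first | assumption | linarith)
      (by first | assumption | linarith) (by first | assumption | linarith)
  rcases le_or_gt (1 - u) ((1 / 100 : ℝ) * (b - a)) with h2 | h2
  · exact atB1 hb hF hH hB hk (by first | assumption | linarith) (by first | assumption | linarith) (by first | assumption | linarith) (by first | assumption | linarith)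
      (by first | assumption | linarith) (by first | assumption | linarith)
  rcases le_or_gt (1 - u) ((3 / 100 : ℝ) * (b - a)) with h3 | h3
  · exact atB2 hb hF hH hB hk (by first | assumption | linarith) (by first | assumption | linarith) (by first | assumption | linarith) (by first | assumption | linarith)
      (by first | assumption | linarith) (by first | assumption | linarith)
  rcases le_or_gt (1 - u) ((21 / 500 : ℝ) * (b - a)) with h4 | h4
  · exact atB3 hb hF hH hB hk (by first | assumption | linarith) (by first | assumption | linarith) (by first | assumption | linarith) (by first | assumption | linarith)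
      (by first | assumption | linarith) (by first | assumption | linarith)
  rcases le_or_gt (1 - u) ((1 / 10 : ℝ) * (b - a)) with h5 | h5
  · exact atC0 hb hF hH hB hk (by first | assumption | linarith) (by first | assumption | linarith) (by first | assumption | linarith) (by first | assumption | linarith)
      (by first | assumption | linarith) (by first | assumption | linarith)
  rcases le_or_gt (1 - u) ((11 / 50 : ℝ) * (b - a)) with h6 | h6
  · exact atC1 hb hF hH hB hk (by first | assumption | linarith) (by first | assumption | linarith) (by first | assumption | linarith) (by first | assumption | linarith)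
      (by first | assumption | linarith) (by first | assumption | linarith)
  rcases le_or_gt (1 - u) ((12 / 25 : ℝ) * (b - a)) with h7 | h7
  · exact atC2 hb hF hH hB hk (by first | assumption | linarith) (by first | assumption | linarith) (by first | assumption | linarith) (by first | assumption | linarith)
      (by first | assumption | linarith) (by first | assumption | linarith)
  exact atC3 hb hF hH hB hk (by first | assumption | linarith) (by first | assumption | linarith) (by first | assumption | linarith) (by first | assumption | linarith)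
    (by first | assumption | linarith) (by first | assumption | linarith)

theorem sevRow0 {n : ℕ} {a b u v t H : ℝ} (hb : Closed.All.ChartBox n (b - a) (a + b))
    (hF : Closed.All.ChartFacts (b - a) (a + b) u v t)
    (hH : Closed.chH (b - a) (a + b) u v t = H) (hB : EndBands7 a b u v H) (hk : DHigh a b)
    (hI0 : 1 / 20 < allStabI a b) (hw5 : 1 - u ≤ 1 / 5) (hId : allStabI a b ≤ b - a)
    (hwd : 1 - u ≤ b - a) (hd0 : (1 / 20 : ℝ) < b - a)
    (hd1 : b - a ≤ (9 / 100 : ℝ)) : Closed.Strip.ChartSigns (b - a) (a + b) u v t := by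
  obtain ⟨hI, hd, hw, eS, hcap⟩ := end_facts7 hB
  rcases le_or_gt (allStabI a b) ((4 / 5 : ℝ) * (b - a)) with h0 | h0
  · exact sevRow0_0 hb hF hH hB hk hI0 hw5 hId hwd hd0 hd1 h0
  exact sevRow0_1 hb hF hH hB hk hI0 hw5 hId hwd hd0 hd1 h0

theorem sevRow1_2 {n : ℕ} {a b u v t H : ℝ} (hb : Closed.All.ChartBox n (b - a) (a + b))
    (hF : Closed.All.ChartFacts (b - a) (a + b) u v t)
    (hH : Closed.chH (b - a) (a + b) u v t = H) (hB : EndBands7 a b u v H) (hk : DHigh a b)
    (hI0 : 1 / 20 < allStabI a b) (hw5 : 1 - u ≤ 1 / 5) (hId : allStabI a b ≤ b - a)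
    (hwd : 1 - u ≤ b - a) (hd0 : (9 / 100 : ℝ) < b - a)
    (hd1 : b - a ≤ (13 / 100 : ℝ))
    (h0 : allStabI a b ≤ ((7 / 10 : ℝ) * (b - a))) : Closed.Strip.ChartSigns (b - a) (a + b) u v t := by
  obtain ⟨hI, hd, hw, eS, hcap⟩ := end_facts7 hB
  rcases le_or_gt (1 - u) ((11 / 200 : ℝ) * (b - a)) with h1 | h1
  · exact atE0 hb hF hH hB hk (by first | assumption | linarith) (by first | assumption | linarith) (by first | assumption | linarith) (by first | assumption | linarith)
      (by first | assumption | linarith) (by first | assumption | linarith)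
  rcases le_or_gt (1 - u) ((13 / 100 : ℝ) * (b - a)) with h2 | h2
  · exact atE1 hb hF hH hB hk (by first | assumption | linarith) (by first | assumption | linarith) (by first | assumption | linarith) (by first | assumption | linarith)
      (by first | assumption | linarith) (by first | assumption | linarith)
  rcases le_or_gt (1 - u) ((17 / 50 : ℝ) * (b - a)) with h3 | h3
  · exact atE2 hb hF hH hB hk (by first | assumption | linarith) (by first | assumption | linarith) (by first | assumption | linarith) (by first | assumption | linarith)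
      (by first | assumption | linarith) (by first | assumption | linarith)
  rcases le_or_gt (1 - u) ((33 / 50 : ℝ) * (b - a)) with h4 | h4
  · exact atE3 hb hF hH hB hk (by first | assumption | linarith) (by first | assumption | linarith) (by first | assumption | linarith) (by first | assumption | linarith)
      (by first | assumption | linarith) (by first | assumption | linarith)
  exact atE4 hb hF hH hB hk (by first | assumption | linarith) (by first | assumption | linarith) (by first | assumption | linarith) (by first | assumption | linarith)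
    (by first | assumption | linarith) (by first | assumption | linarith)

theorem sevRow1_3 {n : ℕ} {a b u v t H : ℝ} (hb : Closed.All.ChartBox n (b - a) (a + b))
    (hF : Closed.All.ChartFacts (b - a) (a + b) u v t)
    (hH : Closed.chH (b - a) (a + b) u v t = H) (hB : EndBands7 a b u v H) (hk : DHigh a b)
    (hI0 : 1 / 20 < allStabI a b) (hw5 : 1 - u ≤ 1 / 5) (hId : allStabI a b ≤ b - a)
    (hwd : 1 - u ≤ b - a) (hd0 : (9 / 100 : ℝ) < b - a)
    (hd1 : b - a ≤ (13 / 100 : ℝ))
    (h0 : allStabI a b > ((7 / 10 : ℝ) * (b - a))) : Closed.Strip.ChartSigns (b - a) (a + b) u v t := by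
  obtain ⟨hI, hd, hw, eS, hcap⟩ := end_facts7 hB
  rcases le_or_gt (1 - u) ((1 / 100 : ℝ) * (b - a)) with h1 | h1
  · exact atD0 hb hF hH hB hk (by first | assumption | linarith) (by first | assumption | linarith) (by first | assumption | linarith) (by first | assumption | linarith)
      (by first | assumption | linarith) (by first | assumption | linarith)
  rcases le_or_gt (1 - u) ((3 / 100 : ℝ) * (b - a)) with h2 | h2
  · exact atD1 hb hF hH hB hk (by first | assumption | linarith) (by first | assumption | linarith) (by first | assumption | linarith) (by first | assumption | linarith)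
      (by first | assumption | linarith) (by first | assumption | linarith)
  rcases le_or_gt (1 - u) ((11 / 200 : ℝ) * (b - a)) with h3 | h3
  · exact atD2 hb hF hH hB hk (by first | assumption | linarith) (by first | assumption | linarith) (by first | assumption | linarith) (by first | assumption | linarith)
      (by first | assumption | linarith) (by first | assumption | linarith)
  rcases le_or_gt (1 - u) ((1 / 10 : ℝ) * (b - a)) with h4 | h4
  · exact atD3 hb hF hH hB hk (by first | assumption | linarith) (by first | assumption | linarith) (by first | assumption | linarith) (by first | assumption | linarith)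
      (by first | assumption | linarith) (by first | assumption | linarith)
  rcases le_or_gt (1 - u) ((17 / 100 : ℝ) * (b - a)) with h5 | h5
  · exact atD4 hb hF hH hB hk (by first | assumption | linarith) (by first | assumption | linarith) (by first | assumption | linarith) (by first | assumption | linarith)
      (by first | assumption | linarith) (by first | assumption | linarith)
  rcases le_or_gt (1 - u) ((7 / 25 : ℝ) * (b - a)) with h6 | h6
  · exact atD5 hb hF hH hB hk (by first | assumption | linarith) (by first | assumption | linarith) (by first | assumption | linarith) (by first | assumption | linarith)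
      (by first | assumption | linarith) (by first | assumption | linarith)
  rcases le_or_gt (1 - u) ((12 / 25 : ℝ) * (b - a)) with h7 | h7
  · exact atD6 hb hF hH hB hk (by first | assumption | linarith) (by first | assumption | linarith) (by first | assumption | linarith) (by first | assumption | linarith)
      (by first | assumption | linarith) (by first | assumption | linarith)
  rcases le_or_gt (1 - u) ((9 / 10 : ℝ) * (b - a)) with h8 | h8
  · exact atD7 hb hF hH hB hk (by first | assumption | linarith) (by first | assumption | linarith) (by first | assumption | linarith) (by first | assumption | linarith)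
      (by first | assumption | linarith) (by first | assumption | linarith)
  exact atD8 hb hF hH hB hk (by first | assumption | linarith) (by first | assumption | linarith) (by first | assumption | linarith) (by first | assumption | linarith)
    (by first | assumption | linarith) (by first | assumption | linarith)

theorem sevRow1 {n : ℕ} {a b u v t H : ℝ} (hb : Closed.All.ChartBox n (b - a) (a + b))
    (hF : Closed.All.ChartFacts (b - a) (a + b) u v t)
    (hH : Closed.chH (b - a) (a + b) u v t = H) (hB : EndBands7 a b u v H) (hk : DHigh a b)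
    (hI0 : 1 / 20 < allStabI a b) (hw5 : 1 - u ≤ 1 / 5) (hId : allStabI a b ≤ b - a)
    (hwd : 1 - u ≤ b - a) (hd0 : (9 / 100 : ℝ) < b - a)
    (hd1 : b - a ≤ (13 / 100 : ℝ)) : Closed.Strip.ChartSigns (b - a) (a + b) u v t := by
  obtain ⟨hI, hd, hw, eS, hcap⟩ := end_facts7 hB
  rcases le_or_gt (allStabI a b) ((7 / 10 : ℝ) * (b - a)) with h0 | h0
  · exact sevRow1_2 hb hF hH hB hk hI0 hw5 hId hwd hd0 hd1 h0
  exact sevRow1_3 hb hF hH hB hk hI0 hw5 hId hwd hd0 hd1 h0

theorem sevRow2_4 {n : ℕ} {a b u v t H : ℝ} (hb : Closed.All.ChartBox n (b - a) (a + b))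
    (hF : Closed.All.ChartFacts (b - a) (a + b) u v t)
    (hH : Closed.chH (b - a) (a + b) u v t = H) (hB : EndBands7 a b u v H) (hk : DHigh a b)
    (hI0 : 1 / 20 < allStabI a b) (hw5 : 1 - u ≤ 1 / 5) (hId : allStabI a b ≤ b - a)
    (hwd : 1 - u ≤ b - a) (hd0 : (13 / 100 : ℝ) < b - a)
    (hd1 : b - a ≤ (31 / 200 : ℝ))
    (h0 : allStabI a b ≤ ((13 / 20 : ℝ) * (b - a))) : Closed.Strip.ChartSigns (b - a) (a + b) u v t := by
  obtain ⟨hI, hd, hw, eS, hcap⟩ := end_facts7 hB
  rcases le_or_gt (1 - u) ((11 / 200 : ℝ) * (b - a)) with h1 | h1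
  · exact atG0 hb hF hH hB hk (by first | assumption | linarith) (by first | assumption | linarith) (by first | assumption | linarith) (by first | assumption | linarith)
      (by first | assumption | linarith) (by first | assumption | linarith)
  rcases le_or_gt (1 - u) ((13 / 100 : ℝ) * (b - a)) with h2 | h2
  · exact atG1 hb hF hH hB hk (by first | assumption | linarith) (by first | assumption | linarith) (by first | assumption | linarith) (by first | assumption | linarith)
      (by first | assumption | linarith) (by first | assumption | linarith)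
  rcases le_or_gt (1 - u) ((7 / 25 : ℝ) * (b - a)) with h3 | h3
  · exact atG2 hb hF hH hB hk (by first | assumption | linarith) (by first | assumption | linarith) (by first | assumption | linarith) (by first | assumption | linarith)
      (by first | assumption | linarith) (by first | assumption | linarith)
  rcases le_or_gt (1 - u) ((2 / 5 : ℝ) * (b - a)) with h4 | h4
  · exact atG3 hb hF hH hB hk (by first | assumption | linarith) (by first | assumption | linarith) (by first | assumption | linarith) (by first | assumption | linarith)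
      (by first | assumption | linarith) (by first | assumption | linarith)
  rcases le_or_gt (1 - u) ((12 / 25 : ℝ) * (b - a)) with h5 | h5
  · exact atG4 hb hF hH hB hk (by first | assumption | linarith) (by first | assumption | linarith) (by first | assumption | linarith) (by first | assumption | linarith)
      (by first | assumption | linarith) (by first | assumption | linarith)
  rcases le_or_gt (1 - u) ((14 / 25 : ℝ) * (b - a)) with h6 | h6
  · exact atG5 hb hF hH hB hk (by first | assumption | linarith) (by first | assumption | linarith) (by first | assumption | linarith) (by first | assumption | linarith)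
      (by first | assumption | linarith) (by first | assumption | linarith)
  rcases le_or_gt (1 - u) ((33 / 50 : ℝ) * (b - a)) with h7 | h7
  · exact atG6 hb hF hH hB hk (by first | assumption | linarith) (by first | assumption | linarith) (by first | assumption | linarith) (by first | assumption | linarith)
      (by first | assumption | linarith) (by first | assumption | linarith)
  exact atG7 hb hF hH hB hk (by first | assumption | linarith) (by first | assumption | linarith) (by first | assumption | linarith) (by first | assumption | linarith)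
    (by first | assumption | linarith) (by first | assumption | linarith)

theorem sevRow2_5 {n : ℕ} {a b u v t H : ℝ} (hb : Closed.All.ChartBox n (b - a) (a + b))
    (hF : Closed.All.ChartFacts (b - a) (a + b) u v t)
    (hH : Closed.chH (b - a) (a + b) u v t = H) (hB : EndBands7 a b u v H) (hk : DHigh a b)
    (hI0 : 1 / 20 < allStabI a b) (hw5 : 1 - u ≤ 1 / 5) (hId : allStabI a b ≤ b - a)
    (hwd : 1 - u ≤ b - a) (hd0 : (13 / 100 : ℝ) < b - a)
    (hd1 : b - a ≤ (31 / 200 : ℝ))
    (h0 : allStabI a b > ((13 / 20 : ℝ) * (b - a))) : Closed.Strip.ChartSigns (b - a) (a + b) u v t := by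
  obtain ⟨hI, hd, hw, eS, hcap⟩ := end_facts7 hB
  rcases le_or_gt (1 - u) ((11 / 500 : ℝ) * (b - a)) with h1 | h1
  · exact atF0 hb hF hH hB hk (by first | assumption | linarith) (by first | assumption | linarith) (by first | assumption | linarith) (by first | assumption | linarith)
      (by first | assumption | linarith) (by first | assumption | linarith)
  rcases le_or_gt (1 - u) ((21 / 500 : ℝ) * (b - a)) with h2 | h2
  · exact atF1 hb hF hH hB hk (by first | assumption | linarith) (by first | assumption | linarith) (by first | assumption | linarith) (by first | assumption | linarith)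
      (by first | assumption | linarith) (by first | assumption | linarith)
  rcases le_or_gt (1 - u) ((3 / 40 : ℝ) * (b - a)) with h3 | h3
  · exact atF2 hb hF hH hB hk (by first | assumption | linarith) (by first | assumption | linarith) (by first | assumption | linarith) (by first | assumption | linarith)
      (by first | assumption | linarith) (by first | assumption | linarith)
  rcases le_or_gt (1 - u) ((13 / 100 : ℝ) * (b - a)) with h4 | h4
  · exact atF3 hb hF hH hB hk (by first | assumption | linarith) (by first | assumption | linarith) (by first | assumption | linarith) (by first | assumption | linarith)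
      (by first | assumption | linarith) (by first | assumption | linarith)
  rcases le_or_gt (1 - u) ((11 / 50 : ℝ) * (b - a)) with h5 | h5
  · exact atF4 hb hF hH hB hk (by first | assumption | linarith) (by first | assumption | linarith) (by first | assumption | linarith) (by first | assumption | linarith)
      (by first | assumption | linarith) (by first | assumption | linarith)
  rcases le_or_gt (1 - u) ((17 / 50 : ℝ) * (b - a)) with h6 | h6
  · exact atF5 hb hF hH hB hk (by first | assumption | linarith) (by first | assumption | linarith) (by first | assumption | linarith) (by first | assumption | linarith)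
      (by first | assumption | linarith) (by first | assumption | linarith)
  rcases le_or_gt (1 - u) ((2 / 5 : ℝ) * (b - a)) with h7 | h7
  · exact atF6 hb hF hH hB hk (by first | assumption | linarith) (by first | assumption | linarith) (by first | assumption | linarith) (by first | assumption | linarith)
      (by first | assumption | linarith) (by first | assumption | linarith)
  rcases le_or_gt (1 - u) ((12 / 25 : ℝ) * (b - a)) with h8 | h8
  · exact atF7 hb hF hH hB hk (by first | assumption | linarith) (by first | assumption | linarith) (by first | assumption | linarith) (by first | assumption | linarith)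
      (by first | assumption | linarith) (by first | assumption | linarith)
  rcases le_or_gt (1 - u) ((14 / 25 : ℝ) * (b - a)) with h9 | h9
  · exact atF8 hb hF hH hB hk (by first | assumption | linarith) (by first | assumption | linarith) (by first | assumption | linarith) (by first | assumption | linarith)
      (by first | assumption | linarith) (by first | assumption | linarith)
  rcases le_or_gt (1 - u) ((9 / 10 : ℝ) * (b - a)) with h10 | h10
  · exact atF9 hb hF hH hB hk (by first | assumption | linarith) (by first | assumption | linarith) (by first | assumption | linarith) (by first | assumption | linarith)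
      (by first | assumption | linarith) (by first | assumption | linarith)
  exact atF10 hb hF hH hB hk (by first | assumption | linarith) (by first | assumption | linarith) (by first | assumption | linarith) (by first | assumption | linarith)
    (by first | assumption | linarith) (by first | assumption | linarith)

theorem sevRow2 {n : ℕ} {a b u v t H : ℝ} (hb : Closed.All.ChartBox n (b - a) (a + b))
    (hF : Closed.All.ChartFacts (b - a) (a + b) u v t)
    (hH : Closed.chH (b - a) (a + b) u v t = H) (hB : EndBands7 a b u v H) (hk : DHigh a b)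
    (hI0 : 1 / 20 < allStabI a b) (hw5 : 1 - u ≤ 1 / 5) (hId : allStabI a b ≤ b - a)
    (hwd : 1 - u ≤ b - a) (hd0 : (13 / 100 : ℝ) < b - a)
    (hd1 : b - a ≤ (31 / 200 : ℝ)) : Closed.Strip.ChartSigns (b - a) (a + b) u v t := by
  obtain ⟨hI, hd, hw, eS, hcap⟩ := end_facts7 hB
  rcases le_or_gt (allStabI a b) ((13 / 20 : ℝ) * (b - a)) with h0 | h0
  · exact sevRow2_4 hb hF hH hB hk hI0 hw5 hId hwd hd0 hd1 h0
  exact sevRow2_5 hb hF hH hB hk hI0 hw5 hId hwd hd0 hd1 h0

theorem sevRow3_6 {n : ℕ} {a b u v t H : ℝ} (hb : Closed.All.ChartBox n (b - a) (a + b))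
    (hF : Closed.All.ChartFacts (b - a) (a + b) u v t)
    (hH : Closed.chH (b - a) (a + b) u v t = H) (hB : EndBands7 a b u v H) (hk : DHigh a b)
    (hI0 : 1 / 20 < allStabI a b) (hw5 : 1 - u ≤ 1 / 5) (hId : allStabI a b ≤ b - a)
    (hwd : 1 - u ≤ b - a) (hd0 : (31 / 200 : ℝ) < b - a)
    (hd1 : b - a ≤ (17 / 100 : ℝ))
    (h0 : allStabI a b ≤ ((13 / 20 : ℝ) * (b - a))) : Closed.Strip.ChartSigns (b - a) (a + b) u v t := by
  obtain ⟨hI, hd, hw, eS, hcap⟩ := end_facts7 hB
  rcases le_or_gt (1 - u) ((11 / 200 : ℝ) * (b - a)) with h1 | h1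
  · exact atG0 hb hF hH hB hk (by first | assumption | linarith) (by first | assumption | linarith) (by first | assumption | linarith) (by first | assumption | linarith)
      (by first | assumption | linarith) (by first | assumption | linarith)
  rcases le_or_gt (1 - u) ((13 / 100 : ℝ) * (b - a)) with h2 | h2
  · exact atG1 hb hF hH hB hk (by first | assumption | linarith) (by first | assumption | linarith) (by first | assumption | linarith) (by first | assumption | linarith)
      (by first | assumption | linarith) (by first | assumption | linarith)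
  rcases le_or_gt (1 - u) ((7 / 25 : ℝ) * (b - a)) with h3 | h3
  · exact atG2 hb hF hH hB hk (by first | assumption | linarith) (by first | assumption | linarith) (by first | assumption | linarith) (by first | assumption | linarith)
      (by first | assumption | linarith) (by first | assumption | linarith)
  rcases le_or_gt (1 - u) ((2 / 5 : ℝ) * (b - a)) with h4 | h4
  · exact atG3 hb hF hH hB hk (by first | assumption | linarith) (by first | assumption | linarith) (by first | assumption | linarith) (by first | assumption | linarith)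
      (by first | assumption | linarith) (by first | assumption | linarith)
  rcases le_or_gt (1 - u) ((12 / 25 : ℝ) * (b - a)) with h5 | h5
  · exact atG4 hb hF hH hB hk (by first | assumption | linarith) (by first | assumption | linarith) (by first | assumption | linarith) (by first | assumption | linarith)
      (by first | assumption | linarith) (by first | assumption | linarith)
  rcases le_or_gt (1 - u) ((14 / 25 : ℝ) * (b - a)) with h6 | h6
  · exact atG5 hb hF hH hB hk (by first | assumption | linarith) (by first | assumption | linarith) (by first | assumption | linarith) (by first | assumption | linarith)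
      (by first | assumption | linarith) (by first | assumption | linarith)
  rcases le_or_gt (1 - u) ((33 / 50 : ℝ) * (b - a)) with h7 | h7
  · exact atG6 hb hF hH hB hk (by first | assumption | linarith) (by first | assumption | linarith) (by first | assumption | linarith) (by first | assumption | linarith)
      (by first | assumption | linarith) (by first | assumption | linarith)
  exact atG7 hb hF hH hB hk (by first | assumption | linarith) (by first | assumption | linarith) (by first | assumption | linarith) (by first | assumption | linarith)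
    (by first | assumption | linarith) (by first | assumption | linarith)

theorem sevRow3_7 {n : ℕ} {a b u v t H : ℝ} (hb : Closed.All.ChartBox n (b - a) (a + b))
    (hF : Closed.All.ChartFacts (b - a) (a + b) u v t)
    (hH : Closed.chH (b - a) (a + b) u v t = H) (hB : EndBands7 a b u v H) (hk : DHigh a b)
    (hI0 : 1 / 20 < allStabI a b) (hw5 : 1 - u ≤ 1 / 5) (hId : allStabI a b ≤ b - a)
    (hwd : 1 - u ≤ b - a) (hd0 : (31 / 200 : ℝ) < b - a)
    (hd1 : b - a ≤ (17 / 100 : ℝ))
    (h0 : allStabI a b > ((13 / 20 : ℝ) * (b - a))) : Closed.Strip.ChartSigns (b - a) (a + b) u v t := by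
  obtain ⟨hI, hd, hw, eS, hcap⟩ := end_facts7 hB
  rcases le_or_gt (1 - u) ((11 / 200 : ℝ) * (b - a)) with h1 | h1
  · exact atK0 hb hF hH hB hk (by first | assumption | linarith) (by first | assumption | linarith) (by first | assumption | linarith) (by first | assumption | linarith)
      (by first | assumption | linarith) (by first | assumption | linarith)
  rcases le_or_gt (1 - u) ((13 / 100 : ℝ) * (b - a)) with h2 | h2
  · exact atK1 hb hF hH hB hk (by first | assumption | linarith) (by first | assumption | linarith) (by first | assumption | linarith) (by first | assumption | linarith)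
      (by first | assumption | linarith) (by first | assumption | linarith)
  rcases le_or_gt (1 - u) ((7 / 25 : ℝ) * (b - a)) with h3 | h3
  · exact atK2 hb hF hH hB hk (by first | assumption | linarith) (by first | assumption | linarith) (by first | assumption | linarith) (by first | assumption | linarith)
      (by first | assumption | linarith) (by first | assumption | linarith)
  rcases le_or_gt (1 - u) ((2 / 5 : ℝ) * (b - a)) with h4 | h4
  · exact atK3 hb hF hH hB hk (by first | assumption | linarith) (by first | assumption | linarith) (by first | assumption | linarith) (by first | assumption | linarith)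
      (by first | assumption | linarith) (by first | assumption | linarith)
  rcases le_or_gt (1 - u) ((14 / 25 : ℝ) * (b - a)) with h5 | h5
  · exact atK4 hb hF hH hB hk (by first | assumption | linarith) (by first | assumption | linarith) (by first | assumption | linarith) (by first | assumption | linarith)
      (by first | assumption | linarith) (by first | assumption | linarith)
  exact atK5 hb hF hH hB hk (by first | assumption | linarith) (by first | assumption | linarith) (by first | assumption | linarith) (by first | assumption | linarith)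
    (by first | assumption | linarith) (by first | assumption | linarith)

theorem sevRow3 {n : ℕ} {a b u v t H : ℝ} (hb : Closed.All.ChartBox n (b - a) (a + b))
    (hF : Closed.All.ChartFacts (b - a) (a + b) u v t)
    (hH : Closed.chH (b - a) (a + b) u v t = H) (hB : EndBands7 a b u v H) (hk : DHigh a b)
    (hI0 : 1 / 20 < allStabI a b) (hw5 : 1 - u ≤ 1 / 5) (hId : allStabI a b ≤ b - a)
    (hwd : 1 - u ≤ b - a) (hd0 : (31 / 200 : ℝ) < b - a)
    (hd1 : b - a ≤ (17 / 100 : ℝ)) : Closed.Strip.ChartSigns (b - a) (a + b) u v t := by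
  obtain ⟨hI, hd, hw, eS, hcap⟩ := end_facts7 hB
  rcases le_or_gt (allStabI a b) ((13 / 20 : ℝ) * (b - a)) with h0 | h0
  · exact sevRow3_6 hb hF hH hB hk hI0 hw5 hId hwd hd0 hd1 h0
  exact sevRow3_7 hb hF hH hB hk hI0 hw5 hId hwd hd0 hd1 h0

theorem sevRow4_8 {n : ℕ} {a b u v t H : ℝ} (hb : Closed.All.ChartBox n (b - a) (a + b))
    (hF : Closed.All.ChartFacts (b - a) (a + b) u v t)
    (hH : Closed.chH (b - a) (a + b) u v t = H) (hB : EndBands7 a b u v H) (hk : DHigh a b)
    (hI0 : 1 / 20 < allStabI a b) (hw5 : 1 - u ≤ 1 / 5) (hId : allStabI a b ≤ b - a)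
    (hwd : 1 - u ≤ b - a) (hd0 : (17 / 100 : ℝ) < b - a)
    (hd1 : b - a ≤ (37 / 200 : ℝ))
    (h0 : allStabI a b ≤ ((9 / 20 : ℝ) * (b - a))) : Closed.Strip.ChartSigns (b - a) (a + b) u v t := by
  obtain ⟨hI, hd, hw, eS, hcap⟩ := end_facts7 hB
  rcases le_or_gt (1 - u) ((1 / 100 : ℝ) * (b - a)) with h1 | h1
  · exact atH0 hb hF hH hB hk (by first | assumption | linarith) (by first | assumption | linarith) (by first | assumption | linarith) (by first | assumption | linarith)
      (by first | assumption | linarith) (by first | assumption | linarith)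
  rcases le_or_gt (1 - u) ((3 / 40 : ℝ) * (b - a)) with h2 | h2
  · exact atH1 hb hF hH hB hk (by first | assumption | linarith) (by first | assumption | linarith) (by first | assumption | linarith) (by first | assumption | linarith)
      (by first | assumption | linarith) (by first | assumption | linarith)
  rcases le_or_gt (1 - u) ((11 / 50 : ℝ) * (b - a)) with h3 | h3
  · exact atH2 hb hF hH hB hk (by first | assumption | linarith) (by first | assumption | linarith) (by first | assumption | linarith) (by first | assumption | linarith)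
      (by first | assumption | linarith) (by first | assumption | linarith)
  rcases le_or_gt (1 - u) ((2 / 5 : ℝ) * (b - a)) with h4 | h4
  · exact atH3 hb hF hH hB hk (by first | assumption | linarith) (by first | assumption | linarith) (by first | assumption | linarith) (by first | assumption | linarith)
      (by first | assumption | linarith) (by first | assumption | linarith)
  rcases le_or_gt (1 - u) ((12 / 25 : ℝ) * (b - a)) with h5 | h5
  · exact atH4 hb hF hH hB hk (by first | assumption | linarith) (by first | assumption | linarith) (by first | assumption | linarith) (by first | assumption | linarith)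
      (by first | assumption | linarith) (by first | assumption | linarith)
  rcases le_or_gt (1 - u) ((14 / 25 : ℝ) * (b - a)) with h6 | h6
  · exact atH5 hb hF hH hB hk (by first | assumption | linarith) (by first | assumption | linarith) (by first | assumption | linarith) (by first | assumption | linarith)
      (by first | assumption | linarith) (by first | assumption | linarith)
  rcases le_or_gt (1 - u) ((39 / 50 : ℝ) * (b - a)) with h7 | h7
  · exact atH6 hb hF hH hB hk (by first | assumption | linarith) (by first | assumption | linarith) (by first | assumption | linarith) (by first | assumption | linarith)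
      (by first | assumption | linarith) (by first | assumption | linarith)
  exact atH7 hb hF hH hB hk (by first | assumption | linarith) (by first | assumption | linarith) (by first | assumption | linarith) (by first | assumption | linarith)
    (by first | assumption | linarith) (by first | assumption | linarith)

theorem sevRow4_9 {n : ℕ} {a b u v t H : ℝ} (hb : Closed.All.ChartBox n (b - a) (a + b))
    (hF : Closed.All.ChartFacts (b - a) (a + b) u v t)
    (hH : Closed.chH (b - a) (a + b) u v t = H) (hB : EndBands7 a b u v H) (hk : DHigh a b)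
    (hI0 : 1 / 20 < allStabI a b) (hw5 : 1 - u ≤ 1 / 5) (hId : allStabI a b ≤ b - a)
    (hwd : 1 - u ≤ b - a) (hd0 : (17 / 100 : ℝ) < b - a)
    (hd1 : b - a ≤ (37 / 200 : ℝ))
    (h0 : allStabI a b > ((9 / 20 : ℝ) * (b - a))) : Closed.Strip.ChartSigns (b - a) (a + b) u v t := by
  obtain ⟨hI, hd, hw, eS, hcap⟩ := end_facts7 hB
  rcases le_or_gt (1 - u) ((21 / 500 : ℝ) * (b - a)) with h1 | h1
  · exact atJ0 hb hF hH hB hk (by first | assumption | linarith) (by first | assumption | linarith) (by first | assumption | linarith) (by first | assumption | linarith)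
      (by first | assumption | linarith) (by first | assumption | linarith)
  rcases le_or_gt (1 - u) ((13 / 100 : ℝ) * (b - a)) with h2 | h2
  · exact atJ1 hb hF hH hB hk (by first | assumption | linarith) (by first | assumption | linarith) (by first | assumption | linarith) (by first | assumption | linarith)
      (by first | assumption | linarith) (by first | assumption | linarith)
  rcases le_or_gt (1 - u) ((7 / 25 : ℝ) * (b - a)) with h3 | h3
  · exact atJ2 hb hF hH hB hk (by first | assumption | linarith) (by first | assumption | linarith) (by first | assumption | linarith) (by first | assumption | linarith)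
      (by first | assumption | linarith) (by first | assumption | linarith)
  rcases le_or_gt (1 - u) ((17 / 50 : ℝ) * (b - a)) with h4 | h4
  · exact atJ3 hb hF hH hB hk (by first | assumption | linarith) (by first | assumption | linarith) (by first | assumption | linarith) (by first | assumption | linarith)
      (by first | assumption | linarith) (by first | assumption | linarith)
  rcases le_or_gt (1 - u) ((2 / 5 : ℝ) * (b - a)) with h5 | h5
  · exact atJ4 hb hF hH hB hk (by first | assumption | linarith) (by first | assumption | linarith) (by first | assumption | linarith) (by first | assumption | linarith)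
      (by first | assumption | linarith) (by first | assumption | linarith)
  rcases le_or_gt (1 - u) ((12 / 25 : ℝ) * (b - a)) with h6 | h6
  · exact atJ5 hb hF hH hB hk (by first | assumption | linarith) (by first | assumption | linarith) (by first | assumption | linarith) (by first | assumption | linarith)
      (by first | assumption | linarith) (by first | assumption | linarith)
  rcases le_or_gt (1 - u) ((33 / 50 : ℝ) * (b - a)) with h7 | h7
  · exact atJ6 hb hF hH hB hk (by first | assumption | linarith) (by first | assumption | linarith) (by first | assumption | linarith) (by first | assumption | linarith)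
      (by first | assumption | linarith) (by first | assumption | linarith)
  exact atJ7 hb hF hH hB hk (by first | assumption | linarith) (by first | assumption | linarith) (by first | assumption | linarith) (by first | assumption | linarith)
    (by first | assumption | linarith) (by first | assumption | linarith)

theorem sevRow4 {n : ℕ} {a b u v t H : ℝ} (hb : Closed.All.ChartBox n (b - a) (a + b))
    (hF : Closed.All.ChartFacts (b - a) (a + b) u v t)
    (hH : Closed.chH (b - a) (a + b) u v t = H) (hB : EndBands7 a b u v H) (hk : DHigh a b)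
    (hI0 : 1 / 20 < allStabI a b) (hw5 : 1 - u ≤ 1 / 5) (hId : allStabI a b ≤ b - a)
    (hwd : 1 - u ≤ b - a) (hd0 : (17 / 100 : ℝ) < b - a)
    (hd1 : b - a ≤ (37 / 200 : ℝ)) : Closed.Strip.ChartSigns (b - a) (a + b) u v t := by
  obtain ⟨hI, hd, hw, eS, hcap⟩ := end_facts7 hB
  rcases le_or_gt (allStabI a b) ((9 / 20 : ℝ) * (b - a)) with h0 | h0
  · exact sevRow4_8 hb hF hH hB hk hI0 hw5 hId hwd hd0 hd1 h0
  exact sevRow4_9 hb hF hH hB hk hI0 hw5 hId hwd hd0 hd1 h0

theorem sevRow5_10 {n : ℕ} {a b u v t H : ℝ} (hb : Closed.All.ChartBox n (b - a) (a + b))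
    (hF : Closed.All.ChartFacts (b - a) (a + b) u v t)
    (hH : Closed.chH (b - a) (a + b) u v t = H) (hB : EndBands7 a b u v H) (hk : DHigh a b)
    (hI0 : 1 / 20 < allStabI a b) (hw5 : 1 - u ≤ 1 / 5) (hId : allStabI a b ≤ b - a)
    (hwd : 1 - u ≤ b - a) (hd0 : (37 / 200 : ℝ) < b - a)
    (hd1 : b - a ≤ (1 / 5 : ℝ))
    (h0 : allStabI a b ≤ ((9 / 20 : ℝ) * (b - a))) : Closed.Strip.ChartSigns (b - a) (a + b) u v t := by
  obtain ⟨hI, hd, hw, eS, hcap⟩ := end_facts7 hB
  rcases le_or_gt (1 - u) ((1 / 100 : ℝ) * (b - a)) with h1 | h1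
  · exact atH0 hb hF hH hB hk (by first | assumption | linarith) (by first | assumption | linarith) (by first | assumption | linarith) (by first | assumption | linarith)
      (by first | assumption | linarith) (by first | assumption | linarith)
  rcases le_or_gt (1 - u) ((3 / 40 : ℝ) * (b - a)) with h2 | h2
  · exact atH1 hb hF hH hB hk (by first | assumption | linarith) (by first | assumption | linarith) (by first | assumption | linarith) (by first | assumption | linarith)
      (by first | assumption | linarith) (by first | assumption | linarith)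
  rcases le_or_gt (1 - u) ((11 / 50 : ℝ) * (b - a)) with h3 | h3
  · exact atH2 hb hF hH hB hk (by first | assumption | linarith) (by first | assumption | linarith) (by first | assumption | linarith) (by first | assumption | linarith)
      (by first | assumption | linarith) (by first | assumption | linarith)
  rcases le_or_gt (1 - u) ((2 / 5 : ℝ) * (b - a)) with h4 | h4
  · exact atH3 hb hF hH hB hk (by first | assumption | linarith) (by first | assumption | linarith) (by first | assumption | linarith) (by first | assumption | linarith)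
      (by first | assumption | linarith) (by first | assumption | linarith)
  rcases le_or_gt (1 - u) ((12 / 25 : ℝ) * (b - a)) with h5 | h5
  · exact atH4 hb hF hH hB hk (by first | assumption | linarith) (by first | assumption | linarith) (by first | assumption | linarith) (by first | assumption | linarith)
      (by first | assumption | linarith) (by first | assumption | linarith)
  rcases le_or_gt (1 - u) ((14 / 25 : ℝ) * (b - a)) with h6 | h6
  · exact atH5 hb hF hH hB hk (by first | assumption | linarith) (by first | assumption | linarith) (by first | assumption | linarith) (by first | assumption | linarith)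
      (by first | assumption | linarith) (by first | assumption | linarith)
  rcases le_or_gt (1 - u) ((39 / 50 : ℝ) * (b - a)) with h7 | h7
  · exact atH6 hb hF hH hB hk (by first | assumption | linarith) (by first | assumption | linarith) (by first | assumption | linarith) (by first | assumption | linarith)
      (by first | assumption | linarith) (by first | assumption | linarith)
  exact atH7 hb hF hH hB hk (by first | assumption | linarith) (by first | assumption | linarith) (by first | assumption | linarith) (by first | assumption | linarith)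
    (by first | assumption | linarith) (by first | assumption | linarith)

theorem sevRow5_11 {n : ℕ} {a b u v t H : ℝ} (hb : Closed.All.ChartBox n (b - a) (a + b))
    (hF : Closed.All.ChartFacts (b - a) (a + b) u v t)
    (hH : Closed.chH (b - a) (a + b) u v t = H) (hB : EndBands7 a b u v H) (hk : DHigh a b)
    (hI0 : 1 / 20 < allStabI a b) (hw5 : 1 - u ≤ 1 / 5) (hId : allStabI a b ≤ b - a)
    (hwd : 1 - u ≤ b - a) (hd0 : (37 / 200 : ℝ) < b - a)
    (hd1 : b - a ≤ (1 / 5 : ℝ))
    (h0 : allStabI a b > ((9 / 20 : ℝ) * (b - a))) : Closed.Strip.ChartSigns (b - a) (a + b) u v t := by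
  obtain ⟨hI, hd, hw, eS, hcap⟩ := end_facts7 hB
  rcases le_or_gt (1 - u) ((21 / 500 : ℝ) * (b - a)) with h1 | h1
  · exact atJ0 hb hF hH hB hk (by first | assumption | linarith) (by first | assumption | linarith) (by first | assumption | linarith) (by first | assumption | linarith)
      (by first | assumption | linarith) (by first | assumption | linarith)
  rcases le_or_gt (1 - u) ((13 / 100 : ℝ) * (b - a)) with h2 | h2
  · exact atJ1 hb hF hH hB hk (by first | assumption | linarith) (by first | assumption | linarith) (by first | assumption | linarith) (by first | assumption | linarith)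
      (by first | assumption | linarith) (by first | assumption | linarith)
  rcases le_or_gt (1 - u) ((7 / 25 : ℝ) * (b - a)) with h3 | h3
  · exact atJ2 hb hF hH hB hk (by first | assumption | linarith) (by first | assumption | linarith) (by first | assumption | linarith) (by first | assumption | linarith)
      (by first | assumption | linarith) (by first | assumption | linarith)
  rcases le_or_gt (1 - u) ((17 / 50 : ℝ) * (b - a)) with h4 | h4
  · exact atJ3 hb hF hH hB hk (by first | assumption | linarith) (by first | assumption | linarith) (by first | assumption | linarith) (by first | assumption | linarith)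
      (by first | assumption | linarith) (by first | assumption | linarith)
  rcases le_or_gt (1 - u) ((2 / 5 : ℝ) * (b - a)) with h5 | h5
  · exact atJ4 hb hF hH hB hk (by first | assumption | linarith) (by first | assumption | linarith) (by first | assumption | linarith) (by first | assumption | linarith)
      (by first | assumption | linarith) (by first | assumption | linarith)
  rcases le_or_gt (1 - u) ((12 / 25 : ℝ) * (b - a)) with h6 | h6
  · exact atQ0 hb hF hH hB hk (by first | assumption | linarith) (by first | assumption | linarith) (by first | assumption | linarith) (by first | assumption | linarith)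
      (by first | assumption | linarith) (by first | assumption | linarith)
  rcases le_or_gt (1 - u) ((33 / 50 : ℝ) * (b - a)) with h7 | h7
  · exact atQ1 hb hF hH hB hk (by first | assumption | linarith) (by first | assumption | linarith) (by first | assumption | linarith) (by first | assumption | linarith)
      (by first | assumption | linarith) (by first | assumption | linarith)
  exact atQ2 hb hF hH hB hk (by first | assumption | linarith) (by first | assumption | linarith) (by first | assumption | linarith) (by first | assumption | linarith)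
    (by first | assumption | linarith) (by first | assumption | linarith)

theorem sevRow5 {n : ℕ} {a b u v t H : ℝ} (hb : Closed.All.ChartBox n (b - a) (a + b))
    (hF : Closed.All.ChartFacts (b - a) (a + b) u v t)
    (hH : Closed.chH (b - a) (a + b) u v t = H) (hB : EndBands7 a b u v H) (hk : DHigh a b)
    (hI0 : 1 / 20 < allStabI a b) (hw5 : 1 - u ≤ 1 / 5) (hId : allStabI a b ≤ b - a)
    (hwd : 1 - u ≤ b - a) (hd0 : (37 / 200 : ℝ) < b - a)
    (hd1 : b - a ≤ (1 / 5 : ℝ)) : Closed.Strip.ChartSigns (b - a) (a + b) u v t := by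
  obtain ⟨hI, hd, hw, eS, hcap⟩ := end_facts7 hB
  rcases le_or_gt (allStabI a b) ((9 / 20 : ℝ) * (b - a)) with h0 | h0
  · exact sevRow5_10 hb hF hH hB hk hI0 hw5 hId hwd hd0 hd1 h0
  exact sevRow5_11 hb hF hH hB hk hI0 hw5 hId hwd hd0 hd1 h0

theorem sevRow6_12 {n : ℕ} {a b u v t H : ℝ} (hb : Closed.All.ChartBox n (b - a) (a + b))
    (hF : Closed.All.ChartFacts (b - a) (a + b) u v t)
    (hH : Closed.chH (b - a) (a + b) u v t = H) (hB : EndBands7 a b u v H) (hk : DHigh a b)
    (hI0 : 1 / 20 < allStabI a b) (hw5 : 1 - u ≤ 1 / 5) (hId : allStabI a b ≤ b - a)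
    (hwd : 1 - u ≤ b - a) (hd0 : (1 / 5 : ℝ) < b - a)
    (hd1 : b - a ≤ (11 / 50 : ℝ))
    (h0 : allStabI a b ≤ ((8 / 25 : ℝ) * (b - a))) : Closed.Strip.ChartSigns (b - a) (a + b) u v t := by
  obtain ⟨hI, hd, hw, eS, hcap⟩ := end_facts7 hB
  rcases le_or_gt (1 - u) ((3 / 100 : ℝ) * (b - a)) with h1 | h1
  · exact atL0 hb hF hH hB hk (by first | assumption | linarith) (by first | assumption | linarith) (by first | assumption | linarith) (by first | assumption | linarith)
      (by first | assumption | linarith) (by first | assumption | linarith)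
  rcases le_or_gt (1 - u) ((13 / 100 : ℝ) * (b - a)) with h2 | h2
  · exact atL1 hb hF hH hB hk (by first | assumption | linarith) (by first | assumption | linarith) (by first | assumption | linarith) (by first | assumption | linarith)
      (by first | assumption | linarith) (by first | assumption | linarith)
  rcases le_or_gt (1 - u) ((17 / 50 : ℝ) * (b - a)) with h3 | h3
  · exact atL2 hb hF hH hB hk (by first | assumption | linarith) (by first | assumption | linarith) (by first | assumption | linarith) (by first | assumption | linarith)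
      (by first | assumption | linarith) (by first | assumption | linarith)
  rcases le_or_gt (1 - u) ((2 / 5 : ℝ) * (b - a)) with h4 | h4
  · exact atL3 hb hF hH hB hk (by first | assumption | linarith) (by first | assumption | linarith) (by first | assumption | linarith) (by first | assumption | linarith)
      (by first | assumption | linarith) (by first | assumption | linarith)
  rcases le_or_gt (1 - u) ((12 / 25 : ℝ) * (b - a)) with h5 | h5
  · exact atL4 hb hF hH hB hk (by first | assumption | linarith) (by first | assumption | linarith) (by first | assumption | linarith) (by first | assumption | linarith)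
      (by first | assumption | linarith) (by first | assumption | linarith)
  rcases le_or_gt (1 - u) ((14 / 25 : ℝ) * (b - a)) with h6 | h6
  · exact atL5 hb hF hH hB hk (by first | assumption | linarith) (by first | assumption | linarith) (by first | assumption | linarith) (by first | assumption | linarith)
      (by first | assumption | linarith) (by first | assumption | linarith)
  rcases le_or_gt (1 - u) ((33 / 50 : ℝ) * (b - a)) with h7 | h7
  · exact atL6 hb hF hH hB hk (by first | assumption | linarith) (by first | assumption | linarith) (by first | assumption | linarith) (by first | assumption | linarith)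
      (by first | assumption | linarith) (by first | assumption | linarith)
  exact atL7 hb hF hH hB hk (by first | assumption | linarith) (by first | assumption | linarith) (by first | assumption | linarith) (by first | assumption | linarith)
    (by first | assumption | linarith) (by first | assumption | linarith)

theorem sevRow6_13 {n : ℕ} {a b u v t H : ℝ} (hb : Closed.All.ChartBox n (b - a) (a + b))
    (hF : Closed.All.ChartFacts (b - a) (a + b) u v t)
    (hH : Closed.chH (b - a) (a + b) u v t = H) (hB : EndBands7 a b u v H) (hk : DHigh a b)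
    (hI0 : 1 / 20 < allStabI a b) (hw5 : 1 - u ≤ 1 / 5) (hId : allStabI a b ≤ b - a)
    (hwd : 1 - u ≤ b - a) (hd0 : (1 / 5 : ℝ) < b - a)
    (hd1 : b - a ≤ (11 / 50 : ℝ))
    (h0 : allStabI a b > ((8 / 25 : ℝ) * (b - a))) : Closed.Strip.ChartSigns (b - a) (a + b) u v t := by
  obtain ⟨hI, hd, hw, eS, hcap⟩ := end_facts7 hB
  rcases le_or_gt (1 - u) ((3 / 200 : ℝ) * (b - a)) with h1 | h1
  · exact atM0 hb hF hH hB hk (by first | assumption | linarith) (by first | assumption | linarith) (by first | assumption | linarith) (by first | assumption | linarith)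
      (by first | assumption | linarith) (by first | assumption | linarith)
  rcases le_or_gt (1 - u) ((3 / 40 : ℝ) * (b - a)) with h2 | h2
  · exact atM1 hb hF hH hB hk (by first | assumption | linarith) (by first | assumption | linarith) (by first | assumption | linarith) (by first | assumption | linarith)
      (by first | assumption | linarith) (by first | assumption | linarith)
  rcases le_or_gt (1 - u) ((11 / 50 : ℝ) * (b - a)) with h3 | h3
  · exact atM2 hb hF hH hB hk (by first | assumption | linarith) (by first | assumption | linarith) (by first | assumption | linarith) (by first | assumption | linarith)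
      (by first | assumption | linarith) (by first | assumption | linarith)
  rcases le_or_gt (1 - u) ((17 / 50 : ℝ) * (b - a)) with h4 | h4
  · exact atM3 hb hF hH hB hk (by first | assumption | linarith) (by first | assumption | linarith) (by first | assumption | linarith) (by first | assumption | linarith)
      (by first | assumption | linarith) (by first | assumption | linarith)
  rcases le_or_gt (1 - u) ((2 / 5 : ℝ) * (b - a)) with h5 | h5
  · exact atM4 hb hF hH hB hk (by first | assumption | linarith) (by first | assumption | linarith) (by first | assumption | linarith) (by first | assumption | linarith)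
      (by first | assumption | linarith) (by first | assumption | linarith)
  rcases le_or_gt (1 - u) ((12 / 25 : ℝ) * (b - a)) with h6 | h6
  · exact atM5 hb hF hH hB hk (by first | assumption | linarith) (by first | assumption | linarith) (by first | assumption | linarith) (by first | assumption | linarith)
      (by first | assumption | linarith) (by first | assumption | linarith)
  rcases le_or_gt (1 - u) ((14 / 25 : ℝ) * (b - a)) with h7 | h7
  · exact atM6 hb hF hH hB hk (by first | assumption | linarith) (by first | assumption | linarith) (by first | assumption | linarith) (by first | assumption | linarith)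
      (by first | assumption | linarith) (by first | assumption | linarith)
  rcases le_or_gt (1 - u) ((33 / 50 : ℝ) * (b - a)) with h8 | h8
  · exact atM7 hb hF hH hB hk (by first | assumption | linarith) (by first | assumption | linarith) (by first | assumption | linarith) (by first | assumption | linarith)
      (by first | assumption | linarith) (by first | assumption | linarith)
  exact atM8 hb hF hH hB hk (by first | assumption | linarith) (by first | assumption | linarith) (by first | assumption | linarith) (by first | assumption | linarith)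
    (by first | assumption | linarith) (by first | assumption | linarith)

theorem sevRow6 {n : ℕ} {a b u v t H : ℝ} (hb : Closed.All.ChartBox n (b - a) (a + b))
    (hF : Closed.All.ChartFacts (b - a) (a + b) u v t)
    (hH : Closed.chH (b - a) (a + b) u v t = H) (hB : EndBands7 a b u v H) (hk : DHigh a b)
    (hI0 : 1 / 20 < allStabI a b) (hw5 : 1 - u ≤ 1 / 5) (hId : allStabI a b ≤ b - a)
    (hwd : 1 - u ≤ b - a) (hd0 : (1 / 5 : ℝ) < b - a)
    (hd1 : b - a ≤ (11 / 50 : ℝ)) : Closed.Strip.ChartSigns (b - a) (a + b) u v t := by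
  obtain ⟨hI, hd, hw, eS, hcap⟩ := end_facts7 hB
  rcases le_or_gt (allStabI a b) ((8 / 25 : ℝ) * (b - a)) with h0 | h0
  · exact sevRow6_12 hb hF hH hB hk hI0 hw5 hId hwd hd0 hd1 h0
  exact sevRow6_13 hb hF hH hB hk hI0 hw5 hId hwd hd0 hd1 h0

theorem sevRow7_14 {n : ℕ} {a b u v t H : ℝ} (hb : Closed.All.ChartBox n (b - a) (a + b))
    (hF : Closed.All.ChartFacts (b - a) (a + b) u v t)
    (hH : Closed.chH (b - a) (a + b) u v t = H) (hB : EndBands7 a b u v H) (hk : DHigh a b)
    (hI0 : 1 / 20 < allStabI a b) (hw5 : 1 - u ≤ 1 / 5) (hId : allStabI a b ≤ b - a)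
    (hwd : 1 - u ≤ b - a) (hd0 : (11 / 50 : ℝ) < b - a)
    (hd1 : b - a ≤ (23 / 100 : ℝ))
    (h0 : allStabI a b ≤ ((8 / 25 : ℝ) * (b - a))) : Closed.Strip.ChartSigns (b - a) (a + b) u v t := by
  obtain ⟨hI, hd, hw, eS, hcap⟩ := end_facts7 hB
  rcases le_or_gt (1 - u) ((3 / 100 : ℝ) * (b - a)) with h1 | h1
  · exact atL0 hb hF hH hB hk (by first | assumption | linarith) (by first | assumption | linarith) (by first | assumption | linarith) (by first | assumption | linarith)
      (by first | assumption | linarith) (by first | assumption | linarith)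
  rcases le_or_gt (1 - u) ((13 / 100 : ℝ) * (b - a)) with h2 | h2
  · exact atL1 hb hF hH hB hk (by first | assumption | linarith) (by first | assumption | linarith) (by first | assumption | linarith) (by first | assumption | linarith)
      (by first | assumption | linarith) (by first | assumption | linarith)
  rcases le_or_gt (1 - u) ((17 / 50 : ℝ) * (b - a)) with h3 | h3
  · exact atL2 hb hF hH hB hk (by first | assumption | linarith) (by first | assumption | linarith) (by first | assumption | linarith) (by first | assumption | linarith)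
      (by first | assumption | linarith) (by first | assumption | linarith)
  rcases le_or_gt (1 - u) ((2 / 5 : ℝ) * (b - a)) with h4 | h4
  · exact atL3 hb hF hH hB hk (by first | assumption | linarith) (by first | assumption | linarith) (by first | assumption | linarith) (by first | assumption | linarith)
      (by first | assumption | linarith) (by first | assumption | linarith)
  rcases le_or_gt (1 - u) ((12 / 25 : ℝ) * (b - a)) with h5 | h5
  · exact atL4 hb hF hH hB hk (by first | assumption | linarith) (by first | assumption | linarith) (by first | assumption | linarith) (by first | assumption | linarith)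
      (by first | assumption | linarith) (by first | assumption | linarith)
  rcases le_or_gt (1 - u) ((14 / 25 : ℝ) * (b - a)) with h6 | h6
  · exact atL5 hb hF hH hB hk (by first | assumption | linarith) (by first | assumption | linarith) (by first | assumption | linarith) (by first | assumption | linarith)
      (by first | assumption | linarith) (by first | assumption | linarith)
  rcases le_or_gt (1 - u) ((33 / 50 : ℝ) * (b - a)) with h7 | h7
  · exact atL6 hb hF hH hB hk (by first | assumption | linarith) (by first | assumption | linarith) (by first | assumption | linarith) (by first | assumption | linarith)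
      (by first | assumption | linarith) (by first | assumption | linarith)
  exact atL7 hb hF hH hB hk (by first | assumption | linarith) (by first | assumption | linarith) (by first | assumption | linarith) (by first | assumption | linarith)
    (by first | assumption | linarith) (by first | assumption | linarith)

theorem sevRow7_15 {n : ℕ} {a b u v t H : ℝ} (hb : Closed.All.ChartBox n (b - a) (a + b))
    (hF : Closed.All.ChartFacts (b - a) (a + b) u v t)
    (hH : Closed.chH (b - a) (a + b) u v t = H) (hB : EndBands7 a b u v H) (hk : DHigh a b)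
    (hI0 : 1 / 20 < allStabI a b) (hw5 : 1 - u ≤ 1 / 5) (hId : allStabI a b ≤ b - a)
    (hwd : 1 - u ≤ b - a) (hd0 : (11 / 50 : ℝ) < b - a)
    (hd1 : b - a ≤ (23 / 100 : ℝ))
    (h0 : allStabI a b > ((8 / 25 : ℝ) * (b - a))) : Closed.Strip.ChartSigns (b - a) (a + b) u v t := by
  obtain ⟨hI, hd, hw, eS, hcap⟩ := end_facts7 hB
  rcases le_or_gt (1 - u) ((3 / 500 : ℝ) * (b - a)) with h1 | h1
  · exact atN0 hb hF hH hB hk (by first | assumption | linarith) (by first | assumption | linarith) (by first | assumption | linarith) (by first | assumption | linarith)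
      (by first | assumption | linarith) (by first | assumption | linarith)
  rcases le_or_gt (1 - u) ((11 / 200 : ℝ) * (b - a)) with h2 | h2
  · exact atN1 hb hF hH hB hk (by first | assumption | linarith) (by first | assumption | linarith) (by first | assumption | linarith) (by first | assumption | linarith)
      (by first | assumption | linarith) (by first | assumption | linarith)
  rcases le_or_gt (1 - u) ((11 / 50 : ℝ) * (b - a)) with h3 | h3
  · exact atN2 hb hF hH hB hk (by first | assumption | linarith) (by first | assumption | linarith) (by first | assumption | linarith) (by first | assumption | linarith)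
      (by first | assumption | linarith) (by first | assumption | linarith)
  rcases le_or_gt (1 - u) ((17 / 50 : ℝ) * (b - a)) with h4 | h4
  · exact atN3 hb hF hH hB hk (by first | assumption | linarith) (by first | assumption | linarith) (by first | assumption | linarith) (by first | assumption | linarith)
      (by first | assumption | linarith) (by first | assumption | linarith)
  rcases le_or_gt (1 - u) ((2 / 5 : ℝ) * (b - a)) with h5 | h5
  · exact atN4 hb hF hH hB hk (by first | assumption | linarith) (by first | assumption | linarith) (by first | assumption | linarith) (by first | assumption | linarith)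
      (by first | assumption | linarith) (by first | assumption | linarith)
  rcases le_or_gt (1 - u) ((12 / 25 : ℝ) * (b - a)) with h6 | h6
  · exact atN5 hb hF hH hB hk (by first | assumption | linarith) (by first | assumption | linarith) (by first | assumption | linarith) (by first | assumption | linarith)
      (by first | assumption | linarith) (by first | assumption | linarith)
  rcases le_or_gt (1 - u) ((33 / 50 : ℝ) * (b - a)) with h7 | h7
  · exact atN6 hb hF hH hB hk (by first | assumption | linarith) (by first | assumption | linarith) (by first | assumption | linarith) (by first | assumption | linarith)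
      (by first | assumption | linarith) (by first | assumption | linarith)
  exact atN7 hb hF hH hB hk (by first | assumption | linarith) (by first | assumption | linarith) (by first | assumption | linarith) (by first | assumption | linarith)
    (by first | assumption | linarith) (by first | assumption | linarith)

theorem sevRow7 {n : ℕ} {a b u v t H : ℝ} (hb : Closed.All.ChartBox n (b - a) (a + b))
    (hF : Closed.All.ChartFacts (b - a) (a + b) u v t)
    (hH : Closed.chH (b - a) (a + b) u v t = H) (hB : EndBands7 a b u v H) (hk : DHigh a b)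
    (hI0 : 1 / 20 < allStabI a b) (hw5 : 1 - u ≤ 1 / 5) (hId : allStabI a b ≤ b - a)
    (hwd : 1 - u ≤ b - a) (hd0 : (11 / 50 : ℝ) < b - a)
    (hd1 : b - a ≤ (23 / 100 : ℝ)) : Closed.Strip.ChartSigns (b - a) (a + b) u v t := by
  obtain ⟨hI, hd, hw, eS, hcap⟩ := end_facts7 hB
  rcases le_or_gt (allStabI a b) ((8 / 25 : ℝ) * (b - a)) with h0 | h0
  · exact sevRow7_14 hb hF hH hB hk hI0 hw5 hId hwd hd0 hd1 h0
  exact sevRow7_15 hb hF hH hB hk hI0 hw5 hId hwd hd0 hd1 h0

theorem sevRow8_16 {n : ℕ} {a b u v t H : ℝ} (hb : Closed.All.ChartBox n (b - a) (a + b))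
    (hF : Closed.All.ChartFacts (b - a) (a + b) u v t)
    (hH : Closed.chH (b - a) (a + b) u v t = H) (hB : EndBands7 a b u v H) (hk : DHigh a b)
    (hI0 : 1 / 20 < allStabI a b) (hw5 : 1 - u ≤ 1 / 5) (hId : allStabI a b ≤ b - a)
    (hwd : 1 - u ≤ b - a) (hd0 : (23 / 100 : ℝ) < b - a)
    (hd1 : b - a ≤ (6 / 25 : ℝ))
    (h0 : allStabI a b ≤ ((8 / 25 : ℝ) * (b - a))) : Closed.Strip.ChartSigns (b - a) (a + b) u v t := by
  obtain ⟨hI, hd, hw, eS, hcap⟩ := end_facts7 hB
  rcases le_or_gt (1 - u) ((3 / 100 : ℝ) * (b - a)) with h1 | h1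
  · exact atL0 hb hF hH hB hk (by first | assumption | linarith) (by first | assumption | linarith) (by first | assumption | linarith) (by first | assumption | linarith)
      (by first | assumption | linarith) (by first | assumption | linarith)
  rcases le_or_gt (1 - u) ((13 / 100 : ℝ) * (b - a)) with h2 | h2
  · exact atL1 hb hF hH hB hk (by first | assumption | linarith) (by first | assumption | linarith) (by first | assumption | linarith) (by first | assumption | linarith)
      (by first | assumption | linarith) (by first | assumption | linarith)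
  rcases le_or_gt (1 - u) ((17 / 50 : ℝ) * (b - a)) with h3 | h3
  · exact atL2 hb hF hH hB hk (by first | assumption | linarith) (by first | assumption | linarith) (by first | assumption | linarith) (by first | assumption | linarith)
      (by first | assumption | linarith) (by first | assumption | linarith)
  rcases le_or_gt (1 - u) ((2 / 5 : ℝ) * (b - a)) with h4 | h4
  · exact atL3 hb hF hH hB hk (by first | assumption | linarith) (by first | assumption | linarith) (by first | assumption | linarith) (by first | assumption | linarith)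
      (by first | assumption | linarith) (by first | assumption | linarith)
  rcases le_or_gt (1 - u) ((12 / 25 : ℝ) * (b - a)) with h5 | h5
  · exact atL4 hb hF hH hB hk (by first | assumption | linarith) (by first | assumption | linarith) (by first | assumption | linarith) (by first | assumption | linarith)
      (by first | assumption | linarith) (by first | assumption | linarith)
  rcases le_or_gt (1 - u) ((14 / 25 : ℝ) * (b - a)) with h6 | h6
  · exact atL5 hb hF hH hB hk (by first | assumption | linarith) (by first | assumption | linarith) (by first | assumption | linarith) (by first | assumption | linarith)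
      (by first | assumption | linarith) (by first | assumption | linarith)
  rcases le_or_gt (1 - u) ((33 / 50 : ℝ) * (b - a)) with h7 | h7
  · exact atL6 hb hF hH hB hk (by first | assumption | linarith) (by first | assumption | linarith) (by first | assumption | linarith) (by first | assumption | linarith)
      (by first | assumption | linarith) (by first | assumption | linarith)
  exact atL7 hb hF hH hB hk (by first | assumption | linarith) (by first | assumption | linarith) (by first | assumption | linarith) (by first | assumption | linarith)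
    (by first | assumption | linarith) (by first | assumption | linarith)

theorem sevRow8_17 {n : ℕ} {a b u v t H : ℝ} (hb : Closed.All.ChartBox n (b - a) (a + b))
    (hF : Closed.All.ChartFacts (b - a) (a + b) u v t)
    (hH : Closed.chH (b - a) (a + b) u v t = H) (hB : EndBands7 a b u v H) (hk : DHigh a b)
    (hI0 : 1 / 20 < allStabI a b) (hw5 : 1 - u ≤ 1 / 5) (hId : allStabI a b ≤ b - a)
    (hwd : 1 - u ≤ b - a) (hd0 : (23 / 100 : ℝ) < b - a)
    (hd1 : b - a ≤ (6 / 25 : ℝ))
    (h0 : allStabI a b > ((8 / 25 : ℝ) * (b - a))) : Closed.Strip.ChartSigns (b - a) (a + b) u v t := by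
  obtain ⟨hI, hd, hw, eS, hcap⟩ := end_facts7 hB
  rcases le_or_gt (1 - u) ((3 / 500 : ℝ) * (b - a)) with h1 | h1
  · exact atN0 hb hF hH hB hk (by first | assumption | linarith) (by first | assumption | linarith) (by first | assumption | linarith) (by first | assumption | linarith)
      (by first | assumption | linarith) (by first | assumption | linarith)
  rcases le_or_gt (1 - u) ((11 / 200 : ℝ) * (b - a)) with h2 | h2
  · exact atN1 hb hF hH hB hk (by first | assumption | linarith) (by first | assumption | linarith) (by first | assumption | linarith) (by first | assumption | linarith)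
      (by first | assumption | linarith) (by first | assumption | linarith)
  rcases le_or_gt (1 - u) ((11 / 50 : ℝ) * (b - a)) with h3 | h3
  · exact atN2 hb hF hH hB hk (by first | assumption | linarith) (by first | assumption | linarith) (by first | assumption | linarith) (by first | assumption | linarith)
      (by first | assumption | linarith) (by first | assumption | linarith)
  rcases le_or_gt (1 - u) ((17 / 50 : ℝ) * (b - a)) with h4 | h4
  · exact atN3 hb hF hH hB hk (by first | assumption | linarith) (by first | assumption | linarith) (by first | assumption | linarith) (by first | assumption | linarith)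
      (by first | assumption | linarith) (by first | assumption | linarith)
  rcases le_or_gt (1 - u) ((2 / 5 : ℝ) * (b - a)) with h5 | h5
  · exact atN4 hb hF hH hB hk (by first | assumption | linarith) (by first | assumption | linarith) (by first | assumption | linarith) (by first | assumption | linarith)
      (by first | assumption | linarith) (by first | assumption | linarith)
  rcases le_or_gt (1 - u) ((12 / 25 : ℝ) * (b - a)) with h6 | h6
  · exact atR0 hb hF hH hB hk (by first | assumption | linarith) (by first | assumption | linarith) (by first | assumption | linarith) (by first | assumption | linarith)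
      (by first | assumption | linarith) (by first | assumption | linarith)
  rcases le_or_gt (1 - u) ((14 / 25 : ℝ) * (b - a)) with h7 | h7
  · exact atR1 hb hF hH hB hk (by first | assumption | linarith) (by first | assumption | linarith) (by first | assumption | linarith) (by first | assumption | linarith)
      (by first | assumption | linarith) (by first | assumption | linarith)
  exact atR2 hb hF hH hB hk (by first | assumption | linarith) (by first | assumption | linarith) (by first | assumption | linarith) (by first | assumption | linarith)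
    (by first | assumption | linarith) (by first | assumption | linarith)

theorem sevRow8 {n : ℕ} {a b u v t H : ℝ} (hb : Closed.All.ChartBox n (b - a) (a + b))
    (hF : Closed.All.ChartFacts (b - a) (a + b) u v t)
    (hH : Closed.chH (b - a) (a + b) u v t = H) (hB : EndBands7 a b u v H) (hk : DHigh a b)
    (hI0 : 1 / 20 < allStabI a b) (hw5 : 1 - u ≤ 1 / 5) (hId : allStabI a b ≤ b - a)
    (hwd : 1 - u ≤ b - a) (hd0 : (23 / 100 : ℝ) < b - a)
    (hd1 : b - a ≤ (6 / 25 : ℝ)) : Closed.Strip.ChartSigns (b - a) (a + b) u v t := by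
  obtain ⟨hI, hd, hw, eS, hcap⟩ := end_facts7 hB
  rcases le_or_gt (allStabI a b) ((8 / 25 : ℝ) * (b - a)) with h0 | h0
  · exact sevRow8_16 hb hF hH hB hk hI0 hw5 hId hwd hd0 hd1 h0
  exact sevRow8_17 hb hF hH hB hk hI0 hw5 hId hwd hd0 hd1 h0

theorem sevRow9 {n : ℕ} {a b u v t H : ℝ} (hb : Closed.All.ChartBox n (b - a) (a + b))
    (hF : Closed.All.ChartFacts (b - a) (a + b) u v t)
    (hH : Closed.chH (b - a) (a + b) u v t = H) (hB : EndBands7 a b u v H) (hk : DHigh a b)
    (hI0 : 1 / 20 < allStabI a b) (hw5 : 1 - u ≤ 1 / 5) (hId : allStabI a b ≤ b - a)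
    (hwd : 1 - u ≤ b - a) (hd0 : (6 / 25 : ℝ) < b - a)
    (hd1 : b - a ≤ (63 / 250 : ℝ)) : Closed.Strip.ChartSigns (b - a) (a + b) u v t := by
  obtain ⟨hI, hd, hw, eS, hcap⟩ := end_facts7 hB
  rcases le_or_gt (1 - u) ((3 / 200 : ℝ) * (b - a)) with h0 | h0
  · exact atP0 hb hF hH hB hk (by first | assumption | linarith) (by first | assumption | linarith) (by first | assumption | linarith) (by first | assumption | linarith)
      (by first | assumption | linarith) (by first | assumption | linarith)
  rcases le_or_gt (1 - u) ((1 / 10 : ℝ) * (b - a)) with h1 | h1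
  · exact atP1 hb hF hH hB hk (by first | assumption | linarith) (by first | assumption | linarith) (by first | assumption | linarith) (by first | assumption | linarith)
      (by first | assumption | linarith) (by first | assumption | linarith)
  rcases le_or_gt (1 - u) ((17 / 50 : ℝ) * (b - a)) with h2 | h2
  · exact atP2 hb hF hH hB hk (by first | assumption | linarith) (by first | assumption | linarith) (by first | assumption | linarith) (by first | assumption | linarith)
      (by first | assumption | linarith) (by first | assumption | linarith)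
  rcases le_or_gt (1 - u) ((2 / 5 : ℝ) * (b - a)) with h3 | h3
  · exact atP3 hb hF hH hB hk (by first | assumption | linarith) (by first | assumption | linarith) (by first | assumption | linarith) (by first | assumption | linarith)
      (by first | assumption | linarith) (by first | assumption | linarith)
  rcases le_or_gt (1 - u) ((12 / 25 : ℝ) * (b - a)) with h4 | h4
  · exact atP4 hb hF hH hB hk (by first | assumption | linarith) (by first | assumption | linarith) (by first | assumption | linarith) (by first | assumption | linarith)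
      (by first | assumption | linarith) (by first | assumption | linarith)
  rcases le_or_gt (1 - u) ((33 / 50 : ℝ) * (b - a)) with h5 | h5
  · exact atP5 hb hF hH hB hk (by first | assumption | linarith) (by first | assumption | linarith) (by first | assumption | linarith) (by first | assumption | linarith)
      (by first | assumption | linarith) (by first | assumption | linarith)
  exact atP6 hb hF hH hB hk (by first | assumption | linarith) (by first | assumption | linarith) (by first | assumption | linarith) (by first | assumption | linarith)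
    (by first | assumption | linarith) (by first | assumption | linarith)

theorem sevRow10 {n : ℕ} {a b u v t H : ℝ} (hb : Closed.All.ChartBox n (b - a) (a + b))
    (hF : Closed.All.ChartFacts (b - a) (a + b) u v t)
    (hH : Closed.chH (b - a) (a + b) u v t = H) (hB : EndBands7 a b u v H) (hk : DHigh a b)
    (hI0 : 1 / 20 < allStabI a b) (hw5 : 1 - u ≤ 1 / 5) (hId : allStabI a b ≤ b - a)
    (hwd : 1 - u ≤ b - a) (hd0 : (63 / 250 : ℝ) < b - a)
    (hd1 : b - a ≤ (53 / 200 : ℝ)) : Closed.Strip.ChartSigns (b - a) (a + b) u v t := by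
  obtain ⟨hI, hd, hw, eS, hcap⟩ := end_facts7 hB
  rcases le_or_gt (1 - u) ((3 / 200 : ℝ) * (b - a)) with h0 | h0
  · exact atS0 hb hF hH hB hk (by first | assumption | linarith) (by first | assumption | linarith) (by first | assumption | linarith) (by first | assumption | linarith)
      (by first | assumption | linarith) (by first | assumption | linarith)
  rcases le_or_gt (1 - u) ((1 / 10 : ℝ) * (b - a)) with h1 | h1
  · exact atS1 hb hF hH hB hk (by first | assumption | linarith) (by first | assumption | linarith) (by first | assumption | linarith) (by first | assumption | linarith)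
      (by first | assumption | linarith) (by first | assumption | linarith)
  rcases le_or_gt (1 - u) ((17 / 50 : ℝ) * (b - a)) with h2 | h2
  · exact atS2 hb hF hH hB hk (by first | assumption | linarith) (by first | assumption | linarith) (by first | assumption | linarith) (by first | assumption | linarith)
      (by first | assumption | linarith) (by first | assumption | linarith)
  rcases le_or_gt (1 - u) ((12 / 25 : ℝ) * (b - a)) with h3 | h3
  · exact atS3 hb hF hH hB hk (by first | assumption | linarith) (by first | assumption | linarith) (by first | assumption | linarith) (by first | assumption | linarith)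
      (by first | assumption | linarith) (by first | assumption | linarith)
  rcases le_or_gt (1 - u) ((33 / 50 : ℝ) * (b - a)) with h4 | h4
  · exact atS4 hb hF hH hB hk (by first | assumption | linarith) (by first | assumption | linarith) (by first | assumption | linarith) (by first | assumption | linarith)
      (by first | assumption | linarith) (by first | assumption | linarith)
  exact atS5 hb hF hH hB hk (by first | assumption | linarith) (by first | assumption | linarith) (by first | assumption | linarith) (by first | assumption | linarith)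
    (by first | assumption | linarith) (by first | assumption | linarith)

theorem sevRow11 {n : ℕ} {a b u v t H : ℝ} (hb : Closed.All.ChartBox n (b - a) (a + b))
    (hF : Closed.All.ChartFacts (b - a) (a + b) u v t)
    (hH : Closed.chH (b - a) (a + b) u v t = H) (hB : EndBands7 a b u v H) (hk : DHigh a b)
    (hI0 : 1 / 20 < allStabI a b) (hw5 : 1 - u ≤ 1 / 5) (hId : allStabI a b ≤ b - a)
    (hwd : 1 - u ≤ b - a) (hd0 : (53 / 200 : ℝ) < b - a)
    (hd1 : b - a ≤ (7 / 25 : ℝ)) : Closed.Strip.ChartSigns (b - a) (a + b) u v t := by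
  obtain ⟨hI, hd, hw, eS, hcap⟩ := end_facts7 hB
  rcases le_or_gt (1 - u) ((3 / 500 : ℝ) * (b - a)) with h0 | h0
  · exact atT0 hb hF hH hB hk (by first | assumption | linarith) (by first | assumption | linarith) (by first | assumption | linarith) (by first | assumption | linarith)
      (by first | assumption | linarith) (by first | assumption | linarith)
  rcases le_or_gt (1 - u) ((11 / 200 : ℝ) * (b - a)) with h1 | h1
  · exact atT1 hb hF hH hB hk (by first | assumption | linarith) (by first | assumption | linarith) (by first | assumption | linarith) (by first | assumption | linarith)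
      (by first | assumption | linarith) (by first | assumption | linarith)
  rcases le_or_gt (1 - u) ((11 / 50 : ℝ) * (b - a)) with h2 | h2
  · exact atT2 hb hF hH hB hk (by first | assumption | linarith) (by first | assumption | linarith) (by first | assumption | linarith) (by first | assumption | linarith)
      (by first | assumption | linarith) (by first | assumption | linarith)
  rcases le_or_gt (1 - u) ((2 / 5 : ℝ) * (b - a)) with h3 | h3
  · exact atT3 hb hF hH hB hk (by first | assumption | linarith) (by first | assumption | linarith) (by first | assumption | linarith) (by first | assumption | linarith)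
      (by first | assumption | linarith) (by first | assumption | linarith)
  rcases le_or_gt (1 - u) ((14 / 25 : ℝ) * (b - a)) with h4 | h4
  · exact atT4 hb hF hH hB hk (by first | assumption | linarith) (by first | assumption | linarith) (by first | assumption | linarith) (by first | assumption | linarith)
      (by first | assumption | linarith) (by first | assumption | linarith)
  exact atT5 hb hF hH hB hk (by first | assumption | linarith) (by first | assumption | linarith) (by first | assumption | linarith) (by first | assumption | linarith)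
    (by first | assumption | linarith) (by first | assumption | linarith)

/-- The signs over the bins, for `I` and `1 - u` at most `d`. -/
theorem sevBins_signs {n : ℕ} {a b u v t H : ℝ} (hb : Closed.All.ChartBox n (b - a) (a + b))
    (hF : Closed.All.ChartFacts (b - a) (a + b) u v t)
    (hH : Closed.chH (b - a) (a + b) u v t = H) (hB : EndBands7 a b u v H) (hk : DHigh a b)
    (hI0 : 1 / 20 < allStabI a b) (hw5 : 1 - u ≤ 1 / 5) (hId : allStabI a b ≤ b - a)
    (hwd : 1 - u ≤ b - a) : Closed.Strip.ChartSigns (b - a) (a + b) u v t := by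
  rcases le_or_gt (b - a) (9 / 100 : ℝ) with g0 | g0
  · exact sevRow0 hb hF hH hB hk hI0 hw5 hId hwd (by linarith) g0
  rcases le_or_gt (b - a) (13 / 100 : ℝ) with g1 | g1
  · exact sevRow1 hb hF hH hB hk hI0 hw5 hId hwd g0 g1
  rcases le_or_gt (b - a) (31 / 200 : ℝ) with g2 | g2
  · exact sevRow2 hb hF hH hB hk hI0 hw5 hId hwd g1 g2
  rcases le_or_gt (b - a) (17 / 100 : ℝ) with g3 | g3
  · exact sevRow3 hb hF hH hB hk hI0 hw5 hId hwd g2 g3
  rcases le_or_gt (b - a) (37 / 200 : ℝ) with g4 | g4
  · exact sevRow4 hb hF hH hB hk hI0 hw5 hId hwd g3 g4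
  rcases le_or_gt (b - a) (1 / 5 : ℝ) with g5 | g5
  · exact sevRow5 hb hF hH hB hk hI0 hw5 hId hwd g4 g5
  rcases le_or_gt (b - a) (11 / 50 : ℝ) with g6 | g6
  · exact sevRow6 hb hF hH hB hk hI0 hw5 hId hwd g5 g6
  rcases le_or_gt (b - a) (23 / 100 : ℝ) with g7 | g7
  · exact sevRow7 hb hF hH hB hk hI0 hw5 hId hwd g6 g7
  rcases le_or_gt (b - a) (6 / 25 : ℝ) with g8 | g8
  · exact sevRow8 hb hF hH hB hk hI0 hw5 hId hwd g7 g8
  rcases le_or_gt (b - a) (63 / 250 : ℝ) with g9 | g9
  · exact sevRow9 hb hF hH hB hk hI0 hw5 hId hwd g8 g9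
  rcases le_or_gt (b - a) (53 / 200 : ℝ) with g10 | g10
  · exact sevRow10 hb hF hH hB hk hI0 hw5 hId hwd g9 g10
  exact sevRow11 hb hF hH hB hk hI0 hw5 hId hwd g10 (by linarith [(end_facts7 hB).2.2.2.2])

/-- **The `D` charts from seven to twenty.** -/
theorem certsD7 {n : ℕ} : CertsD7 n := by
  constructor
  all_goals
    intro a b u v t H x hb hF hH hB hI0 hI1 hu _ hx hk
    obtain ⟨⟨h0, h1, h2, -, -⟩, hg, -⟩ := hx
    obtain ⟨hI, hd, hw, -, -⟩ := end_facts7 hB
    obtain ⟨-, l0, u0⟩ := h0
    obtain ⟨-, l1, u1⟩ := h1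
    obtain ⟨-, l2, u2⟩ := h2
    have eI := hg.hI
    have ed := hg.hd
    have ew := hg.hw
    simp only [sevDa, sevDb, sevDc, sevDd, sevDe, sevDf, sevDg, sevDh, sevDi, sevDj, sevDk, sevDl,
      EndChart.geo, end_mul, Ex.eval] at eI ed ew l0 u0 l1 u1 l2 u2
    norm_num at l0 u0 l1 u1 l2 u2
    refine sevBins_signs hb hF hH hB hk hI0 (by linarith) ?_ ?_
    · first
        | linarith
        | (rw [← eI, ← ed]; exact mul_le_of_le_one_right (by linarith) (by linarith))
    · rw [← ew, ← ed]; exact mul_le_of_le_one_right (by linarith) (by linarith)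

end Vale.Agent.P100.Calib.StripEndD
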