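import Vale.Agent.P100.Calib.SlabStripEndPointC
import Vale.Agent.P100.Calib.SlabStripEndWinCheckC
import Vale.Agent.P100.Calib.SlabStripEndCheckC00
import Vale.Agent.P100.Calib.SlabStripEndCheckC01
import Vale.Agent.P100.Calib.SlabStripEndCheckC02
import Vale.Agent.P100.Calib.SlabStripEndCheckC03
import Vale.Agent.P100.Calib.SlabStripEndCheckC04
import Vale.Agent.P100.Calib.SlabStripEndCheckC05
import Vale.Agent.P100.Calib.SlabStripEndCheckC06
import Vale.Agent.P100.Calib.SlabStripEndCheckC07
import Vale.Agent.P100.Calib.SlabStripEndCheckC08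
import Vale.Agent.P100.Calib.SlabStripEndCheckC09
import Vale.Agent.P100.Calib.SlabStripEndCheckC10
import Vale.Agent.P100.Calib.SlabStripEndCheckC11
import Vale.Agent.P100.Calib.SlabStripEndCheckC12
import Vale.Agent.P100.Calib.SlabStripEndCheckC13
import Vale.Agent.P100.Calib.SlabStripEndCheckC14
import Vale.Agent.P100.Calib.SlabStripEndCheckC15
import Vale.Agent.P100.Calib.SlabStripEndCheckC16

/-!
# The signs of the strip over the charts `CA` and `CB` for `N` at least twenty
-/

set_option linter.unusedVariables false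
set_option linter.unusedSimpArgs false

namespace Vale.Agent.P100.Calib.StripEnd

open Pack hiding ev_add ev_mul
open Pack.Ex Band StripMid

local instance sigCAdd : Add Ex := ⟨Ex.add⟩
local instance sigCSub : Sub Ex := ⟨Ex.sub⟩
local instance sigCMul : Mul Ex := ⟨Ex.mul⟩

variable {n : ℕ} {a b u v t H g m : ℝ}

theorem si_le (h : CPt n a b u v t H g m) : allStabI a b ≤ 53 / 50 * (b - a) := by
  have h1 := h.side
  rw [DHigh, h.eS] at h1
  nlinarith [mul_le_mul_of_nonneg_left h.hI' h.hI.le, mul_le_mul_of_nonneg_left h.hI' h.hd.le, h.hI,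
    h.hd, h.hI']

/-- The signs over the tile `C00`. -/
theorem tileC00 (h : CPt n a b u v t H g m) (hg0 : (47 / 100) ≤ g) (hg1 : g < (3 / 5))
    (hd0 : 0 < b - a) (hd1 : b - a ≤ (1 / 12)) (hr : b - a ≤ (3 / 5) * (1 - u))
    (hW : 1 - u ≤ (1 / 5)) (hm0 : 149 / 100 ≤ m) (hm1 : m ≤ 228 / 100)
    (hy : (1 - u + allStabI a b + (b - a) / 2) / g - 86 * ((b - a) / 24) - 40 * (allStabI a b / 24) ≤
      (213 / 1250)) :
    Closed.Strip.ChartSigns (b - a) (a + b) u v t := by
  have hI := h.hI
  have hI' := h.hI'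
  have hd := h.hd
  have hg := h.hg
  have hw := h.hw
  have hsi := si_le h
  refine signs_piece (P := pcC00) (B := bxC00) (cn := 86) (c2 := 40) ⟨?_, ?_, ?_, ?_, ?_, ?_, ?_⟩
    pcC00_ok.pos (fun x hB hc => ⟨pcC00_ok.place hB, pcC00_ok.all hB hc⟩) h
    (by norm_num [pcC00]; linarith) (by norm_num [pcC00]; linarith) ?_ ?_ ?_ ?_
  iterate 7 (intro x; simp [pcC00, Ex.eval]; try ring)
  · exact ⟨by norm_num [bxC00], by norm_num [bxC00]; linarith, by norm_num [bxC00]; linarith⟩
  · refine ⟨by norm_num [bxC00], ?_, ?_⟩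
    · norm_num [bxC00]; exact div_pos hI hd
    · norm_num [bxC00]; rw [div_le_iff₀ hd]; linarith
  · refine ⟨by norm_num [bxC00], ?_, ?_⟩
    · have := den_pos (I := allStabI a b) (d := b - a) (w := 1 - u) (g := g) (cn := 86) (c2 := 40)
        hg hI (by nlinarith) (by linarith)
      norm_num [bxC00]; norm_num at this; linarith
    · norm_num [bxC00]; norm_num at hy; linarith
  · exact ⟨by norm_num [bxC00], by norm_num [bxC00]; linarith, by norm_num [bxC00]; linarith⟩

/-- The signs over the tile `C01`. -/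
theorem tileC01 (h : CPt n a b u v t H g m) (hg0 : (47 / 100) ≤ g) (hg1 : g < (3 / 5))
    (hd0 : 0 < b - a) (hd1 : b - a ≤ (1 / 12)) (hr : b - a ≤ (3 / 5) * (1 - u))
    (hW : 1 - u ≤ (1 / 5)) (hm0 : 149 / 100 ≤ m) (hm1 : m ≤ 228 / 100)
    (hy : (213 / 1250) < (1 - u + allStabI a b + (b - a) / 2) / g - 86 * ((b - a) / 24) -
      40 * (allStabI a b / 24)) :
    Closed.Strip.ChartSigns (b - a) (a + b) u v t := by
  have hI := h.hI
  have hI' := h.hI'
  have hd := h.hd
  have hg := h.hg
  have hw := h.hw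
  have hsi := si_le h
  refine signs_piece (P := pcC01) (B := bxC01) (cn := 86) (c2 := 40) ⟨?_, ?_, ?_, ?_, ?_, ?_, ?_⟩
    pcC01_ok.pos (fun x hB hc => ⟨pcC01_ok.place hB, pcC01_ok.all hB hc⟩) h
    (by norm_num [pcC01]; linarith) (by norm_num [pcC01]; linarith) ?_ ?_ ?_ ?_
  iterate 7 (intro x; simp [pcC01, Ex.eval]; try ring)
  · exact ⟨by norm_num [bxC01], by norm_num [bxC01]; linarith, by norm_num [bxC01]; linarith⟩
  · refine ⟨by norm_num [bxC01], ?_, ?_⟩
    · norm_num [bxC01]; exact div_pos hI hd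
    · norm_num [bxC01]; rw [div_le_iff₀ hd]; linarith
  · refine ⟨by norm_num [bxC01], ?_, ?_⟩
    · norm_num [bxC01]; norm_num at hy; linarith
    · have := den_le (I := allStabI a b) (d := b - a) (w := 1 - u) (g := g) (cn := 86) (c2 := 40)
        (g₀ := (47 / 100)) (W := (1 / 5)) (by norm_num) hI hd hw hW hg0
      norm_num [bxC01]; norm_num at this; linarith
  · exact ⟨by norm_num [bxC01], by norm_num [bxC01]; linarith, by norm_num [bxC01]; linarith⟩

/-- The signs over the tile `C02`. -/
theorem tileC02 (h : CPt n a b u v t H g m) (hg0 : (3 / 5) ≤ g) (hg1 : g < (3 / 4))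
    (hd0 : 0 < b - a) (hd1 : b - a ≤ (1 / 12)) (hr : b - a ≤ (3 / 5) * (1 - u))
    (hW : 1 - u ≤ (1 / 5)) (hm0 : 149 / 100 ≤ m) (hm1 : m ≤ 228 / 100) :
    Closed.Strip.ChartSigns (b - a) (a + b) u v t := by
  have hI := h.hI
  have hI' := h.hI'
  have hd := h.hd
  have hg := h.hg
  have hw := h.hw
  have hsi := si_le h
  refine signs_piece (P := pcC02) (B := bxC02) (cn := 69) (c2 := 32) ⟨?_, ?_, ?_, ?_, ?_, ?_, ?_⟩
    pcC02_ok.pos (fun x hB hc => ⟨pcC02_ok.place hB, pcC02_ok.all hB hc⟩) h
    (by norm_num [pcC02]; linarith) (by norm_num [pcC02]; linarith) ?_ ?_ ?_ ?_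
  iterate 7 (intro x; simp [pcC02, Ex.eval]; try ring)
  · exact ⟨by norm_num [bxC02], by norm_num [bxC02]; linarith, by norm_num [bxC02]; linarith⟩
  · refine ⟨by norm_num [bxC02], ?_, ?_⟩
    · norm_num [bxC02]; exact div_pos hI hd
    · norm_num [bxC02]; rw [div_le_iff₀ hd]; linarith
  · refine ⟨by norm_num [bxC02], ?_, ?_⟩
    · have := den_pos (I := allStabI a b) (d := b - a) (w := 1 - u) (g := g) (cn := 69) (c2 := 32)
        hg hI (by nlinarith) (by linarith)
      norm_num [bxC02]; norm_num at this; linarith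
    · have := den_le (I := allStabI a b) (d := b - a) (w := 1 - u) (g := g) (cn := 69) (c2 := 32)
        (g₀ := (3 / 5)) (W := (1 / 5)) (by norm_num) hI hd hw hW hg0
      norm_num [bxC02]; norm_num at this; linarith
  · exact ⟨by norm_num [bxC02], by norm_num [bxC02]; linarith, by norm_num [bxC02]; linarith⟩

/-- The signs over the tile `C03`. -/
theorem tileC03 (h : CPt n a b u v t H g m) (hg0 : (3 / 4) ≤ g) (hg1 : g < (22 / 25))
    (hd0 : 0 < b - a) (hd1 : b - a ≤ (1 / 12)) (hr : b - a ≤ (3 / 5) * (1 - u))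
    (hW : 1 - u ≤ (1 / 5)) (hm0 : 149 / 100 ≤ m) (hm1 : m ≤ 228 / 100) :
    Closed.Strip.ChartSigns (b - a) (a + b) u v t := by
  have hI := h.hI
  have hI' := h.hI'
  have hd := h.hd
  have hg := h.hg
  have hw := h.hw
  have hsi := si_le h
  refine signs_piece (P := pcC03) (B := bxC03) (cn := 59) (c2 := 27) ⟨?_, ?_, ?_, ?_, ?_, ?_, ?_⟩
    pcC03_ok.pos (fun x hB hc => ⟨pcC03_ok.place hB, pcC03_ok.all hB hc⟩) h
    (by norm_num [pcC03]; linarith) (by norm_num [pcC03]; linarith) ?_ ?_ ?_ ?_
  iterate 7 (intro x; simp [pcC03, Ex.eval]; try ring)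
  · exact ⟨by norm_num [bxC03], by norm_num [bxC03]; linarith, by norm_num [bxC03]; linarith⟩
  · refine ⟨by norm_num [bxC03], ?_, ?_⟩
    · norm_num [bxC03]; exact div_pos hI hd
    · norm_num [bxC03]; rw [div_le_iff₀ hd]; linarith
  · refine ⟨by norm_num [bxC03], ?_, ?_⟩
    · have := den_pos (I := allStabI a b) (d := b - a) (w := 1 - u) (g := g) (cn := 59) (c2 := 27)
        hg hI (by nlinarith) (by linarith)
      norm_num [bxC03]; norm_num at this; linarith
    · have := den_le (I := allStabI a b) (d := b - a) (w := 1 - u) (g := g) (cn := 59) (c2 := 27)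
        (g₀ := (3 / 4)) (W := (1 / 5)) (by norm_num) hI hd hw hW hg0
      norm_num [bxC03]; norm_num at this; linarith
  · exact ⟨by norm_num [bxC03], by norm_num [bxC03]; linarith, by norm_num [bxC03]; linarith⟩

/-- The signs over the tile `C04`. -/
theorem tileC04 (h : CPt n a b u v t H g m) (hg0 : (22 / 25) ≤ g) (hg1 : g < (99 / 100))
    (hd0 : 0 < b - a) (hd1 : b - a ≤ (1 / 12)) (hr : b - a ≤ (3 / 5) * (1 - u))
    (hW : 1 - u ≤ (1 / 5)) (hm0 : 149 / 100 ≤ m) (hm1 : m ≤ 228 / 100) :
    Closed.Strip.ChartSigns (b - a) (a + b) u v t := by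
  have hI := h.hI
  have hI' := h.hI'
  have hd := h.hd
  have hg := h.hg
  have hw := h.hw
  have hsi := si_le h
  refine signs_piece (P := pcC04) (B := bxC04) (cn := 52) (c2 := 24) ⟨?_, ?_, ?_, ?_, ?_, ?_, ?_⟩
    pcC04_ok.pos (fun x hB hc => ⟨pcC04_ok.place hB, pcC04_ok.all hB hc⟩) h
    (by norm_num [pcC04]; linarith) (by norm_num [pcC04]; linarith) ?_ ?_ ?_ ?_
  iterate 7 (intro x; simp [pcC04, Ex.eval]; try ring)
  · exact ⟨by norm_num [bxC04], by norm_num [bxC04]; linarith, by norm_num [bxC04]; linarith⟩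
  · refine ⟨by norm_num [bxC04], ?_, ?_⟩
    · norm_num [bxC04]; exact div_pos hI hd
    · norm_num [bxC04]; rw [div_le_iff₀ hd]; linarith
  · refine ⟨by norm_num [bxC04], ?_, ?_⟩
    · have := den_pos (I := allStabI a b) (d := b - a) (w := 1 - u) (g := g) (cn := 52) (c2 := 24)
        hg hI (by nlinarith) (by linarith)
      norm_num [bxC04]; norm_num at this; linarith
    · have := den_le (I := allStabI a b) (d := b - a) (w := 1 - u) (g := g) (cn := 52) (c2 := 24)
        (g₀ := (22 / 25)) (W := (1 / 5)) (by norm_num) hI hd hw hW hg0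
      norm_num [bxC04]; norm_num at this; linarith
  · exact ⟨by norm_num [bxC04], by norm_num [bxC04]; linarith, by norm_num [bxC04]; linarith⟩

/-- The signs over the tile `C05`. -/
theorem tileC05 (h : CPt n a b u v t H g m) (hg0 : (99 / 100) ≤ g) (hg1 : g < (11 / 10))
    (hd0 : 0 < b - a) (hd1 : b - a ≤ (1 / 12)) (hr : b - a ≤ (5 / 12) * (1 - u))
    (hW : 1 - u ≤ (1 / 5)) (hm0 : 149 / 100 ≤ m) (hm1 : m ≤ 225 / 100) :
    Closed.Strip.ChartSigns (b - a) (a + b) u v t := by
  have hI := h.hI
  have hI' := h.hI'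
  have hd := h.hd
  have hg := h.hg
  have hw := h.hw
  have hsi := si_le h
  refine signs_piece (P := pcC05) (B := bxC05) (cn := 63) (c2 := 21) ⟨?_, ?_, ?_, ?_, ?_, ?_, ?_⟩
    pcC05_ok.pos (fun x hB hc => ⟨pcC05_ok.place hB, pcC05_ok.all hB hc⟩) h
    (by norm_num [pcC05]; linarith) (by norm_num [pcC05]; linarith) ?_ ?_ ?_ ?_
  iterate 7 (intro x; simp [pcC05, Ex.eval]; try ring)
  · exact ⟨by norm_num [bxC05], by norm_num [bxC05]; linarith, by norm_num [bxC05]; linarith⟩
  · refine ⟨by norm_num [bxC05], ?_, ?_⟩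
    · norm_num [bxC05]; exact div_pos hI hd
    · norm_num [bxC05]; rw [div_le_iff₀ hd]; linarith
  · refine ⟨by norm_num [bxC05], ?_, ?_⟩
    · have := den_pos (I := allStabI a b) (d := b - a) (w := 1 - u) (g := g) (cn := 63) (c2 := 21)
        hg hI (by nlinarith) (by linarith)
      norm_num [bxC05]; norm_num at this; linarith
    · have := den_le (I := allStabI a b) (d := b - a) (w := 1 - u) (g := g) (cn := 63) (c2 := 21)
        (g₀ := (99 / 100)) (W := (1 / 5)) (by norm_num) hI hd hw hW hg0
      norm_num [bxC05]; norm_num at this; linarith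
  · exact ⟨by norm_num [bxC05], by norm_num [bxC05]; linarith, by norm_num [bxC05]; linarith⟩

/-- The signs over the tile `C06`. -/
theorem tileC06 (h : CPt n a b u v t H g m) (hg0 : (12 / 25) ≤ g) (hg1 : g < (14 / 25))
    (hd0 : 0 < b - a) (hd1 : b - a ≤ (1 / 12)) (hr : b - a ≤ 1 * (1 - u))
    (hW : 1 - u ≤ (7 / 50)) (hm0 : 162 / 100 ≤ m) (hm1 : m ≤ 231 / 100) :
    Closed.Strip.ChartSigns (b - a) (a + b) u v t := by
  have hI := h.hI
  have hI' := h.hI'
  have hd := h.hd
  have hg := h.hg
  have hw := h.hw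
  have hsi := si_le h
  refine signs_piece (P := pcC06) (B := bxC06) (cn := 64) (c2 := 42) ⟨?_, ?_, ?_, ?_, ?_, ?_, ?_⟩
    pcC06_ok.pos (fun x hB hc => ⟨pcC06_ok.place hB, pcC06_ok.all hB hc⟩) h
    (by norm_num [pcC06]; linarith) (by norm_num [pcC06]; linarith) ?_ ?_ ?_ ?_
  iterate 7 (intro x; simp [pcC06, Ex.eval]; try ring)
  · exact ⟨by norm_num [bxC06], by norm_num [bxC06]; linarith, by norm_num [bxC06]; linarith⟩
  · refine ⟨by norm_num [bxC06], ?_, ?_⟩
    · norm_num [bxC06]; exact div_pos hI hd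
    · norm_num [bxC06]; rw [div_le_iff₀ hd]; linarith
  · refine ⟨by norm_num [bxC06], ?_, ?_⟩
    · have := den_pos (I := allStabI a b) (d := b - a) (w := 1 - u) (g := g) (cn := 64) (c2 := 42)
        hg hI (by nlinarith) (by linarith)
      norm_num [bxC06]; norm_num at this; linarith
    · have := den_le (I := allStabI a b) (d := b - a) (w := 1 - u) (g := g) (cn := 64) (c2 := 42)
        (g₀ := (12 / 25)) (W := (7 / 50)) (by norm_num) hI hd hw hW hg0
      norm_num [bxC06]; norm_num at this; linarith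
  · exact ⟨by norm_num [bxC06], by norm_num [bxC06]; linarith, by norm_num [bxC06]; linarith⟩

/-- The signs over the tile `C07`. -/
theorem tileC07 (h : CPt n a b u v t H g m) (hg0 : (14 / 25) ≤ g) (hg1 : g < (7 / 10))
    (hd0 : 0 < b - a) (hd1 : b - a ≤ (1 / 12)) (hr : b - a ≤ 1 * (1 - u))
    (hW : 1 - u ≤ (7 / 50)) (hm0 : 162 / 100 ≤ m) (hm1 : m ≤ 231 / 100) :
    Closed.Strip.ChartSigns (b - a) (a + b) u v t := by
  have hI := h.hI
  have hI' := h.hI'
  have hd := h.hd
  have hg := h.hg
  have hw := h.hw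
  have hsi := si_le h
  refine signs_piece (P := pcC07) (B := bxC07) (cn := 51) (c2 := 34) ⟨?_, ?_, ?_, ?_, ?_, ?_, ?_⟩
    pcC07_ok.pos (fun x hB hc => ⟨pcC07_ok.place hB, pcC07_ok.all hB hc⟩) h
    (by norm_num [pcC07]; linarith) (by norm_num [pcC07]; linarith) ?_ ?_ ?_ ?_
  iterate 7 (intro x; simp [pcC07, Ex.eval]; try ring)
  · exact ⟨by norm_num [bxC07], by norm_num [bxC07]; linarith, by norm_num [bxC07]; linarith⟩
  · refine ⟨by norm_num [bxC07], ?_, ?_⟩
    · norm_num [bxC07]; exact div_pos hI hd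
    · norm_num [bxC07]; rw [div_le_iff₀ hd]; linarith
  · refine ⟨by norm_num [bxC07], ?_, ?_⟩
    · have := den_pos (I := allStabI a b) (d := b - a) (w := 1 - u) (g := g) (cn := 51) (c2 := 34)
        hg hI (by nlinarith) (by linarith)
      norm_num [bxC07]; norm_num at this; linarith
    · have := den_le (I := allStabI a b) (d := b - a) (w := 1 - u) (g := g) (cn := 51) (c2 := 34)
        (g₀ := (14 / 25)) (W := (7 / 50)) (by norm_num) hI hd hw hW hg0
      norm_num [bxC07]; norm_num at this; linarith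
  · exact ⟨by norm_num [bxC07], by norm_num [bxC07]; linarith, by norm_num [bxC07]; linarith⟩

/-- The signs over the tile `C08`. -/
theorem tileC08 (h : CPt n a b u v t H g m) (hg0 : (7 / 10) ≤ g) (hg1 : g < (17 / 20))
    (hd0 : 0 < b - a) (hd1 : b - a ≤ (1 / 12)) (hr : b - a ≤ 1 * (1 - u))
    (hW : 1 - u ≤ (7 / 50)) (hm0 : 162 / 100 ≤ m) (hm1 : m ≤ 231 / 100) :
    Closed.Strip.ChartSigns (b - a) (a + b) u v t := by
  have hI := h.hI
  have hI' := h.hI'
  have hd := h.hd
  have hg := h.hg
  have hw := h.hw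
  have hsi := si_le h
  refine signs_piece (P := pcC08) (B := bxC08) (cn := 42) (c2 := 28) ⟨?_, ?_, ?_, ?_, ?_, ?_, ?_⟩
    pcC08_ok.pos (fun x hB hc => ⟨pcC08_ok.place hB, pcC08_ok.all hB hc⟩) h
    (by norm_num [pcC08]; linarith) (by norm_num [pcC08]; linarith) ?_ ?_ ?_ ?_
  iterate 7 (intro x; simp [pcC08, Ex.eval]; try ring)
  · exact ⟨by norm_num [bxC08], by norm_num [bxC08]; linarith, by norm_num [bxC08]; linarith⟩
  · refine ⟨by norm_num [bxC08], ?_, ?_⟩
    · norm_num [bxC08]; exact div_pos hI hd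
    · norm_num [bxC08]; rw [div_le_iff₀ hd]; linarith
  · refine ⟨by norm_num [bxC08], ?_, ?_⟩
    · have := den_pos (I := allStabI a b) (d := b - a) (w := 1 - u) (g := g) (cn := 42) (c2 := 28)
        hg hI (by nlinarith) (by linarith)
      norm_num [bxC08]; norm_num at this; linarith
    · have := den_le (I := allStabI a b) (d := b - a) (w := 1 - u) (g := g) (cn := 42) (c2 := 28)
        (g₀ := (7 / 10)) (W := (7 / 50)) (by norm_num) hI hd hw hW hg0
      norm_num [bxC08]; norm_num at this; linarith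
  · exact ⟨by norm_num [bxC08], by norm_num [bxC08]; linarith, by norm_num [bxC08]; linarith⟩

/-- The signs over the tile `C09`. -/
theorem tileC09 (h : CPt n a b u v t H g m) (hg0 : (17 / 20) ≤ g) (hg1 : g < (97 / 100))
    (hd0 : 0 < b - a) (hd1 : b - a ≤ (1 / 12)) (hr : b - a ≤ 1 * (1 - u))
    (hW : 1 - u ≤ (7 / 50)) (hm0 : 162 / 100 ≤ m) (hm1 : m ≤ 231 / 100) :
    Closed.Strip.ChartSigns (b - a) (a + b) u v t := by
  have hI := h.hI
  have hI' := h.hI'
  have hd := h.hd
  have hg := h.hg
  have hw := h.hw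
  have hsi := si_le h
  refine signs_piece (P := pcC09) (B := bxC09) (cn := 37) (c2 := 24) ⟨?_, ?_, ?_, ?_, ?_, ?_, ?_⟩
    pcC09_ok.pos (fun x hB hc => ⟨pcC09_ok.place hB, pcC09_ok.all hB hc⟩) h
    (by norm_num [pcC09]; linarith) (by norm_num [pcC09]; linarith) ?_ ?_ ?_ ?_
  iterate 7 (intro x; simp [pcC09, Ex.eval]; try ring)
  · exact ⟨by norm_num [bxC09], by norm_num [bxC09]; linarith, by norm_num [bxC09]; linarith⟩
  · refine ⟨by norm_num [bxC09], ?_, ?_⟩
    · norm_num [bxC09]; exact div_pos hI hd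
    · norm_num [bxC09]; rw [div_le_iff₀ hd]; linarith
  · refine ⟨by norm_num [bxC09], ?_, ?_⟩
    · have := den_pos (I := allStabI a b) (d := b - a) (w := 1 - u) (g := g) (cn := 37) (c2 := 24)
        hg hI (by nlinarith) (by linarith)
      norm_num [bxC09]; norm_num at this; linarith
    · have := den_le (I := allStabI a b) (d := b - a) (w := 1 - u) (g := g) (cn := 37) (c2 := 24)
        (g₀ := (17 / 20)) (W := (7 / 50)) (by norm_num) hI hd hw hW hg0
      norm_num [bxC09]; norm_num at this; linarith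
  · exact ⟨by norm_num [bxC09], by norm_num [bxC09]; linarith, by norm_num [bxC09]; linarith⟩

/-- The signs over the tile `C10`. -/
theorem tileC10 (h : CPt n a b u v t H g m) (hg0 : (11 / 25) ≤ g) (hg1 : g < (3 / 5))
    (hd0 : (1 / 12) < b - a) (hd1 : b - a ≤ (1 / 8)) (hr : b - a ≤ 1 * (1 - u))
    (hW : 1 - u ≤ (1 / 5)) (hm0 : 142 / 100 ≤ m) (hm1 : m ≤ 239 / 100) :
    Closed.Strip.ChartSigns (b - a) (a + b) u v t := by
  have hI := h.hI
  have hI' := h.hI'
  have hd := h.hd
  have hg := h.hg
  have hw := h.hw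
  refine signs_piece (P := pcC10) (B := bxC10) (cn := 60) (c2 := 40) ⟨?_, ?_, ?_, ?_, ?_, ?_, ?_⟩
    pcC10_ok.pos (fun x hB hc => ⟨pcC10_ok.place hB, pcC10_ok.all hB hc⟩) h
    (by norm_num [pcC10]; linarith) (by norm_num [pcC10]; linarith) ?_ ?_ ?_ ?_
  iterate 7 (intro x; simp [pcC10, Ex.eval]; try ring)
  · exact ⟨by norm_num [bxC10], by norm_num [bxC10]; linarith, by norm_num [bxC10]; linarith⟩
  · refine ⟨by norm_num [bxC10], ?_, ?_⟩
    · norm_num [bxC10]; exact div_pos hI hd
    · norm_num [bxC10]; rw [div_le_iff₀ hd]; linarith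
  · refine ⟨by norm_num [bxC10], ?_, ?_⟩
    · have := den_pos (I := allStabI a b) (d := b - a) (w := 1 - u) (g := g) (cn := 60) (c2 := 40)
        hg hI (by nlinarith) (by linarith)
      norm_num [bxC10]; norm_num at this; linarith
    · have := den_le (I := allStabI a b) (d := b - a) (w := 1 - u) (g := g) (cn := 60) (c2 := 40)
        (g₀ := (11 / 25)) (W := (1 / 5)) (by norm_num) hI hd hw hW hg0
      norm_num [bxC10]; norm_num at this; linarith
  · exact ⟨by norm_num [bxC10], by norm_num [bxC10]; linarith, by norm_num [bxC10]; linarith⟩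

/-- The signs over the tile `C11`. -/
theorem tileC11 (h : CPt n a b u v t H g m) (hg0 : (3 / 5) ≤ g) (hg1 : g < (4 / 5))
    (hd0 : (1 / 12) < b - a) (hd1 : b - a ≤ (1 / 8)) (hr : b - a ≤ 1 * (1 - u))
    (hW : 1 - u ≤ (1 / 5)) (hm0 : 142 / 100 ≤ m) (hm1 : m ≤ 239 / 100) :
    Closed.Strip.ChartSigns (b - a) (a + b) u v t := by
  have hI := h.hI
  have hI' := h.hI'
  have hd := h.hd
  have hg := h.hg
  have hw := h.hw
  refine signs_piece (P := pcC11) (B := bxC11) (cn := 45) (c2 := 30) ⟨?_, ?_, ?_, ?_, ?_, ?_, ?_⟩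
    pcC11_ok.pos (fun x hB hc => ⟨pcC11_ok.place hB, pcC11_ok.all hB hc⟩) h
    (by norm_num [pcC11]; linarith) (by norm_num [pcC11]; linarith) ?_ ?_ ?_ ?_
  iterate 7 (intro x; simp [pcC11, Ex.eval]; try ring)
  · exact ⟨by norm_num [bxC11], by norm_num [bxC11]; linarith, by norm_num [bxC11]; linarith⟩
  · refine ⟨by norm_num [bxC11], ?_, ?_⟩
    · norm_num [bxC11]; exact div_pos hI hd
    · norm_num [bxC11]; rw [div_le_iff₀ hd]; linarith
  · refine ⟨by norm_num [bxC11], ?_, ?_⟩
    · have := den_pos (I := allStabI a b) (d := b - a) (w := 1 - u) (g := g) (cn := 45) (c2 := 30)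
        hg hI (by nlinarith) (by linarith)
      norm_num [bxC11]; norm_num at this; linarith
    · have := den_le (I := allStabI a b) (d := b - a) (w := 1 - u) (g := g) (cn := 45) (c2 := 30)
        (g₀ := (3 / 5)) (W := (1 / 5)) (by norm_num) hI hd hw hW hg0
      norm_num [bxC11]; norm_num at this; linarith
  · exact ⟨by norm_num [bxC11], by norm_num [bxC11]; linarith, by norm_num [bxC11]; linarith⟩

/-- The signs over the tile `C12`. -/
theorem tileC12 (h : CPt n a b u v t H g m) (hg0 : (4 / 5) ≤ g) (hg1 : g < (24 / 25))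
    (hd0 : (1 / 12) < b - a) (hd1 : b - a ≤ (1 / 8)) (hr : b - a ≤ 1 * (1 - u))
    (hW : 1 - u ≤ (1 / 5)) (hm0 : 142 / 100 ≤ m) (hm1 : m ≤ 239 / 100) :
    Closed.Strip.ChartSigns (b - a) (a + b) u v t := by
  have hI := h.hI
  have hI' := h.hI'
  have hd := h.hd
  have hg := h.hg
  have hw := h.hw
  refine signs_piece (P := pcC12) (B := bxC12) (cn := 37) (c2 := 25) ⟨?_, ?_, ?_, ?_, ?_, ?_, ?_⟩
    pcC12_ok.pos (fun x hB hc => ⟨pcC12_ok.place hB, pcC12_ok.all hB hc⟩) h
    (by norm_num [pcC12]; linarith) (by norm_num [pcC12]; linarith) ?_ ?_ ?_ ?_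
  iterate 7 (intro x; simp [pcC12, Ex.eval]; try ring)
  · exact ⟨by norm_num [bxC12], by norm_num [bxC12]; linarith, by norm_num [bxC12]; linarith⟩
  · refine ⟨by norm_num [bxC12], ?_, ?_⟩
    · norm_num [bxC12]; exact div_pos hI hd
    · norm_num [bxC12]; rw [div_le_iff₀ hd]; linarith
  · refine ⟨by norm_num [bxC12], ?_, ?_⟩
    · have := den_pos (I := allStabI a b) (d := b - a) (w := 1 - u) (g := g) (cn := 37) (c2 := 25)
        hg hI (by nlinarith) (by linarith)
      norm_num [bxC12]; norm_num at this; linarith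
    · have := den_le (I := allStabI a b) (d := b - a) (w := 1 - u) (g := g) (cn := 37) (c2 := 25)
        (g₀ := (4 / 5)) (W := (1 / 5)) (by norm_num) hI hd hw hW hg0
      norm_num [bxC12]; norm_num at this; linarith
  · exact ⟨by norm_num [bxC12], by norm_num [bxC12]; linarith, by norm_num [bxC12]; linarith⟩

/-- The signs over the tile `C13`. -/
theorem tileC13 (h : CPt n a b u v t H g m) (hg0 : (11 / 25) ≤ g) (hg1 : g < (3 / 5))
    (hd0 : (1 / 8) < b - a) (hd1 : b - a ≤ (1 / 5)) (hr : b - a ≤ 1 * (1 - u))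
    (hW : 1 - u ≤ (1 / 5)) (hm0 : 142 / 100 ≤ m) (hm1 : m ≤ 239 / 100) :
    Closed.Strip.ChartSigns (b - a) (a + b) u v t := by
  have hI := h.hI
  have hI' := h.hI'
  have hd := h.hd
  have hg := h.hg
  have hw := h.hw
  refine signs_piece (P := pcC13) (B := bxC13) (cn := 60) (c2 := 40) ⟨?_, ?_, ?_, ?_, ?_, ?_, ?_⟩
    pcC13_ok.pos (fun x hB hc => ⟨pcC13_ok.place hB, pcC13_ok.all hB⟩) h
    (by norm_num [pcC13]; linarith) (by norm_num [pcC13]; linarith) ?_ ?_ ?_ ?_
  iterate 7 (intro x; simp [pcC13, Ex.eval]; try ring)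
  · exact ⟨by norm_num [bxC13], by norm_num [bxC13]; linarith, by norm_num [bxC13]; linarith⟩
  · refine ⟨by norm_num [bxC13], ?_, ?_⟩
    · norm_num [bxC13]; exact div_pos hI hd
    · norm_num [bxC13]; rw [div_le_iff₀ hd]; linarith
  · refine ⟨by norm_num [bxC13], ?_, ?_⟩
    · have := den_pos (I := allStabI a b) (d := b - a) (w := 1 - u) (g := g) (cn := 60) (c2 := 40)
        hg hI (by nlinarith) (by linarith)
      norm_num [bxC13]; norm_num at this; linarith
    · have := den_le (I := allStabI a b) (d := b - a) (w := 1 - u) (g := g) (cn := 60) (c2 := 40)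
        (g₀ := (11 / 25)) (W := (1 / 5)) (by norm_num) hI hd hw hW hg0
      norm_num [bxC13]; norm_num at this; linarith
  · exact ⟨by norm_num [bxC13], by norm_num [bxC13]; linarith, by norm_num [bxC13]; linarith⟩

/-- The signs over the tile `C14`. -/
theorem tileC14 (h : CPt n a b u v t H g m) (hg0 : (3 / 5) ≤ g) (hg1 : g < (4 / 5))
    (hd0 : (1 / 8) < b - a) (hd1 : b - a ≤ (1 / 5)) (hr : b - a ≤ 1 * (1 - u))
    (hW : 1 - u ≤ (1 / 5)) (hm0 : 142 / 100 ≤ m) (hm1 : m ≤ 239 / 100) :
    Closed.Strip.ChartSigns (b - a) (a + b) u v t := by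
  have hI := h.hI
  have hI' := h.hI'
  have hd := h.hd
  have hg := h.hg
  have hw := h.hw
  refine signs_piece (P := pcC14) (B := bxC14) (cn := 45) (c2 := 30) ⟨?_, ?_, ?_, ?_, ?_, ?_, ?_⟩
    pcC14_ok.pos (fun x hB hc => ⟨pcC14_ok.place hB, pcC14_ok.all hB⟩) h
    (by norm_num [pcC14]; linarith) (by norm_num [pcC14]; linarith) ?_ ?_ ?_ ?_
  iterate 7 (intro x; simp [pcC14, Ex.eval]; try ring)
  · exact ⟨by norm_num [bxC14], by norm_num [bxC14]; linarith, by norm_num [bxC14]; linarith⟩
  · refine ⟨by norm_num [bxC14], ?_, ?_⟩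
    · norm_num [bxC14]; exact div_pos hI hd
    · norm_num [bxC14]; rw [div_le_iff₀ hd]; linarith
  · refine ⟨by norm_num [bxC14], ?_, ?_⟩
    · have := den_pos (I := allStabI a b) (d := b - a) (w := 1 - u) (g := g) (cn := 45) (c2 := 30)
        hg hI (by nlinarith) (by linarith)
      norm_num [bxC14]; norm_num at this; linarith
    · have := den_le (I := allStabI a b) (d := b - a) (w := 1 - u) (g := g) (cn := 45) (c2 := 30)
        (g₀ := (3 / 5)) (W := (1 / 5)) (by norm_num) hI hd hw hW hg0
      norm_num [bxC14]; norm_num at this; linarith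
  · exact ⟨by norm_num [bxC14], by norm_num [bxC14]; linarith, by norm_num [bxC14]; linarith⟩

/-- The signs over the tile `C15`. -/
theorem tileC15 (h : CPt n a b u v t H g m) (hg0 : (4 / 5) ≤ g) (hg1 : g < (22 / 25))
    (hd0 : (1 / 8) < b - a) (hd1 : b - a ≤ (1 / 5)) (hr : b - a ≤ 1 * (1 - u))
    (hW : 1 - u ≤ (1 / 5)) (hm0 : 142 / 100 ≤ m) (hm1 : m ≤ 239 / 100) :
    Closed.Strip.ChartSigns (b - a) (a + b) u v t := by
  have hI := h.hI
  have hI' := h.hI'
  have hd := h.hd
  have hg := h.hg
  have hw := h.hw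
  refine signs_piece (P := pcC15) (B := bxC15) (cn := 40) (c2 := 27) ⟨?_, ?_, ?_, ?_, ?_, ?_, ?_⟩
    pcC15_ok.pos (fun x hB hc => ⟨pcC15_ok.place hB, pcC15_ok.all hB⟩) h
    (by norm_num [pcC15]; linarith) (by norm_num [pcC15]; linarith) ?_ ?_ ?_ ?_
  iterate 7 (intro x; simp [pcC15, Ex.eval]; try ring)
  · exact ⟨by norm_num [bxC15], by norm_num [bxC15]; linarith, by norm_num [bxC15]; linarith⟩
  · refine ⟨by norm_num [bxC15], ?_, ?_⟩
    · norm_num [bxC15]; exact div_pos hI hd
    · norm_num [bxC15]; rw [div_le_iff₀ hd]; linarith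
  · refine ⟨by norm_num [bxC15], ?_, ?_⟩
    · have := den_pos (I := allStabI a b) (d := b - a) (w := 1 - u) (g := g) (cn := 40) (c2 := 27)
        hg hI (by nlinarith) (by linarith)
      norm_num [bxC15]; norm_num at this; linarith
    · have := den_le (I := allStabI a b) (d := b - a) (w := 1 - u) (g := g) (cn := 40) (c2 := 27)
        (g₀ := (4 / 5)) (W := (1 / 5)) (by norm_num) hI hd hw hW hg0
      norm_num [bxC15]; norm_num at this; linarith
  · exact ⟨by norm_num [bxC15], by norm_num [bxC15]; linarith, by norm_num [bxC15]; linarith⟩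

/-- The signs over the tile `C16`. -/
theorem tileC16 (h : CPt n a b u v t H g m) (hg0 : (22 / 25) ≤ g) (hg1 : g < (24 / 25))
    (hd0 : (1 / 8) < b - a) (hd1 : b - a ≤ (1 / 5)) (hr : b - a ≤ 1 * (1 - u))
    (hW : 1 - u ≤ (1 / 5)) (hm0 : 142 / 100 ≤ m) (hm1 : m ≤ 239 / 100) :
    Closed.Strip.ChartSigns (b - a) (a + b) u v t := by
  have hI := h.hI
  have hI' := h.hI'
  have hd := h.hd
  have hg := h.hg
  have hw := h.hw
  refine signs_piece (P := pcC16) (B := bxC16) (cn := 37) (c2 := 25) ⟨?_, ?_, ?_, ?_, ?_, ?_, ?_⟩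
    pcC16_ok.pos (fun x hB hc => ⟨pcC16_ok.place hB, pcC16_ok.all hB⟩) h
    (by norm_num [pcC16]; linarith) (by norm_num [pcC16]; linarith) ?_ ?_ ?_ ?_
  iterate 7 (intro x; simp [pcC16, Ex.eval]; try ring)
  · exact ⟨by norm_num [bxC16], by norm_num [bxC16]; linarith, by norm_num [bxC16]; linarith⟩
  · refine ⟨by norm_num [bxC16], ?_, ?_⟩
    · norm_num [bxC16]; exact div_pos hI hd
    · norm_num [bxC16]; rw [div_le_iff₀ hd]; linarith
  · refine ⟨by norm_num [bxC16], ?_, ?_⟩
    · have := den_pos (I := allStabI a b) (d := b - a) (w := 1 - u) (g := g) (cn := 37) (c2 := 25)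
        hg hI (by nlinarith) (by linarith)
      norm_num [bxC16]; norm_num at this; linarith
    · have := den_le (I := allStabI a b) (d := b - a) (w := 1 - u) (g := g) (cn := 37) (c2 := 25)
        (g₀ := (22 / 25)) (W := (1 / 5)) (by norm_num) hI hd hw hW hg0
      norm_num [bxC16]; norm_num at this; linarith
  · exact ⟨by norm_num [bxC16], by norm_num [bxC16]; linarith, by norm_num [bxC16]; linarith⟩

/-- The normalised point of a window of `CA` or `CB`. -/
theorem cpt_of {c : EndChart} {x : ℕ → ℝ} (hb : Closed.All.ChartBox n (b - a) (a + b))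
    (hF : Closed.All.ChartFacts (b - a) (a + b) u v t)
    (hH : Closed.chH (b - a) (a + b) u v t = H) (B : EndBands a b u v H)
    (hI : allStabI a b ≤ 1 / 20) (hk : DHigh a b) (hx : c.Point x a b u v H) (hg : 0 < x 3)
    (e : (c.n₀ + c.n₁ * var 3).eval x * (1 - u + allStabI a b + (b - a) / 2) =
      x 3 * allStabI a b * c.den.eval x) :
    ∃ m, (c.mu₀.1 : ℝ) / c.mu₀.2 ≤ m ∧ m ≤ (c.mu₁.1 : ℝ) / c.mu₁.2 ∧
      CPt n a b u v t H (x 3) m := by
  obtain ⟨hI0, hd, hw, eS, -⟩ := end_facts B
  obtain ⟨-, hgeo, m, hm0, hm1, hm⟩ := hx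
  have eI : c.I.eval x = allStabI a b := hgeo.hI
  have ed : c.d.eval x = b - a := hgeo.hd
  have ew : c.w.eval x = 1 - u := hgeo.hw
  have hden : 0 < c.den.eval x := hgeo.den
  have ho : (c.n₀ + c.n₁ * var 3).eval x = a * v * c.den.eval x := hgeo.ho
  refine ⟨m, hm0, hm1, hb, hF, hH, hI0, hd, hw, eS, hI, hk, hg, ?_, ?_⟩
  · rw [ho] at e
    exact mul_left_cancel₀ hden.ne' (by linarith)
  · have hm' := hm
    simp only [EndChart.geo, Geo.qn, Geo.E, Geo.V, Geo.A, Geo.S, ev_sub, ev_mul, ev_add, ev_num,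
      eI, ed, ew, Ex.eval] at hm'
    simp only [ev_add, ev_mul, Ex.eval] at ho
    rw [ho] at hm'
    push_cast at hm'
    exact mul_left_cancel₀ hden.ne' (by linarith)

/-- The tiles of `L` cover its window. -/
theorem coverL (hp : CPt n a b u v t H g m) (hg0 : (47 / 100) ≤ g) (hg1 : g < (99 / 100))
    (hd0 : 0 < b - a) (hd1 : b - a ≤ (1 / 12)) (hr : b - a ≤ (3 / 5) * (1 - u))
    (hW : 1 - u ≤ (1 / 5)) (hm0 : 149 / 100 ≤ m) (hm1 : m ≤ 228 / 100) :
    Closed.Strip.ChartSigns (b - a) (a + b) u v t := by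
  rcases lt_or_ge g (3 / 5) with hq | hq
  · rcases le_or_gt ((1 - u + allStabI a b + (b - a) / 2) / g - 86 * ((b - a) / 24) -
        40 * (allStabI a b / 24)) (213 / 1250) with hy | hy
    · exact tileC00 hp (by linarith) (by linarith) (by linarith) (by linarith) (by linarith) (by linarith) (by linarith) (by linarith) hy
    · exact tileC01 hp (by linarith) (by linarith) (by linarith) (by linarith) (by linarith) (by linarith) (by linarith) (by linarith) hy
  ·
    rcases lt_or_ge g (3 / 4) with hq | hq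
    · exact tileC02 hp (by linarith) (by linarith) (by linarith) (by linarith) (by linarith) (by linarith) (by linarith) (by linarith)
    ·
      rcases lt_or_ge g (22 / 25) with hq | hq
      · exact tileC03 hp (by linarith) (by linarith) (by linarith) (by linarith) (by linarith) (by linarith) (by linarith) (by linarith)
      ·
        exact tileC04 hp (by linarith) (by linarith) (by linarith) (by linarith) (by linarith) (by linarith) (by linarith) (by linarith)

/-- The tiles of `H` cover its window. -/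
theorem coverH (hp : CPt n a b u v t H g m) (hg0 : (12 / 25) ≤ g) (hg1 : g < (97 / 100))
    (hd0 : 0 < b - a) (hd1 : b - a ≤ (1 / 12)) (hr : b - a ≤ 1 * (1 - u))
    (hW : 1 - u ≤ (7 / 50)) (hm0 : 162 / 100 ≤ m) (hm1 : m ≤ 231 / 100) :
    Closed.Strip.ChartSigns (b - a) (a + b) u v t := by
  rcases lt_or_ge g (14 / 25) with hq | hq
  · exact tileC06 hp (by linarith) (by linarith) (by linarith) (by linarith) (by linarith) (by linarith) (by linarith) (by linarith)
  ·
    rcases lt_or_ge g (7 / 10) with hq | hq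
    · exact tileC07 hp (by linarith) (by linarith) (by linarith) (by linarith) (by linarith) (by linarith) (by linarith) (by linarith)
    ·
      rcases lt_or_ge g (17 / 20) with hq | hq
      · exact tileC08 hp (by linarith) (by linarith) (by linarith) (by linarith) (by linarith) (by linarith) (by linarith) (by linarith)
      ·
        exact tileC09 hp (by linarith) (by linarith) (by linarith) (by linarith) (by linarith) (by linarith) (by linarith) (by linarith)

/-- The tiles of `M` cover its window. -/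
theorem coverM (hp : CPt n a b u v t H g m) (hg0 : (11 / 25) ≤ g) (hg1 : g < (24 / 25))
    (hd0 : (1 / 12) < b - a) (hd1 : b - a ≤ (1 / 8)) (hr : b - a ≤ 1 * (1 - u))
    (hW : 1 - u ≤ (1 / 5)) (hm0 : 142 / 100 ≤ m) (hm1 : m ≤ 239 / 100) :
    Closed.Strip.ChartSigns (b - a) (a + b) u v t := by
  rcases lt_or_ge g (3 / 5) with hq | hq
  · exact tileC10 hp (by linarith) (by linarith) (by linarith) (by linarith) (by linarith) (by linarith) (by linarith) (by linarith)
  ·
    rcases lt_or_ge g (4 / 5) with hq | hq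
    · exact tileC11 hp (by linarith) (by linarith) (by linarith) (by linarith) (by linarith) (by linarith) (by linarith) (by linarith)
    ·
      exact tileC12 hp (by linarith) (by linarith) (by linarith) (by linarith) (by linarith) (by linarith) (by linarith) (by linarith)

/-- The tiles of `K` cover its window. -/
theorem coverK (hp : CPt n a b u v t H g m) (hg0 : (11 / 25) ≤ g) (hg1 : g < (24 / 25))
    (hd0 : (1 / 8) < b - a) (hd1 : b - a ≤ (1 / 5)) (hr : b - a ≤ 1 * (1 - u))
    (hW : 1 - u ≤ (1 / 5)) (hm0 : 142 / 100 ≤ m) (hm1 : m ≤ 239 / 100) :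
    Closed.Strip.ChartSigns (b - a) (a + b) u v t := by
  rcases lt_or_ge g (3 / 5) with hq | hq
  · exact tileC13 hp (by linarith) (by linarith) (by linarith) (by linarith) (by linarith) (by linarith) (by linarith) (by linarith)
  ·
    rcases lt_or_ge g (4 / 5) with hq | hq
    · exact tileC14 hp (by linarith) (by linarith) (by linarith) (by linarith) (by linarith) (by linarith) (by linarith) (by linarith)
    ·
      rcases lt_or_ge g (22 / 25) with hq | hq
      · exact tileC15 hp (by linarith) (by linarith) (by linarith) (by linarith) (by linarith) (by linarith) (by linarith) (by linarith)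
      ·
        exact tileC16 hp (by linarith) (by linarith) (by linarith) (by linarith) (by linarith) (by linarith) (by linarith) (by linarith)

/-- **The signs over the chart `CA`.** -/
theorem signs_CA (n : ℕ) : CSigns n endCA DHigh := by
  intro a b u v t H x hb hF hH hB hI' hu hx hk
  obtain ⟨hI, hd, hw, eS, -⟩ := end_facts hB
  have hn : allStabI a b ≠ 0 := hI.ne'
  have hn' : b - a ≠ 0 := hd.ne'
  have hn'' : 1 - u ≠ 0 := hw.ne'
  have hρ : 0 < (b - a) / (1 - u) := div_pos hd hw
  have eρ : (b - a) / (1 - u) * (1 - u) = b - a := div_mul_cancel₀ _ hn''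
  have hρ1 : (b - a) / (1 - u) ≤ 1 := by
    have h1 := hx.1.2.1.2.2
    have e1 := hx.2.1.hd
    have e2 := hx.2.1.hw
    simp only [EndChart.geo, endCA, end_mul, Ex.eval] at e1 e2
    norm_num [endCA] at h1
    rw [div_le_one hw, ← e1, ← e2]
    nlinarith
  have hw0 := hx.1.1.2
  have ew := hx.2.1.hw
  simp only [EndChart.geo, endCA, Ex.eval] at ew
  norm_num [endCA] at hw0
  rw [ew] at hw0
  obtain ⟨hw0l, hw0⟩ := hw0
  have hρ' : b - a ≤ 1 - u := (div_le_one hw).1 hρ1
  have hsi0 : 0 < allStabI a b / (b - a) := div_pos hI hd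
  have hsi : allStabI a b / (b - a) ≤ 53 / 50 := by
    rw [div_le_iff₀ hd]
    rw [DHigh, eS] at hk
    nlinarith [mul_le_mul_of_nonneg_left hI' hI.le, mul_le_mul_of_nonneg_left hI' hd.le]
  rcases le_or_gt (b - a) (1 / 12) with hd1 | hd1
  · rcases le_or_gt ((b - a) / (1 - u)) (5 / 12) with h5 | h5
    · have h5' : b - a ≤ 5 / 12 * (1 - u) := (div_le_iff₀ hw).1 h5
      obtain ⟨g, hx'⟩ := endCA1_ok.point hB (x₀ := (1 - u)) (x₁ := ((b - a) / (1 - u))) (x₂ := (allStabI a b / (b - a)))
        ⟨by norm_num [endCA1, endCA], by norm_num [endCA1] <;> linarith, by norm_num [endCA1] <;> linarith⟩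
        ⟨by norm_num [endCA1, endCA], by norm_num [endCA1] <;> linarith, by norm_num [endCA1] <;> linarith⟩
        ⟨by norm_num [endCA1, endCA], by norm_num [endCA1] <;> linarith, by norm_num [endCA1] <;> linarith⟩
        (by simp only [endCA1, endCA, end_add, end_sub, end_mul, Ex.eval, pt4]; try push_cast; try field_simp; try ring)
        (by simp only [endCA1, endCA, end_add, end_sub, end_mul, Ex.eval, pt4]; try push_cast; try field_simp; try ring)
        (by simp only [endCA1, endCA, end_add, end_sub, end_mul, Ex.eval, pt4]; try push_cast; try field_simp; try ring)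
        (by simp only [endCA1, endCA, end_add, end_sub, end_mul, Ex.eval, pt4]; push_cast; positivity)
      have hq0 := hx'.1.2.2.2.1
      have hq1 := hx'.1.2.2.2.2
      norm_num [endCA1, pt4] at hq0 hq1
      obtain ⟨m, hm0, hm1, hp⟩ := cpt_of hb hF hH hB hI' hk hx' (by simp only [pt4]; linarith)
        (by simp only [endCA1, endCA, end_add, end_sub, end_mul, Ex.eval, pt4]; try push_cast; try field_simp; try ring)
      norm_num [endCA1] at hm0 hm1
      simp only [pt4] at hp

      rcases lt_or_ge g (99 / 100) with hq | hq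
      · exact coverL hp (by linarith) hq hd hd1 (by linarith) (by linarith) (by linarith) (by linarith)
      · exact tileC05 hp hq (by linarith) (by linarith) hd1 (by linarith) (by linarith) (by linarith) (by linarith)
    rcases le_or_gt ((b - a) / (1 - u)) (3 / 5) with h3 | h3
    · have h3' : b - a ≤ 3 / 5 * (1 - u) := (div_le_iff₀ hw).1 h3
      obtain ⟨g, hx'⟩ := endCA2_ok.point hB (x₀ := (1 - u)) (x₁ := ((b - a) / (1 - u))) (x₂ := (allStabI a b / (b - a)))
        ⟨by norm_num [endCA2, endCA], by norm_num [endCA2] <;> linarith, by norm_num [endCA2] <;> linarith⟩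
        ⟨by norm_num [endCA2, endCA], by norm_num [endCA2] <;> linarith, by norm_num [endCA2] <;> linarith⟩
        ⟨by norm_num [endCA2, endCA], by norm_num [endCA2] <;> linarith, by norm_num [endCA2] <;> linarith⟩
        (by simp only [endCA2, endCA, end_add, end_sub, end_mul, Ex.eval, pt4]; try push_cast; try field_simp; try ring)
        (by simp only [endCA2, endCA, end_add, end_sub, end_mul, Ex.eval, pt4]; try push_cast; try field_simp; try ring)
        (by simp only [endCA2, endCA, end_add, end_sub, end_mul, Ex.eval, pt4]; try push_cast; try field_simp; try ring)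
        (by simp only [endCA2, endCA, end_add, end_sub, end_mul, Ex.eval, pt4]; push_cast; positivity)
      have hq0 := hx'.1.2.2.2.1
      have hq1 := hx'.1.2.2.2.2
      norm_num [endCA2, pt4] at hq0 hq1
      obtain ⟨m, hm0, hm1, hp⟩ := cpt_of hb hF hH hB hI' hk hx' (by simp only [pt4]; linarith)
        (by simp only [endCA2, endCA, end_add, end_sub, end_mul, Ex.eval, pt4]; try push_cast; try field_simp; try ring)
      norm_num [endCA2] at hm0 hm1
      simp only [pt4] at hp

      exact coverL hp (by linarith) (by linarith) hd hd1 (by linarith) (by linarith) (by linarith) (by linarith)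
    have h3' : 3 / 5 * (1 - u) < b - a := (lt_div_iff₀ hw).1 h3
    obtain ⟨g, hx'⟩ := endCA3_ok.point hB (x₀ := (1 - u)) (x₁ := ((b - a) / (1 - u))) (x₂ := (allStabI a b / (b - a)))
      ⟨by norm_num [endCA3, endCA], by norm_num [endCA3] <;> linarith, by norm_num [endCA3] <;> linarith⟩
      ⟨by norm_num [endCA3, endCA], by norm_num [endCA3] <;> linarith, by norm_num [endCA3] <;> linarith⟩
      ⟨by norm_num [endCA3, endCA], by norm_num [endCA3] <;> linarith, by norm_num [endCA3] <;> linarith⟩
      (by simp only [endCA3, endCA, end_add, end_sub, end_mul, Ex.eval, pt4]; try push_cast; try field_simp; try ring)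
      (by simp only [endCA3, endCA, end_add, end_sub, end_mul, Ex.eval, pt4]; try push_cast; try field_simp; try ring)
      (by simp only [endCA3, endCA, end_add, end_sub, end_mul, Ex.eval, pt4]; try push_cast; try field_simp; try ring)
      (by simp only [endCA3, endCA, end_add, end_sub, end_mul, Ex.eval, pt4]; push_cast; positivity)
    have hq0 := hx'.1.2.2.2.1
    have hq1 := hx'.1.2.2.2.2
    norm_num [endCA3, pt4] at hq0 hq1
    obtain ⟨m, hm0, hm1, hp⟩ := cpt_of hb hF hH hB hI' hk hx' (by simp only [pt4]; linarith)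
      (by simp only [endCA3, endCA, end_add, end_sub, end_mul, Ex.eval, pt4]; try push_cast; try field_simp; try ring)
    norm_num [endCA3] at hm0 hm1
    simp only [pt4] at hp

    exact coverH hp (by linarith) (by linarith) hd hd1 (by linarith) (by linarith) (by linarith) (by linarith)
  · exact absurd hd1 (by nlinarith [(div_le_one hw).1 hρ1])

/-- **The signs over the chart `CB`.** -/
theorem signs_CB (n : ℕ) : CSigns n endCB DHigh := by
  intro a b u v t H x hb hF hH hB hI' hu hx hk
  obtain ⟨hI, hd, hw, eS, -⟩ := end_facts hB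
  have hn : allStabI a b ≠ 0 := hI.ne'
  have hn' : b - a ≠ 0 := hd.ne'
  have hn'' : 1 - u ≠ 0 := hw.ne'
  have hρ : 0 < (b - a) / (1 - u) := div_pos hd hw
  have eρ : (b - a) / (1 - u) * (1 - u) = b - a := div_mul_cancel₀ _ hn''
  have hρ1 : (b - a) / (1 - u) ≤ 1 := by
    have h1 := hx.1.2.2.1.2.2
    have e1 := hx.2.1.hd
    have e2 := hx.2.1.hw
    simp only [EndChart.geo, endCB, end_mul, Ex.eval] at e1 e2
    norm_num [endCB] at h1
    rw [div_le_one hw, ← e1, ← e2]
    nlinarith
  have hw0 := hx.1.1.2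
  have ew := hx.2.1.hw
  simp only [EndChart.geo, endCB, Ex.eval] at ew
  norm_num [endCB] at hw0
  rw [ew] at hw0
  obtain ⟨hw0l, hw0⟩ := hw0
  have hρ' : b - a ≤ 1 - u := (div_le_one hw).1 hρ1
  rcases le_or_gt (b - a) (1 / 12) with hd1 | hd1
  · rcases le_or_gt ((b - a) / (1 - u)) (5 / 12) with h5 | h5
    · have h5' : b - a ≤ 5 / 12 * (1 - u) := (div_le_iff₀ hw).1 h5
      obtain ⟨g, hx'⟩ := endCB1_ok.point hB (x₀ := (1 - u)) (x₁ := (allStabI a b)) (x₂ := ((b - a) / (1 - u)))
        ⟨by norm_num [endCB1, endCB], by norm_num [endCB1] <;> linarith, by norm_num [endCB1] <;> linarith⟩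
        ⟨by norm_num [endCB1, endCB], by norm_num [endCB1] <;> linarith, by norm_num [endCB1] <;> linarith⟩
        ⟨by norm_num [endCB1, endCB], by norm_num [endCB1] <;> linarith, by norm_num [endCB1] <;> linarith⟩
        (by simp only [endCB1, endCB, end_add, end_sub, end_mul, Ex.eval, pt4]; try push_cast; try field_simp; try ring)
        (by simp only [endCB1, endCB, end_add, end_sub, end_mul, Ex.eval, pt4]; try push_cast; try field_simp; try ring)
        (by simp only [endCB1, endCB, end_add, end_sub, end_mul, Ex.eval, pt4]; try push_cast; try field_simp; try ring)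
        (by simp only [endCB1, endCB, end_add, end_sub, end_mul, Ex.eval, pt4]; push_cast; positivity)
      have hq0 := hx'.1.2.2.2.1
      have hq1 := hx'.1.2.2.2.2
      norm_num [endCB1, pt4] at hq0 hq1
      obtain ⟨m, hm0, hm1, hp⟩ := cpt_of hb hF hH hB hI' hk hx' (by simp only [pt4]; linarith)
        (by simp only [endCB1, endCB, end_add, end_sub, end_mul, Ex.eval, pt4]; try push_cast; try field_simp; try ring)
      norm_num [endCB1] at hm0 hm1
      simp only [pt4] at hp

      rcases lt_or_ge g (99 / 100) with hq | hq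
      · exact coverL hp (by linarith) hq hd hd1 (by linarith) (by linarith) (by linarith) (by linarith)
      · exact tileC05 hp hq (by linarith) (by linarith) hd1 (by linarith) (by linarith) (by linarith) (by linarith)
    rcases le_or_gt ((b - a) / (1 - u)) (3 / 5) with h3 | h3
    · have h3' : b - a ≤ 3 / 5 * (1 - u) := (div_le_iff₀ hw).1 h3
      obtain ⟨g, hx'⟩ := endCB2_ok.point hB (x₀ := (1 - u)) (x₁ := (allStabI a b)) (x₂ := ((b - a) / (1 - u)))
        ⟨by norm_num [endCB2, endCB], by norm_num [endCB2] <;> linarith, by norm_num [endCB2] <;> linarith⟩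
        ⟨by norm_num [endCB2, endCB], by norm_num [endCB2] <;> linarith, by norm_num [endCB2] <;> linarith⟩
        ⟨by norm_num [endCB2, endCB], by norm_num [endCB2] <;> linarith, by norm_num [endCB2] <;> linarith⟩
        (by simp only [endCB2, endCB, end_add, end_sub, end_mul, Ex.eval, pt4]; try push_cast; try field_simp; try ring)
        (by simp only [endCB2, endCB, end_add, end_sub, end_mul, Ex.eval, pt4]; try push_cast; try field_simp; try ring)
        (by simp only [endCB2, endCB, end_add, end_sub, end_mul, Ex.eval, pt4]; try push_cast; try field_simp; try ring)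
        (by simp only [endCB2, endCB, end_add, end_sub, end_mul, Ex.eval, pt4]; push_cast; positivity)
      have hq0 := hx'.1.2.2.2.1
      have hq1 := hx'.1.2.2.2.2
      norm_num [endCB2, pt4] at hq0 hq1
      obtain ⟨m, hm0, hm1, hp⟩ := cpt_of hb hF hH hB hI' hk hx' (by simp only [pt4]; linarith)
        (by simp only [endCB2, endCB, end_add, end_sub, end_mul, Ex.eval, pt4]; try push_cast; try field_simp; try ring)
      norm_num [endCB2] at hm0 hm1
      simp only [pt4] at hp

      exact coverL hp (by linarith) (by linarith) hd hd1 (by linarith) (by linarith) (by linarith) (by linarith)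
    have h3' : 3 / 5 * (1 - u) < b - a := (lt_div_iff₀ hw).1 h3
    obtain ⟨g, hx'⟩ := endCB3_ok.point hB (x₀ := (1 - u)) (x₁ := (allStabI a b)) (x₂ := ((b - a) / (1 - u)))
      ⟨by norm_num [endCB3, endCB], by norm_num [endCB3] <;> linarith, by norm_num [endCB3] <;> linarith⟩
      ⟨by norm_num [endCB3, endCB], by norm_num [endCB3] <;> linarith, by norm_num [endCB3] <;> linarith⟩
      ⟨by norm_num [endCB3, endCB], by norm_num [endCB3] <;> linarith, by norm_num [endCB3] <;> linarith⟩
      (by simp only [endCB3, endCB, end_add, end_sub, end_mul, Ex.eval, pt4]; try push_cast; try field_simp; try ring)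
      (by simp only [endCB3, endCB, end_add, end_sub, end_mul, Ex.eval, pt4]; try push_cast; try field_simp; try ring)
      (by simp only [endCB3, endCB, end_add, end_sub, end_mul, Ex.eval, pt4]; try push_cast; try field_simp; try ring)
      (by simp only [endCB3, endCB, end_add, end_sub, end_mul, Ex.eval, pt4]; push_cast; positivity)
    have hq0 := hx'.1.2.2.2.1
    have hq1 := hx'.1.2.2.2.2
    norm_num [endCB3, pt4] at hq0 hq1
    obtain ⟨m, hm0, hm1, hp⟩ := cpt_of hb hF hH hB hI' hk hx' (by simp only [pt4]; linarith)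
      (by simp only [endCB3, endCB, end_add, end_sub, end_mul, Ex.eval, pt4]; try push_cast; try field_simp; try ring)
    norm_num [endCB3] at hm0 hm1
    simp only [pt4] at hp

    exact coverH hp (by linarith) (by linarith) hd hd1 (by linarith) (by linarith) (by linarith) (by linarith)
  · have h4 : 5 / 12 < (b - a) / (1 - u) := by rw [lt_div_iff₀ hw]; linarith
    obtain ⟨g, hx'⟩ := endCB4_ok.point hB (x₀ := (1 - u)) (x₁ := (allStabI a b)) (x₂ := ((b - a) / (1 - u)))
      ⟨by norm_num [endCB4, endCB], by norm_num [endCB4] <;> linarith, by norm_num [endCB4] <;> linarith⟩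
      ⟨by norm_num [endCB4, endCB], by norm_num [endCB4] <;> linarith, by norm_num [endCB4] <;> linarith⟩
      ⟨by norm_num [endCB4, endCB], by norm_num [endCB4] <;> linarith, by norm_num [endCB4] <;> linarith⟩
      (by simp only [endCB4, endCB, end_add, end_sub, end_mul, Ex.eval, pt4]; try push_cast; try field_simp; try ring)
      (by simp only [endCB4, endCB, end_add, end_sub, end_mul, Ex.eval, pt4]; try push_cast; try field_simp; try ring)
      (by simp only [endCB4, endCB, end_add, end_sub, end_mul, Ex.eval, pt4]; try push_cast; try field_simp; try ring)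
      (by simp only [endCB4, endCB, end_add, end_sub, end_mul, Ex.eval, pt4]; push_cast; positivity)
    have hq0 := hx'.1.2.2.2.1
    have hq1 := hx'.1.2.2.2.2
    norm_num [endCB4, pt4] at hq0 hq1
    obtain ⟨m, hm0, hm1, hp⟩ := cpt_of hb hF hH hB hI' hk hx' (by simp only [pt4]; linarith)
      (by simp only [endCB4, endCB, end_add, end_sub, end_mul, Ex.eval, pt4]; try push_cast; try field_simp; try ring)
    norm_num [endCB4] at hm0 hm1
    simp only [pt4] at hp

    rcases le_or_gt (b - a) (1 / 8) with h8 | h8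
    · exact coverM hp (by linarith) (by linarith) hd1 h8 (by linarith) (by linarith) (by linarith) (by linarith)
    · exact coverK hp (by linarith) (by linarith) h8 (by linarith) (by linarith) (by linarith) (by linarith) (by linarith)

end Vale.Agent.P100.Calib.StripEnd
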