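import Vale.Agent.P100.Calib.SlabStripEndDCover

/-!
# The certificates of the `D` charts from twenty on
-/

set_option linter.unusedVariables false

namespace Vale.Agent.P100.Calib.StripEnd

open Pack Pack.Ex Band StripMid

/-- A chart `D` lies on the side covered by the bins. -/
theorem csigns_side {n : ℕ} {c : EndChart}
    (hI : ∀ x : ℕ → ℝ, c.geo.I.eval x = x 0 * x 1) (hd : ∀ x : ℕ → ℝ, c.geo.d.eval x = x 0)
    (hw : ∀ x : ℕ → ℝ, c.geo.w.eval x = x 0 * x 2)
    (h : ∀ x : ℕ → ℝ, InU c.q₀ (x 0) → InU c.q₁ (x 1) → InU c.q₂ (x 2) →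
      0 < x 0 ∧ x 1 ≤ 1 ∧ x 2 ≤ 1 ∧
        (x 1 ≤ 1 / 2 ∨ 7 / 100 < x 0 ∨ 1 / 10 < x 2 ∨ 3 / 100 < x 0 ∧ x 1 ≤ 7 / 10)) :
    CSigns n c DHigh := by
  intro a b u v t H x hb hF hH hB hI20 hu hx hk
  obtain ⟨⟨h0, h1, h2, -, -⟩, hg, -⟩ := hx
  obtain ⟨p0, p1, p2, p⟩ := h x h0 h1 h2
  have eI : allStabI a b = x 0 * x 1 := hg.hI.symm.trans (hI x)
  have ed : b - a = x 0 := hg.hd.symm.trans (hd x)
  have ew : 1 - u = x 0 * x 2 := hg.hw.symm.trans (hw x)
  refine StripEndD.signs_side hb hF hH hB hI20 hu ?_ ?_ ?_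
  · rw [eI, ed]; exact mul_le_of_le_one_right p0.le p1
  · rw [ew, ed]; exact mul_le_of_le_one_right p0.le p2
  · rw [eI, ed, ew]
    rcases p with q | q | q | ⟨q, q'⟩
    · exact .inl (by linarith [mul_le_mul_of_nonneg_left q p0.le])
    · exact .inr (.inl q)
    · exact .inr (.inr (.inl (by linarith [mul_lt_mul_of_pos_left q p0])))
    · exact .inr (.inr (.inr ⟨q, by linarith [mul_le_mul_of_nonneg_left q' p0.le]⟩))

/-- The ranges of a chart `D`. -/
theorem side_facts {q₀ q₁ q₂ : ℤ × ℤ × ℕ} {x : ℕ → ℝ} (h0 : InU q₀ (x 0)) (h1 : InU q₁ (x 1))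
    (h2 : InU q₂ (x 2)) (a : 0 ≤ q₀.1) (b : (q₁.2.1 : ℝ) / q₁.2.2 ≤ 1)
    (c : (q₂.2.1 : ℝ) / q₂.2.2 ≤ 1) :
    0 < x 0 ∧ x 1 ≤ 1 ∧ x 2 ≤ 1 :=
  ⟨lower_pos a h0, h1.2.2.trans b, h2.2.2.trans c⟩

/-- **The statements for the `D` charts from twenty on.** -/
theorem certsD (n : ℕ) : CertsD n where
  cD00 := csigns_side (fun _ => rfl) (fun _ => rfl) (fun _ => rfl) fun x h0 h1 h2 => by
    obtain ⟨a, b, c⟩ := side_facts h0 h1 h2 (by norm_num [endD00]) (by norm_num [endD00])
      (by norm_num [endD00])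
    exact ⟨a, b, c, .inl (h1.2.2.trans (by norm_num [endD00]))⟩
  cD01 := csigns_side (fun _ => rfl) (fun _ => rfl) (fun _ => rfl) fun x h0 h1 h2 => by
    obtain ⟨a, b, c⟩ := side_facts h0 h1 h2 (by norm_num [endD01]) (by norm_num [endD01])
      (by norm_num [endD01])
    exact ⟨a, b, c, .inl (h1.2.2.trans (by norm_num [endD01]))⟩
  cD02 := csigns_side (fun _ => rfl) (fun _ => rfl) (fun _ => rfl) fun x h0 h1 h2 => by
    obtain ⟨a, b, c⟩ := side_facts h0 h1 h2 (by norm_num [endD02]) (by norm_num [endD02])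
      (by norm_num [endD02])
    exact ⟨a, b, c, .inl (h1.2.2.trans (by norm_num [endD02]))⟩
  cD03 := csigns_side (fun _ => rfl) (fun _ => rfl) (fun _ => rfl) fun x h0 h1 h2 => by
    obtain ⟨a, b, c⟩ := side_facts h0 h1 h2 (by norm_num [endD03]) (by norm_num [endD03])
      (by norm_num [endD03])
    exact ⟨a, b, c, .inl (h1.2.2.trans (by norm_num [endD03]))⟩
  cD04 := csigns_side (fun _ => rfl) (fun _ => rfl) (fun _ => rfl) fun x h0 h1 h2 => by
    obtain ⟨a, b, c⟩ := side_facts h0 h1 h2 (by norm_num [endD04]) (by norm_num [endD04])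
      (by norm_num [endD04])
    exact ⟨a, b, c, .inl (h1.2.2.trans (by norm_num [endD04]))⟩
  cD05 := csigns_side (fun _ => rfl) (fun _ => rfl) (fun _ => rfl) fun x h0 h1 h2 => by
    obtain ⟨a, b, c⟩ := side_facts h0 h1 h2 (by norm_num [endD05]) (by norm_num [endD05])
      (by norm_num [endD05])
    exact ⟨a, b, c, .inl (h1.2.2.trans (by norm_num [endD05]))⟩
  cD06 := csigns_side (fun _ => rfl) (fun _ => rfl) (fun _ => rfl) fun x h0 h1 h2 => by
    obtain ⟨a, b, c⟩ := side_facts h0 h1 h2 (by norm_num [endD06]) (by norm_num [endD06])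
      (by norm_num [endD06])
    exact ⟨a, b, c, .inr (.inr (.inl (lt_of_le_of_lt (by norm_num [endD06]) h2.2.1)))⟩
  cD07 := csigns_side (fun _ => rfl) (fun _ => rfl) (fun _ => rfl) fun x h0 h1 h2 => by
    obtain ⟨a, b, c⟩ := side_facts h0 h1 h2 (by norm_num [endD07]) (by norm_num [endD07])
      (by norm_num [endD07])
    exact ⟨a, b, c, .inl (h1.2.2.trans (by norm_num [endD07]))⟩
  cD08 := csigns_side (fun _ => rfl) (fun _ => rfl) (fun _ => rfl) fun x h0 h1 h2 => by
    obtain ⟨a, b, c⟩ := side_facts h0 h1 h2 (by norm_num [endD08]) (by norm_num [endD08])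
      (by norm_num [endD08])
    exact ⟨a, b, c, .inl (h1.2.2.trans (by norm_num [endD08]))⟩
  cD09 := csigns_side (fun _ => rfl) (fun _ => rfl) (fun _ => rfl) fun x h0 h1 h2 => by
    obtain ⟨a, b, c⟩ := side_facts h0 h1 h2 (by norm_num [endD09]) (by norm_num [endD09])
      (by norm_num [endD09])
    exact ⟨a, b, c, .inl (h1.2.2.trans (by norm_num [endD09]))⟩
  cD10 := csigns_side (fun _ => rfl) (fun _ => rfl) (fun _ => rfl) fun x h0 h1 h2 => by
    obtain ⟨a, b, c⟩ := side_facts h0 h1 h2 (by norm_num [endD10]) (by norm_num [endD10])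
      (by norm_num [endD10])
    exact ⟨a, b, c, .inl (h1.2.2.trans (by norm_num [endD10]))⟩
  cD11 := csigns_side (fun _ => rfl) (fun _ => rfl) (fun _ => rfl) fun x h0 h1 h2 => by
    obtain ⟨a, b, c⟩ := side_facts h0 h1 h2 (by norm_num [endD11]) (by norm_num [endD11])
      (by norm_num [endD11])
    exact ⟨a, b, c, .inl (h1.2.2.trans (by norm_num [endD11]))⟩
  cD12 := csigns_side (fun _ => rfl) (fun _ => rfl) (fun _ => rfl) fun x h0 h1 h2 => by
    obtain ⟨a, b, c⟩ := side_facts h0 h1 h2 (by norm_num [endD12]) (by norm_num [endD12])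
      (by norm_num [endD12])
    exact ⟨a, b, c, .inl (h1.2.2.trans (by norm_num [endD12]))⟩
  cD13 := csigns_side (fun _ => rfl) (fun _ => rfl) (fun _ => rfl) fun x h0 h1 h2 => by
    obtain ⟨a, b, c⟩ := side_facts h0 h1 h2 (by norm_num [endD13]) (by norm_num [endD13])
      (by norm_num [endD13])
    exact ⟨a, b, c, .inl (h1.2.2.trans (by norm_num [endD13]))⟩
  cD14 := csigns_side (fun _ => rfl) (fun _ => rfl) (fun _ => rfl) fun x h0 h1 h2 => by
    obtain ⟨a, b, c⟩ := side_facts h0 h1 h2 (by norm_num [endD14]) (by norm_num [endD14])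
      (by norm_num [endD14])
    exact ⟨a, b, c, .inl (h1.2.2.trans (by norm_num [endD14]))⟩
  cD15 := csigns_side (fun _ => rfl) (fun _ => rfl) (fun _ => rfl) fun x h0 h1 h2 => by
    obtain ⟨a, b, c⟩ := side_facts h0 h1 h2 (by norm_num [endD15]) (by norm_num [endD15])
      (by norm_num [endD15])
    exact ⟨a, b, c, .inl (h1.2.2.trans (by norm_num [endD15]))⟩
  cD16 := csigns_side (fun _ => rfl) (fun _ => rfl) (fun _ => rfl) fun x h0 h1 h2 => by
    obtain ⟨a, b, c⟩ := side_facts h0 h1 h2 (by norm_num [endD16]) (by norm_num [endD16])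
      (by norm_num [endD16])
    exact ⟨a, b, c, .inr (.inr (.inl (lt_of_le_of_lt (by norm_num [endD16]) h2.2.1)))⟩
  cD17 := csigns_side (fun _ => rfl) (fun _ => rfl) (fun _ => rfl) fun x h0 h1 h2 => by
    obtain ⟨a, b, c⟩ := side_facts h0 h1 h2 (by norm_num [endD17]) (by norm_num [endD17])
      (by norm_num [endD17])
    exact ⟨a, b, c, .inr (.inl (lt_of_le_of_lt (by norm_num [endD17]) h0.2.1))⟩
  cD18 := csigns_side (fun _ => rfl) (fun _ => rfl) (fun _ => rfl) fun x h0 h1 h2 => by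
    obtain ⟨a, b, c⟩ := side_facts h0 h1 h2 (by norm_num [endD18]) (by norm_num [endD18])
      (by norm_num [endD18])
    exact ⟨a, b, c, .inl (h1.2.2.trans (by norm_num [endD18]))⟩
  cD19 := csigns_side (fun _ => rfl) (fun _ => rfl) (fun _ => rfl) fun x h0 h1 h2 => by
    obtain ⟨a, b, c⟩ := side_facts h0 h1 h2 (by norm_num [endD19]) (by norm_num [endD19])
      (by norm_num [endD19])
    exact ⟨a, b, c, .inl (h1.2.2.trans (by norm_num [endD19]))⟩
  cD20 := csigns_side (fun _ => rfl) (fun _ => rfl) (fun _ => rfl) fun x h0 h1 h2 => by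
    obtain ⟨a, b, c⟩ := side_facts h0 h1 h2 (by norm_num [endD20]) (by norm_num [endD20])
      (by norm_num [endD20])
    exact ⟨a, b, c, .inl (h1.2.2.trans (by norm_num [endD20]))⟩
  cD21 := csigns_side (fun _ => rfl) (fun _ => rfl) (fun _ => rfl) fun x h0 h1 h2 => by
    obtain ⟨a, b, c⟩ := side_facts h0 h1 h2 (by norm_num [endD21]) (by norm_num [endD21])
      (by norm_num [endD21])
    exact ⟨a, b, c, .inl (h1.2.2.trans (by norm_num [endD21]))⟩
  cD22 := csigns_side (fun _ => rfl) (fun _ => rfl) (fun _ => rfl) fun x h0 h1 h2 => by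
    obtain ⟨a, b, c⟩ := side_facts h0 h1 h2 (by norm_num [endD22]) (by norm_num [endD22])
      (by norm_num [endD22])
    exact ⟨a, b, c, .inl (h1.2.2.trans (by norm_num [endD22]))⟩
  cD23 := csigns_side (fun _ => rfl) (fun _ => rfl) (fun _ => rfl) fun x h0 h1 h2 => by
    obtain ⟨a, b, c⟩ := side_facts h0 h1 h2 (by norm_num [endD23]) (by norm_num [endD23])
      (by norm_num [endD23])
    exact ⟨a, b, c, .inl (h1.2.2.trans (by norm_num [endD23]))⟩
  cD24 := csigns_side (fun _ => rfl) (fun _ => rfl) (fun _ => rfl) fun x h0 h1 h2 => by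
    obtain ⟨a, b, c⟩ := side_facts h0 h1 h2 (by norm_num [endD24]) (by norm_num [endD24])
      (by norm_num [endD24])
    exact ⟨a, b, c, .inl (h1.2.2.trans (by norm_num [endD24]))⟩
  cD25 := csigns_side (fun _ => rfl) (fun _ => rfl) (fun _ => rfl) fun x h0 h1 h2 => by
    obtain ⟨a, b, c⟩ := side_facts h0 h1 h2 (by norm_num [endD25]) (by norm_num [endD25])
      (by norm_num [endD25])
    exact ⟨a, b, c, .inl (h1.2.2.trans (by norm_num [endD25]))⟩
  cD26 := csigns_side (fun _ => rfl) (fun _ => rfl) (fun _ => rfl) fun x h0 h1 h2 => by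
    obtain ⟨a, b, c⟩ := side_facts h0 h1 h2 (by norm_num [endD26]) (by norm_num [endD26])
      (by norm_num [endD26])
    exact ⟨a, b, c, .inl (h1.2.2.trans (by norm_num [endD26]))⟩
  cD27 := csigns_side (fun _ => rfl) (fun _ => rfl) (fun _ => rfl) fun x h0 h1 h2 => by
    obtain ⟨a, b, c⟩ := side_facts h0 h1 h2 (by norm_num [endD27]) (by norm_num [endD27])
      (by norm_num [endD27])
    exact ⟨a, b, c, .inl (h1.2.2.trans (by norm_num [endD27]))⟩
  cD28 := csigns_side (fun _ => rfl) (fun _ => rfl) (fun _ => rfl) fun x h0 h1 h2 => by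
    obtain ⟨a, b, c⟩ := side_facts h0 h1 h2 (by norm_num [endD28]) (by norm_num [endD28])
      (by norm_num [endD28])
    exact ⟨a, b, c, .inl (h1.2.2.trans (by norm_num [endD28]))⟩
  cD29 := csigns_side (fun _ => rfl) (fun _ => rfl) (fun _ => rfl) fun x h0 h1 h2 => by
    obtain ⟨a, b, c⟩ := side_facts h0 h1 h2 (by norm_num [endD29]) (by norm_num [endD29])
      (by norm_num [endD29])
    exact ⟨a, b, c, .inl (h1.2.2.trans (by norm_num [endD29]))⟩
  cD30 := csigns_side (fun _ => rfl) (fun _ => rfl) (fun _ => rfl) fun x h0 h1 h2 => by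
    obtain ⟨a, b, c⟩ := side_facts h0 h1 h2 (by norm_num [endD30]) (by norm_num [endD30])
      (by norm_num [endD30])
    exact ⟨a, b, c, .inl (h1.2.2.trans (by norm_num [endD30]))⟩
  cD31 := csigns_side (fun _ => rfl) (fun _ => rfl) (fun _ => rfl) fun x h0 h1 h2 => by
    obtain ⟨a, b, c⟩ := side_facts h0 h1 h2 (by norm_num [endD31]) (by norm_num [endD31])
      (by norm_num [endD31])
    exact ⟨a, b, c, .inl (h1.2.2.trans (by norm_num [endD31]))⟩
  cD32 := csigns_side (fun _ => rfl) (fun _ => rfl) (fun _ => rfl) fun x h0 h1 h2 => by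
    obtain ⟨a, b, c⟩ := side_facts h0 h1 h2 (by norm_num [endD32]) (by norm_num [endD32])
      (by norm_num [endD32])
    exact ⟨a, b, c, .inl (h1.2.2.trans (by norm_num [endD32]))⟩
  cD33 := csigns_side (fun _ => rfl) (fun _ => rfl) (fun _ => rfl) fun x h0 h1 h2 => by
    obtain ⟨a, b, c⟩ := side_facts h0 h1 h2 (by norm_num [endD33]) (by norm_num [endD33])
      (by norm_num [endD33])
    exact ⟨a, b, c, .inl (h1.2.2.trans (by norm_num [endD33]))⟩
  cD34 := csigns_side (fun _ => rfl) (fun _ => rfl) (fun _ => rfl) fun x h0 h1 h2 => by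
    obtain ⟨a, b, c⟩ := side_facts h0 h1 h2 (by norm_num [endD34]) (by norm_num [endD34])
      (by norm_num [endD34])
    exact ⟨a, b, c, .inl (h1.2.2.trans (by norm_num [endD34]))⟩
  cD35 := csigns_side (fun _ => rfl) (fun _ => rfl) (fun _ => rfl) fun x h0 h1 h2 => by
    obtain ⟨a, b, c⟩ := side_facts h0 h1 h2 (by norm_num [endD35]) (by norm_num [endD35])
      (by norm_num [endD35])
    exact ⟨a, b, c, .inl (h1.2.2.trans (by norm_num [endD35]))⟩
  cD36 := csigns_side (fun _ => rfl) (fun _ => rfl) (fun _ => rfl) fun x h0 h1 h2 => by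
    obtain ⟨a, b, c⟩ := side_facts h0 h1 h2 (by norm_num [endD36]) (by norm_num [endD36])
      (by norm_num [endD36])
    exact ⟨a, b, c, .inl (h1.2.2.trans (by norm_num [endD36]))⟩
  cD37 := csigns_side (fun _ => rfl) (fun _ => rfl) (fun _ => rfl) fun x h0 h1 h2 => by
    obtain ⟨a, b, c⟩ := side_facts h0 h1 h2 (by norm_num [endD37]) (by norm_num [endD37])
      (by norm_num [endD37])
    exact ⟨a, b, c, .inl (h1.2.2.trans (by norm_num [endD37]))⟩
  cD38 := csigns_side (fun _ => rfl) (fun _ => rfl) (fun _ => rfl) fun x h0 h1 h2 => by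
    obtain ⟨a, b, c⟩ := side_facts h0 h1 h2 (by norm_num [endD38]) (by norm_num [endD38])
      (by norm_num [endD38])
    exact ⟨a, b, c, .inl (h1.2.2.trans (by norm_num [endD38]))⟩
  cD39 := csigns_side (fun _ => rfl) (fun _ => rfl) (fun _ => rfl) fun x h0 h1 h2 => by
    obtain ⟨a, b, c⟩ := side_facts h0 h1 h2 (by norm_num [endD39]) (by norm_num [endD39])
      (by norm_num [endD39])
    exact ⟨a, b, c, .inl (h1.2.2.trans (by norm_num [endD39]))⟩
  cD40 := csigns_side (fun _ => rfl) (fun _ => rfl) (fun _ => rfl) fun x h0 h1 h2 => by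
    obtain ⟨a, b, c⟩ := side_facts h0 h1 h2 (by norm_num [endD40]) (by norm_num [endD40])
      (by norm_num [endD40])
    exact ⟨a, b, c, .inl (h1.2.2.trans (by norm_num [endD40]))⟩
  cD41 := csigns_side (fun _ => rfl) (fun _ => rfl) (fun _ => rfl) fun x h0 h1 h2 => by
    obtain ⟨a, b, c⟩ := side_facts h0 h1 h2 (by norm_num [endD41]) (by norm_num [endD41])
      (by norm_num [endD41])
    exact ⟨a, b, c, .inl (h1.2.2.trans (by norm_num [endD41]))⟩
  cD42 := csigns_side (fun _ => rfl) (fun _ => rfl) (fun _ => rfl) fun x h0 h1 h2 => by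
    obtain ⟨a, b, c⟩ := side_facts h0 h1 h2 (by norm_num [endD42]) (by norm_num [endD42])
      (by norm_num [endD42])
    exact ⟨a, b, c, .inl (h1.2.2.trans (by norm_num [endD42]))⟩
  cD43 := csigns_side (fun _ => rfl) (fun _ => rfl) (fun _ => rfl) fun x h0 h1 h2 => by
    obtain ⟨a, b, c⟩ := side_facts h0 h1 h2 (by norm_num [endD43]) (by norm_num [endD43])
      (by norm_num [endD43])
    exact ⟨a, b, c, .inl (h1.2.2.trans (by norm_num [endD43]))⟩
  cD44 := csigns_side (fun _ => rfl) (fun _ => rfl) (fun _ => rfl) fun x h0 h1 h2 => by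
    obtain ⟨a, b, c⟩ := side_facts h0 h1 h2 (by norm_num [endD44]) (by norm_num [endD44])
      (by norm_num [endD44])
    exact ⟨a, b, c, .inl (h1.2.2.trans (by norm_num [endD44]))⟩
  cD45 := csigns_side (fun _ => rfl) (fun _ => rfl) (fun _ => rfl) fun x h0 h1 h2 => by
    obtain ⟨a, b, c⟩ := side_facts h0 h1 h2 (by norm_num [endD45]) (by norm_num [endD45])
      (by norm_num [endD45])
    exact ⟨a, b, c, .inl (h1.2.2.trans (by norm_num [endD45]))⟩
  cD46 := csigns_side (fun _ => rfl) (fun _ => rfl) (fun _ => rfl) fun x h0 h1 h2 => by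
    obtain ⟨a, b, c⟩ := side_facts h0 h1 h2 (by norm_num [endD46]) (by norm_num [endD46])
      (by norm_num [endD46])
    exact ⟨a, b, c, .inl (h1.2.2.trans (by norm_num [endD46]))⟩
  cD47 := csigns_side (fun _ => rfl) (fun _ => rfl) (fun _ => rfl) fun x h0 h1 h2 => by
    obtain ⟨a, b, c⟩ := side_facts h0 h1 h2 (by norm_num [endD47]) (by norm_num [endD47])
      (by norm_num [endD47])
    exact ⟨a, b, c, .inl (h1.2.2.trans (by norm_num [endD47]))⟩
  cD48 := csigns_side (fun _ => rfl) (fun _ => rfl) (fun _ => rfl) fun x h0 h1 h2 => by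
    obtain ⟨a, b, c⟩ := side_facts h0 h1 h2 (by norm_num [endD48]) (by norm_num [endD48])
      (by norm_num [endD48])
    exact ⟨a, b, c, .inl (h1.2.2.trans (by norm_num [endD48]))⟩
  cD49 := csigns_side (fun _ => rfl) (fun _ => rfl) (fun _ => rfl) fun x h0 h1 h2 => by
    obtain ⟨a, b, c⟩ := side_facts h0 h1 h2 (by norm_num [endD49]) (by norm_num [endD49])
      (by norm_num [endD49])
    exact ⟨a, b, c, .inl (h1.2.2.trans (by norm_num [endD49]))⟩
  cD50 := csigns_side (fun _ => rfl) (fun _ => rfl) (fun _ => rfl) fun x h0 h1 h2 => by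
    obtain ⟨a, b, c⟩ := side_facts h0 h1 h2 (by norm_num [endD50]) (by norm_num [endD50])
      (by norm_num [endD50])
    exact ⟨a, b, c, .inl (h1.2.2.trans (by norm_num [endD50]))⟩
  cD51 := csigns_side (fun _ => rfl) (fun _ => rfl) (fun _ => rfl) fun x h0 h1 h2 => by
    obtain ⟨a, b, c⟩ := side_facts h0 h1 h2 (by norm_num [endD51]) (by norm_num [endD51])
      (by norm_num [endD51])
    exact ⟨a, b, c, .inl (h1.2.2.trans (by norm_num [endD51]))⟩
  cD52 := csigns_side (fun _ => rfl) (fun _ => rfl) (fun _ => rfl) fun x h0 h1 h2 => by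
    obtain ⟨a, b, c⟩ := side_facts h0 h1 h2 (by norm_num [endD52]) (by norm_num [endD52])
      (by norm_num [endD52])
    exact ⟨a, b, c, .inr (.inr (.inr ⟨lt_of_le_of_lt (by norm_num [endD52]) h0.2.1, h1.2.2.trans (by norm_num [endD52])⟩))⟩
  cD53 := csigns_side (fun _ => rfl) (fun _ => rfl) (fun _ => rfl) fun x h0 h1 h2 => by
    obtain ⟨a, b, c⟩ := side_facts h0 h1 h2 (by norm_num [endD53]) (by norm_num [endD53])
      (by norm_num [endD53])
    exact ⟨a, b, c, .inr (.inr (.inr ⟨lt_of_le_of_lt (by norm_num [endD53]) h0.2.1, h1.2.2.trans (by norm_num [endD53])⟩))⟩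
  cD54 := csigns_side (fun _ => rfl) (fun _ => rfl) (fun _ => rfl) fun x h0 h1 h2 => by
    obtain ⟨a, b, c⟩ := side_facts h0 h1 h2 (by norm_num [endD54]) (by norm_num [endD54])
      (by norm_num [endD54])
    exact ⟨a, b, c, .inr (.inl (lt_of_le_of_lt (by norm_num [endD54]) h0.2.1))⟩
  cD55 := csigns_side (fun _ => rfl) (fun _ => rfl) (fun _ => rfl) fun x h0 h1 h2 => by
    obtain ⟨a, b, c⟩ := side_facts h0 h1 h2 (by norm_num [endD55]) (by norm_num [endD55])
      (by norm_num [endD55])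
    exact ⟨a, b, c, .inr (.inr (.inl (lt_of_le_of_lt (by norm_num [endD55]) h2.2.1)))⟩
  cD56 := csigns_side (fun _ => rfl) (fun _ => rfl) (fun _ => rfl) fun x h0 h1 h2 => by
    obtain ⟨a, b, c⟩ := side_facts h0 h1 h2 (by norm_num [endD56]) (by norm_num [endD56])
      (by norm_num [endD56])
    exact ⟨a, b, c, .inr (.inr (.inl (lt_of_le_of_lt (by norm_num [endD56]) h2.2.1)))⟩
  cD57 := csigns_side (fun _ => rfl) (fun _ => rfl) (fun _ => rfl) fun x h0 h1 h2 => by
    obtain ⟨a, b, c⟩ := side_facts h0 h1 h2 (by norm_num [endD57]) (by norm_num [endD57])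
      (by norm_num [endD57])
    exact ⟨a, b, c, .inr (.inl (lt_of_le_of_lt (by norm_num [endD57]) h0.2.1))⟩

end Vale.Agent.P100.Calib.StripEnd
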