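import Vale.Agent.P100.Calib.SlabStripEndSigns
import Vale.Agent.P100.Calib.SlabStripEndChkIAta
import Vale.Agent.P100.Calib.SlabStripEndChkIAtb
import Vale.Agent.P100.Calib.SlabStripEndChkIAu
import Vale.Agent.P100.Calib.SlabStripEndChkIBta
import Vale.Agent.P100.Calib.SlabStripEndChkIBtb
import Vale.Agent.P100.Calib.SlabStripEndChkIBu
import Vale.Agent.P100.Calib.SlabStripEndChkICta
import Vale.Agent.P100.Calib.SlabStripEndChkICtb
import Vale.Agent.P100.Calib.SlabStripEndChkICu
import Vale.Agent.P100.Calib.SlabStripEndChkIDp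
import Vale.Agent.P100.Calib.SlabStripEndChkIDqa
import Vale.Agent.P100.Calib.SlabStripEndChkIDqb
import Vale.Agent.P100.Calib.SlabStripEndChkIDr
import Vale.Agent.P100.Calib.SlabStripEndChkIDu
import Vale.Agent.P100.Calib.SlabStripEndChkIEpa
import Vale.Agent.P100.Calib.SlabStripEndChkIEpb
import Vale.Agent.P100.Calib.SlabStripEndChkIEqa
import Vale.Agent.P100.Calib.SlabStripEndChkIEqb
import Vale.Agent.P100.Calib.SlabStripEndChkIEu
import Vale.Agent.P100.Calib.SlabStripEndChkZA
import Vale.Agent.P100.Calib.SlabStripEndChkZB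

/-!
# The signs over the charts `I` from twenty on
-/

set_option linter.unusedVariables false

namespace Vale.Agent.P100.Calib.StripEnd

open Pack Pack.Ex Band StripMid

local instance endSigIAdd : Add Ex := ⟨Ex.add⟩
local instance endSigISub : Sub Ex := ⟨Ex.sub⟩
local instance endSigIMul : Mul Ex := ⟨Ex.mul⟩

variable {P : Piece} {B : EBox} {c : EndChart} {n : ℕ} {a b u v t H : ℝ} {x : ℕ → ℝ}

/-- The signs over a piece below the kink of `D2`. -/
theorem signs_low (K : CertS P B) (hc : P.Over c) (e0 : P.cn.eval x = 0) (hB : B.Mem x)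
    (hx : c.Point x a b u v H) (hb : Closed.All.ChartBox n (b - a) (a + b))
    (hF : Closed.All.ChartFacts (b - a) (a + b) u v t)
    (hH : Closed.chH (b - a) (a + b) u v t = H) (hk : DLow a b) :
    Closed.Strip.ChartSigns (b - a) (a + b) u v t := by
  have h := K.place hB
  have eI : P.I.eval x = allStabI a b := (hc.I x).trans hx.2.1.hI
  have ed : P.d.eval x = b - a := (hc.d x).trans hx.2.1.hd
  have eS : P.S.eval x = 1 - 2 * P.I.eval x := by
    simp only [Piece.S, ev_sub, ev_mul, ev_num]; norm_num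
  have eA : 2 * xa P x = P.S.eval x - P.d.eval x := by
    simp only [xa, Piece.A, ev_sub]; ring
  have eab : a + b = P.S.eval x := by rw [eS, eI, allStabI]; ring
  have hle : P.d.eval x * (1 - P.I.eval x) ≤ P.S.eval x * P.I.eval x := by
    rw [← eab, eI, ed]; exact hk
  refine signs_of_certS K hB e0.ge hc hx hb hF hH (kap_flat h.I h.d h.S eS eA ⟨fun _ => ?_, fun h1 => ?_⟩)
  · rw [kap, e0, zero_div]
  · rw [kap, e0, zero_div, le_antisymm hle h1, sub_self, zero_div]

/-- The signs over a piece above the kink of `D2`. -/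
theorem signs_high (K : CertS P B) (hc : P.Over c)
    (e0 : P.cn.eval x * (P.S.eval x ^ 2 * P.d.eval x) =
      P.cd.eval x * (P.d.eval x * (1 - P.I.eval x) - P.S.eval x * P.I.eval x))
    (hB : B.Mem x) (hx : c.Point x a b u v H) (hb : Closed.All.ChartBox n (b - a) (a + b))
    (hF : Closed.All.ChartFacts (b - a) (a + b) u v t)
    (hH : Closed.chH (b - a) (a + b) u v t = H) (hk : DHigh a b) :
    Closed.Strip.ChartSigns (b - a) (a + b) u v t := by
  have h := K.place hB
  have eI : P.I.eval x = allStabI a b := (hc.I x).trans hx.2.1.hI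
  have ed : P.d.eval x = b - a := (hc.d x).trans hx.2.1.hd
  have eS : P.S.eval x = 1 - 2 * P.I.eval x := by
    simp only [Piece.S, ev_sub, ev_mul, ev_num]; norm_num
  have eA : 2 * xa P x = P.S.eval x - P.d.eval x := by
    simp only [xa, Piece.A, ev_sub]; ring
  have eab : a + b = P.S.eval x := by rw [eS, eI, allStabI]; ring
  have hle : P.S.eval x * P.I.eval x ≤ P.d.eval x * (1 - P.I.eval x) := by
    rw [← eab, eI, ed]; exact hk
  have hcd := h.cd
  have hS := h.S
  have hd := h.d
  have hk' : kap P x =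
      (P.d.eval x * (1 - P.I.eval x) - P.S.eval x * P.I.eval x) / (P.S.eval x ^ 2 * P.d.eval x) := by
    rw [kap, div_eq_div_iff hcd.ne' (by positivity), e0]; ring
  have hcn : 0 ≤ P.cn.eval x :=
    nonneg_of_mul_nonneg_left (e0.ge.trans' (mul_nonneg hcd.le (sub_nonneg.2 hle))) (by positivity)
  refine signs_of_certS K hB hcn hc hx hb hF hH (kap_flat h.I h.d h.S eS eA ⟨fun h0 => ?_, fun _ => hk'⟩)
  rw [hk', le_antisymm h0 hle, sub_self, zero_div]


/-- The signs over the chart `IAt`. -/
theorem cIAt_signs (n : ℕ) : CSigns n endIAt DLow := by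
  intro a b u v t H x hb hF hH _ _ _ hx hk
  obtain ⟨h0, h1, h2, h3l, h3u⟩ := hx.1
  norm_num [endIAt] at h3l h3u
  rcases lt_or_ge (x 3) (1 / 2 : ℝ) with g | g
  · refine signs_low certIAta
        ⟨fun x => by simp only [pcIAta, endIAt, ev_add, ev_sub, ev_mul, ev_num, Ex.eval] <;> push_cast <;> ring, fun x => by simp only [pcIAta, endIAt, ev_add, ev_sub, ev_mul, ev_num, Ex.eval] <;> push_cast <;> ring, fun x => by simp only [pcIAta, endIAt, ev_add, ev_sub, ev_mul, ev_num, Ex.eval] <;> push_cast <;> ring, fun x => by simp only [pcIAta, endIAt, ev_add, ev_sub, ev_mul, ev_num, Ex.eval] <;> push_cast <;> ring, fun x => by simp only [pcIAta, endIAt, ev_add, ev_sub, ev_mul, ev_num, Ex.eval] <;> push_cast <;> ring, rfl, rfl⟩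
        (by simp only [pcIAta, Piece.S, ev_add, ev_sub, ev_mul, ev_num, ev_pow, Ex.eval] <;> push_cast <;> ring)
        ⟨h0, h1, h2, by norm_num [InR, bxIAta] <;> constructor <;> linarith⟩ hx hb hF hH hk
  · refine signs_low certIAtb
        ⟨fun x => by simp only [pcIAtb, endIAt, ev_add, ev_sub, ev_mul, ev_num, Ex.eval] <;> push_cast <;> ring, fun x => by simp only [pcIAtb, endIAt, ev_add, ev_sub, ev_mul, ev_num, Ex.eval] <;> push_cast <;> ring, fun x => by simp only [pcIAtb, endIAt, ev_add, ev_sub, ev_mul, ev_num, Ex.eval] <;> push_cast <;> ring, fun x => by simp only [pcIAtb, endIAt, ev_add, ev_sub, ev_mul, ev_num, Ex.eval] <;> push_cast <;> ring, fun x => by simp only [pcIAtb, endIAt, ev_add, ev_sub, ev_mul, ev_num, Ex.eval] <;> push_cast <;> ring, rfl, rfl⟩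
        (by simp only [pcIAtb, Piece.S, ev_add, ev_sub, ev_mul, ev_num, ev_pow, Ex.eval] <;> push_cast <;> ring)
        ⟨h0, h1, h2, by norm_num [InR, bxIAtb] <;> constructor <;> linarith⟩ hx hb hF hH hk


/-- The signs over the chart `IAu`. -/
theorem cIAu_signs (n : ℕ) : CSigns n endIAu DLow := by
  intro a b u v t H x hb hF hH _ _ _ hx hk
  obtain ⟨h0, h1, h2, h3l, h3u⟩ := hx.1
  norm_num [endIAu] at h3l h3u
  refine signs_low certIAu
        ⟨fun x => by simp only [pcIAu, endIAu, ev_add, ev_sub, ev_mul, ev_num, Ex.eval] <;> push_cast <;> ring, fun x => by simp only [pcIAu, endIAu, ev_add, ev_sub, ev_mul, ev_num, Ex.eval] <;> push_cast <;> ring, fun x => by simp only [pcIAu, endIAu, ev_add, ev_sub, ev_mul, ev_num, Ex.eval] <;> push_cast <;> ring, fun x => by simp only [pcIAu, endIAu, ev_add, ev_sub, ev_mul, ev_num, Ex.eval] <;> push_cast <;> ring, fun x => by simp only [pcIAu, endIAu, ev_add, ev_sub, ev_mul, ev_num, Ex.eval] <;> push_cast <;> ring, rfl, rfl⟩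
        (by simp only [pcIAu, Piece.S, ev_add, ev_sub, ev_mul, ev_num, ev_pow, Ex.eval] <;> push_cast <;> ring)
        ⟨h0, h1, h2, by norm_num [InR, bxIAu] <;> constructor <;> linarith⟩ hx hb hF hH hk


/-- The signs over the chart `IBt`. -/
theorem cIBt_signs (n : ℕ) : CSigns n endIBt DLow := by
  intro a b u v t H x hb hF hH _ _ _ hx hk
  obtain ⟨h0, h1, h2, h3l, h3u⟩ := hx.1
  norm_num [endIBt] at h3l h3u
  rcases lt_or_ge (x 3) (1 / 2 : ℝ) with g | g
  · refine signs_low certIBta
        ⟨fun x => by simp only [pcIBta, endIBt, ev_add, ev_sub, ev_mul, ev_num, Ex.eval] <;> push_cast <;> ring, fun x => by simp only [pcIBta, endIBt, ev_add, ev_sub, ev_mul, ev_num, Ex.eval] <;> push_cast <;> ring, fun x => by simp only [pcIBta, endIBt, ev_add, ev_sub, ev_mul, ev_num, Ex.eval] <;> push_cast <;> ring, fun x => by simp only [pcIBta, endIBt, ev_add, ev_sub, ev_mul, ev_num, Ex.eval] <;> push_cast <;> ring, fun x => by simp only [pcIBta, endIBt, ev_add, ev_sub, ev_mul, ev_num, Ex.eval]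 <;> push_cast <;> ring, rfl, rfl⟩
        (by simp only [pcIBta, Piece.S, ev_add, ev_sub, ev_mul, ev_num, ev_pow, Ex.eval] <;> push_cast <;> ring)
        ⟨h0, h1, h2, by norm_num [InR, bxIBta] <;> constructor <;> linarith⟩ hx hb hF hH hk
  · refine signs_low certIBtb
        ⟨fun x => by simp only [pcIBtb, endIBt, ev_add, ev_sub, ev_mul, ev_num, Ex.eval] <;> push_cast <;> ring, fun x => by simp only [pcIBtb, endIBt, ev_add, ev_sub, ev_mul, ev_num, Ex.eval] <;> push_cast <;> ring, fun x => by simp only [pcIBtb, endIBt, ev_add, ev_sub, ev_mul, ev_num, Ex.eval] <;> push_cast <;> ring, fun x => by simp only [pcIBtb, endIBt, ev_add, ev_sub, ev_mul, ev_num, Ex.eval] <;> push_cast <;> ring, fun x => by simp only [pcIBtb, endIBt, ev_add, ev_sub, ev_mul, ev_num, Ex.eval] <;> push_cast <;> ring, rfl, rfl⟩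
        (by simp only [pcIBtb, Piece.S, ev_add, ev_sub, ev_mul, ev_num, ev_pow, Ex.eval] <;> push_cast <;> ring)
        ⟨h0, h1, h2, by norm_num [InR, bxIBtb] <;> constructor <;> linarith⟩ hx hb hF hH hk


/-- The signs over the chart `IBu`. -/
theorem cIBu_signs (n : ℕ) : CSigns n endIBu DLow := by
  intro a b u v t H x hb hF hH _ _ _ hx hk
  obtain ⟨h0, h1, h2, h3l, h3u⟩ := hx.1
  norm_num [endIBu] at h3l h3u
  refine signs_low certIBu
        ⟨fun x => by simp only [pcIBu, endIBu, ev_add, ev_sub, ev_mul, ev_num, Ex.eval] <;> push_cast <;> ring, fun x => by simp only [pcIBu, endIBu, ev_add, ev_sub, ev_mul, ev_num, Ex.eval] <;> push_cast <;> ring, fun x => by simp only [pcIBu, endIBu, ev_add, ev_sub, ev_mul, ev_num, Ex.eval] <;> push_cast <;> ring, fun x => by simp only [pcIBu, endIBu, ev_add, ev_sub, ev_mul, ev_num, Ex.eval] <;> push_cast <;> ring, fun x => by simp only [pcIBu, endIBu, ev_add, ev_sub, ev_mul, ev_num, Ex.eval] <;> push_cast <;> ring, rfl, rfl⟩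
        (by simp only [pcIBu, Piece.S, ev_add, ev_sub, ev_mul, ev_num, ev_pow, Ex.eval] <;> push_cast <;> ring)
        ⟨h0, h1, h2, by norm_num [InR, bxIBu] <;> constructor <;> linarith⟩ hx hb hF hH hk


/-- The signs over the chart `ICt`. -/
theorem cICt_signs (n : ℕ) : CSigns n endICt DLow := by
  intro a b u v t H x hb hF hH _ _ _ hx hk
  obtain ⟨h0, h1, h2, h3l, h3u⟩ := hx.1
  norm_num [endICt] at h3l h3u
  rcases lt_or_ge (x 3) (1 / 2 : ℝ) with g | g
  · refine signs_low certICta
        ⟨fun x => by simp only [pcICta, endICt, ev_add, ev_sub, ev_mul, ev_num, Ex.eval] <;> push_cast <;> ring, fun x => by simp only [pcICta, endICt, ev_add, ev_sub, ev_mul, ev_num, Ex.eval] <;> push_cast <;> ring, fun x => by simp only [pcICta, endICt, ev_add, ev_sub, ev_mul, ev_num, Ex.eval] <;> push_cast <;> ring, fun x => by simp only [pcICta, endICt, ev_add, ev_sub, ev_mul, ev_num, Ex.eval] <;> push_cast <;> ring, fun x => by simp only [pcICta, endICt, ev_add, ev_sub, ev_mul, ev_num, Ex.eval]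 <;> push_cast <;> ring, rfl, rfl⟩
        (by simp only [pcICta, Piece.S, ev_add, ev_sub, ev_mul, ev_num, ev_pow, Ex.eval] <;> push_cast <;> ring)
        ⟨h0, h1, h2, by norm_num [InR, bxICta] <;> constructor <;> linarith⟩ hx hb hF hH hk
  · refine signs_low certICtb
        ⟨fun x => by simp only [pcICtb, endICt, ev_add, ev_sub, ev_mul, ev_num, Ex.eval] <;> push_cast <;> ring, fun x => by simp only [pcICtb, endICt, ev_add, ev_sub, ev_mul, ev_num, Ex.eval] <;> push_cast <;> ring, fun x => by simp only [pcICtb, endICt, ev_add, ev_sub, ev_mul, ev_num, Ex.eval] <;> push_cast <;> ring, fun x => by simp only [pcICtb, endICt, ev_add, ev_sub, ev_mul, ev_num, Ex.eval] <;> push_cast <;> ring, fun x => by simp only [pcICtb, endICt, ev_add, ev_sub, ev_mul, ev_num, Ex.eval] <;> push_cast <;> ring, rfl, rfl⟩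
        (by simp only [pcICtb, Piece.S, ev_add, ev_sub, ev_mul, ev_num, ev_pow, Ex.eval] <;> push_cast <;> ring)
        ⟨h0, h1, h2, by norm_num [InR, bxICtb] <;> constructor <;> linarith⟩ hx hb hF hH hk


/-- The signs over the chart `ICu`. -/
theorem cICu_signs (n : ℕ) : CSigns n endICu DLow := by
  intro a b u v t H x hb hF hH _ _ _ hx hk
  obtain ⟨h0, h1, h2, h3l, h3u⟩ := hx.1
  norm_num [endICu] at h3l h3u
  refine signs_low certICu
        ⟨fun x => by simp only [pcICu, endICu, ev_add, ev_sub, ev_mul, ev_num, Ex.eval] <;> push_cast <;> ring, fun x => by simp only [pcICu, endICu, ev_add, ev_sub, ev_mul, ev_num, Ex.eval] <;> push_cast <;> ring, fun x => by simp only [pcICu, endICu, ev_add, ev_sub, ev_mul, ev_num, Ex.eval] <;> push_cast <;> ring, fun x => by simp only [pcICu, endICu, ev_add, ev_sub, ev_mul, ev_num, Ex.eval] <;> push_cast <;> ring, fun x => by simp only [pcICu, endICu, ev_add, ev_sub, ev_mul, ev_num, Ex.eval] <;> push_cast <;> ring, rfl, rfl⟩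
        (by simp only [pcICu, Piece.S, ev_add, ev_sub, ev_mul, ev_num, ev_pow, Ex.eval] <;> push_cast <;> ring)
        ⟨h0, h1, h2, by norm_num [InR, bxICu] <;> constructor <;> linarith⟩ hx hb hF hH hk


/-- The signs over the chart `IDp`. -/
theorem cIDp_signs (n : ℕ) : CSigns n endIDp DLow := by
  intro a b u v t H x hb hF hH _ _ _ hx hk
  obtain ⟨h0, h1, h2, h3l, h3u⟩ := hx.1
  norm_num [endIDp] at h3l h3u
  refine signs_low certIDp
        ⟨fun x => by simp only [pcIDp, endIDp, ev_add, ev_sub, ev_mul, ev_num, Ex.eval] <;> push_cast <;> ring, fun x => by simp only [pcIDp, endIDp, ev_add, ev_sub, ev_mul, ev_num, Ex.eval] <;> push_cast <;> ring, fun x => by simp only [pcIDp, endIDp, ev_add, ev_sub, ev_mul, ev_num, Ex.eval] <;> push_cast <;> ring, fun x => by simp only [pcIDp, endIDp, ev_add, ev_sub, ev_mul, ev_num, Ex.eval] <;> push_cast <;> ring, fun x => by simp only [pcIDp, endIDp, ev_add, ev_sub, ev_mul, ev_num, Ex.eval] <;> push_cast <;> ring, rfl, rfl⟩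
        (by simp only [pcIDp, Piece.S, ev_add, ev_sub, ev_mul, ev_num, ev_pow, Ex.eval] <;> push_cast <;> ring)
        ⟨h0, h1, h2, by norm_num [InR, bxIDp] <;> constructor <;> linarith⟩ hx hb hF hH hk


/-- The signs over the chart `IDq`. -/
theorem cIDq_signs (n : ℕ) : CSigns n endIDq DLow := by
  intro a b u v t H x hb hF hH _ _ _ hx hk
  obtain ⟨h0, h1, h2, h3l, h3u⟩ := hx.1
  norm_num [endIDq] at h3l h3u
  rcases lt_or_ge (x 3) (7 / 10 : ℝ) with g | g
  · refine signs_low certIDqa
        ⟨fun x => by simp only [pcIDqa, endIDq, ev_add, ev_sub, ev_mul, ev_num, Ex.eval] <;> push_cast <;> ring, fun x => by simp only [pcIDqa, endIDq, ev_add, ev_sub, ev_mul, ev_num, Ex.eval] <;> push_cast <;> ring, fun x => by simp only [pcIDqa, endIDq, ev_add, ev_sub, ev_mul, ev_num, Ex.eval] <;> push_cast <;> ring, fun x => by simp only [pcIDqa, endIDq, ev_add, ev_sub, ev_mul, ev_num, Ex.eval] <;> push_cast <;> ring, fun x => by simp only [pcIDqa, endIDq, ev_add, ev_sub, ev_mul, ev_num, Ex.eval]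 <;> push_cast <;> ring, rfl, rfl⟩
        (by simp only [pcIDqa, Piece.S, ev_add, ev_sub, ev_mul, ev_num, ev_pow, Ex.eval] <;> push_cast <;> ring)
        ⟨h0, h1, h2, by norm_num [InR, bxIDqa] <;> constructor <;> linarith⟩ hx hb hF hH hk
  · refine signs_low certIDqb
        ⟨fun x => by simp only [pcIDqb, endIDq, ev_add, ev_sub, ev_mul, ev_num, Ex.eval] <;> push_cast <;> ring, fun x => by simp only [pcIDqb, endIDq, ev_add, ev_sub, ev_mul, ev_num, Ex.eval] <;> push_cast <;> ring, fun x => by simp only [pcIDqb, endIDq, ev_add, ev_sub, ev_mul, ev_num, Ex.eval] <;> push_cast <;> ring, fun x => by simp only [pcIDqb, endIDq, ev_add, ev_sub, ev_mul, ev_num, Ex.eval] <;> push_cast <;> ring, fun x => by simp only [pcIDqb, endIDq, ev_add, ev_sub, ev_mul, ev_num, Ex.eval] <;> push_cast <;> ring, rfl, rfl⟩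
        (by simp only [pcIDqb, Piece.S, ev_add, ev_sub, ev_mul, ev_num, ev_pow, Ex.eval] <;> push_cast <;> ring)
        ⟨h0, h1, h2, by norm_num [InR, bxIDqb] <;> constructor <;> linarith⟩ hx hb hF hH hk


/-- The signs over the chart `IDr`. -/
theorem cIDr_signs (n : ℕ) : CSigns n endIDr DLow := by
  intro a b u v t H x hb hF hH _ _ _ hx hk
  obtain ⟨h0, h1, h2, h3l, h3u⟩ := hx.1
  norm_num [endIDr] at h3l h3u
  refine signs_low certIDr
        ⟨fun x => by simp only [pcIDr, endIDr, ev_add, ev_sub, ev_mul, ev_num, Ex.eval] <;> push_cast <;> ring, fun x => by simp only [pcIDr, endIDr, ev_add, ev_sub, ev_mul, ev_num, Ex.eval] <;> push_cast <;> ring, fun x => by simp only [pcIDr, endIDr, ev_add, ev_sub, ev_mul, ev_num, Ex.eval] <;> push_cast <;> ring, fun x => by simp only [pcIDr, endIDr, ev_add, ev_sub, ev_mul, ev_num, Ex.eval] <;> push_cast <;> ring, fun x => by simp only [pcIDr, endIDr, ev_add, ev_sub, ev_mul, ev_num, Ex.eval] <;> push_cast <;> ring, rfl, rfl⟩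
        (by simp only [pcIDr, Piece.S, ev_add, ev_sub, ev_mul, ev_num, ev_pow, Ex.eval] <;> push_cast <;> ring)
        ⟨h0, h1, h2, by norm_num [InR, bxIDr] <;> constructor <;> linarith⟩ hx hb hF hH hk


/-- The signs over the chart `IDu`. -/
theorem cIDu_signs (n : ℕ) : CSigns n endIDu DLow := by
  intro a b u v t H x hb hF hH _ _ _ hx hk
  obtain ⟨h0, h1, h2, h3l, h3u⟩ := hx.1
  norm_num [endIDu] at h3l h3u
  refine signs_low certIDu
        ⟨fun x => by simp only [pcIDu, endIDu, ev_add, ev_sub, ev_mul, ev_num, Ex.eval] <;> push_cast <;> ring, fun x => by simp only [pcIDu, endIDu, ev_add, ev_sub, ev_mul, ev_num, Ex.eval] <;> push_cast <;> ring, fun x => by simp only [pcIDu, endIDu, ev_add, ev_sub, ev_mul, ev_num, Ex.eval] <;> push_cast <;> ring, fun x => by simp only [pcIDu, endIDu, ev_add, ev_sub, ev_mul, ev_num, Ex.eval] <;> push_cast <;> ring, fun x => by simp only [pcIDu, endIDu, ev_add, ev_sub, ev_mul, ev_num, Ex.eval] <;> push_cast <;> ring, rfl, rfl⟩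
        (by simp only [pcIDu, Piece.S, ev_add, ev_sub, ev_mul, ev_num, ev_pow, Ex.eval] <;> push_cast <;> ring)
        ⟨h0, h1, h2, by norm_num [InR, bxIDu] <;> constructor <;> linarith⟩ hx hb hF hH hk


/-- The signs over the chart `IEp`. -/
theorem cIEp_signs (n : ℕ) : CSigns n endIEp DHigh := by
  intro a b u v t H x hb hF hH _ _ _ hx hk
  obtain ⟨h0, h1, h2, h3l, h3u⟩ := hx.1
  norm_num [endIEp] at h3l h3u
  rcases lt_or_ge (x 3) (3 / 5 : ℝ) with g | g
  · refine signs_high certIEpa
        ⟨fun x => by simp only [pcIEpa, endIEp, ev_add, ev_sub, ev_mul, ev_num, Ex.eval] <;> push_cast <;> ring, fun x => by simp only [pcIEpa, endIEp, ev_add, ev_sub, ev_mul, ev_num, Ex.eval] <;> push_cast <;> ring, fun x => by simp only [pcIEpa, endIEp, ev_add, ev_sub, ev_mul, ev_num, Ex.eval] <;> push_cast <;> ring, fun x => by simp only [pcIEpa, endIEp, ev_add, ev_sub, ev_mul, ev_num, Ex.eval] <;> push_cast <;> ring, fun x => by simp only [pcIEpa, endIEp, ev_add, ev_sub, ev_mul, ev_num, Ex.eval]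 <;> push_cast <;> ring, rfl, rfl⟩
        (by simp only [pcIEpa, Piece.S, ev_add, ev_sub, ev_mul, ev_num, ev_pow, Ex.eval] <;> push_cast <;> ring)
        ⟨h0, h1, h2, by norm_num [InR, bxIEpa] <;> constructor <;> linarith⟩ hx hb hF hH hk
  · refine signs_high certIEpb
        ⟨fun x => by simp only [pcIEpb, endIEp, ev_add, ev_sub, ev_mul, ev_num, Ex.eval] <;> push_cast <;> ring, fun x => by simp only [pcIEpb, endIEp, ev_add, ev_sub, ev_mul, ev_num, Ex.eval] <;> push_cast <;> ring, fun x => by simp only [pcIEpb, endIEp, ev_add, ev_sub, ev_mul, ev_num, Ex.eval] <;> push_cast <;> ring, fun x => by simp only [pcIEpb, endIEp, ev_add, ev_sub, ev_mul, ev_num, Ex.eval] <;> push_cast <;> ring, fun x => by simp only [pcIEpb, endIEp, ev_add, ev_sub, ev_mul, ev_num, Ex.eval] <;> push_cast <;> ring, rfl, rfl⟩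
        (by simp only [pcIEpb, Piece.S, ev_add, ev_sub, ev_mul, ev_num, ev_pow, Ex.eval] <;> push_cast <;> ring)
        ⟨h0, h1, h2, by norm_num [InR, bxIEpb] <;> constructor <;> linarith⟩ hx hb hF hH hk


/-- The signs over the chart `IEq`. -/
theorem cIEq_signs (n : ℕ) : CSigns n endIEq DHigh := by
  intro a b u v t H x hb hF hH _ _ _ hx hk
  obtain ⟨h0, h1, h2, h3l, h3u⟩ := hx.1
  norm_num [endIEq] at h3l h3u
  rcases lt_or_ge (x 3) (3 / 5 : ℝ) with g | g
  · refine signs_high certIEqa
        ⟨fun x => by simp only [pcIEqa, endIEq, ev_add, ev_sub, ev_mul, ev_num, Ex.eval] <;> push_cast <;> ring, fun x => by simp only [pcIEqa, endIEq, ev_add, ev_sub, ev_mul, ev_num, Ex.eval] <;> push_cast <;> ring, fun x => by simp only [pcIEqa, endIEq, ev_add, ev_sub, ev_mul, ev_num, Ex.eval] <;> push_cast <;> ring, fun x => by simp only [pcIEqa, endIEq, ev_add, ev_sub, ev_mul, ev_num, Ex.eval] <;> push_cast <;> ring, fun x => by simp only [pcIEqa, endIEq, ev_add, ev_sub, ev_mul, ev_num,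 Ex.eval] <;> push_cast <;> ring, rfl, rfl⟩
        (by simp only [pcIEqa, Piece.S, ev_add, ev_sub, ev_mul, ev_num, ev_pow, Ex.eval] <;> push_cast <;> ring)
        ⟨h0, h1, h2, by norm_num [InR, bxIEqa] <;> constructor <;> linarith⟩ hx hb hF hH hk
  · refine signs_high certIEqb
        ⟨fun x => by simp only [pcIEqb, endIEq, ev_add, ev_sub, ev_mul, ev_num, Ex.eval] <;> push_cast <;> ring, fun x => by simp only [pcIEqb, endIEq, ev_add, ev_sub, ev_mul, ev_num, Ex.eval] <;> push_cast <;> ring, fun x => by simp only [pcIEqb, endIEq, ev_add, ev_sub, ev_mul, ev_num, Ex.eval] <;> push_cast <;> ring, fun x => by simp only [pcIEqb, endIEq, ev_add, ev_sub, ev_mul, ev_num, Ex.eval] <;> push_cast <;> ring, fun x => by simp only [pcIEqb, endIEq, ev_add, ev_sub, ev_mul, ev_num, Ex.eval] <;> push_cast <;> ring, rfl, rfl⟩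
        (by simp only [pcIEqb, Piece.S, ev_add, ev_sub, ev_mul, ev_num, ev_pow, Ex.eval] <;> push_cast <;> ring)
        ⟨h0, h1, h2, by norm_num [InR, bxIEqb] <;> constructor <;> linarith⟩ hx hb hF hH hk


/-- The signs over the chart `IEu`. -/
theorem cIEu_signs (n : ℕ) : CSigns n endIEu DHigh := by
  intro a b u v t H x hb hF hH _ _ _ hx hk
  obtain ⟨h0, h1, h2, h3l, h3u⟩ := hx.1
  norm_num [endIEu] at h3l h3u
  refine signs_high certIEu
        ⟨fun x => by simp only [pcIEu, endIEu, ev_add, ev_sub, ev_mul, ev_num, Ex.eval] <;> push_cast <;> ring, fun x => by simp only [pcIEu, endIEu, ev_add, ev_sub, ev_mul, ev_num, Ex.eval] <;> push_cast <;> ring, fun x => by simp only [pcIEu, endIEu, ev_add, ev_sub, ev_mul, ev_num, Ex.eval] <;> push_cast <;> ring, fun x => by simp only [pcIEu, endIEu, ev_add, ev_sub, ev_mul, ev_num, Ex.eval] <;> push_cast <;> ring, fun x => by simp only [pcIEu, endIEu, ev_add, ev_sub, ev_mul, ev_num, Ex.eval] <;> push_cast <;> ring, rfl, rfl⟩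
        (by simp only [pcIEu, Piece.S, ev_add, ev_sub, ev_mul, ev_num, ev_pow, Ex.eval] <;> push_cast <;> ring)
        ⟨h0, h1, h2, by norm_num [InR, bxIEu] <;> constructor <;> linarith⟩ hx hb hF hH hk


/-- The signs over the chart `ZA`. -/
theorem cZA_signs (n : ℕ) : CSigns n endZA DLow := by
  intro a b u v t H x hb hF hH _ _ _ hx hk
  obtain ⟨h0, h1, h2, h3l, h3u⟩ := hx.1
  norm_num [endZA] at h3l h3u
  refine signs_low certZA ⟨fun x => by simp only [pcZA, endZA, ev_add, ev_sub, ev_mul, ev_num, Ex.eval] <;> push_cast <;> ring, fun x => by simp only [pcZA, endZA, ev_add, ev_sub, ev_mul, ev_num, Ex.eval] <;> push_cast <;> ring, fun x => by simp only [pcZA, endZA, ev_add, ev_sub, ev_mul, ev_num, Ex.eval] <;> push_cast <;> ring, fun x => by simp only [pcZA, endZA, ev_add, ev_sub, ev_mul, ev_num, Ex.eval] <;> push_cast <;> ring, fun x => by simp only [pcZA, endZA, ev_add, ev_sub, ev_mul, ev_num, Ex.eval] <;> push_cast <;> ring, rfl, rfl⟩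
    (by simp only [pcZA, ev_num] <;> norm_num)
    ⟨h0, h1, h2, by norm_num [InR, bxZA] <;> constructor <;> linarith⟩ hx hb hF hH hk


/-- The signs over the chart `ZB`. -/
theorem cZB_signs (n : ℕ) : CSigns n endZB DLow := by
  intro a b u v t H x hb hF hH _ _ _ hx hk
  obtain ⟨h0, h1, h2, h3l, h3u⟩ := hx.1
  norm_num [endZB] at h3l h3u
  refine signs_low certZB ⟨fun x => by simp only [pcZB, endZB, ev_add, ev_sub, ev_mul, ev_num, Ex.eval] <;> push_cast <;> ring, fun x => by simp only [pcZB, endZB, ev_add, ev_sub, ev_mul, ev_num, Ex.eval] <;> push_cast <;> ring, fun x => by simp only [pcZB, endZB, ev_add, ev_sub, ev_mul, ev_num, Ex.eval] <;> push_cast <;> ring, fun x => by simp only [pcZB, endZB, ev_add, ev_sub, ev_mul, ev_num, Ex.eval] <;> push_cast <;> ring, fun x => by simp only [pcZB, endZB, ev_add, ev_sub, ev_mul, ev_num, Ex.eval] <;> push_cast <;> ring, rfl, rfl⟩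
    (by simp only [pcZB, ev_num] <;> norm_num)
    ⟨h0, h1, h2, by norm_num [InR, bxZB] <;> constructor <;> linarith⟩ hx hb hF hH hk


/-- The statements for the charts at small `I` and `Z` from twenty on. -/
theorem certsIZ (n : ℕ) : CertsIZ n :=
  ⟨cIAt_signs n, cIAu_signs n, cIBt_signs n, cIBu_signs n, cICt_signs n, cICu_signs n, cIDp_signs n, cIDq_signs n, cIDr_signs n, cIDu_signs n, cIEp_signs n, cIEq_signs n, cIEu_signs n, cZA_signs n, cZB_signs n⟩


end Vale.Agent.P100.Calib.StripEnd
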