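import Vale.Agent.P100.Calib.SlabStripEndSmallExpr

/-!
# The coefficients against their bounds for small `d`
-/

namespace Vale.Agent.P100.Calib.StripEnd

open Pack Pack.Ex StripMid

/-- Where the bounds hold. -/
structure SmDom (a d v : ℝ) : Prop where
  a_low : 7 / 10 < 2 * a
  a_high : 2 * a ≤ 1
  d_pos : 0 < d
  d_high : d ≤ 1 / 8
  v_pos : 0 < v
  v_high : v ≤ 20 / 7

variable {a d v : ℝ}

theorem sm_nonneg {e : Ex} (hc : Chk smC e) (h : SmDom a d v) :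
    0 ≤ e.eval (StripMid.base a d v) := by
  refine hc.nonneg fun i hi => ?_
  interval_cases i
  · exact sideUp_mem ⟨by norm_num, by simpa [StripMid.base, hatOne] using h.a_low, by simpa [StripMid.base, hatOne] using h.a_high⟩
  · exact sideUp_mem ⟨by norm_num, by simpa [StripMid.base, hatOne] using h.d_pos, by simpa [StripMid.base, hatOne] using h.d_high⟩
  · exact sideUp_mem ⟨by norm_num, by simpa [StripMid.base, hatOne] using h.v_pos, by simpa [StripMid.base, hatOne] using h.v_high⟩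
  · exact side_mem ⟨by norm_num, by simp [StripMid.base, hatOne], by simp [StripMid.base, hatOne]⟩

theorem smA0Lo_le (h : SmDom a d v) :
    smA0Lo.eval (StripMid.base a d v) ≤ coA0.eval (StripMid.base a d v) :=
  sub_nonneg.1 (sm_nonneg (e := (Ex.sub coA0 smA0Lo))
    ⟨97, 5, 9, 6, 0, by decide +kernel⟩ h)

theorem smA1Lo_le (h : SmDom a d v) :
    smA1Lo.eval (StripMid.base a d v) ≤ coA1.eval (StripMid.base a d v) :=
  sub_nonneg.1 (sm_nonneg (e := (Ex.sub coA1 smA1Lo))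
    ⟨69, 3, 7, 5, 0, by decide +kernel⟩ h)

theorem smA2Lo_le (h : SmDom a d v) :
    smA2Lo.eval (StripMid.base a d v) ≤ coA2.eval (StripMid.base a d v) :=
  sub_nonneg.1 (sm_nonneg (e := (Ex.sub coA2 smA2Lo))
    ⟨77, 3, 8, 5, 0, by decide +kernel⟩ h)

theorem smA5Up_ge (h : SmDom a d v) :
    coA5.eval (StripMid.base a d v) ≤ smA5Up.eval (StripMid.base a d v) :=
  sub_nonneg.1 (sm_nonneg (e := (Ex.sub smA5Up coA5))
    ⟨56, 2, 5, 4, 0, by decide +kernel⟩ h)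

theorem smA6Up_ge (h : SmDom a d v) :
    coA6.eval (StripMid.base a d v) ≤ smA6Up.eval (StripMid.base a d v) :=
  sub_nonneg.1 (sm_nonneg (e := (Ex.sub smA6Up coA6))
    ⟨56, 2, 6, 4, 0, by decide +kernel⟩ h)

theorem smA7Lo_le (h : SmDom a d v) :
    smA7Lo.eval (StripMid.base a d v) ≤ coA7.eval (StripMid.base a d v) :=
  sub_nonneg.1 (sm_nonneg (e := (Ex.sub coA7 smA7Lo))
    ⟨32, 1, 4, 3, 0, by decide +kernel⟩ h)

theorem smA8Lo_le (h : SmDom a d v) :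
    smA8Lo.eval (StripMid.base a d v) ≤ coA8.eval (StripMid.base a d v) :=
  sub_nonneg.1 (sm_nonneg (e := (Ex.sub coA8 smA8Lo))
    ⟨75, 3, 7, 5, 0, by decide +kernel⟩ h)

theorem smA9Lo_le (h : SmDom a d v) :
    smA9Lo.eval (StripMid.base a d v) ≤ coA9.eval (StripMid.base a d v) :=
  sub_nonneg.1 (sm_nonneg (e := (Ex.sub coA9 smA9Lo))
    ⟨63, 3, 7, 4, 0, by decide +kernel⟩ h)

theorem smA10Lo_le (h : SmDom a d v) :
    smA10Lo.eval (StripMid.base a d v) ≤ coA10.eval (StripMid.base a d v) :=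
  sub_nonneg.1 (sm_nonneg (e := (Ex.sub coA10 smA10Lo))
    ⟨45, 1, 4, 4, 0, by decide +kernel⟩ h)

theorem smA10Up_ge (h : SmDom a d v) :
    coA10.eval (StripMid.base a d v) ≤ smA10Up.eval (StripMid.base a d v) :=
  sub_nonneg.1 (sm_nonneg (e := (Ex.sub smA10Up coA10))
    ⟨45, 1, 4, 4, 0, by decide +kernel⟩ h)

theorem smA11Up_ge (h : SmDom a d v) :
    coA11.eval (StripMid.base a d v) ≤ smA11Up.eval (StripMid.base a d v) :=
  sub_nonneg.1 (sm_nonneg (e := (Ex.sub smA11Up coA11))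
    ⟨42, 2, 5, 3, 0, by decide +kernel⟩ h)

theorem smA12Lo_le (h : SmDom a d v) :
    smA12Lo.eval (StripMid.base a d v) ≤ coA12.eval (StripMid.base a d v) :=
  sub_nonneg.1 (sm_nonneg (e := (Ex.sub coA12 smA12Lo))
    ⟨60, 3, 6, 4, 0, by decide +kernel⟩ h)

theorem smG0Lo_le (h : SmDom a d v) :
    smG0Lo.eval (StripMid.base a d v) ≤ coG0.eval (StripMid.base a d v) :=
  sub_nonneg.1 (sm_nonneg (e := (Ex.sub coG0 smG0Lo))
    ⟨96, 5, 9, 6, 0, by decide +kernel⟩ h)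

theorem smG1Lo_le (h : SmDom a d v) :
    smG1Lo.eval (StripMid.base a d v) ≤ coG1.eval (StripMid.base a d v) :=
  sub_nonneg.1 (sm_nonneg (e := (Ex.sub coG1 smG1Lo))
    ⟨78, 4, 8, 5, 0, by decide +kernel⟩ h)

theorem smG2Lo_le (h : SmDom a d v) :
    smG2Lo.eval (StripMid.base a d v) ≤ coG2.eval (StripMid.base a d v) :=
  sub_nonneg.1 (sm_nonneg (e := (Ex.sub coG2 smG2Lo))
    ⟨77, 3, 8, 5, 0, by decide +kernel⟩ h)

theorem smG3Up_ge (h : SmDom a d v) :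
    coG3.eval (StripMid.base a d v) ≤ smG3Up.eval (StripMid.base a d v) :=
  sub_nonneg.1 (sm_nonneg (e := (Ex.sub smG3Up coG3))
    ⟨47, 0, 3, 5, 0, by decide +kernel⟩ h)

theorem smG4Lo_le (h : SmDom a d v) :
    smG4Lo.eval (StripMid.base a d v) ≤ coG4.eval (StripMid.base a d v) :=
  sub_nonneg.1 (sm_nonneg (e := (Ex.sub coG4 smG4Lo))
    ⟨68, 3, 6, 5, 0, by decide +kernel⟩ h)

theorem smG4Up_ge (h : SmDom a d v) :
    coG4.eval (StripMid.base a d v) ≤ smG4Up.eval (StripMid.base a d v) :=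
  sub_nonneg.1 (sm_nonneg (e := (Ex.sub smG4Up coG4))
    ⟨68, 3, 6, 5, 0, by decide +kernel⟩ h)

theorem smG5Lo_le (h : SmDom a d v) :
    smG5Lo.eval (StripMid.base a d v) ≤ coG5.eval (StripMid.base a d v) :=
  sub_nonneg.1 (sm_nonneg (e := (Ex.sub coG5 smG5Lo))
    ⟨67, 2, 6, 5, 0, by decide +kernel⟩ h)

theorem smG5Up_ge (h : SmDom a d v) :
    coG5.eval (StripMid.base a d v) ≤ smG5Up.eval (StripMid.base a d v) :=
  sub_nonneg.1 (sm_nonneg (e := (Ex.sub smG5Up coG5))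
    ⟨67, 2, 6, 5, 0, by decide +kernel⟩ h)

theorem smG6Lo_le (h : SmDom a d v) :
    smG6Lo.eval (StripMid.base a d v) ≤ coG6.eval (StripMid.base a d v) :=
  sub_nonneg.1 (sm_nonneg (e := (Ex.sub coG6 smG6Lo))
    ⟨54, 1, 4, 5, 0, by decide +kernel⟩ h)

theorem smG6Up_ge (h : SmDom a d v) :
    coG6.eval (StripMid.base a d v) ≤ smG6Up.eval (StripMid.base a d v) :=
  sub_nonneg.1 (sm_nonneg (e := (Ex.sub smG6Up coG6))
    ⟨54, 1, 4, 5, 0, by decide +kernel⟩ h)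

theorem smG7Lo_le (h : SmDom a d v) :
    smG7Lo.eval (StripMid.base a d v) ≤ coG7.eval (StripMid.base a d v) :=
  sub_nonneg.1 (sm_nonneg (e := (Ex.sub coG7 smG7Lo))
    ⟨65, 3, 6, 4, 0, by decide +kernel⟩ h)

theorem smG8Lo_le (h : SmDom a d v) :
    smG8Lo.eval (StripMid.base a d v) ≤ coG8.eval (StripMid.base a d v) :=
  sub_nonneg.1 (sm_nonneg (e := (Ex.sub coG8 smG8Lo))
    ⟨55, 2, 6, 4, 0, by decide +kernel⟩ h)

theorem smG9Lo_le (h : SmDom a d v) :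
    smG9Lo.eval (StripMid.base a d v) ≤ coG9.eval (StripMid.base a d v) :=
  sub_nonneg.1 (sm_nonneg (e := (Ex.sub coG9 smG9Lo))
    ⟨44, 1, 4, 4, 0, by decide +kernel⟩ h)

theorem smG9Up_ge (h : SmDom a d v) :
    coG9.eval (StripMid.base a d v) ≤ smG9Up.eval (StripMid.base a d v) :=
  sub_nonneg.1 (sm_nonneg (e := (Ex.sub smG9Up coG9))
    ⟨44, 1, 4, 4, 0, by decide +kernel⟩ h)

theorem smG10Lo_le (h : SmDom a d v) :
    smG10Lo.eval (StripMid.base a d v) ≤ coG10.eval (StripMid.base a d v) :=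
  sub_nonneg.1 (sm_nonneg (e := (Ex.sub coG10 smG10Lo))
    ⟨39, 1, 4, 3, 0, by decide +kernel⟩ h)

theorem smMG0Lo_le (h : SmDom a d v) :
    smMG0Lo.eval (StripMid.base a d v) ≤ coMG0.eval (StripMid.base a d v) :=
  sub_nonneg.1 (sm_nonneg (e := (Ex.sub coMG0 smMG0Lo))
    ⟨88, 4, 8, 6, 0, by decide +kernel⟩ h)

theorem smMG1Lo_le (h : SmDom a d v) :
    smMG1Lo.eval (StripMid.base a d v) ≤ coMG1.eval (StripMid.base a d v) :=
  sub_nonneg.1 (sm_nonneg (e := (Ex.sub coMG1 smMG1Lo))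
    ⟨62, 2, 6, 5, 0, by decide +kernel⟩ h)

theorem smMG2Lo_le (h : SmDom a d v) :
    smMG2Lo.eval (StripMid.base a d v) ≤ coMG2.eval (StripMid.base a d v) :=
  sub_nonneg.1 (sm_nonneg (e := (Ex.sub coMG2 smMG2Lo))
    ⟨68, 2, 7, 5, 0, by decide +kernel⟩ h)

theorem smMG5Up_ge (h : SmDom a d v) :
    coMG5.eval (StripMid.base a d v) ≤ smMG5Up.eval (StripMid.base a d v) :=
  sub_nonneg.1 (sm_nonneg (e := (Ex.sub smMG5Up coMG5))
    ⟨48, 1, 4, 4, 0, by decide +kernel⟩ h)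

theorem smMG6Up_ge (h : SmDom a d v) :
    coMG6.eval (StripMid.base a d v) ≤ smMG6Up.eval (StripMid.base a d v) :=
  sub_nonneg.1 (sm_nonneg (e := (Ex.sub smMG6Up coMG6))
    ⟨47, 1, 5, 4, 0, by decide +kernel⟩ h)

theorem smMG7Lo_le (h : SmDom a d v) :
    smMG7Lo.eval (StripMid.base a d v) ≤ coMG7.eval (StripMid.base a d v) :=
  sub_nonneg.1 (sm_nonneg (e := (Ex.sub coMG7 smMG7Lo))
    ⟨23, 0, 3, 3, 0, by decide +kernel⟩ h)

theorem smMG8Lo_le (h : SmDom a d v) :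
    smMG8Lo.eval (StripMid.base a d v) ≤ coMG8.eval (StripMid.base a d v) :=
  sub_nonneg.1 (sm_nonneg (e := (Ex.sub coMG8 smMG8Lo))
    ⟨69, 3, 6, 5, 0, by decide +kernel⟩ h)

theorem smMG9Lo_le (h : SmDom a d v) :
    smMG9Lo.eval (StripMid.base a d v) ≤ coMG9.eval (StripMid.base a d v) :=
  sub_nonneg.1 (sm_nonneg (e := (Ex.sub coMG9 smMG9Lo))
    ⟨54, 2, 6, 4, 0, by decide +kernel⟩ h)

theorem smMG10Lo_le (h : SmDom a d v) :
    smMG10Lo.eval (StripMid.base a d v) ≤ coMG10.eval (StripMid.base a d v) :=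
  sub_nonneg.1 (sm_nonneg (e := (Ex.sub coMG10 smMG10Lo))
    ⟨45, 1, 4, 4, 0, by decide +kernel⟩ h)

theorem smMG10Up_ge (h : SmDom a d v) :
    coMG10.eval (StripMid.base a d v) ≤ smMG10Up.eval (StripMid.base a d v) :=
  sub_nonneg.1 (sm_nonneg (e := (Ex.sub smMG10Up coMG10))
    ⟨45, 1, 4, 4, 0, by decide +kernel⟩ h)

theorem smMG11Up_ge (h : SmDom a d v) :
    coMG11.eval (StripMid.base a d v) ≤ smMG11Up.eval (StripMid.base a d v) :=
  sub_nonneg.1 (sm_nonneg (e := (Ex.sub smMG11Up coMG11))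
    ⟨32, 1, 4, 3, 0, by decide +kernel⟩ h)

theorem smMG12Lo_le (h : SmDom a d v) :
    smMG12Lo.eval (StripMid.base a d v) ≤ coMG12.eval (StripMid.base a d v) :=
  sub_nonneg.1 (sm_nonneg (e := (Ex.sub coMG12 smMG12Lo))
    ⟨51, 2, 5, 4, 0, by decide +kernel⟩ h)

theorem smT0Lo_le (h : SmDom a d v) :
    smT0Lo.eval (StripMid.base a d v) ≤ coT0.eval (StripMid.base a d v) :=
  sub_nonneg.1 (sm_nonneg (e := (Ex.sub coT0 smT0Lo))
    ⟨84, 5, 8, 5, 0, by decide +kernel⟩ h)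

theorem smT0Up_ge (h : SmDom a d v) :
    coT0.eval (StripMid.base a d v) ≤ smT0Up.eval (StripMid.base a d v) :=
  sub_nonneg.1 (sm_nonneg (e := (Ex.sub smT0Up coT0))
    ⟨84, 5, 8, 5, 0, by decide +kernel⟩ h)

theorem smT1Lo_le (h : SmDom a d v) :
    smT1Lo.eval (StripMid.base a d v) ≤ coT1.eval (StripMid.base a d v) :=
  sub_nonneg.1 (sm_nonneg (e := (Ex.sub coT1 smT1Lo))
    ⟨83, 4, 8, 5, 0, by decide +kernel⟩ h)

theorem smT1Up_ge (h : SmDom a d v) :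
    coT1.eval (StripMid.base a d v) ≤ smT1Up.eval (StripMid.base a d v) :=
  sub_nonneg.1 (sm_nonneg (e := (Ex.sub smT1Up coT1))
    ⟨83, 4, 8, 5, 0, by decide +kernel⟩ h)

theorem smT2Lo_le (h : SmDom a d v) :
    smT2Lo.eval (StripMid.base a d v) ≤ coT2.eval (StripMid.base a d v) :=
  sub_nonneg.1 (sm_nonneg (e := (Ex.sub coT2 smT2Lo))
    ⟨40, 0, 3, 5, 0, by decide +kernel⟩ h)

theorem smT2Up_ge (h : SmDom a d v) :
    coT2.eval (StripMid.base a d v) ≤ smT2Up.eval (StripMid.base a d v) :=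
  sub_nonneg.1 (sm_nonneg (e := (Ex.sub smT2Up coT2))
    ⟨40, 0, 3, 5, 0, by decide +kernel⟩ h)

theorem smT3Lo_le (h : SmDom a d v) :
    smT3Lo.eval (StripMid.base a d v) ≤ coT3.eval (StripMid.base a d v) :=
  sub_nonneg.1 (sm_nonneg (e := (Ex.sub coT3 smT3Lo))
    ⟨70, 3, 6, 5, 0, by decide +kernel⟩ h)

theorem smT3Up_ge (h : SmDom a d v) :
    coT3.eval (StripMid.base a d v) ≤ smT3Up.eval (StripMid.base a d v) :=
  sub_nonneg.1 (sm_nonneg (e := (Ex.sub smT3Up coT3))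
    ⟨70, 3, 6, 5, 0, by decide +kernel⟩ h)

theorem smT4Lo_le (h : SmDom a d v) :
    smT4Lo.eval (StripMid.base a d v) ≤ coT4.eval (StripMid.base a d v) :=
  sub_nonneg.1 (sm_nonneg (e := (Ex.sub coT4 smT4Lo))
    ⟨59, 3, 6, 4, 0, by decide +kernel⟩ h)

theorem smT4Up_ge (h : SmDom a d v) :
    coT4.eval (StripMid.base a d v) ≤ smT4Up.eval (StripMid.base a d v) :=
  sub_nonneg.1 (sm_nonneg (e := (Ex.sub smT4Up coT4))
    ⟨59, 3, 6, 4, 0, by decide +kernel⟩ h)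

theorem smT5Lo_le (h : SmDom a d v) :
    smT5Lo.eval (StripMid.base a d v) ≤ coT5.eval (StripMid.base a d v) :=
  sub_nonneg.1 (sm_nonneg (e := (Ex.sub coT5 smT5Lo))
    ⟨69, 4, 7, 4, 0, by decide +kernel⟩ h)

theorem smT5Up_ge (h : SmDom a d v) :
    coT5.eval (StripMid.base a d v) ≤ smT5Up.eval (StripMid.base a d v) :=
  sub_nonneg.1 (sm_nonneg (e := (Ex.sub smT5Up coT5))
    ⟨69, 4, 7, 4, 0, by decide +kernel⟩ h)

theorem smT6Lo_le (h : SmDom a d v) :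
    smT6Lo.eval (StripMid.base a d v) ≤ coT6.eval (StripMid.base a d v) :=
  sub_nonneg.1 (sm_nonneg (e := (Ex.sub coT6 smT6Lo))
    ⟨57, 2, 6, 4, 0, by decide +kernel⟩ h)

theorem smT6Up_ge (h : SmDom a d v) :
    coT6.eval (StripMid.base a d v) ≤ smT6Up.eval (StripMid.base a d v) :=
  sub_nonneg.1 (sm_nonneg (e := (Ex.sub smT6Up coT6))
    ⟨57, 2, 6, 4, 0, by decide +kernel⟩ h)

theorem smT7Lo_le (h : SmDom a d v) :
    smT7Lo.eval (StripMid.base a d v) ≤ coT7.eval (StripMid.base a d v) :=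
  sub_nonneg.1 (sm_nonneg (e := (Ex.sub coT7 smT7Lo))
    ⟨47, 1, 4, 4, 0, by decide +kernel⟩ h)

theorem smT7Up_ge (h : SmDom a d v) :
    coT7.eval (StripMid.base a d v) ≤ smT7Up.eval (StripMid.base a d v) :=
  sub_nonneg.1 (sm_nonneg (e := (Ex.sub smT7Up coT7))
    ⟨47, 1, 4, 4, 0, by decide +kernel⟩ h)

theorem smT8Lo_le (h : SmDom a d v) :
    smT8Lo.eval (StripMid.base a d v) ≤ coT8.eval (StripMid.base a d v) :=
  sub_nonneg.1 (sm_nonneg (e := (Ex.sub coT8 smT8Lo))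
    ⟨27, 1, 3, 2, 0, by decide +kernel⟩ h)

theorem smT8Up_ge (h : SmDom a d v) :
    coT8.eval (StripMid.base a d v) ≤ smT8Up.eval (StripMid.base a d v) :=
  sub_nonneg.1 (sm_nonneg (e := (Ex.sub smT8Up coT8))
    ⟨27, 1, 3, 2, 0, by decide +kernel⟩ h)

theorem smT9Lo_le (h : SmDom a d v) :
    smT9Lo.eval (StripMid.base a d v) ≤ coT9.eval (StripMid.base a d v) :=
  sub_nonneg.1 (sm_nonneg (e := (Ex.sub coT9 smT9Lo))
    ⟨38, 2, 4, 3, 0, by decide +kernel⟩ h)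

theorem smT9Up_ge (h : SmDom a d v) :
    coT9.eval (StripMid.base a d v) ≤ smT9Up.eval (StripMid.base a d v) :=
  sub_nonneg.1 (sm_nonneg (e := (Ex.sub smT9Up coT9))
    ⟨38, 2, 4, 3, 0, by decide +kernel⟩ h)

end Vale.Agent.P100.Calib.StripEnd
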