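import Vale.Agent.P100.Calib.SlabStripEndSmallExpr
import Vale.Agent.P100.Calib.SlabStripEndExpr

/-!
# The blocks from the bounds of their coefficients, and the slopes that cut the ends

The bounds of a block hold for `p ≥ 0`, `e ≤ 0`, `c ≥ 0`, `G1 ≤ 0 ≤ G - G1`.
-/

namespace Vale.Agent.P100.Calib.StripEnd

open Pack Pack.Ex StripMid

local instance endSmTAdd : Add Ex := ⟨Ex.add⟩
local instance endSmTSub : Sub Ex := ⟨Ex.sub⟩
local instance endSmTMul : Mul Ex := ⟨Ex.mul⟩

/-- Lower bound of `tplA`. -/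
def tplALo : Ex :=
    (((var 14 * (var 14 * (var 12 * (var 9 * (var 7 * (var 7 * (var 4 * (var 4 * smA0Lo))))))))
    + ((var 14 * (var 13 * (var 12 * (var 9 * (var 7 * (var 7 * (var 4 * (var 4 * smA1Lo))))))))
    + (var 13 * (var 13 * (var 12 * (var 9 * (var 7 * (var 7 * (var 4 * (var 4 * smA2Lo))))))))))
    + ((var 14 * (var 14 * (var 12 * (var 8 * (var 7 * (var 7 * (var 4 * (var 4 * coA3))))))))
    + ((var 14 * (var 14 * (var 12 * (var 9 * (var 7 * (var 6 * (var 4 * (var 4 * coA4))))))))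
    + (var 14 * (var 14 * (var 12 * (var 9 * (var 7 * (var 5 * (var 4 * (var 4 * smA5Up)))))))))))
    + (((var 14 * (var 13 * (var 12 * (var 9 * (var 7 * (var 5 * (var 4 * (var 4 * smA6Up))))))))
    + ((var 14 * (var 14 * (var 12 * (var 9 * (var 5 * (var 5 * (var 4 * (var 4 * smA7Lo))))))))
    + (var 14 * (var 14 * (var 12 * (var 9 * (var 7 * (var 7 * (var 4 * (var 3 * smA8Lo))))))))))
    + (((var 14 * (var 13 * (var 12 * (var 9 * (var 7 * (var 7 * (var 4 * (var 3 * smA9Lo))))))))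
    + (var 14 * (var 14 * (var 9 * (var 7 * (var 7 * (var 4 * (var 3 * (((var 10 - var 11) * smA10Lo + var 11 * smA10Up))))))))))
    + ((var 14 * (var 14 * (var 12 * (var 9 * (var 7 * (var 5 * (var 4 * (var 3 * smA11Up))))))))
    + (var 14 * (var 14 * (var 12 * (var 9 * (var 7 * (var 7 * (var 3 * (var 3 * smA12Lo)))))))))))

/-- Lower bound of `tplMG`. -/
def tplMGLo : Ex :=
    (((var 14 * (var 14 * (var 12 * (var 9 * (var 7 * (var 7 * (var 4 * (var 4 * smMG0Lo))))))))
    + ((var 14 * (var 13 * (var 12 * (var 9 * (var 7 * (var 7 * (var 4 * (var 4 * smMG1Lo))))))))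
    + (var 13 * (var 13 * (var 12 * (var 9 * (var 7 * (var 7 * (var 4 * (var 4 * smMG2Lo))))))))))
    + ((var 14 * (var 14 * (var 12 * (var 8 * (var 7 * (var 7 * (var 4 * (var 4 * coMG3))))))))
    + ((var 14 * (var 14 * (var 12 * (var 9 * (var 7 * (var 6 * (var 4 * (var 4 * coMG4))))))))
    + (var 14 * (var 14 * (var 12 * (var 9 * (var 7 * (var 5 * (var 4 * (var 4 * smMG5Up)))))))))))
    + (((var 14 * (var 13 * (var 12 * (var 9 * (var 7 * (var 5 * (var 4 * (var 4 * smMG6Up))))))))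
    + ((var 14 * (var 14 * (var 12 * (var 9 * (var 5 * (var 5 * (var 4 * (var 4 * smMG7Lo))))))))
    + (var 14 * (var 14 * (var 12 * (var 9 * (var 7 * (var 7 * (var 4 * (var 3 * smMG8Lo))))))))))
    + (((var 14 * (var 13 * (var 12 * (var 9 * (var 7 * (var 7 * (var 4 * (var 3 * smMG9Lo))))))))
    + (var 14 * (var 14 * (var 9 * (var 7 * (var 7 * (var 4 * (var 3 * (((var 10 - var 11) * smMG10Lo + var 11 * smMG10Up))))))))))
    + ((var 14 * (var 14 * (var 12 * (var 9 * (var 7 * (var 5 * (var 4 * (var 3 * smMG11Up))))))))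
    + (var 14 * (var 14 * (var 12 * (var 9 * (var 7 * (var 7 * (var 3 * (var 3 * smMG12Lo)))))))))))

/-- Lower bound of `tplG`. -/
def tplGLo : Ex :=
    (((var 14 * (var 14 * (var 12 * (var 12 * (var 4 * (var 4 * smG0Lo))))))
    + (var 14 * (var 13 * (var 12 * (var 12 * (var 4 * (var 4 * smG1Lo)))))))
    + ((var 13 * (var 13 * (var 12 * (var 12 * (var 4 * (var 4 * smG2Lo))))))
    + ((var 14 * (var 14 * (var 12 * (var 11 * (var 4 * (var 4 * smG3Up))))))
    + (var 14 * (var 14 * (var 12 * (var 4 * (var 4 * (((var 10 - var 11) * smG4Lo + var 11 * smG4Up))))))))))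
    + (((var 14 * (var 13 * (var 12 * (var 4 * (var 4 * (((var 10 - var 11) * smG5Lo + var 11 * smG5Up)))))))
    + ((var 14 * (var 14 * (var 10 * (var 10 * (var 4 * (var 4 * smG6Lo))))))
    + (var 14 * (var 14 * (var 12 * (var 12 * (var 4 * (var 3 * smG7Lo))))))))
    + ((var 14 * (var 13 * (var 12 * (var 12 * (var 4 * (var 3 * smG8Lo))))))
    + ((var 14 * (var 14 * (var 12 * (var 4 * (var 3 * (((var 10 - var 11) * smG9Lo + var 11 * smG9Up)))))))
    + (var 14 * (var 14 * (var 12 * (var 12 * (var 3 * (var 3 * smG10Lo)))))))))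

/-- Lower bound of `tplT`. -/
def tplTLo : Ex :=
    (((var 14 * (var 12 * (var 7 * (var 4 * (var 4 * smT0Lo)))))
    + (var 13 * (var 12 * (var 7 * (var 4 * (var 4 * smT1Lo))))))
    + ((var 14 * (var 11 * (var 7 * (var 4 * (var 4 * smT2Up)))))
    + ((var 14 * (var 7 * (var 4 * (var 4 * (((var 10 - var 11) * smT3Lo + var 11 * smT3Up))))))
    + (var 14 * (var 12 * (var 5 * (var 4 * (var 4 * smT4Up))))))))
    + (((var 14 * (var 12 * (var 7 * (var 4 * (var 3 * smT5Lo)))))
    + (var 13 * (var 12 * (var 7 * (var 4 * (var 3 * smT6Lo))))))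
    + ((var 14 * (var 7 * (var 4 * (var 3 * (((var 10 - var 11) * smT7Lo + var 11 * smT7Up))))))
    + ((var 14 * (var 12 * (var 5 * (var 4 * (var 3 * smT8Up)))))
    + (var 14 * (var 12 * (var 7 * (var 3 * (var 3 * smT9Lo))))))))

/-- Upper bound of `tplT`. -/
def tplTUp : Ex :=
    (((var 14 * (var 12 * (var 7 * (var 4 * (var 4 * smT0Up)))))
    + (var 13 * (var 12 * (var 7 * (var 4 * (var 4 * smT1Up))))))
    + ((var 14 * (var 11 * (var 7 * (var 4 * (var 4 * smT2Lo)))))
    + ((var 14 * (var 7 * (var 4 * (var 4 * (((var 10 - var 11) * smT3Up + var 11 * smT3Lo))))))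
    + (var 14 * (var 12 * (var 5 * (var 4 * (var 4 * smT4Lo))))))))
    + (((var 14 * (var 12 * (var 7 * (var 4 * (var 3 * smT5Up)))))
    + (var 13 * (var 12 * (var 7 * (var 4 * (var 3 * smT6Up))))))
    + ((var 14 * (var 7 * (var 4 * (var 3 * (((var 10 - var 11) * smT7Up + var 11 * smT7Lo))))))
    + ((var 14 * (var 12 * (var 5 * (var 4 * (var 3 * smT8Lo)))))
    + (var 14 * (var 12 * (var 7 * (var 3 * (var 3 * smT9Up))))))))

/-- The bound of `T` that serves the sign `s`. -/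
def tplTSide (s : Bool) : Ex := cond s tplTLo tplTUp

/-- `k2 G ± 4 q T`, from the bounds. -/
def c2S (k : ℕ × ℕ) (s : Bool) : Ex :=
  num k.1 * (var 7 * tplGLo) +
    num (cond s (4 : ℤ) (-4) * k.2) * qEx * (var 12 * (var 14 * tplTSide s))

/-- `2 (1 - θ) A ± κ X`, from the bounds. -/
def c3S (θ : ℕ × ℕ) (s : Bool) : Ex :=
  var 16 * (num (2 * ((θ.2 : ℤ) - θ.1)) * tplALo) +
    num θ.2 * (var 15 * (var 4 * (var 7 * (var 12 * (pow (var 14) 2 * signX s)))))

/-- `θ A ± k2 T`, from the bounds. -/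
def c4S (θ k : ℕ × ℕ) (s : Bool) : Ex :=
  num (θ.1 * k.2) * tplALo +
    num (cond s (1 : ℤ) (-1) * (θ.2 * k.1)) * (var 7 * (var 9 * (var 14 * tplTSide s)))

/-- A bound of the slope of `T` in `e`, times the denominator of `p`. -/
def slopeTe (s : Bool) : Ex :=
  var 4 * cond s smT4Up smT4Lo + var 3 * cond s smT8Up smT8Lo

/-- An upper bound of the slope of `A` in `e`, times denominators. -/
def slopeAe : Ex :=
  var 14 * (var 7 * (var 4 * smA5Up)) + var 13 * (var 7 * (var 4 * smA6Up)) +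
    num 2 * (var 5 * (var 14 * (var 4 * smA7Lo))) + var 14 * (var 7 * (var 3 * smA11Up))

/-- An upper bound of the slope of `MG` in `e`, times denominators. -/
def slopeMe : Ex :=
  var 14 * (var 7 * (var 4 * smMG5Up)) + var 13 * (var 7 * (var 4 * smMG6Up)) +
    num 2 * (var 5 * (var 14 * (var 4 * smMG7Lo))) + var 14 * (var 7 * (var 3 * smMG11Up))

/-- An upper bound of the slope of `G` in `T`, times denominators. -/
def slopeGt : Ex :=
  var 14 * (var 12 * (var 4 * smG3Up)) + var 14 * (var 12 * (var 4 * smG4Up)) +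
    var 13 * (var 12 * (var 4 * smG5Up)) + var 14 * (var 12 * (var 3 * smG9Up)) +
    num 2 * (((var 10 - var 11) * smG6Up + var 11 * smG6Lo) * (var 14 * var 4))

/-- A bound of the slope of `T` in the scaled `G`, times denominators. -/
def slopeTt (s : Bool) : Ex :=
  var 14 * (var 12 * (var 4 * cond s smT2Up smT2Lo + var 4 * cond s smT3Up smT3Lo +
    var 3 * cond s smT7Up smT7Lo))

/-- `T` does not fall as `|e|` grows. -/
def cut2e : Ex := num (-1) * slopeTe true

/-- `k2 G ± 4 q T` does not fall as `T` grows. -/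
def cut2t (k : ℕ × ℕ) (s : Bool) : Ex :=
  num (-1) * (num k.1 * slopeGt + num (cond s (4 : ℤ) (-4) * k.2) * qEx * slopeTt s)

/-- `2 (1 - θ) A ± κ X` does not fall as `|e|` grows. -/
def cut3e (θ : ℕ × ℕ) (s : Bool) : Ex :=
  num (-1) * (var 16 * (num (2 * ((θ.2 : ℤ) - θ.1)) * slopeAe) +
    num (cond s (1 : ℤ) (-1) * θ.2) *
      (var 15 * (var 14 * (var 7 * (var 4 * coX2 + var 3 * coX4)))))

/-- `2 (1 - θ) A + κ X` does not rise with `k` and `ŵ`. -/
def cut3k (θ : ℕ × ℕ) : Ex :=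
  num (32 * ((θ.2 : ℤ) - θ.1)) * (var 16 * qEx) - num θ.2 * var 15

/-- `θ A ± k2 T` does not fall as `|e|` grows. -/
def cut4e (θ k : ℕ × ℕ) (s : Bool) : Ex :=
  num (-1) * (num (θ.1 * k.2) * slopeAe +
    num (cond s (1 : ℤ) (-1) * (θ.2 * k.1)) * (var 14 * (var 7 * slopeTe s)))

/-- `MG` does not fall as `|e|` grows. -/
def cutMe : Ex := num (-1) * slopeMe

end Vale.Agent.P100.Calib.StripEnd
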