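import Vale.Agent.P100.Calib.SlabStripEndCert
import Vale.Agent.P100.Calib.SlabStripEndSmallTpl
import Vale.Agent.P100.Calib.SlabStripEndSmallBounds

/-!
# The blocks against their bounds, and their slopes in `e` and `T`
-/

set_option linter.unusedVariables false

namespace Vale.Agent.P100.Calib.StripEnd

open Pack StripMid

local instance endSmBAdd : Add Ex := ⟨Ex.add⟩
local instance endSmBSub : Sub Ex := ⟨Ex.sub⟩
local instance endSmBMul : Mul Ex := ⟨Ex.mul⟩

variable {a d v p e e₀ e₁ k w T T₀ T₁ c : ℝ}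

/-- Where the blocks are above their bounds. -/
structure SmSign (a d v p e T c : ℝ) : Prop extends SmDom a d v where
  p_pos : 0 ≤ p
  e_neg : e ≤ 0
  c_pos : 0 ≤ c
  t_pos : 0 ≤ T
  g_pos : gHat1 a d T ≤ gHat a d T

theorem SmSign.g1 (h : SmSign a d v p e T c) : gHat1 a d T ≤ 0 := by
  rw [gHat1, neg_div, neg_nonpos]
  exact div_nonneg (div_nonneg h.t_pos (by norm_num)) (sq_nonneg _)

set_option maxRecDepth 4000 in
theorem hA_ge (h : SmSign a d v p e T c) :
    tplALo.eval (vec a d v p e k w T c) ≤ hA a d v p e k w T c := by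
  have D := h.toSmDom
  have g := sub_nonneg.2 h.g_pos
  simp only [hA, tplA, tplALo, coef_base (e := coA0) rfl, coef_base (e := coA1) rfl, coef_base (e := coA2) rfl, coef_base (e := coA3) rfl, coef_base (e := coA4) rfl, coef_base (e := coA5) rfl, coef_base (e := coA6) rfl, coef_base (e := coA7) rfl, coef_base (e := coA8) rfl, coef_base (e := coA9) rfl, coef_base (e := coA10) rfl, coef_base (e := coA11) rfl, coef_base (e := coA12) rfl, coef_base (e := smA0Lo) rfl, coef_base (e := smA1Lo) rfl, coef_base (e := smA2Lo) rfl, coef_base (e := smA5Up) rfl, coef_base (e := smA6Up) rfl, coef_base (e := smA7Lo) rfl, coef_base (e := smA8Lo) rfl, coef_base (e := smA9Lo) rfl, coef_base (e := smA10Lo) rfl, coef_base (e := smA10Up) rfl, coef_base (e := smA11Up) rfl, coef_base (e := smA12Lo) rfl, Ex.eval, ev_add, ev_sub, ev_mul, vec, hatOne]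
  linarith [smA0Lo_le D, mul_le_mul_of_nonneg_left (smA1Lo_le D) h.c_pos,
    mul_le_mul_of_nonneg_left (smA2Lo_le D) (sq_nonneg c),
    mul_le_mul_of_nonpos_left (smA5Up_ge D) h.e_neg,
    mul_le_mul_of_nonpos_left (smA6Up_ge D) (mul_nonpos_of_nonneg_of_nonpos h.c_pos h.e_neg),
    mul_le_mul_of_nonneg_left (smA7Lo_le D) (sq_nonneg e),
    mul_le_mul_of_nonneg_left (smA8Lo_le D) h.p_pos,
    mul_le_mul_of_nonneg_left (smA9Lo_le D) (mul_nonneg h.c_pos h.p_pos),
    mul_le_mul_of_nonneg_left (smA10Lo_le D) (mul_nonneg h.p_pos g),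
    mul_le_mul_of_nonpos_left (smA10Up_ge D) (mul_nonpos_of_nonneg_of_nonpos h.p_pos h.g1),
    mul_le_mul_of_nonpos_left (smA11Up_ge D) (mul_nonpos_of_nonneg_of_nonpos h.p_pos h.e_neg),
    mul_le_mul_of_nonneg_left (smA12Lo_le D) (sq_nonneg p)]

set_option maxRecDepth 4000 in
theorem hMG_ge (h : SmSign a d v p e T c) :
    tplMGLo.eval (vec a d v p e k w T c) ≤ hMG a d v p e k w T c := by
  have D := h.toSmDom
  have g := sub_nonneg.2 h.g_pos
  simp only [hMG, tplMG, tplMGLo, coef_base (e := coMG0) rfl, coef_base (e := coMG1) rfl, coef_base (e := coMG2) rfl, coef_base (e := coMG3) rfl, coef_base (e := coMG4) rfl, coef_base (e := coMG5) rfl, coef_base (e := coMG6) rfl, coef_base (e := coMG7) rfl, coef_base (e := coMG8) rfl, coef_base (e := coMG9) rfl, coef_base (e := coMG10) rfl, coef_base (e := coMG11) rfl, coef_base (e := coMG12) rfl, coef_base (e := smMG0Lo) rfl, coef_base (e := smMG1Lo) rfl, coef_base (e := smMG2Lo) rfl, coef_base (e := smMG5Up) rfl, coef_base (e :=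 smMG6Up) rfl, coef_base (e := smMG7Lo) rfl, coef_base (e := smMG8Lo) rfl, coef_base (e := smMG9Lo) rfl, coef_base (e := smMG10Lo) rfl, coef_base (e := smMG10Up) rfl, coef_base (e := smMG11Up) rfl, coef_base (e := smMG12Lo) rfl, Ex.eval, ev_add, ev_sub, ev_mul, vec, hatOne]
  linarith [smMG0Lo_le D, mul_le_mul_of_nonneg_left (smMG1Lo_le D) h.c_pos,
    mul_le_mul_of_nonneg_left (smMG2Lo_le D) (sq_nonneg c),
    mul_le_mul_of_nonpos_left (smMG5Up_ge D) h.e_neg,
    mul_le_mul_of_nonpos_left (smMG6Up_ge D) (mul_nonpos_of_nonneg_of_nonpos h.c_pos h.e_neg),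
    mul_le_mul_of_nonneg_left (smMG7Lo_le D) (sq_nonneg e),
    mul_le_mul_of_nonneg_left (smMG8Lo_le D) h.p_pos,
    mul_le_mul_of_nonneg_left (smMG9Lo_le D) (mul_nonneg h.c_pos h.p_pos),
    mul_le_mul_of_nonneg_left (smMG10Lo_le D) (mul_nonneg h.p_pos g),
    mul_le_mul_of_nonpos_left (smMG10Up_ge D) (mul_nonpos_of_nonneg_of_nonpos h.p_pos h.g1),
    mul_le_mul_of_nonpos_left (smMG11Up_ge D) (mul_nonpos_of_nonneg_of_nonpos h.p_pos h.e_neg),
    mul_le_mul_of_nonneg_left (smMG12Lo_le D) (sq_nonneg p)]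

set_option maxRecDepth 4000 in
theorem hG_ge (h : SmSign a d v p e T c) :
    tplGLo.eval (vec a d v p e k w T c) ≤ hG a d v p e k w T c := by
  have D := h.toSmDom
  have g := sub_nonneg.2 h.g_pos
  simp only [hG, tplG, tplGLo, coef_base (e := coG0) rfl, coef_base (e := coG1) rfl, coef_base (e := coG2) rfl, coef_base (e := coG3) rfl, coef_base (e := coG4) rfl, coef_base (e := coG5) rfl, coef_base (e := coG6) rfl, coef_base (e := coG7) rfl, coef_base (e := coG8) rfl, coef_base (e := coG9) rfl, coef_base (e := coG10) rfl, coef_base (e := smG0Lo) rfl, coef_base (e := smG1Lo) rfl, coef_base (e := smG2Lo) rfl, coef_base (e := smG3Up) rfl, coef_base (e := smG4Lo) rfl, coef_base (e := smG4Up) rfl, coef_base (e := smG5Lo) rfl, coef_base (e := smG5Up) rfl, coef_base (e := smG6Lo) rfl, coef_base (e := smG6Up) rfl, coef_base (e := smG7Lo) rfl, coef_base (e := smG8Lo) rfl, coef_base (e := smG9Lo) rfl, coef_base (e := smG9Up) rfl, coef_base (e := smG10Lo) rfl, Ex.eval, ev_add, ev_sub,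 ev_mul, vec, hatOne]
  linarith [smG0Lo_le D, mul_le_mul_of_nonneg_left (smG1Lo_le D) h.c_pos,
    mul_le_mul_of_nonneg_left (smG2Lo_le D) (sq_nonneg c),
    mul_le_mul_of_nonpos_left (smG3Up_ge D) h.g1,
    mul_le_mul_of_nonneg_left (smG4Lo_le D) g, mul_le_mul_of_nonpos_left (smG4Up_ge D) h.g1,
    mul_le_mul_of_nonneg_left (smG5Lo_le D) (mul_nonneg h.c_pos g),
    mul_le_mul_of_nonpos_left (smG5Up_ge D) (mul_nonpos_of_nonneg_of_nonpos h.c_pos h.g1),
    mul_le_mul_of_nonneg_left (smG6Lo_le D) (sq_nonneg (gHat a d T)),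
    mul_le_mul_of_nonneg_left (smG7Lo_le D) h.p_pos,
    mul_le_mul_of_nonneg_left (smG8Lo_le D) (mul_nonneg h.c_pos h.p_pos),
    mul_le_mul_of_nonneg_left (smG9Lo_le D) (mul_nonneg h.p_pos g),
    mul_le_mul_of_nonpos_left (smG9Up_ge D) (mul_nonpos_of_nonneg_of_nonpos h.p_pos h.g1),
    mul_le_mul_of_nonneg_left (smG10Lo_le D) (sq_nonneg p)]

set_option maxRecDepth 4000 in
theorem hT_ge (h : SmSign a d v p e T c) :
    tplTLo.eval (vec a d v p e k w T c) ≤ hT a d v p e k w T c := by
  have D := h.toSmDom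
  have g := sub_nonneg.2 h.g_pos
  simp only [hT, tplT, tplTLo, coef_base (e := coT0) rfl, coef_base (e := coT1) rfl, coef_base (e := coT2) rfl, coef_base (e := coT3) rfl, coef_base (e := coT4) rfl, coef_base (e := coT5) rfl, coef_base (e := coT6) rfl, coef_base (e := coT7) rfl, coef_base (e := coT8) rfl, coef_base (e := coT9) rfl, coef_base (e := smT0Lo) rfl, coef_base (e := smT0Up) rfl, coef_base (e := smT1Lo) rfl, coef_base (e := smT1Up) rfl, coef_base (e := smT2Lo) rfl, coef_base (e := smT2Up) rfl, coef_base (e := smT3Lo) rfl, coef_base (e := smT3Up) rfl, coef_base (e := smT4Lo) rfl, coef_base (e := smT4Up) rfl, coef_base (e := smT5Lo) rfl, coef_base (e := smT5Up) rfl, coef_base (e := smT6Lo) rfl, coef_base (e := smT6Up) rfl, coef_base (e := smT7Lo) rfl, coef_base (e := smT7Up) rfl, coef_base (e := smT8Lo) rfl, coef_base (e := smT8Up) rfl, coef_base (e := smT9Lo) rfl, coef_base (e := smT9Up) rfl, Ex.eval, ev_add, ev_sub, ev_mul, vec, hatOne]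
  linarith [smT0Lo_le D,
    mul_le_mul_of_nonneg_left (smT1Lo_le D) h.c_pos,
    mul_le_mul_of_nonneg_left (smT5Lo_le D) h.p_pos,
    mul_le_mul_of_nonneg_left (smT6Lo_le D) (mul_nonneg h.c_pos h.p_pos),
    mul_le_mul_of_nonneg_left (smT9Lo_le D) (sq_nonneg p),
    mul_le_mul_of_nonpos_left (smT2Up_ge D) h.g1,
    mul_le_mul_of_nonpos_left (smT4Up_ge D) h.e_neg,
    mul_le_mul_of_nonpos_left (smT8Up_ge D) (mul_nonpos_of_nonneg_of_nonpos h.p_pos h.e_neg),
    mul_le_mul_of_nonneg_left (smT3Lo_le D) g,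
    mul_le_mul_of_nonpos_left (smT3Up_ge D) h.g1,
    mul_le_mul_of_nonneg_left (smT7Lo_le D) (mul_nonneg h.p_pos g),
    mul_le_mul_of_nonpos_left (smT7Up_ge D) (mul_nonpos_of_nonneg_of_nonpos h.p_pos h.g1)]

set_option maxRecDepth 4000 in
theorem hT_le (h : SmSign a d v p e T c) :
    hT a d v p e k w T c ≤ tplTUp.eval (vec a d v p e k w T c) := by
  have D := h.toSmDom
  have g := sub_nonneg.2 h.g_pos
  simp only [hT, tplT, tplTUp, coef_base (e := coT0) rfl, coef_base (e := coT1) rfl, coef_base (e := coT2) rfl, coef_base (e := coT3) rfl, coef_base (e := coT4) rfl, coef_base (e := coT5) rfl, coef_base (e := coT6) rfl, coef_base (e := coT7) rfl, coef_base (e := coT8) rfl, coef_base (e := coT9) rfl, coef_base (e := smT0Lo) rfl, coef_base (e := smT0Up) rfl, coef_base (e := smT1Lo) rfl, coef_base (e := smT1Up) rfl, coef_base (e := smT2Lo) rfl, coef_base (e := smT2Up) rfl, coef_base (e := smT3Lo) rfl, coef_base (e := smT3Up) rfl, coef_base (e := smT4Lo) rfl, coef_base (e :=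 smT4Up) rfl, coef_base (e := smT5Lo) rfl, coef_base (e := smT5Up) rfl, coef_base (e := smT6Lo) rfl, coef_base (e := smT6Up) rfl, coef_base (e := smT7Lo) rfl, coef_base (e := smT7Up) rfl, coef_base (e := smT8Lo) rfl, coef_base (e := smT8Up) rfl, coef_base (e := smT9Lo) rfl, coef_base (e := smT9Up) rfl, Ex.eval, ev_add, ev_sub, ev_mul, vec, hatOne]
  linarith [smT0Up_ge D,
    mul_le_mul_of_nonneg_left (smT1Up_ge D) h.c_pos,
    mul_le_mul_of_nonneg_left (smT5Up_ge D) h.p_pos,
    mul_le_mul_of_nonneg_left (smT6Up_ge D) (mul_nonneg h.c_pos h.p_pos),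
    mul_le_mul_of_nonneg_left (smT9Up_ge D) (sq_nonneg p),
    mul_le_mul_of_nonpos_left (smT2Lo_le D) h.g1,
    mul_le_mul_of_nonpos_left (smT4Lo_le D) h.e_neg,
    mul_le_mul_of_nonpos_left (smT8Lo_le D) (mul_nonpos_of_nonneg_of_nonpos h.p_pos h.e_neg),
    mul_le_mul_of_nonneg_left (smT3Up_ge D) g,
    mul_le_mul_of_nonpos_left (smT3Lo_le D) h.g1,
    mul_le_mul_of_nonneg_left (smT7Up_ge D) (mul_nonneg h.p_pos g),
    mul_le_mul_of_nonpos_left (smT7Lo_le D) (mul_nonpos_of_nonneg_of_nonpos h.p_pos h.g1)]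

theorem sgn_T_ge (h : SmSign a d v p e T c) (s : Bool) :
    sgn s * (tplTSide s).eval (vec a d v p e k w T c) ≤ sgn s * hT a d v p e k w T c := by
  cases s <;> simp only [sgn, tplTSide, cond_true, cond_false, one_mul, neg_one_mul, neg_le_neg_iff]
  · exact hT_le h
  · exact hT_ge h

set_option maxRecDepth 4000 in
theorem hT_e_diff : hT a d v p e₁ k w T c = hT a d v p e₀ k w T c +
    (e₁ - e₀) * (coT4.eval (StripMid.base a d v) + coT8.eval (StripMid.base a d v) * p) := by
  simp only [hT, tplT, coef_base (e := coT0) rfl, coef_base (e := coT1) rfl, coef_base (e := coT2) rfl, coef_base (e := coT3) rfl, coef_base (e := coT4) rfl, coef_base (e := coT5) rfl, coef_base (e := coT6) rfl, coef_base (e := coT7) rfl, coef_base (e := coT8) rfl, coef_base (e := coT9) rfl, Ex.eval, vec, hatOne]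
  ring

set_option maxRecDepth 4000 in
theorem hA_e_diff : hA a d v p e₁ k w T c = hA a d v p e₀ k w T c +
    (e₁ - e₀) * (coA5.eval (StripMid.base a d v) + coA6.eval (StripMid.base a d v) * c +
      coA7.eval (StripMid.base a d v) * (e₀ + e₁) + coA11.eval (StripMid.base a d v) * p) := by
  simp only [hA, tplA, coef_base (e := coA0) rfl, coef_base (e := coA1) rfl, coef_base (e := coA2) rfl, coef_base (e := coA3) rfl, coef_base (e := coA4) rfl, coef_base (e := coA5) rfl, coef_base (e := coA6) rfl, coef_base (e := coA7) rfl, coef_base (e := coA8) rfl, coef_base (e := coA9) rfl, coef_base (e := coA10) rfl, coef_base (e := coA11) rfl, coef_base (e := coA12) rfl, Ex.eval, vec, hatOne]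
  ring

set_option maxRecDepth 4000 in
theorem hMG_e_diff : hMG a d v p e₁ k w T c = hMG a d v p e₀ k w T c +
    (e₁ - e₀) * (coMG5.eval (StripMid.base a d v) + coMG6.eval (StripMid.base a d v) * c +
      coMG7.eval (StripMid.base a d v) * (e₀ + e₁) + coMG11.eval (StripMid.base a d v) * p) := by
  simp only [hMG, tplMG, coef_base (e := coMG0) rfl, coef_base (e := coMG1) rfl, coef_base (e := coMG2) rfl, coef_base (e := coMG3) rfl, coef_base (e := coMG4) rfl, coef_base (e := coMG5) rfl, coef_base (e := coMG6) rfl, coef_base (e := coMG7) rfl, coef_base (e := coMG8) rfl, coef_base (e := coMG9) rfl, coef_base (e := coMG10) rfl, coef_base (e := coMG11) rfl, coef_base (e := coMG12) rfl, Ex.eval, vec, hatOne]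
  ring

theorem hX_e_diff : hX a d v p e₁ k w T c = hX a d v p e₀ k w T c +
    (e₁ - e₀) * (coX2.eval (StripMid.base a d v) + coX4.eval (StripMid.base a d v) * p) := by
  simp only [hX, tplX, coef_base (e := coX0) rfl, coef_base (e := coX1) rfl, coef_base (e := coX2) rfl, coef_base (e := coX3) rfl, coef_base (e := coX4) rfl, Ex.eval, vec, hatOne]
  ring

theorem hG_e_indep : hG a d v p e₁ k w T c = hG a d v p e₀ k w T c := by
  simp only [hG, tplG, coef_base (e := coG0) rfl, coef_base (e := coG1) rfl, coef_base (e := coG2) rfl, coef_base (e := coG3) rfl, coef_base (e := coG4) rfl, coef_base (e := coG5) rfl, coef_base (e := coG6) rfl, coef_base (e := coG7) rfl, coef_base (e := coG8) rfl, coef_base (e := coG9) rfl, coef_base (e := coG10) rfl, Ex.eval, vec, hatOne]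

set_option maxRecDepth 4000 in
theorem hMG_T_diff : hMG a d v p e k w T₁ c = hMG a d v p e k w T₀ c -
    (T₁ - T₀) * (1 / 10 / (a + d) ^ 2) * p * coMG10.eval (StripMid.base a d v) := by
  simp only [hMG, tplMG, coef_base (e := coMG0) rfl, coef_base (e := coMG1) rfl, coef_base (e := coMG2) rfl, coef_base (e := coMG3) rfl, coef_base (e := coMG4) rfl, coef_base (e := coMG5) rfl, coef_base (e := coMG6) rfl, coef_base (e := coMG7) rfl, coef_base (e := coMG8) rfl, coef_base (e := coMG9) rfl, coef_base (e := coMG10) rfl, coef_base (e := coMG11) rfl, coef_base (e := coMG12) rfl, Ex.eval, vec, hatOne, gHat, gHat1]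
  ring

set_option maxRecDepth 4000 in
theorem hG_T_diff : hG a d v p e k w T₁ c = hG a d v p e k w T₀ c -
    (T₁ - T₀) * (1 / 10 / (a + d) ^ 2) * (coG3.eval (StripMid.base a d v) +
      coG4.eval (StripMid.base a d v) + coG5.eval (StripMid.base a d v) * c +
      coG9.eval (StripMid.base a d v) * p +
      coG6.eval (StripMid.base a d v) * (gHat a d T₀ + gHat a d T₁)) := by
  simp only [hG, tplG, coef_base (e := coG0) rfl, coef_base (e := coG1) rfl, coef_base (e := coG2) rfl, coef_base (e := coG3) rfl, coef_base (e := coG4) rfl, coef_base (e := coG5) rfl, coef_base (e := coG6) rfl, coef_base (e := coG7) rfl, coef_base (e := coG8) rfl, coef_base (e := coG9) rfl, coef_base (e := coG10) rfl, Ex.eval, vec, hatOne, gHat, gHat1]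
  ring

set_option maxRecDepth 4000 in
theorem hT_T_diff : hT a d v p e k w T₁ c = hT a d v p e k w T₀ c -
    (T₁ - T₀) * (1 / 10 / (a + d) ^ 2) * (coT2.eval (StripMid.base a d v) +
      coT3.eval (StripMid.base a d v) + coT7.eval (StripMid.base a d v) * p) := by
  simp only [hT, tplT, coef_base (e := coT0) rfl, coef_base (e := coT1) rfl, coef_base (e := coT2) rfl, coef_base (e := coT3) rfl, coef_base (e := coT4) rfl, coef_base (e := coT5) rfl, coef_base (e := coT6) rfl, coef_base (e := coT7) rfl, coef_base (e := coT8) rfl, coef_base (e := coT9) rfl, Ex.eval, vec, hatOne, gHat, gHat1]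
  ring

theorem slopeTe_ge (h : SmSign a d v p e T c) (s : Bool) :
    sgn s * (coT4.eval (StripMid.base a d v) + coT8.eval (StripMid.base a d v) * p) ≤
      sgn s * (slopeTe s).eval (vec a d v p e k w T c) := by
  have D := h.toSmDom
  cases s
  · simp only [sgn, slopeTe, cond_false, coef_base (e := smT4Lo) rfl, coef_base (e := smT8Lo) rfl, Ex.eval, ev_add, ev_mul, vec,
      hatOne]
    linarith [smT4Lo_le D, mul_le_mul_of_nonneg_left (smT8Lo_le D) h.p_pos]
  · simp only [sgn, slopeTe, cond_true, coef_base (e := smT4Up) rfl, coef_base (e := smT8Up) rfl, Ex.eval, ev_add, ev_mul, vec,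
      hatOne]
    linarith [smT4Up_ge D, mul_le_mul_of_nonneg_left (smT8Up_ge D) h.p_pos]

theorem slopeAe_ge (h : SmSign a d v p e₁ T c) (he : e₁ ≤ e₀) (he₀ : e₀ ≤ 0) :
    coA5.eval (StripMid.base a d v) + coA6.eval (StripMid.base a d v) * c +
      coA7.eval (StripMid.base a d v) * (e₀ + e₁) + coA11.eval (StripMid.base a d v) * p ≤
      slopeAe.eval (vec a d v p e₁ k w T c) := by
  have D := h.toSmDom
  have l := smA7Lo_le D
  have n := l.trans (coef_A_e_le (by linarith [D.a_low]) D.d_pos.le D.v_pos.le)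
  simp only [slopeAe, coef_base (e := smA5Up) rfl, coef_base (e := smA6Up) rfl, coef_base (e := smA7Lo) rfl, coef_base (e := smA11Up) rfl, Ex.eval, ev_add, ev_mul, ev_num,
    vec, hatOne]
  push_cast
  linarith [smA5Up_ge D, mul_le_mul_of_nonneg_left (smA6Up_ge D) h.c_pos,
    mul_le_mul_of_nonpos_left l (show e₀ + e₁ ≤ 0 by linarith [h.e_neg]),
    mul_le_mul_of_nonpos_left (show 2 * e₁ ≤ e₀ + e₁ by linarith) n,
    mul_le_mul_of_nonneg_left (smA11Up_ge D) h.p_pos]

theorem slopeMe_ge (h : SmSign a d v p e₁ T c) (he : e₁ ≤ e₀) (he₀ : e₀ ≤ 0) :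
    coMG5.eval (StripMid.base a d v) + coMG6.eval (StripMid.base a d v) * c +
      coMG7.eval (StripMid.base a d v) * (e₀ + e₁) + coMG11.eval (StripMid.base a d v) * p ≤
      slopeMe.eval (vec a d v p e₁ k w T c) := by
  have D := h.toSmDom
  have l := smMG7Lo_le D
  have n := l.trans (coef_MG_e_le (a := a) D.d_pos.le D.v_pos.le)
  simp only [slopeMe, coef_base (e := smMG5Up) rfl, coef_base (e := smMG6Up) rfl, coef_base (e := smMG7Lo) rfl, coef_base (e := smMG11Up) rfl, Ex.eval, ev_add, ev_mul,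
    ev_num, vec, hatOne]
  push_cast
  linarith [smMG5Up_ge D, mul_le_mul_of_nonneg_left (smMG6Up_ge D) h.c_pos,
    mul_le_mul_of_nonpos_left l (show e₀ + e₁ ≤ 0 by linarith [h.e_neg]),
    mul_le_mul_of_nonpos_left (show 2 * e₁ ≤ e₀ + e₁ by linarith) n,
    mul_le_mul_of_nonneg_left (smMG11Up_ge D) h.p_pos]

theorem slopeGt_ge (h : SmSign a d v p e T₁ c) (h0 : 0 ≤ T₀) (hT : T₀ ≤ T₁) :
    coG3.eval (StripMid.base a d v) + coG4.eval (StripMid.base a d v) +
      coG5.eval (StripMid.base a d v) * c + coG9.eval (StripMid.base a d v) * p +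
      coG6.eval (StripMid.base a d v) * (gHat a d T₀ + gHat a d T₁) ≤
      slopeGt.eval (vec a d v p e k w T₁ c) := by
  have D := h.toSmDom
  have g := sub_nonneg.2 h.g_pos
  have eq : gHat a d T₀ + gHat a d T₁ = 2 * (gHat a d T₁ - gHat1 a d T₁) +
      (gHat1 a d T₀ + gHat1 a d T₁) := by simp only [gHat, gHat1]; ring
  have hs : gHat1 a d T₁ ≤ gHat1 a d T₀ := by
    simp only [gHat1]
    exact div_le_div_of_nonneg_right (by linarith) (sq_nonneg _)
  have g0 : gHat1 a d T₀ ≤ 0 := by
    rw [gHat1, neg_div, neg_nonpos]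
    exact div_nonneg (div_nonneg h0 (by norm_num)) (sq_nonneg _)
  have n := (smG6Lo_le D).trans (coef_G_t_le (by linarith [D.a_low]) D.d_pos.le D.v_pos.le)
  simp only [slopeGt, coef_base (e := smG3Up) rfl, coef_base (e := smG4Up) rfl, coef_base (e := smG5Up) rfl, coef_base (e := smG9Up) rfl, coef_base (e := smG6Up) rfl, coef_base (e := smG6Lo) rfl, Ex.eval, ev_add,
    ev_sub, ev_mul, ev_num, vec, hatOne]
  rw [eq]
  push_cast
  linarith [smG3Up_ge D, smG4Up_ge D, mul_le_mul_of_nonneg_left (smG5Up_ge D) h.c_pos,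
    mul_le_mul_of_nonneg_left (smG9Up_ge D) h.p_pos,
    mul_le_mul_of_nonneg_left (smG6Up_ge D) g,
    mul_le_mul_of_nonpos_left (smG6Lo_le D) (add_nonpos g0 h.g1),
    mul_le_mul_of_nonpos_left (show 2 * gHat1 a d T₁ ≤ gHat1 a d T₀ + gHat1 a d T₁ by linarith) n]

theorem slopeTt_ge (h : SmSign a d v p e T c) (s : Bool) :
    sgn s * (coT2.eval (StripMid.base a d v) + coT3.eval (StripMid.base a d v) +
      coT7.eval (StripMid.base a d v) * p) ≤
      sgn s * (slopeTt s).eval (vec a d v p e k w T c) := by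
  have D := h.toSmDom
  cases s
  · simp only [sgn, slopeTt, cond_false, coef_base (e := smT2Lo) rfl, coef_base (e := smT3Lo) rfl, coef_base (e := smT7Lo) rfl, Ex.eval, ev_add, ev_mul,
      vec, hatOne]
    linarith [smT2Lo_le D, smT3Lo_le D, mul_le_mul_of_nonneg_left (smT7Lo_le D) h.p_pos]
  · simp only [sgn, slopeTt, cond_true, coef_base (e := smT2Up) rfl, coef_base (e := smT3Up) rfl, coef_base (e := smT7Up) rfl, Ex.eval, ev_add, ev_mul,
      vec, hatOne]
    linarith [smT2Up_ge D, smT3Up_ge D, mul_le_mul_of_nonneg_left (smT7Up_ge D) h.p_pos]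

end Vale.Agent.P100.Calib.StripEnd
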