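import Vale.Agent.P100.Calib.SlabStripMidChart

/-!
# Bounds of the coefficients of the blocks for small `d`

Each coefficient cut at `d³`, with the rest absorbed on `7/10 < 2 a ≤ 1`, `0 < d ≤ 1/8`,
`0 < v ≤ 20/7`.
-/

set_option linter.defProp false

namespace Vale.Agent.P100.Calib.StripEnd

open Pack Pack.Ex StripMid

local instance endSmAdd : Add Ex := ⟨Ex.add⟩
local instance endSmSub : Sub Ex := ⟨Ex.sub⟩
local instance endSmMul : Mul Ex := ⟨Ex.mul⟩

/-- The ranges of `2 a`, `d`, `v`. -/
def smC : ℕ → Chart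
  | 0 => StripMid.sideUp (7, 10, 10)
  | 1 => StripMid.sideUp (0, 1, 8)
  | 2 => StripMid.sideUp (0, 20, 7)
  | _ => StripMid.side (0, 1, 1)

/-- Lower bound of `coA0`. -/
def smA0Lo : Ex :=
  ((((num (-256)) + (var 0 * (num (-256)))) + (var 1 * (num (-256)))) + (var 2 * ((((num 1920) + (var 0 * ((num (-4736)) + (var 0 * ((num 4992) + (var 0
  * (num (-640)))))))) + (var 1 * (((num (-1920)) + (var 0 * ((num 5120) + (var 0 * (num (-1408)))))) + (var 1 * (((num 128) + (var 0 * (num (-896)))) +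
  (var 1 * (num (-128)))))))) + (var 2 * ((((num (-16)) + (var 0 * ((num (-400)) + (var 0 * ((num 992) + (var 0 * ((num (-1056)) + (var 0 * ((num 240) +
  (var 0 * (num (-400)))))))))))) + (var 1 * (((num 4272) + (var 0 * ((num (-10368)) + (var 0 * ((num 9824) + (var 0 * ((num (-1152)) + (var 0 * (num (-1360))))))))))
  + (var 1 * (((num (-3744)) + (var 0 * ((num 11744) + (var 0 * ((num (-3360)) + (var 0 * (num (-1696)))))))) + (var 1 * ((num 795) + (var 0 * ((num (-2304))
  + (var 0 * (num (-928)))))))))))) + (var 2 * ((var 1 * (((num (-32)) + (var 0 * ((num (-800)) + (var 0 * ((num 1984) + (var 0 * ((num (-2112)) + (var 0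
  * ((num 480) + (var 0 * (num (-800)))))))))))) + (var 1 * (((num 3136) + (var 0 * ((num (-7392)) + (var 0 * ((num 6112) + (var 0 * ((num (-800)) + (var
  0 * (num (-2720)))))))))) + (var 1 * ((num (-3428)) + (var 0 * ((num 8960) + (var 0 * ((num (-3360)) + (var 0 * (num (-3392))))))))))))) + (var 2 * ((var
  1 * (var 1 * (((num (-56)) + (var 0 * ((num (-360)) + (var 0 * ((num 912) + (var 0 * ((num (-1488)) + (var 0 * ((num 616) + (var 0 * (num (-520))))))))))))
  + (var 1 * ((num 662) + (var 0 * ((num (-2160)) + (var 0 * ((num 832) + (var 0 * ((num 560) + (var 0 * (num (-1704)))))))))))))) + (var 2 * (var 1 * (var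
  1 * (var 1 * ((num (-70)) + (var 0 * ((num 40) + (var 0 * ((num (-80)) + (var 0 * ((num (-432)) + (var 0 * ((num 376) + (var 0 * (num (-120)))))))))))))))))))))))))

/-- Lower bound of `coA1`. -/
def smA1Lo : Ex :=
  (var 2 * (var 2 * ((var 1 * (((num 128) + (var 0 * ((num 128) + (var 0 * ((num (-128)) + (var 0 * (num (-128)))))))) + (var 1 * (((num 128) + (var 0 *
  ((num (-256)) + (var 0 * (num (-384)))))) + (var 1 * ((num (-144)) + (var 0 * (num (-384))))))))) + (var 2 * ((var 1 * (var 1 * (((num 256) + (var 0 *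
  ((num 256) + (var 0 * ((num (-256)) + (var 0 * (num (-256)))))))) + (var 1 * ((num 124) + (var 0 * ((num (-512)) + (var 0 * (num (-768)))))))))) + (var
  2 * (var 1 * (var 1 * (var 1 * ((num 63) + (var 0 * ((num 160) + (var 0 * ((num (-160)) + (var 0 * (num (-160)))))))))))))))))

/-- Lower bound of `coA2`. -/
def smA2Lo : Ex :=
  ((((num (-256)) + (var 0 * ((num 256) + (var 0 * ((num 256) + (var 0 * (num (-256)))))))) + (var 1 * (((num 256) + (var 0 * ((num 512) + (var 0 * (num
  (-768)))))) + (var 1 * (((num 256) + (var 0 * (num (-768)))) + (var 1 * (num (-256)))))))) + (var 2 * ((var 1 * (((num (-768)) + (var 0 * ((num 768) +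
  (var 0 * ((num 768) + (var 0 * (num (-768)))))))) + (var 1 * (((num 768) + (var 0 * ((num 1536) + (var 0 * (num (-2304)))))) + (var 1 * ((num 672) + (var
  0 * (num (-2304))))))))) + (var 2 * ((var 1 * (var 1 * (((num (-896)) + (var 0 * ((num 896) + (var 0 * ((num 896) + (var 0 * (num (-896)))))))) + (var
  1 * ((num 658) + (var 0 * ((num 1792) + (var 0 * (num (-2688)))))))))) + (var 2 * (var 1 * (var 1 * (var 1 * ((num (-537)) + (var 0 * ((num 512) + (var
  0 * ((num 512) + (var 0 * (num (-512))))))))))))))))) +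
    (var 2 * (pow (var 1) 3 * (num 96 + var 1 * (num (-768)))))

/-- Upper bound of `coA5`. -/
def smA5Up : Ex :=
  (var 2 * ((((num (-256)) + (var 0 * (num 256))) + (var 1 * (num 256))) + (var 2 * ((var 1 * (((num (-256)) + (var 0 * (num 512))) + (var 1 * (num 384))))
  + (var 2 * ((var 1 * (var 1 * (((num 32) + (var 0 * ((num 448) + (var 0 * (num (-32)))))) + (var 1 * ((num 256) + (var 0 * (num (-64)))))))) + (var 2 *
  (var 1 * (var 1 * (var 1 * ((num 43) + (var 0 * ((num 192) + (var 0 * (num (-32))))))))))))))))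

/-- Upper bound of `coA6`. -/
def smA6Up : Ex :=
  (var 2 * ((var 1 * (((num (-128)) + (var 0 * ((num 256) + (var 0 * (num (-128)))))) + (var 1 * (((num 256) + (var 0 * (num (-256)))) + (var 1 * (num (-128)))))))
  + (var 2 * ((var 1 * (var 1 * (((num (-256)) + (var 0 * ((num 512) + (var 0 * (num (-256)))))) + (var 1 * ((num 512) + (var 0 * (num (-512)))))))) + (var
  2 * (var 1 * (var 1 * (var 1 * ((num (-147)) + (var 0 * ((num 320) + (var 0 * (num (-160))))))))))))))

/-- Lower bound of `coA7`. -/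
def smA7Lo : Ex :=
  (var 2 * (var 2 * ((var 1 * (var 1 * (((num (-16)) + (var 0 * (num (-16)))) + (var 1 * (num (-16)))))) + (var 2 * (var 1 * (var 1 * (var 1 * ((num (-18))
  + (var 0 * (num (-16)))))))))))

/-- Lower bound of `coA8`. -/
def smA8Lo : Ex :=
  ((((num 128) + (var 0 * (num 128))) + (var 1 * (num 128))) + (var 2 * ((((num (-608)) + (var 0 * ((num 1184) + (var 0 * ((num (-1120)) + (var 0 * (num
  160))))))) + (var 1 * (((num 608) + (var 0 * ((num (-896)) + (var 0 * (num 352))))) + (var 1 * (((num 224) + (var 0 * (num 224))) + (var 1 * (num 32)))))))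
  + (var 2 * ((var 1 * (((num (-1344)) + (var 0 * ((num 2240) + (var 0 * ((num (-2240)) + (var 0 * (num 320))))))) + (var 1 * (((num 768) + (var 0 * ((num
  (-2176)) + (var 0 * (num 640))))) + (var 1 * ((num 64) + (var 0 * (num 320)))))))) + (var 2 * ((var 1 * (var 1 * (((num (-840)) + (var 0 * ((num 936) +
  (var 0 * ((num (-1208)) + (var 0 * (num 88))))))) + (var 1 * ((num 136) + (var 0 * ((num (-1328)) + (var 0 * (num 72))))))))) + (var 2 * (var 1 * (var
  1 * (var 1 * ((num (-182)) + (var 0 * ((num (-120)) + (var 0 * ((num (-88)) + (var 0 * (num (-72)))))))))))))))))))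

/-- Lower bound of `coA9`. -/
def smA9Lo : Ex :=
  (var 2 * ((var 1 * (((num (-64)) + (var 0 * ((num (-64)) + (var 0 * ((num 64) + (var 0 * (num 64))))))) + (var 1 * (((num (-64)) + (var 0 * ((num 128)
  + (var 0 * (num 192))))) + (var 1 * ((num 64) + (var 0 * (num 192)))))))) + (var 2 * ((var 1 * (var 1 * (((num (-128)) + (var 0 * ((num (-128)) + (var
  0 * ((num 128) + (var 0 * (num 128))))))) + (var 1 * ((num (-128)) + (var 0 * ((num 256) + (var 0 * (num 384))))))))) + (var 2 * (var 1 * (var 1 * (var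
  1 * ((num (-85)) + (var 0 * ((num (-80)) + (var 0 * ((num 80) + (var 0 * (num 80))))))))))))))) +
    (var 2 * (pow (var 1) 4 * num 64))

/-- Lower bound of `coA10`. -/
def smA10Lo : Ex :=
  (var 2 * (var 2 * ((var 1 * (((num (-512)) + (var 0 * (num 256))) + (var 1 * (num 256)))) + (var 2 * ((var 1 * (var 1 * (((num (-768)) + (var 0 * (num
  384))) + (var 1 * (num 384))))) + (var 2 * (var 1 * (var 1 * (var 1 * ((num (-256)) + (var 0 * (num 128))))))))))))

/-- Upper bound of `coA10`. -/
def smA10Up : Ex :=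
  (var 2 * (var 2 * ((var 1 * (((num (-512)) + (var 0 * (num 256))) + (var 1 * (num 256)))) + (var 2 * ((var 1 * (var 1 * (((num (-768)) + (var 0 * (num
  384))) + (var 1 * (num 384))))) + (var 2 * (var 1 * (var 1 * (var 1 * ((num (-240)) + (var 0 * (num 128))))))))))))

/-- Upper bound of `coA11`. -/
def smA11Up : Ex :=
  (var 2 * (var 2 * ((var 1 * (var 1 * (((num 16) + (var 0 * ((num 32) + (var 0 * (num 16))))) + (var 1 * ((num 34) + (var 0 * (num 32))))))) + (var 2 *
  (var 1 * (var 1 * (var 1 * ((num 25) + (var 0 * ((num 32) + (var 0 * (num 16))))))))))))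

/-- Lower bound of `coA12`. -/
def smA12Lo : Ex :=
  ((((num (-16)) + (var 0 * (num (-16)))) + (var 1 * (num (-16)))) + (var 2 * ((var 1 * (((num (-32)) + (var 0 * (num (-32)))) + (var 1 * (num (-32)))))
  + (var 2 * ((var 1 * (var 1 * (((num (-4)) + (var 0 * ((num (-12)) + (var 0 * ((num (-12)) + (var 0 * (num (-4)))))))) + (var 1 * ((num (-16)) + (var 0
  * ((num (-24)) + (var 0 * (num (-12)))))))))) + (var 2 * (var 1 * (var 1 * (var 1 * ((num 4) + (var 0 * ((num 4) + (var 0 * ((num (-12)) + (var 0 * (num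
  (-4)))))))))))))))))

/-- Lower bound of `coG0`. -/
def smG0Lo : Ex :=
  ((((num (-256)) + (var 0 * (num (-256)))) + (var 1 * (num (-256)))) + (var 2 * ((((num (-128)) + (var 0 * ((num 896) + (var 0 * ((num 384) + (var 0 * (num
  (-640)))))))) + (var 1 * (((num (-384)) + (var 0 * (var 0 * (num (-1408))))) + (var 1 * (((num (-384)) + (var 0 * (num (-896)))) + (var 1 * (num (-128))))))))
  + (var 2 * ((((num (-16)) + (var 0 * ((num 624) + (var 0 * ((num (-1824)) + (var 0 * ((num 1248) + (var 0 * ((num 240) + (var 0 * (num (-400))))))))))))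
  + (var 1 * (((num 176) + (var 0 * ((num 128) + (var 0 * ((num 3168) + (var 0 * ((num (-1152)) + (var 0 * (num (-1360)))))))))) + (var 1 * (((num (-224))
  + (var 0 * ((num 2080) + (var 0 * ((num (-3552)) + (var 0 * (num (-1760)))))))) + (var 1 * ((num 42) + (var 0 * ((num (-2688)) + (var 0 * (num (-1120))))))))))))
  + (var 2 * ((var 1 * (((num (-32)) + (var 0 * ((num 1248) + (var 0 * ((num (-3648)) + (var 0 * ((num 2496) + (var 0 * ((num 480) + (var 0 * (num (-800))))))))))))
  + (var 1 * (((num 704) + (var 0 * ((num (-2080)) + (var 0 * ((num 5280) + (var 0 * ((num (-736)) + (var 0 * (num (-2784)))))))))) + (var 1 * ((num (-823))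
  + (var 0 * ((num 3328) + (var 0 * ((num (-3808)) + (var 0 * (num (-3776))))))))))))) + (var 2 * ((var 1 * (var 1 * (((num (-56)) + (var 0 * ((num 920)
  + (var 0 * ((num (-2368)) + (var 0 * ((num 1408) + (var 0 * ((num 376) + (var 0 * (num (-536)))))))))))) + (var 1 * ((num 73) + (var 0 * ((num (-1648))
  + (var 0 * ((num 2640) + (var 0 * ((num (-176)) + (var 0 * (num (-1880)))))))))))))) + (var 2 * (var 1 * (var 1 * (var 1 * ((num (-116)) + (var 0 * ((num
  296) + (var 0 * ((num (-544)) + (var 0 * ((num 160) + (var 0 * ((num 136) + (var 0 * (num (-136)))))))))))))))))))))))))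

/-- Lower bound of `coG1`. -/
def smG1Lo : Ex :=
  (var 2 * ((var 1 * (((num 256) + (var 0 * ((num (-256)) + (var 0 * ((num (-256)) + (var 0 * (num 256))))))) + (var 1 * (((num (-256)) + (var 0 * ((num
  (-512)) + (var 0 * (num 768))))) + (var 1 * ((num (-256)) + (var 0 * (num 768)))))))) + (var 2 * ((var 1 * (((num (-128)) + (var 0 * (var 0 * (var 0 *
  (var 0 * (num 128)))))) + (var 1 * (((num 640) + (var 0 * ((num (-640)) + (var 0 * ((num (-640)) + (var 0 * (num 1152))))))) + (var 1 * ((num (-640)) +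
  (var 0 * ((num (-1280)) + (var 0 * (num 2688)))))))))) + (var 2 * ((var 1 * (var 1 * (((num (-256)) + (var 0 * (var 0 * (var 0 * (var 0 * (num 256))))))
  + (var 1 * ((num 576) + (var 0 * ((num (-576)) + (var 0 * ((num (-576)) + (var 0 * (num 1600))))))))))) + (var 2 * (var 1 * (var 1 * (var 1 * ((num (-169))
  + (var 0 * (var 0 * (var 0 * (var 0 * (num 160)))))))))))))))) +
    (var 2 * (pow (var 1) 4 * num 256))

/-- Lower bound of `coG2`. -/
def smG2Lo : Ex :=
  ((((num (-256)) + (var 0 * ((num 256) + (var 0 * ((num 256) + (var 0 * (num (-256)))))))) + (var 1 * (((num 256) + (var 0 * ((num 512) + (var 0 * (num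
  (-768)))))) + (var 1 * (((num 256) + (var 0 * (num (-768)))) + (var 1 * (num (-256)))))))) + (var 2 * ((var 1 * (((num (-768)) + (var 0 * ((num 768) +
  (var 0 * ((num 768) + (var 0 * (num (-768)))))))) + (var 1 * (((num 768) + (var 0 * ((num 1536) + (var 0 * (num (-2304)))))) + (var 1 * ((num 672) + (var
  0 * (num (-2304))))))))) + (var 2 * ((var 1 * (var 1 * (((num (-896)) + (var 0 * ((num 896) + (var 0 * ((num 896) + (var 0 * (num (-896)))))))) + (var
  1 * ((num 658) + (var 0 * ((num 1792) + (var 0 * (num (-2688)))))))))) + (var 2 * (var 1 * (var 1 * (var 1 * ((num (-537)) + (var 0 * ((num 512) + (var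
  0 * ((num 512) + (var 0 * (num (-512))))))))))))))))) +
    (var 2 * (pow (var 1) 3 * (num 96 + var 1 * (num (-768)))))

/-- Upper bound of `coG3`. -/
def smG3Up : Ex :=
  (var 2 * (var 2 * ((num (-4096)) + (var 2 * ((var 1 * (num (-8192))) + (var 2 * ((var 1 * (var 1 * (num (-5120)))) + (var 2 * (var 1 * (var 1 * (var 1
  * (num (-1024)))))))))))))

/-- Lower bound of `coG4`. -/
def smG4Lo : Ex :=
  (var 2 * (var 2 * ((var 1 * (((num (-512)) + (var 0 * ((num 1024) + (var 0 * (num 512))))) + (var 1 * (((num 1024) + (var 0 * (num 1024))) + (var 1 * (num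
  512)))))) + (var 2 * ((var 1 * (((num (-256)) + (var 0 * ((num (-256)) + (var 0 * ((num 768) + (var 0 * (num 256))))))) + (var 1 * (((num (-1280)) + (var
  0 * ((num 3584) + (var 0 * (num 1792))))) + (var 1 * ((num 2816) + (var 0 * (num 2816)))))))) + (var 2 * ((var 1 * (var 1 * (((num (-384)) + (var 0 * ((num
  (-384)) + (var 0 * ((num 1152) + (var 0 * (num 384))))))) + (var 1 * ((num (-1024)) + (var 0 * ((num 3584) + (var 0 * (num 1792))))))))) + (var 2 * (var
  1 * (var 1 * (var 1 * ((num (-128)) + (var 0 * ((num (-128)) + (var 0 * ((num 384) + (var 0 * (num 128))))))))))))))))))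

/-- Upper bound of `coG4`. -/
def smG4Up : Ex :=
  (var 2 * (var 2 * ((var 1 * (((num (-512)) + (var 0 * ((num 1024) + (var 0 * (num 512))))) + (var 1 * (((num 1024) + (var 0 * (num 1024))) + (var 1 * (num
  512)))))) + (var 2 * ((var 1 * (((num (-256)) + (var 0 * ((num (-256)) + (var 0 * ((num 768) + (var 0 * (num 256))))))) + (var 1 * (((num (-1280)) + (var
  0 * ((num 3584) + (var 0 * (num 1792))))) + (var 1 * ((num 2976) + (var 0 * (num 2816)))))))) + (var 2 * ((var 1 * (var 1 * (((num (-384)) + (var 0 * ((num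
  (-384)) + (var 0 * ((num 1152) + (var 0 * (num 384))))))) + (var 1 * ((num (-400)) + (var 0 * ((num 3584) + (var 0 * (num 1792))))))))) + (var 2 * (var
  1 * (var 1 * (var 1 * ((num 53) + (var 0 * ((num (-128)) + (var 0 * ((num 384) + (var 0 * (num 128))))))))))))))))))

/-- Lower bound of `coG5`. -/
def smG5Lo : Ex :=
  (var 2 * ((((num (-1024)) + (var 0 * ((num 2048) + (var 0 * (num (-1024)))))) + (var 1 * (((num 2048) + (var 0 * (num (-2048)))) + (var 1 * (num (-1024))))))
  + (var 2 * ((var 1 * (((num (-2560)) + (var 0 * ((num 5120) + (var 0 * (num (-2560)))))) + (var 1 * (((num 5120) + (var 0 * (num (-5120)))) + (var 1 *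
  (num (-2560))))))) + (var 2 * ((var 1 * (var 1 * (((num (-2304)) + (var 0 * ((num 4608) + (var 0 * (num (-2304)))))) + (var 1 * ((num 4320) + (var 0 *
  (num (-4608)))))))) + (var 2 * (var 1 * (var 1 * (var 1 * ((num (-915)) + (var 0 * ((num 1792) + (var 0 * (num (-896))))))))))))))))

/-- Upper bound of `coG5`. -/
def smG5Up : Ex :=
  (var 2 * ((((num (-1024)) + (var 0 * ((num 2048) + (var 0 * (num (-1024)))))) + (var 1 * (((num 2048) + (var 0 * (num (-2048)))) + (var 1 * (num (-1024))))))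
  + (var 2 * ((var 1 * (((num (-2560)) + (var 0 * ((num 5120) + (var 0 * (num (-2560)))))) + (var 1 * (((num 5120) + (var 0 * (num (-5120)))) + (var 1 *
  (num (-2560))))))) + (var 2 * ((var 1 * (var 1 * (((num (-2304)) + (var 0 * ((num 4608) + (var 0 * (num (-2304)))))) + (var 1 * ((num 4608) + (var 0 *
  (num (-4608)))))))) + (var 2 * (var 1 * (var 1 * (var 1 * ((num (-827)) + (var 0 * ((num 1792) + (var 0 * (num (-896))))))))))))))))

/-- Lower bound of `coG6`. -/
def smG6Lo : Ex :=
  (var 2 * (var 2 * ((((num (-1024)) + (var 0 * (num (-1024)))) + (var 1 * (num (-1024)))) + (var 2 * ((var 1 * (((num (-2048)) + (var 0 * (num (-2048))))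
  + (var 1 * (num (-2048))))) + (var 2 * ((var 1 * (var 1 * (((num (-1280)) + (var 0 * (num (-1280)))) + (var 1 * (num (-1280)))))) + (var 2 * (var 1 * (var
  1 * (var 1 * ((num (-288)) + (var 0 * (num (-256)))))))))))))))

/-- Upper bound of `coG6`. -/
def smG6Up : Ex :=
  (var 2 * (var 2 * ((((num (-1024)) + (var 0 * (num (-1024)))) + (var 1 * (num (-1024)))) + (var 2 * ((var 1 * (((num (-2048)) + (var 0 * (num (-2048))))
  + (var 1 * (num (-2048))))) + (var 2 * ((var 1 * (var 1 * (((num (-1280)) + (var 0 * (num (-1280)))) + (var 1 * (num (-1280)))))) + (var 2 * (var 1 * (var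
  1 * (var 1 * ((num (-256)) + (var 0 * (num (-256)))))))))))))))

/-- Lower bound of `coG7`. -/
def smG7Lo : Ex :=
  ((((num 128) + (var 0 * (num 128))) + (var 1 * (num 128))) + (var 2 * ((((num 32) + (var 0 * ((num (-224)) + (var 0 * ((num (-96)) + (var 0 * (num 160)))))))
  + (var 1 * (((num 224) + (var 0 * ((num 128) + (var 0 * (num 352))))) + (var 1 * (((num 224) + (var 0 * (num 224))) + (var 1 * (num 32))))))) + (var 2
  * ((var 1 * (((num 64) + (var 0 * ((num (-448)) + (var 0 * ((num (-192)) + (var 0 * (num 320))))))) + (var 1 * ((var 0 * ((num (-128)) + (var 0 * (num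
  768)))) + (var 1 * ((num 64) + (var 0 * (num 576)))))))) + (var 2 * ((var 1 * (var 1 * (((num 88) + (var 0 * ((num (-216)) + (var 0 * ((num (-88)) + (var
  0 * (num 216))))))) + (var 1 * ((num (-88)) + (var 0 * ((num (-112)) + (var 0 * (num 584))))))))) + (var 2 * (var 1 * (var 1 * (var 1 * ((num 56) + (var
  0 * ((num 8) + (var 0 * ((num 8) + (var 0 * (num 56))))))))))))))))))

/-- Lower bound of `coG8`. -/
def smG8Lo : Ex :=
  (var 2 * ((var 1 * (((num 128) + (var 0 * (var 0 * (num (-128))))) + (var 1 * ((var 0 * (num (-256))) + (var 1 * (num (-128))))))) + (var 2 * ((var 1 *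
  (var 1 * (((num 256) + (var 0 * (var 0 * (num (-256))))) + (var 1 * ((num (-32)) + (var 0 * (num (-512)))))))) + (var 2 * (var 1 * (var 1 * (var 1 * ((num
  114) + (var 0 * (var 0 * (num (-160)))))))))))))

/-- Lower bound of `coG9`. -/
def smG9Lo : Ex :=
  (var 2 * (var 2 * ((var 1 * (((num 256) + (var 0 * (num (-256)))) + (var 1 * (num (-256))))) + (var 2 * ((var 1 * (var 1 * (((num 384) + (var 0 * (num
  (-384)))) + (var 1 * (num (-384)))))) + (var 2 * (var 1 * (var 1 * (var 1 * ((num 112) + (var 0 * (num (-128)))))))))))))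

/-- Upper bound of `coG9`. -/
def smG9Up : Ex :=
  (var 2 * (var 2 * ((var 1 * (((num 256) + (var 0 * (num (-256)))) + (var 1 * (num (-256))))) + (var 2 * ((var 1 * (var 1 * (((num 384) + (var 0 * (num
  (-384)))) + (var 1 * (num (-384)))))) + (var 2 * (var 1 * (var 1 * (var 1 * ((num 128) + (var 0 * (num (-128)))))))))))))

/-- Lower bound of `coG10`. -/
def smG10Lo : Ex :=
  ((((num (-16)) + (var 0 * (num (-16)))) + (var 1 * (num (-16)))) + (var 2 * ((var 1 * (((num (-32)) + (var 0 * (num (-32)))) + (var 1 * (num (-32)))))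
  + (var 2 * ((var 1 * (var 1 * (((num (-32)) + (var 0 * (num (-32)))) + (var 1 * (num (-32)))))) + (var 2 * (var 1 * (var 1 * (var 1 * ((num (-18)) + (var
  0 * (num (-16)))))))))))))

/-- Lower bound of `coMG0`. -/
def smMG0Lo : Ex :=
  ((num (-256)) + (var 2 * ((((num 1408) + (var 0 * ((num (-3072)) + (var 0 * (num 1920))))) + (var 1 * (((num (-2304)) + (var 0 * (num 2304))) + (var 1
  * (num 384))))) + (var 2 * ((((num (-16)) + (var 0 * (var 0 * ((num 352) + (var 0 * (var 0 * (num (-400)))))))) + (var 1 * (((num 3392) + (var 0 * ((num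
  (-6848)) + (var 0 * ((num 4160) + (var 0 * (num (-960)))))))) + (var 1 * (((num (-5728)) + (var 0 * ((num 4992) + (var 0 * (num (-736)))))) + (var 1 *
  ((num 830) + (var 0 * (num (-192)))))))))) + (var 2 * ((var 1 * (((num (-32)) + (var 0 * (var 0 * ((num 704) + (var 0 * (var 0 * (num (-800)))))))) + (var
  1 * (((num 2784) + (var 0 * ((num (-3904)) + (var 0 * ((num 2528) + (var 0 * (num (-1920)))))))) + (var 1 * ((num (-4869)) + (var 0 * ((num 2880) + (var
  0 * (num (-1472))))))))))) + (var 2 * ((var 1 * (var 1 * (((num (-56)) + (var 0 * ((num 176) + (var 0 * ((num (-192)) + (var 0 * ((num 400) + (var 0 *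
  (num (-520)))))))))) + (var 1 * ((num 723) + (var 0 * ((num (-480)) + (var 0 * ((num 896) + (var 0 * (num (-1184)))))))))))) + (var 2 * (var 1 * (var 1
  * (var 1 * ((num (-46)) + (var 0 * ((num 176) + (var 0 * ((num (-544)) + (var 0 * ((num 400) + (var 0 * (num (-120)))))))))))))))))))))))

/-- Lower bound of `coMG1`. -/
def smMG1Lo : Ex :=
  (var 2 * ((var 1 * (((num 1024) + (var 0 * (num (-1024)))) + (var 1 * (num (-1024))))) + (var 2 * ((var 1 * (((num 128) + (var 0 * (var 0 * (num (-128)))))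
  + (var 1 * (((num 2560) + (var 0 * (num (-2816)))) + (var 1 * (num (-2688))))))) + (var 2 * ((var 1 * (var 1 * (((num 256) + (var 0 * (var 0 * (num (-256)))))
  + (var 1 * ((num 1984) + (var 0 * (num (-2816)))))))) + (var 2 * (var 1 * (var 1 * (var 1 * ((num 99) + (var 0 * (var 0 * (num (-160)))))))))))))))

/-- Lower bound of `coMG2`. -/
def smMG2Lo : Ex :=
  ((((num (-256)) + (var 0 * ((num 512) + (var 0 * (num (-256)))))) + (var 1 * (((num 512) + (var 0 * (num (-512)))) + (var 1 * (num (-256)))))) + (var 2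
  * ((var 1 * (((num (-768)) + (var 0 * ((num 1536) + (var 0 * (num (-768)))))) + (var 1 * (((num 1536) + (var 0 * (num (-1536)))) + (var 1 * (num (-768)))))))
  + (var 2 * ((var 1 * (var 1 * (((num (-896)) + (var 0 * ((num 1792) + (var 0 * (num (-896)))))) + (var 1 * ((num 1680) + (var 0 * (num (-1792)))))))) +
  (var 2 * (var 1 * (var 1 * (var 1 * ((num (-525)) + (var 0 * ((num 1024) + (var 0 * (num (-512)))))))))))))))

/-- Upper bound of `coMG5`. -/
def smMG5Up : Ex :=
  (var 2 * ((((num (-256)) + (var 0 * (num 256))) + (var 1 * (num 256))) + (var 2 * ((var 1 * (((num (-256)) + (var 0 * (num 512))) + (var 1 * (num 640))))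
  + (var 2 * ((var 1 * (var 1 * (((num 32) + (var 0 * (num 224))) + (var 1 * (num 416))))) + (var 2 * (var 1 * (var 1 * (var 1 * ((num 36) + (var 0 * (num
  (-32))))))))))))))

/-- Upper bound of `coMG6`. -/
def smMG6Up : Ex :=
  (var 2 * ((var 1 * (((num (-128)) + (var 0 * (num 128))) + (var 1 * (num 128)))) + (var 2 * ((var 1 * (var 1 * (((num (-256)) + (var 0 * (num 256))) +
  (var 1 * (num 256))))) + (var 2 * (var 1 * (var 1 * (var 1 * ((num (-138)) + (var 0 * (num 160)))))))))))

/-- Lower bound of `coMG7`. -/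
def smMG7Lo : Ex :=
  (var 2 * (var 2 * ((var 1 * (var 1 * (num (-16)))) + (var 2 * (var 1 * (var 1 * (var 1 * (num (-16)))))))))

/-- Lower bound of `coMG8`. -/
def smMG8Lo : Ex :=
  ((num 128) + (var 2 * ((((num (-224)) + (var 0 * ((num 512) + (var 0 * (num (-352)))))) + (var 1 * (((num 448) + (var 0 * (num (-320)))) + (var 1 * (num
  32))))) + (var 2 * ((var 1 * (((num (-320)) + (var 0 * ((num 896) + (var 0 * (num (-704)))))) + (var 1 * (((num 832) + (var 0 * ((num (-768)) + (var 0
  * (num (-64)))))) + (var 1 * ((num (-72)) + (var 0 * (num (-128))))))))) + (var 2 * ((var 1 * (var 1 * (((num (-296)) + (var 0 * ((num 496) + (var 0 *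
  ((num (-424)) + (var 0 * (num (-32)))))))) + (var 1 * ((num 641) + (var 0 * ((num (-496)) + (var 0 * (num (-192)))))))))) + (var 2 * (var 1 * (var 1 *
  (var 1 * ((num (-207)) + (var 0 * ((num 112) + (var 0 * ((num (-72)) + (var 0 * (num (-32)))))))))))))))))))

/-- Lower bound of `coMG9`. -/
def smMG9Lo : Ex :=
  (var 2 * ((var 1 * (((num (-64)) + (var 0 * (var 0 * (num 64)))) + (var 1 * ((var 0 * (num 128)) + (var 1 * (num 64)))))) + (var 2 * ((var 1 * (var 1 *
  (((num (-128)) + (var 0 * (var 0 * (num 128)))) + (var 1 * (var 0 * (num 256)))))) + (var 2 * (var 1 * (var 1 * (var 1 * ((num (-83)) + (var 0 * (var 0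
  * (num 80))))))))))))

/-- Lower bound of `coMG10`. -/
def smMG10Lo : Ex :=
  (var 2 * (var 2 * ((var 1 * (((num (-512)) + (var 0 * (num 256))) + (var 1 * (num 256)))) + (var 2 * ((var 1 * (var 1 * (((num (-768)) + (var 0 * (num
  384))) + (var 1 * (num 384))))) + (var 2 * (var 1 * (var 1 * (var 1 * ((num (-256)) + (var 0 * (num 128))))))))))))

/-- Upper bound of `coMG10`. -/
def smMG10Up : Ex :=
  (var 2 * (var 2 * ((var 1 * (((num (-512)) + (var 0 * (num 256))) + (var 1 * (num 256)))) + (var 2 * ((var 1 * (var 1 * (((num (-768)) + (var 0 * (num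
  384))) + (var 1 * (num 384))))) + (var 2 * (var 1 * (var 1 * (var 1 * ((num (-240)) + (var 0 * (num 128))))))))))))

/-- Upper bound of `coMG11`. -/
def smMG11Up : Ex :=
  (var 2 * (var 2 * ((var 1 * (var 1 * (((num 16) + (var 0 * (num 16))) + (var 1 * (num 16))))) + (var 2 * (var 1 * (var 1 * (var 1 * ((num 18) + (var 0
  * (num 16))))))))))

/-- Lower bound of `coMG12`. -/
def smMG12Lo : Ex :=
  ((num (-16)) + (var 2 * ((var 1 * (num (-32))) + (var 2 * ((var 1 * (var 1 * (((num (-4)) + (var 0 * ((num (-8)) + (var 0 * (num (-4)))))) + (var 1 * ((num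
  (-9)) + (var 0 * (num (-8)))))))) + (var 2 * (var 1 * (var 1 * (var 1 * ((num 8) + (var 0 * ((num (-8)) + (var 0 * (num (-4)))))))))))))))

/-- Lower bound of `coT0`. -/
def smT0Lo : Ex :=
  (var 2 * ((var 1 * (((num 320) + (var 0 * ((num 256) + (var 0 * (num (-64)))))) + (var 1 * (((num 256) + (var 0 * (num (-128)))) + (var 1 * (num (-64)))))))
  + (var 2 * ((var 1 * (((num 240) + (var 0 * ((num (-832)) + (var 0 * ((num 416) + (var 0 * ((num (-128)) + (var 0 * (num (-80)))))))))) + (var 1 * (((num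
  256) + (var 0 * ((num 768) + (var 0 * ((num (-448)) + (var 0 * (num (-256)))))))) + (var 1 * ((num 311) + (var 0 * ((num (-512)) + (var 0 * (num (-288)))))))))))
  + (var 2 * ((var 1 * ((var 0 * ((num (-136)) + (var 0 * ((num 464) + (var 0 * ((num (-176)) + (var 0 * ((num (-48)) + (var 0 * (num (-40))))))))))) + (var
  1 * (((num 224) + (var 0 * ((num (-608)) + (var 0 * ((num 320) + (var 0 * ((num (-352)) + (var 0 * (num (-288)))))))))) + (var 1 * ((num (-128)) + (var
  0 * ((num 624) + (var 0 * ((num (-784)) + (var 0 * (num (-656))))))))))))) + (var 2 * ((var 1 * (var 1 * ((var 0 * ((num (-136)) + (var 0 * ((num 464)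
  + (var 0 * ((num (-176)) + (var 0 * ((num (-48)) + (var 0 * (num (-40))))))))))) + (var 1 * ((num (-41)) + (var 0 * (var 0 * ((num 8) + (var 0 * ((num
  (-224)) + (var 0 * (num (-220))))))))))))) + (var 2 * (var 1 * (var 1 * (var 1 * (var 0 * ((num (-46)) + (var 0 * ((num 104) + (var 0 * ((num (-28)) +
  (var 0 * ((num 8) + (var 0 * (num (-6)))))))))))))))))))))))

/-- Upper bound of `coT0`. -/
def smT0Up : Ex :=
  (var 2 * ((var 1 * (((num 320) + (var 0 * ((num 256) + (var 0 * (num (-64)))))) + (var 1 * (((num 256) + (var 0 * (num (-128)))) + (var 1 * (num (-64)))))))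
  + (var 2 * ((var 1 * (((num 240) + (var 0 * ((num (-832)) + (var 0 * ((num 416) + (var 0 * ((num (-128)) + (var 0 * (num (-80)))))))))) + (var 1 * (((num
  256) + (var 0 * ((num 768) + (var 0 * ((num (-448)) + (var 0 * (num (-256)))))))) + (var 1 * ((num 352) + (var 0 * ((num (-512)) + (var 0 * (num (-288)))))))))))
  + (var 2 * ((var 1 * ((var 0 * ((num (-136)) + (var 0 * ((num 464) + (var 0 * ((num (-176)) + (var 0 * ((num (-48)) + (var 0 * (num (-40))))))))))) + (var
  1 * (((num 224) + (var 0 * ((num (-608)) + (var 0 * ((num 320) + (var 0 * ((num (-352)) + (var 0 * (num (-288)))))))))) + (var 1 * ((num 32) + (var 0 *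
  ((num 624) + (var 0 * ((num (-784)) + (var 0 * (num (-656))))))))))))) + (var 2 * ((var 1 * (var 1 * ((var 0 * ((num (-136)) + (var 0 * ((num 464) + (var
  0 * ((num (-176)) + (var 0 * ((num (-48)) + (var 0 * (num (-40))))))))))) + (var 1 * ((num 52) + (var 0 * (var 0 * ((num 8) + (var 0 * ((num (-224)) +
  (var 0 * (num (-220))))))))))))) + (var 2 * (var 1 * (var 1 * (var 1 * ((num 8) + (var 0 * ((num (-46)) + (var 0 * ((num 104) + (var 0 * ((num (-28)) +
  (var 0 * ((num 8) + (var 0 * (num (-6))))))))))))))))))))))))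

/-- Lower bound of `coT1`. -/
def smT1Lo : Ex :=
  ((((num (-256)) + (var 0 * (var 0 * (num 256)))) + (var 1 * ((var 0 * (num 512)) + (var 1 * (num 256))))) + (var 2 * ((((num 64) + (var 0 * ((num (-640))
  + (var 0 * ((num 1152) + (var 0 * ((num (-896)) + (var 0 * (num 320))))))))) + (var 1 * (((num (-1024)) + (var 0 * ((num 1536) + (var 0 * ((num (-1280))
  + (var 0 * (num 1024))))))) + (var 1 * (((num 384) + (var 0 * ((num 128) + (var 0 * (num 1152))))) + (var 1 * ((num 512) + (var 0 * (num 512))))))))) +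
  (var 2 * ((var 1 * (((num 128) + (var 0 * ((num (-1280)) + (var 0 * ((num 2304) + (var 0 * ((num (-1792)) + (var 0 * (num 640))))))))) + (var 1 * (((num
  (-1408)) + (var 0 * ((num 3072) + (var 0 * ((num (-3200)) + (var 0 * (num 2048))))))) + (var 1 * ((num 768) + (var 0 * ((num (-1024)) + (var 0 * (num 2304))))))))))
  + (var 2 * ((var 1 * (var 1 * (((num 128) + (var 0 * ((num (-960)) + (var 0 * ((num 1728) + (var 0 * ((num (-1344)) + (var 0 * (num 448))))))))) + (var
  1 * ((num (-896)) + (var 0 * ((num 2304) + (var 0 * ((num (-2560)) + (var 0 * (num 1408))))))))))) + (var 2 * (var 1 * (var 1 * (var 1 * ((num 59) + (var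
  0 * ((num (-320)) + (var 0 * ((num 576) + (var 0 * ((num (-448)) + (var 0 * (num 128)))))))))))))))))))) +
    (var 2 * (pow (var 1) 4 * num 64))

/-- Upper bound of `coT1`. -/
def smT1Up : Ex :=
  ((((num (-256)) + (var 0 * (var 0 * (num 256)))) + (var 1 * ((var 0 * (num 512)) + (var 1 * (num 256))))) + (var 2 * ((((num 64) + (var 0 * ((num (-640))
  + (var 0 * ((num 1152) + (var 0 * ((num (-896)) + (var 0 * (num 320))))))))) + (var 1 * (((num (-1024)) + (var 0 * ((num 1536) + (var 0 * ((num (-1280))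
  + (var 0 * (num 1024))))))) + (var 1 * (((num 384) + (var 0 * ((num 128) + (var 0 * (num 1152))))) + (var 1 * ((num 520) + (var 0 * (num 512))))))))) +
  (var 2 * ((var 1 * (((num 128) + (var 0 * ((num (-1280)) + (var 0 * ((num 2304) + (var 0 * ((num (-1792)) + (var 0 * (num 640))))))))) + (var 1 * (((num
  (-1408)) + (var 0 * ((num 3072) + (var 0 * ((num (-3200)) + (var 0 * (num 2048))))))) + (var 1 * ((num 946) + (var 0 * ((num (-1024)) + (var 0 * (num 2304))))))))))
  + (var 2 * ((var 1 * (var 1 * (((num 128) + (var 0 * ((num (-960)) + (var 0 * ((num 1728) + (var 0 * ((num (-1344)) + (var 0 * (num 448))))))))) + (var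
  1 * ((num (-755)) + (var 0 * ((num 2304) + (var 0 * ((num (-2560)) + (var 0 * (num 1408))))))))))) + (var 2 * (var 1 * (var 1 * (var 1 * ((num 68) + (var
  0 * ((num (-320)) + (var 0 * ((num 576) + (var 0 * ((num (-448)) + (var 0 * (num 128)))))))))))))))))))) +
    (var 2 * (pow (var 1) 3 * (num (-8) + var 1 * num 64)))

/-- Lower bound of `coT2`. -/
def smT2Lo : Ex :=
  (var 2 * (var 2 * (var 2 * ((var 1 * (num 512)) + (var 2 * ((var 1 * (var 1 * (num 512))) + (var 2 * (var 1 * (var 1 * (var 1 * (num 128)))))))))))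

/-- Upper bound of `coT2`. -/
def smT2Up : Ex :=
  (var 2 * (var 2 * (var 2 * ((var 1 * (num 512)) + (var 2 * ((var 1 * (var 1 * (num 512))) + (var 2 * (var 1 * (var 1 * (var 1 * (num 128)))))))))))

/-- Lower bound of `coT3`. -/
def smT3Lo : Ex :=
  (var 2 * ((((num (-1280)) + (var 0 * (num 256))) + (var 1 * (num 256))) + (var 2 * ((((num 64) + (var 0 * ((num 64) + (var 0 * ((num 64) + (var 0 * (num
  320))))))) + (var 1 * (((num (-2240)) + (var 0 * ((num 640) + (var 0 * (num 704))))) + (var 1 * (((num 576) + (var 0 * (num 448))) + (var 1 * (num 64)))))))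
  + (var 2 * ((var 1 * (((num 96) + (var 0 * ((num 96) + (var 0 * ((num 96) + (var 0 * (num 480))))))) + (var 1 * (((num (-1248)) + (var 0 * ((num 640) +
  (var 0 * (num 1056))))) + (var 1 * ((num 544) + (var 0 * (num 672)))))))) + (var 2 * ((var 1 * (var 1 * (((num 80) + (var 0 * ((num 48) + (var 0 * ((num
  (-80)) + (var 0 * (num 208))))))) + (var 1 * ((num (-208)) + (var 0 * ((num 32) + (var 0 * (num 432))))))))) + (var 2 * (var 1 * (var 1 * (var 1 * ((num
  19) + (var 0 * ((num 8) + (var 0 * ((num (-56)) + (var 0 * (num 24)))))))))))))))))))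

/-- Upper bound of `coT3`. -/
def smT3Up : Ex :=
  (var 2 * ((((num (-1280)) + (var 0 * (num 256))) + (var 1 * (num 256))) + (var 2 * ((((num 64) + (var 0 * ((num 64) + (var 0 * ((num 64) + (var 0 * (num
  320))))))) + (var 1 * (((num (-2240)) + (var 0 * ((num 640) + (var 0 * (num 704))))) + (var 1 * (((num 576) + (var 0 * (num 448))) + (var 1 * (num 64)))))))
  + (var 2 * ((var 1 * (((num 96) + (var 0 * ((num 96) + (var 0 * ((num 96) + (var 0 * (num 480))))))) + (var 1 * (((num (-1248)) + (var 0 * ((num 640) +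
  (var 0 * (num 1056))))) + (var 1 * ((num 556) + (var 0 * (num 672)))))))) + (var 2 * ((var 1 * (var 1 * (((num 80) + (var 0 * ((num 48) + (var 0 * ((num
  (-80)) + (var 0 * (num 208))))))) + (var 1 * ((num (-163)) + (var 0 * ((num 32) + (var 0 * (num 432))))))))) + (var 2 * (var 1 * (var 1 * (var 1 * ((num
  24) + (var 0 * ((num 8) + (var 0 * ((num (-56)) + (var 0 * (num 24)))))))))))))))))))

/-- Lower bound of `coT4`. -/
def smT4Lo : Ex :=
  (var 2 * ((var 1 * (((num 32) + (var 0 * (num 32))) + (var 1 * (num 32)))) + (var 2 * ((var 1 * (((num 8) + (var 0 * ((num (-88)) + (var 0 * ((num 8) +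
  (var 0 * (num 40))))))) + (var 1 * (((num (-8)) + (var 0 * ((num 64) + (var 0 * (num 88))))) + (var 1 * ((num 56) + (var 0 * (num 56)))))))) + (var 2 *
  ((var 1 * (var 1 * (((num 8) + (var 0 * ((num (-88)) + (var 0 * ((num 8) + (var 0 * (num 40))))))) + (var 1 * ((num (-40)) + (var 0 * ((num 32) + (var
  0 * (num 88))))))))) + (var 2 * (var 1 * (var 1 * (var 1 * ((num 5) + (var 0 * ((num (-6)) + (var 0 * ((num (-6)) + (var 0 * (num 6))))))))))))))))) +
    (pow (var 2) 2 * (pow (var 1) 4 * num 8))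

/-- Upper bound of `coT4`. -/
def smT4Up : Ex :=
  (var 2 * ((var 1 * (((num 32) + (var 0 * (num 32))) + (var 1 * (num 32)))) + (var 2 * ((var 1 * (((num 8) + (var 0 * ((num (-88)) + (var 0 * ((num 8) +
  (var 0 * (num 40))))))) + (var 1 * (((num (-8)) + (var 0 * ((num 64) + (var 0 * (num 88))))) + (var 1 * ((num 57) + (var 0 * (num 56)))))))) + (var 2 *
  ((var 1 * (var 1 * (((num 8) + (var 0 * ((num (-88)) + (var 0 * ((num 8) + (var 0 * (num 40))))))) + (var 1 * ((num (-29)) + (var 0 * ((num 32) + (var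
  0 * (num 88))))))))) + (var 2 * (var 1 * (var 1 * (var 1 * ((num 6) + (var 0 * ((num (-6)) + (var 0 * ((num (-6)) + (var 0 * (num 6))))))))))))))))) +
    (pow (var 2) 2 * (pow (var 1) 3 * (num (-1) + var 1 * num 8)))

/-- Lower bound of `coT5`. -/
def smT5Lo : Ex :=
  (var 2 * ((var 1 * (((num (-64)) + (var 0 * (num (-64)))) + (var 1 * (num (-64))))) + (var 2 * ((var 1 * (((num (-28)) + (var 0 * ((num 248) + (var 0 *
  ((num (-64)) + (var 0 * ((num 24) + (var 0 * (num (-20)))))))))) + (var 1 * (((num 40) + (var 0 * ((num (-112)) + (var 0 * ((num 56) + (var 0 * (num (-64))))))))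
  + (var 1 * ((num (-52)) + (var 0 * ((num 40) + (var 0 * (num (-72))))))))))) + (var 2 * ((var 1 * (var 1 * (((num (-28)) + (var 0 * ((num 248) + (var 0
  * ((num (-64)) + (var 0 * ((num 24) + (var 0 * (num (-20)))))))))) + (var 1 * ((num 125) + (var 0 * ((num (-32)) + (var 0 * ((num 48) + (var 0 * (num (-64))))))))))))
  + (var 2 * (var 1 * (var 1 * (var 1 * ((num (-30)) + (var 0 * ((num 30) + (var 0 * ((num (-36)) + (var 0 * ((num 2) + (var 0 * (num (-3))))))))))))))))))))

/-- Upper bound of `coT5`. -/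
def smT5Up : Ex :=
  (var 2 * ((var 1 * (((num (-64)) + (var 0 * (num (-64)))) + (var 1 * (num (-64))))) + (var 2 * ((var 1 * (((num (-28)) + (var 0 * ((num 248) + (var 0 *
  ((num (-64)) + (var 0 * ((num 24) + (var 0 * (num (-20)))))))))) + (var 1 * (((num 40) + (var 0 * ((num (-112)) + (var 0 * ((num 56) + (var 0 * (num (-64))))))))
  + (var 1 * ((num (-48)) + (var 0 * ((num 40) + (var 0 * (num (-72))))))))))) + (var 2 * ((var 1 * (var 1 * (((num (-28)) + (var 0 * ((num 248) + (var 0
  * ((num (-64)) + (var 0 * ((num 24) + (var 0 * (num (-20)))))))))) + (var 1 * ((num 130) + (var 0 * ((num (-32)) + (var 0 * ((num 48) + (var 0 * (num (-64))))))))))))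
  + (var 2 * (var 1 * (var 1 * (var 1 * ((num (-25)) + (var 0 * ((num 30) + (var 0 * ((num (-36)) + (var 0 * ((num 2) + (var 0 * (num (-3))))))))))))))))))))

/-- Lower bound of `coT6`. -/
def smT6Lo : Ex :=
  ((((num 64) + (var 0 * (var 0 * (num (-64))))) + (var 1 * ((var 0 * (num (-128))) + (var 1 * (num (-64)))))) + (var 2 * ((var 1 * (((num 128) + (var 0
  * (var 0 * (num (-128))))) + (var 1 * ((var 0 * (num (-256))) + (var 1 * (num (-128))))))) + (var 2 * (var 1 * (var 1 * (((num 64) + (var 0 * (var 0 *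
  (num (-64))))) + (var 1 * ((num (-11)) + (var 0 * (num (-128))))))))))))

/-- Upper bound of `coT6`. -/
def smT6Up : Ex :=
  ((((num 64) + (var 0 * (var 0 * (num (-64))))) + (var 1 * ((var 0 * (num (-128))) + (var 1 * (num (-64)))))) + (var 2 * ((var 1 * (((num 128) + (var 0
  * (var 0 * (num (-128))))) + (var 1 * ((var 0 * (num (-256))) + (var 1 * (num (-128))))))) + (var 2 * (var 1 * (var 1 * (((num 64) + (var 0 * (var 0 *
  (num (-64))))) + (var 1 * ((num 2) + (var 0 * (num (-128))))))))))))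

/-- Lower bound of `coT7`. -/
def smT7Lo : Ex :=
  (var 2 * ((((num 320) + (var 0 * (num (-64)))) + (var 1 * (num (-64)))) + (var 2 * ((var 1 * (((num 480) + (var 0 * (num (-96)))) + (var 1 * (num (-96)))))
  + (var 2 * ((var 1 * (var 1 * (num 128))) + (var 2 * (var 1 * (var 1 * (var 1 * ((num (-16)) + (var 0 * (num 16)))))))))))))

/-- Upper bound of `coT7`. -/
def smT7Up : Ex :=
  (var 2 * ((((num 320) + (var 0 * (num (-64)))) + (var 1 * (num (-64)))) + (var 2 * ((var 1 * (((num 480) + (var 0 * (num (-96)))) + (var 1 * (num (-96)))))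
  + (var 2 * ((var 1 * (var 1 * (num 128))) + (var 2 * (var 1 * (var 1 * (var 1 * ((num (-14)) + (var 0 * (num 16)))))))))))))

/-- Lower bound of `coT8`. -/
def smT8Lo : Ex :=
  (var 2 * ((var 1 * (((num (-8)) + (var 0 * (num (-8)))) + (var 1 * (num (-8))))) + (var 2 * (var 1 * (var 1 * (((num (-8)) + (var 0 * (num (-8)))) + (var
  1 * (num (-8)))))))))

/-- Upper bound of `coT8`. -/
def smT8Up : Ex :=
  (var 2 * ((var 1 * (((num (-8)) + (var 0 * (num (-8)))) + (var 1 * (num (-8))))) + (var 2 * (var 1 * (var 1 * (((num (-8)) + (var 0 * (num (-8)))) + (var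
  1 * (num (-8)))))))))

/-- Lower bound of `coT9`. -/
def smT9Lo : Ex :=
  (var 2 * ((var 1 * (((num (-4)) + (var 0 * (var 0 * (num 4)))) + (var 1 * ((var 0 * (num 8)) + (var 1 * (num 4)))))) + (var 2 * ((var 1 * (var 1 * (((num
  (-4)) + (var 0 * (var 0 * (num 4)))) + (var 1 * (var 0 * (num 8)))))) + (var 2 * (var 1 * (var 1 * (var 1 * ((num 4) + (var 0 * (num 4)))))))))))

/-- Upper bound of `coT9`. -/
def smT9Up : Ex :=
  (var 2 * ((var 1 * (((num (-4)) + (var 0 * (var 0 * (num 4)))) + (var 1 * ((var 0 * (num 8)) + (var 1 * (num 4)))))) + (var 2 * ((var 1 * (var 1 * (((num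
  (-4)) + (var 0 * (var 0 * (num 4)))) + (var 1 * ((num 1) + (var 0 * (num 8))))))) + (var 2 * (var 1 * (var 1 * (var 1 * ((num 5) + (var 0 * (num 4)))))))))))

end Vale.Agent.P100.Calib.StripEnd
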