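import Vale.Agent.P100.Calib.SlabStripEndData

/-!
# The windows of the charts `I`, `Z` and `C`
-/

namespace Vale.Agent.P100.Calib.StripEnd

open Pack StripMid

/-- The windows of `IAt`. -/
theorem endIAt_ok : endIAt.Cert where
  flat := ⟨fun _ _ _ _ => rfl, fun _ _ _ _ => rfl, fun _ _ _ _ => rfl, fun _ _ _ _ => rfl,
    fun _ _ _ _ => rfl, fun _ _ _ _ => rfl⟩
  fits := ⟨by norm_num [endIAt], by norm_num [endIAt], by norm_num [endIAt],
    by norm_num [endIAt]⟩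
  left := ⟨153, 10, 6, 5, 3, by decide +kernel⟩
  right := ⟨147, 9, 6, 4, 3, by decide +kernel⟩
  up := ⟨175, 10, 6, 5, 4, by decide +kernel⟩
  down := ⟨180, 10, 7, 5, 4, by decide +kernel⟩

/-- The windows of `IAu`. -/
theorem endIAu_ok : endIAu.Cert where
  flat := ⟨fun _ _ _ _ => rfl, fun _ _ _ _ => rfl, fun _ _ _ _ => rfl, fun _ _ _ _ => rfl,
    fun _ _ _ _ => rfl, fun _ _ _ _ => rfl⟩
  fits := ⟨by norm_num [endIAu], by norm_num [endIAu], by norm_num [endIAu],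
    by norm_num [endIAu]⟩
  left := ⟨154, 10, 6, 5, 3, by decide +kernel⟩
  right := ⟨147, 9, 6, 4, 3, by decide +kernel⟩
  up := ⟨175, 10, 6, 5, 4, by decide +kernel⟩
  down := ⟨180, 10, 7, 5, 4, by decide +kernel⟩

/-- The windows of `IBt`. -/
theorem endIBt_ok : endIBt.Cert where
  flat := ⟨fun _ _ _ _ => rfl, fun _ _ _ _ => rfl, fun _ _ _ _ => rfl, fun _ _ _ _ => rfl,
    fun _ _ _ _ => rfl, fun _ _ _ _ => rfl⟩
  fits := ⟨by norm_num [endIBt], by norm_num [endIBt], by norm_num [endIBt],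
    by norm_num [endIBt]⟩
  left := ⟨154, 10, 6, 5, 3, by decide +kernel⟩
  right := ⟨147, 9, 6, 4, 3, by decide +kernel⟩
  up := ⟨175, 10, 6, 5, 4, by decide +kernel⟩
  down := ⟨180, 10, 7, 5, 4, by decide +kernel⟩

/-- The windows of `IBu`. -/
theorem endIBu_ok : endIBu.Cert where
  flat := ⟨fun _ _ _ _ => rfl, fun _ _ _ _ => rfl, fun _ _ _ _ => rfl, fun _ _ _ _ => rfl,
    fun _ _ _ _ => rfl, fun _ _ _ _ => rfl⟩
  fits := ⟨by norm_num [endIBu], by norm_num [endIBu], by norm_num [endIBu],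
    by norm_num [endIBu]⟩
  left := ⟨154, 10, 6, 5, 3, by decide +kernel⟩
  right := ⟨147, 9, 6, 4, 3, by decide +kernel⟩
  up := ⟨175, 10, 6, 5, 4, by decide +kernel⟩
  down := ⟨180, 10, 7, 5, 4, by decide +kernel⟩

/-- The windows of `ICt`. -/
theorem endICt_ok : endICt.Cert where
  flat := ⟨fun _ _ _ _ => rfl, fun _ _ _ _ => rfl, fun _ _ _ _ => rfl, fun _ _ _ _ => rfl,
    fun _ _ _ _ => rfl, fun _ _ _ _ => rfl⟩
  fits := ⟨by norm_num [endICt], by norm_num [endICt], by norm_num [endICt],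
    by norm_num [endICt]⟩
  left := ⟨142, 10, 6, 5, 3, by decide +kernel⟩
  right := ⟨138, 9, 6, 4, 3, by decide +kernel⟩
  up := ⟨163, 10, 6, 5, 4, by decide +kernel⟩
  down := ⟨169, 10, 7, 5, 4, by decide +kernel⟩

/-- The windows of `ICu`. -/
theorem endICu_ok : endICu.Cert where
  flat := ⟨fun _ _ _ _ => rfl, fun _ _ _ _ => rfl, fun _ _ _ _ => rfl, fun _ _ _ _ => rfl,
    fun _ _ _ _ => rfl, fun _ _ _ _ => rfl⟩
  fits := ⟨by norm_num [endICu], by norm_num [endICu], by norm_num [endICu],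
    by norm_num [endICu]⟩
  left := ⟨143, 10, 6, 5, 3, by decide +kernel⟩
  right := ⟨138, 9, 6, 4, 3, by decide +kernel⟩
  up := ⟨163, 10, 6, 5, 4, by decide +kernel⟩
  down := ⟨169, 10, 7, 5, 4, by decide +kernel⟩

/-- The windows of `IDp`. -/
theorem endIDp_ok : endIDp.Cert where
  flat := ⟨fun _ _ _ _ => rfl, fun _ _ _ _ => rfl, fun _ _ _ _ => rfl, fun _ _ _ _ => rfl,
    fun _ _ _ _ => rfl, fun _ _ _ _ => rfl⟩
  fits := ⟨by norm_num [endIDp], by norm_num [endIDp], by norm_num [endIDp],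
    by norm_num [endIDp]⟩
  left := ⟨154, 10, 6, 5, 3, by decide +kernel⟩
  right := ⟨147, 9, 6, 4, 3, by decide +kernel⟩
  up := ⟨175, 10, 6, 5, 4, by decide +kernel⟩
  down := ⟨180, 10, 7, 5, 4, by decide +kernel⟩

/-- The windows of `IDq`. -/
theorem endIDq_ok : endIDq.Cert where
  flat := ⟨fun _ _ _ _ => rfl, fun _ _ _ _ => rfl, fun _ _ _ _ => rfl, fun _ _ _ _ => rfl,
    fun _ _ _ _ => rfl, fun _ _ _ _ => rfl⟩
  fits := ⟨by norm_num [endIDq], by norm_num [endIDq], by norm_num [endIDq],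
    by norm_num [endIDq]⟩
  left := ⟨161, 10, 6, 5, 3, by decide +kernel⟩
  right := ⟨152, 9, 6, 4, 3, by decide +kernel⟩
  up := ⟨182, 10, 6, 5, 4, by decide +kernel⟩
  down := ⟨187, 10, 7, 5, 4, by decide +kernel⟩

/-- The windows of `IDr`. -/
theorem endIDr_ok : endIDr.Cert where
  flat := ⟨fun _ _ _ _ => rfl, fun _ _ _ _ => rfl, fun _ _ _ _ => rfl, fun _ _ _ _ => rfl,
    fun _ _ _ _ => rfl, fun _ _ _ _ => rfl⟩
  fits := ⟨by norm_num [endIDr], by norm_num [endIDr], by norm_num [endIDr],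
    by norm_num [endIDr]⟩
  left := ⟨159, 10, 6, 5, 3, by decide +kernel⟩
  right := ⟨151, 9, 6, 4, 3, by decide +kernel⟩
  up := ⟨180, 10, 6, 5, 4, by decide +kernel⟩
  down := ⟨185, 10, 7, 5, 4, by decide +kernel⟩

/-- The windows of `IDu`. -/
theorem endIDu_ok : endIDu.Cert where
  flat := ⟨fun _ _ _ _ => rfl, fun _ _ _ _ => rfl, fun _ _ _ _ => rfl, fun _ _ _ _ => rfl,
    fun _ _ _ _ => rfl, fun _ _ _ _ => rfl⟩
  fits := ⟨by norm_num [endIDu], by norm_num [endIDu], by norm_num [endIDu],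
    by norm_num [endIDu]⟩
  left := ⟨143, 10, 6, 5, 3, by decide +kernel⟩
  right := ⟨138, 9, 6, 4, 3, by decide +kernel⟩
  up := ⟨164, 10, 6, 5, 4, by decide +kernel⟩
  down := ⟨169, 10, 7, 5, 4, by decide +kernel⟩

/-- The windows of `IEp`. -/
theorem endIEp_ok : endIEp.Cert where
  flat := ⟨fun _ _ _ _ => rfl, fun _ _ _ _ => rfl, fun _ _ _ _ => rfl, fun _ _ _ _ => rfl,
    fun _ _ _ _ => rfl, fun _ _ _ _ => rfl⟩
  fits := ⟨by norm_num [endIEp], by norm_num [endIEp], by norm_num [endIEp],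
    by norm_num [endIEp]⟩
  left := ⟨209, 10, 6, 5, 3, by decide +kernel⟩
  right := ⟨194, 9, 6, 4, 3, by decide +kernel⟩
  up := ⟨228, 10, 6, 5, 4, by decide +kernel⟩
  down := ⟨234, 10, 7, 5, 4, by decide +kernel⟩

/-- The windows of `IEq`. -/
theorem endIEq_ok : endIEq.Cert where
  flat := ⟨fun _ _ _ _ => rfl, fun _ _ _ _ => rfl, fun _ _ _ _ => rfl, fun _ _ _ _ => rfl,
    fun _ _ _ _ => rfl, fun _ _ _ _ => rfl⟩
  fits := ⟨by norm_num [endIEq], by norm_num [endIEq], by norm_num [endIEq],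
    by norm_num [endIEq]⟩
  left := ⟨156, 10, 6, 5, 3, by decide +kernel⟩
  right := ⟨148, 9, 6, 4, 3, by decide +kernel⟩
  up := ⟨177, 10, 6, 5, 4, by decide +kernel⟩
  down := ⟨182, 10, 7, 5, 4, by decide +kernel⟩

/-- The windows of `IEu`. -/
theorem endIEu_ok : endIEu.Cert where
  flat := ⟨fun _ _ _ _ => rfl, fun _ _ _ _ => rfl, fun _ _ _ _ => rfl, fun _ _ _ _ => rfl,
    fun _ _ _ _ => rfl, fun _ _ _ _ => rfl⟩
  fits := ⟨by norm_num [endIEu], by norm_num [endIEu], by norm_num [endIEu],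
    by norm_num [endIEu]⟩
  left := ⟨161, 10, 6, 5, 3, by decide +kernel⟩
  right := ⟨152, 9, 6, 4, 3, by decide +kernel⟩
  up := ⟨182, 10, 6, 5, 4, by decide +kernel⟩
  down := ⟨187, 10, 7, 5, 4, by decide +kernel⟩

/-- The windows of `IFp`. -/
theorem endIFp_ok : endIFp.Cert where
  flat := ⟨fun _ _ _ _ => rfl, fun _ _ _ _ => rfl, fun _ _ _ _ => rfl, fun _ _ _ _ => rfl,
    fun _ _ _ _ => rfl, fun _ _ _ _ => rfl⟩
  fits := ⟨by norm_num [endIFp], by norm_num [endIFp], by norm_num [endIFp],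
    by norm_num [endIFp]⟩
  left := ⟨143, 10, 6, 5, 3, by decide +kernel⟩
  right := ⟨138, 9, 6, 4, 3, by decide +kernel⟩
  up := ⟨163, 10, 6, 5, 4, by decide +kernel⟩
  down := ⟨169, 10, 7, 5, 4, by decide +kernel⟩

/-- The windows of `IFq`. -/
theorem endIFq_ok : endIFq.Cert where
  flat := ⟨fun _ _ _ _ => rfl, fun _ _ _ _ => rfl, fun _ _ _ _ => rfl, fun _ _ _ _ => rfl,
    fun _ _ _ _ => rfl, fun _ _ _ _ => rfl⟩
  fits := ⟨by norm_num [endIFq], by norm_num [endIFq], by norm_num [endIFq],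
    by norm_num [endIFq]⟩
  left := ⟨143, 10, 6, 5, 3, by decide +kernel⟩
  right := ⟨138, 9, 6, 4, 3, by decide +kernel⟩
  up := ⟨163, 10, 6, 5, 4, by decide +kernel⟩
  down := ⟨169, 10, 7, 5, 4, by decide +kernel⟩

/-- The windows of `IFg`. -/
theorem endIFg_ok : endIFg.Cert where
  flat := ⟨fun _ _ _ _ => rfl, fun _ _ _ _ => rfl, fun _ _ _ _ => rfl, fun _ _ _ _ => rfl,
    fun _ _ _ _ => rfl, fun _ _ _ _ => rfl⟩
  fits := ⟨by norm_num [endIFg], by norm_num [endIFg], by norm_num [endIFg],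
    by norm_num [endIFg]⟩
  left := ⟨138, 10, 6, 5, 3, by decide +kernel⟩
  right := ⟨134, 9, 6, 4, 3, by decide +kernel⟩
  up := ⟨159, 10, 6, 5, 4, by decide +kernel⟩
  down := ⟨164, 10, 7, 5, 4, by decide +kernel⟩

/-- The windows of `IFh`. -/
theorem endIFh_ok : endIFh.Cert where
  flat := ⟨fun _ _ _ _ => rfl, fun _ _ _ _ => rfl, fun _ _ _ _ => rfl, fun _ _ _ _ => rfl,
    fun _ _ _ _ => rfl, fun _ _ _ _ => rfl⟩
  fits := ⟨by norm_num [endIFh], by norm_num [endIFh], by norm_num [endIFh],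
    by norm_num [endIFh]⟩
  left := ⟨138, 10, 6, 5, 3, by decide +kernel⟩
  right := ⟨134, 9, 6, 4, 3, by decide +kernel⟩
  up := ⟨159, 10, 6, 5, 4, by decide +kernel⟩
  down := ⟨164, 10, 7, 5, 4, by decide +kernel⟩

/-- The windows of `IGt`. -/
theorem endIGt_ok : endIGt.Cert where
  flat := ⟨fun _ _ _ _ => rfl, fun _ _ _ _ => rfl, fun _ _ _ _ => rfl, fun _ _ _ _ => rfl,
    fun _ _ _ _ => rfl, fun _ _ _ _ => rfl⟩
  fits := ⟨by norm_num [endIGt], by norm_num [endIGt], by norm_num [endIGt],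
    by norm_num [endIGt]⟩
  left := ⟨161, 10, 6, 5, 3, by decide +kernel⟩
  right := ⟨155, 9, 6, 4, 3, by decide +kernel⟩
  up := ⟨181, 10, 6, 5, 4, by decide +kernel⟩
  down := ⟨187, 10, 7, 5, 4, by decide +kernel⟩

/-- The windows of `IGu`. -/
theorem endIGu_ok : endIGu.Cert where
  flat := ⟨fun _ _ _ _ => rfl, fun _ _ _ _ => rfl, fun _ _ _ _ => rfl, fun _ _ _ _ => rfl,
    fun _ _ _ _ => rfl, fun _ _ _ _ => rfl⟩
  fits := ⟨by norm_num [endIGu], by norm_num [endIGu], by norm_num [endIGu],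
    by norm_num [endIGu]⟩
  left := ⟨161, 10, 6, 5, 3, by decide +kernel⟩
  right := ⟨155, 9, 6, 4, 3, by decide +kernel⟩
  up := ⟨182, 10, 6, 5, 4, by decide +kernel⟩
  down := ⟨187, 10, 7, 5, 4, by decide +kernel⟩

/-- The windows of `ZA`. -/
theorem endZA_ok : endZA.Cert where
  flat := ⟨fun _ _ _ _ => rfl, fun _ _ _ _ => rfl, fun _ _ _ _ => rfl, fun _ _ _ _ => rfl,
    fun _ _ _ _ => rfl, fun _ _ _ _ => rfl⟩
  fits := ⟨by norm_num [endZA], by norm_num [endZA], by norm_num [endZA],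
    by norm_num [endZA]⟩
  left := ⟨109, 10, 11, 8, 3, by decide +kernel⟩
  right := ⟨104, 9, 9, 7, 3, by decide +kernel⟩
  up := ⟨128, 10, 11, 9, 4, by decide +kernel⟩
  down := ⟨128, 10, 10, 9, 4, by decide +kernel⟩

/-- The windows of `ZB`. -/
theorem endZB_ok : endZB.Cert where
  flat := ⟨fun _ _ _ _ => rfl, fun _ _ _ _ => rfl, fun _ _ _ _ => rfl, fun _ _ _ _ => rfl,
    fun _ _ _ _ => rfl, fun _ _ _ _ => rfl⟩
  fits := ⟨by norm_num [endZB], by norm_num [endZB], by norm_num [endZB],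
    by norm_num [endZB]⟩
  left := ⟨124, 6, 11, 8, 3, by decide +kernel⟩
  right := ⟨107, 6, 9, 7, 3, by decide +kernel⟩
  up := ⟨137, 6, 11, 9, 4, by decide +kernel⟩
  down := ⟨138, 7, 10, 9, 4, by decide +kernel⟩

/-- The windows of `CA`. -/
theorem endCA_ok : endCA.Cert where
  flat := ⟨fun _ _ _ _ => rfl, fun _ _ _ _ => rfl, fun _ _ _ _ => rfl, fun _ _ _ _ => rfl,
    fun _ _ _ _ => rfl, fun _ _ _ _ => rfl⟩
  fits := ⟨by norm_num [endCA], by norm_num [endCA], by norm_num [endCA],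
    by norm_num [endCA]⟩
  left := ⟨167, 10, 11, 10, 3, by decide +kernel⟩
  right := ⟨150, 9, 9, 8, 3, by decide +kernel⟩
  up := ⟨192, 10, 11, 11, 4, by decide +kernel⟩
  down := ⟨182, 10, 10, 10, 4, by decide +kernel⟩

/-- The windows of `CB`. -/
theorem endCB_ok : endCB.Cert where
  flat := ⟨fun _ _ _ _ => rfl, fun _ _ _ _ => rfl, fun _ _ _ _ => rfl, fun _ _ _ _ => rfl,
    fun _ _ _ _ => rfl, fun _ _ _ _ => rfl⟩
  fits := ⟨by norm_num [endCB], by norm_num [endCB], by norm_num [endCB],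
    by norm_num [endCB]⟩
  left := ⟨138, 10, 10, 8, 3, by decide +kernel⟩
  right := ⟨124, 10, 8, 7, 3, by decide +kernel⟩
  up := ⟨165, 11, 11, 9, 4, by decide +kernel⟩
  down := ⟨164, 12, 10, 9, 4, by decide +kernel⟩

end Vale.Agent.P100.Calib.StripEnd
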