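import Vale.Agent.P100.Calib.SlabStripEndDataSev

/-!
# The windows of the charts for `N` between seven and twenty
-/

namespace Vale.Agent.P100.Calib.StripEnd

open Pack StripMid

/-- The windows of `IAL`. -/
theorem sevIAL_ok : sevIAL.Cert7 where
  flat := ⟨fun _ _ _ _ => rfl, fun _ _ _ _ => rfl, fun _ _ _ _ => rfl, fun _ _ _ _ => rfl,
    fun _ _ _ _ => rfl, fun _ _ _ _ => rfl⟩
  fits := ⟨by norm_num [sevIAL], by norm_num [sevIAL], by norm_num [sevIAL],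
    by norm_num [sevIAL]⟩
  left := ⟨128, 10, 6, 5, 3, by decide +kernel⟩
  right := ⟨106, 9, 6, 4, 3, by decide +kernel⟩
  up := ⟨145, 10, 6, 5, 4, by decide +kernel⟩
  down := ⟨146, 10, 7, 5, 4, by decide +kernel⟩

/-- The windows of `IBL`. -/
theorem sevIBL_ok : sevIBL.Cert7 where
  flat := ⟨fun _ _ _ _ => rfl, fun _ _ _ _ => rfl, fun _ _ _ _ => rfl, fun _ _ _ _ => rfl,
    fun _ _ _ _ => rfl, fun _ _ _ _ => rfl⟩
  fits := ⟨by norm_num [sevIBL], by norm_num [sevIBL], by norm_num [sevIBL],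
    by norm_num [sevIBL]⟩
  left := ⟨138, 10, 6, 5, 3, by decide +kernel⟩
  right := ⟨109, 9, 6, 4, 3, by decide +kernel⟩
  up := ⟨160, 10, 6, 5, 4, by decide +kernel⟩
  down := ⟨159, 10, 7, 5, 4, by decide +kernel⟩

/-- The windows of `ICL`. -/
theorem sevICL_ok : sevICL.Cert7 where
  flat := ⟨fun _ _ _ _ => rfl, fun _ _ _ _ => rfl, fun _ _ _ _ => rfl, fun _ _ _ _ => rfl,
    fun _ _ _ _ => rfl, fun _ _ _ _ => rfl⟩
  fits := ⟨by norm_num [sevICL], by norm_num [sevICL], by norm_num [sevICL],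
    by norm_num [sevICL]⟩
  left := ⟨113, 10, 6, 5, 3, by decide +kernel⟩
  right := ⟨99, 9, 6, 4, 3, by decide +kernel⟩
  up := ⟨127, 10, 6, 5, 4, by decide +kernel⟩
  down := ⟨128, 10, 7, 5, 4, by decide +kernel⟩

/-- The windows of `IDL`. -/
theorem sevIDL_ok : sevIDL.Cert7 where
  flat := ⟨fun _ _ _ _ => rfl, fun _ _ _ _ => rfl, fun _ _ _ _ => rfl, fun _ _ _ _ => rfl,
    fun _ _ _ _ => rfl, fun _ _ _ _ => rfl⟩
  fits := ⟨by norm_num [sevIDL], by norm_num [sevIDL], by norm_num [sevIDL],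
    by norm_num [sevIDL]⟩
  left := ⟨162, 10, 6, 5, 3, by decide +kernel⟩
  right := ⟨128, 9, 6, 4, 3, by decide +kernel⟩
  up := ⟨183, 10, 6, 5, 4, by decide +kernel⟩
  down := ⟨182, 10, 7, 5, 4, by decide +kernel⟩

/-- The windows of `IEL`. -/
theorem sevIEL_ok : sevIEL.Cert7 where
  flat := ⟨fun _ _ _ _ => rfl, fun _ _ _ _ => rfl, fun _ _ _ _ => rfl, fun _ _ _ _ => rfl,
    fun _ _ _ _ => rfl, fun _ _ _ _ => rfl⟩
  fits := ⟨by norm_num [sevIEL], by norm_num [sevIEL], by norm_num [sevIEL],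
    by norm_num [sevIEL]⟩
  left := ⟨155, 10, 6, 5, 3, by decide +kernel⟩
  right := ⟨120, 9, 6, 4, 3, by decide +kernel⟩
  up := ⟨175, 10, 6, 5, 4, by decide +kernel⟩
  down := ⟨176, 10, 7, 5, 4, by decide +kernel⟩

/-- The windows of `IAH`. -/
theorem sevIAH_ok : sevIAH.Cert7 where
  flat := ⟨fun _ _ _ _ => rfl, fun _ _ _ _ => rfl, fun _ _ _ _ => rfl, fun _ _ _ _ => rfl,
    fun _ _ _ _ => rfl, fun _ _ _ _ => rfl⟩
  fits := ⟨by norm_num [sevIAH], by norm_num [sevIAH], by norm_num [sevIAH],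
    by norm_num [sevIAH]⟩
  left := ⟨224, 10, 6, 5, 3, by decide +kernel⟩
  right := ⟨186, 9, 6, 4, 3, by decide +kernel⟩
  up := ⟨244, 10, 6, 5, 4, by decide +kernel⟩
  down := ⟨243, 10, 7, 5, 4, by decide +kernel⟩

/-- The windows of `IBH`. -/
theorem sevIBH_ok : sevIBH.Cert7 where
  flat := ⟨fun _ _ _ _ => rfl, fun _ _ _ _ => rfl, fun _ _ _ _ => rfl, fun _ _ _ _ => rfl,
    fun _ _ _ _ => rfl, fun _ _ _ _ => rfl⟩
  fits := ⟨by norm_num [sevIBH], by norm_num [sevIBH], by norm_num [sevIBH],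
    by norm_num [sevIBH]⟩
  left := ⟨226, 10, 6, 5, 3, by decide +kernel⟩
  right := ⟨187, 9, 6, 4, 3, by decide +kernel⟩
  up := ⟨246, 10, 6, 5, 4, by decide +kernel⟩
  down := ⟨247, 10, 7, 5, 4, by decide +kernel⟩

/-- The windows of `ICH`. -/
theorem sevICH_ok : sevICH.Cert7 where
  flat := ⟨fun _ _ _ _ => rfl, fun _ _ _ _ => rfl, fun _ _ _ _ => rfl, fun _ _ _ _ => rfl,
    fun _ _ _ _ => rfl, fun _ _ _ _ => rfl⟩
  fits := ⟨by norm_num [sevICH], by norm_num [sevICH], by norm_num [sevICH],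
    by norm_num [sevICH]⟩
  left := ⟨219, 10, 6, 5, 3, by decide +kernel⟩
  right := ⟨180, 9, 6, 4, 3, by decide +kernel⟩
  up := ⟨240, 10, 6, 5, 4, by decide +kernel⟩
  down := ⟨242, 10, 7, 5, 4, by decide +kernel⟩

/-- The windows of `IDH`. -/
theorem sevIDH_ok : sevIDH.Cert7 where
  flat := ⟨fun _ _ _ _ => rfl, fun _ _ _ _ => rfl, fun _ _ _ _ => rfl, fun _ _ _ _ => rfl,
    fun _ _ _ _ => rfl, fun _ _ _ _ => rfl⟩
  fits := ⟨by norm_num [sevIDH], by norm_num [sevIDH], by norm_num [sevIDH],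
    by norm_num [sevIDH]⟩
  left := ⟨252, 10, 6, 5, 3, by decide +kernel⟩
  right := ⟨213, 9, 6, 4, 3, by decide +kernel⟩
  up := ⟨271, 10, 6, 5, 4, by decide +kernel⟩
  down := ⟨270, 10, 7, 5, 4, by decide +kernel⟩

/-- The windows of `IEH`. -/
theorem sevIEH_ok : sevIEH.Cert7 where
  flat := ⟨fun _ _ _ _ => rfl, fun _ _ _ _ => rfl, fun _ _ _ _ => rfl, fun _ _ _ _ => rfl,
    fun _ _ _ _ => rfl, fun _ _ _ _ => rfl⟩
  fits := ⟨by norm_num [sevIEH], by norm_num [sevIEH], by norm_num [sevIEH],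
    by norm_num [sevIEH]⟩
  left := ⟨256, 10, 6, 5, 3, by decide +kernel⟩
  right := ⟨210, 9, 6, 4, 3, by decide +kernel⟩
  up := ⟨278, 10, 6, 5, 4, by decide +kernel⟩
  down := ⟨279, 10, 7, 5, 4, by decide +kernel⟩

/-- The windows of `IAG`. -/
theorem sevIAG_ok : sevIAG.Cert7 where
  flat := ⟨fun _ _ _ _ => rfl, fun _ _ _ _ => rfl, fun _ _ _ _ => rfl, fun _ _ _ _ => rfl,
    fun _ _ _ _ => rfl, fun _ _ _ _ => rfl⟩
  fits := ⟨by norm_num [sevIAG], by norm_num [sevIAG], by norm_num [sevIAG],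
    by norm_num [sevIAG]⟩
  left := ⟨220, 10, 6, 5, 3, by decide +kernel⟩
  right := ⟨186, 9, 6, 4, 3, by decide +kernel⟩
  up := ⟨237, 10, 6, 5, 4, by decide +kernel⟩
  down := ⟨234, 10, 7, 5, 4, by decide +kernel⟩

/-- The windows of `IBG`. -/
theorem sevIBG_ok : sevIBG.Cert7 where
  flat := ⟨fun _ _ _ _ => rfl, fun _ _ _ _ => rfl, fun _ _ _ _ => rfl, fun _ _ _ _ => rfl,
    fun _ _ _ _ => rfl, fun _ _ _ _ => rfl⟩
  fits := ⟨by norm_num [sevIBG], by norm_num [sevIBG], by norm_num [sevIBG],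
    by norm_num [sevIBG]⟩
  left := ⟨228, 10, 6, 5, 3, by decide +kernel⟩
  right := ⟨189, 9, 6, 4, 3, by decide +kernel⟩
  up := ⟨249, 10, 6, 5, 4, by decide +kernel⟩
  down := ⟨250, 10, 7, 5, 4, by decide +kernel⟩

/-- The windows of `ICG`. -/
theorem sevICG_ok : sevICG.Cert7 where
  flat := ⟨fun _ _ _ _ => rfl, fun _ _ _ _ => rfl, fun _ _ _ _ => rfl, fun _ _ _ _ => rfl,
    fun _ _ _ _ => rfl, fun _ _ _ _ => rfl⟩
  fits := ⟨by norm_num [sevICG], by norm_num [sevICG], by norm_num [sevICG],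
    by norm_num [sevICG]⟩
  left := ⟨218, 10, 6, 5, 3, by decide +kernel⟩
  right := ⟨186, 9, 6, 4, 3, by decide +kernel⟩
  up := ⟨233, 10, 6, 5, 4, by decide +kernel⟩
  down := ⟨237, 10, 7, 5, 4, by decide +kernel⟩

/-- The windows of `IDGa`. -/
theorem sevIDGa_ok : sevIDGa.Cert7 where
  flat := ⟨fun _ _ _ _ => rfl, fun _ _ _ _ => rfl, fun _ _ _ _ => rfl, fun _ _ _ _ => rfl,
    fun _ _ _ _ => rfl, fun _ _ _ _ => rfl⟩
  fits := ⟨by norm_num [sevIDGa], by norm_num [sevIDGa], by norm_num [sevIDGa],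
    by norm_num [sevIDGa]⟩
  left := ⟨261, 10, 6, 5, 3, by decide +kernel⟩
  right := ⟨214, 9, 6, 4, 3, by decide +kernel⟩
  up := ⟨283, 10, 6, 5, 4, by decide +kernel⟩
  down := ⟨284, 10, 7, 5, 4, by decide +kernel⟩

/-- The windows of `IDGb`. -/
theorem sevIDGb_ok : sevIDGb.Cert7 where
  flat := ⟨fun _ _ _ _ => rfl, fun _ _ _ _ => rfl, fun _ _ _ _ => rfl, fun _ _ _ _ => rfl,
    fun _ _ _ _ => rfl, fun _ _ _ _ => rfl⟩
  fits := ⟨by norm_num [sevIDGb], by norm_num [sevIDGb], by norm_num [sevIDGb],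
    by norm_num [sevIDGb]⟩
  left := ⟨250, 10, 6, 5, 3, by decide +kernel⟩
  right := ⟨204, 9, 6, 4, 3, by decide +kernel⟩
  up := ⟨270, 10, 6, 5, 4, by decide +kernel⟩
  down := ⟨267, 10, 7, 5, 4, by decide +kernel⟩

/-- The windows of `IEGc`. -/
theorem sevIEGc_ok : sevIEGc.Cert7 where
  flat := ⟨fun _ _ _ _ => rfl, fun _ _ _ _ => rfl, fun _ _ _ _ => rfl, fun _ _ _ _ => rfl,
    fun _ _ _ _ => rfl, fun _ _ _ _ => rfl⟩
  fits := ⟨by norm_num [sevIEGc], by norm_num [sevIEGc], by norm_num [sevIEGc],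
    by norm_num [sevIEGc]⟩
  left := ⟨235, 10, 6, 5, 3, by decide +kernel⟩
  right := ⟨192, 9, 6, 4, 3, by decide +kernel⟩
  up := ⟨251, 10, 6, 5, 4, by decide +kernel⟩
  down := ⟨255, 10, 7, 5, 4, by decide +kernel⟩

/-- The windows of `IEGd`. -/
theorem sevIEGd_ok : sevIEGd.Cert7 where
  flat := ⟨fun _ _ _ _ => rfl, fun _ _ _ _ => rfl, fun _ _ _ _ => rfl, fun _ _ _ _ => rfl,
    fun _ _ _ _ => rfl, fun _ _ _ _ => rfl⟩
  fits := ⟨by norm_num [sevIEGd], by norm_num [sevIEGd], by norm_num [sevIEGd],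
    by norm_num [sevIEGd]⟩
  left := ⟨235, 10, 6, 5, 3, by decide +kernel⟩
  right := ⟨192, 9, 6, 4, 3, by decide +kernel⟩
  up := ⟨252, 10, 6, 5, 4, by decide +kernel⟩
  down := ⟨256, 10, 7, 5, 4, by decide +kernel⟩

/-- The windows of `ZBL`. -/
theorem sevZBL_ok : sevZBL.Cert7 where
  flat := ⟨fun _ _ _ _ => rfl, fun _ _ _ _ => rfl, fun _ _ _ _ => rfl, fun _ _ _ _ => rfl,
    fun _ _ _ _ => rfl, fun _ _ _ _ => rfl⟩
  fits := ⟨by norm_num [sevZBL], by norm_num [sevZBL], by norm_num [sevZBL],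
    by norm_num [sevZBL]⟩
  left := ⟨194, 6, 11, 8, 3, by decide +kernel⟩
  right := ⟨165, 6, 9, 7, 3, by decide +kernel⟩
  up := ⟨216, 6, 11, 9, 4, by decide +kernel⟩
  down := ⟨216, 7, 10, 9, 4, by decide +kernel⟩

/-- The windows of `CBL`. -/
theorem sevCBL_ok : sevCBL.Cert7 where
  flat := ⟨fun _ _ _ _ => rfl, fun _ _ _ _ => rfl, fun _ _ _ _ => rfl, fun _ _ _ _ => rfl,
    fun _ _ _ _ => rfl, fun _ _ _ _ => rfl⟩
  fits := ⟨by norm_num [sevCBL], by norm_num [sevCBL], by norm_num [sevCBL],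
    by norm_num [sevCBL]⟩
  left := ⟨165, 10, 10, 8, 3, by decide +kernel⟩
  right := ⟨152, 10, 8, 7, 3, by decide +kernel⟩
  up := ⟨193, 11, 11, 9, 4, by decide +kernel⟩
  down := ⟨193, 12, 10, 9, 4, by decide +kernel⟩

/-- The windows of `ZBH`. -/
theorem sevZBH_ok : sevZBH.Cert7 where
  flat := ⟨fun _ _ _ _ => rfl, fun _ _ _ _ => rfl, fun _ _ _ _ => rfl, fun _ _ _ _ => rfl,
    fun _ _ _ _ => rfl, fun _ _ _ _ => rfl⟩
  fits := ⟨by norm_num [sevZBH], by norm_num [sevZBH], by norm_num [sevZBH],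
    by norm_num [sevZBH]⟩
  left := ⟨294, 6, 11, 8, 3, by decide +kernel⟩
  right := ⟨256, 6, 9, 7, 3, by decide +kernel⟩
  up := ⟨324, 6, 11, 9, 4, by decide +kernel⟩
  down := ⟨313, 7, 10, 9, 4, by decide +kernel⟩

/-- The windows of `CBH`. -/
theorem sevCBH_ok : sevCBH.Cert7 where
  flat := ⟨fun _ _ _ _ => rfl, fun _ _ _ _ => rfl, fun _ _ _ _ => rfl, fun _ _ _ _ => rfl,
    fun _ _ _ _ => rfl, fun _ _ _ _ => rfl⟩
  fits := ⟨by norm_num [sevCBH], by norm_num [sevCBH], by norm_num [sevCBH],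
    by norm_num [sevCBH]⟩
  left := ⟨241, 10, 10, 8, 3, by decide +kernel⟩
  right := ⟨216, 10, 8, 7, 3, by decide +kernel⟩
  up := ⟨283, 11, 11, 9, 4, by decide +kernel⟩
  down := ⟨273, 12, 10, 9, 4, by decide +kernel⟩

/-- The windows of `Da`. -/
theorem sevDa_ok : sevDa.Cert7 where
  flat := ⟨fun _ _ _ _ => rfl, fun _ _ _ _ => rfl, fun _ _ _ _ => rfl, fun _ _ _ _ => rfl,
    fun _ _ _ _ => rfl, fun _ _ _ _ => rfl⟩
  fits := ⟨by norm_num [sevDa], by norm_num [sevDa], by norm_num [sevDa],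
    by norm_num [sevDa]⟩
  left := ⟨287, 13, 12, 6, 3, by decide +kernel⟩
  right := ⟨245, 12, 10, 6, 3, by decide +kernel⟩
  up := ⟨311, 13, 12, 7, 4, by decide +kernel⟩
  down := ⟨311, 13, 11, 8, 4, by decide +kernel⟩

/-- The windows of `Db`. -/
theorem sevDb_ok : sevDb.Cert7 where
  flat := ⟨fun _ _ _ _ => rfl, fun _ _ _ _ => rfl, fun _ _ _ _ => rfl, fun _ _ _ _ => rfl,
    fun _ _ _ _ => rfl, fun _ _ _ _ => rfl⟩
  fits := ⟨by norm_num [sevDb], by norm_num [sevDb], by norm_num [sevDb],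
    by norm_num [sevDb]⟩
  left := ⟨289, 13, 12, 6, 3, by decide +kernel⟩
  right := ⟨259, 12, 10, 6, 3, by decide +kernel⟩
  up := ⟨317, 13, 12, 7, 4, by decide +kernel⟩
  down := ⟨308, 13, 11, 8, 4, by decide +kernel⟩

/-- The windows of `Dc`. -/
theorem sevDc_ok : sevDc.Cert7 where
  flat := ⟨fun _ _ _ _ => rfl, fun _ _ _ _ => rfl, fun _ _ _ _ => rfl, fun _ _ _ _ => rfl,
    fun _ _ _ _ => rfl, fun _ _ _ _ => rfl⟩
  fits := ⟨by norm_num [sevDc], by norm_num [sevDc], by norm_num [sevDc],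
    by norm_num [sevDc]⟩
  left := ⟨274, 13, 12, 6, 3, by decide +kernel⟩
  right := ⟨238, 12, 10, 6, 3, by decide +kernel⟩
  up := ⟨296, 13, 12, 7, 4, by decide +kernel⟩
  down := ⟨296, 13, 11, 8, 4, by decide +kernel⟩

/-- The windows of `Dd`. -/
theorem sevDd_ok : sevDd.Cert7 where
  flat := ⟨fun _ _ _ _ => rfl, fun _ _ _ _ => rfl, fun _ _ _ _ => rfl, fun _ _ _ _ => rfl,
    fun _ _ _ _ => rfl, fun _ _ _ _ => rfl⟩
  fits := ⟨by norm_num [sevDd], by norm_num [sevDd], by norm_num [sevDd],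
    by norm_num [sevDd]⟩
  left := ⟨279, 13, 12, 6, 3, by decide +kernel⟩
  right := ⟨253, 12, 10, 6, 3, by decide +kernel⟩
  up := ⟨309, 13, 12, 7, 4, by decide +kernel⟩
  down := ⟨305, 13, 11, 8, 4, by decide +kernel⟩

/-- The windows of `De`. -/
theorem sevDe_ok : sevDe.Cert7 where
  flat := ⟨fun _ _ _ _ => rfl, fun _ _ _ _ => rfl, fun _ _ _ _ => rfl, fun _ _ _ _ => rfl,
    fun _ _ _ _ => rfl, fun _ _ _ _ => rfl⟩
  fits := ⟨by norm_num [sevDe], by norm_num [sevDe], by norm_num [sevDe],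
    by norm_num [sevDe]⟩
  left := ⟨238, 13, 12, 6, 3, by decide +kernel⟩
  right := ⟨213, 13, 10, 6, 3, by decide +kernel⟩
  up := ⟨278, 16, 12, 7, 4, by decide +kernel⟩
  down := ⟨284, 17, 11, 8, 4, by decide +kernel⟩

/-- The windows of `Df`. -/
theorem sevDf_ok : sevDf.Cert7 where
  flat := ⟨fun _ _ _ _ => rfl, fun _ _ _ _ => rfl, fun _ _ _ _ => rfl, fun _ _ _ _ => rfl,
    fun _ _ _ _ => rfl, fun _ _ _ _ => rfl⟩
  fits := ⟨by norm_num [sevDf], by norm_num [sevDf], by norm_num [sevDf],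
    by norm_num [sevDf]⟩
  left := ⟨242, 13, 12, 6, 3, by decide +kernel⟩
  right := ⟨224, 13, 10, 6, 3, by decide +kernel⟩
  up := ⟨286, 16, 12, 7, 4, by decide +kernel⟩
  down := ⟨290, 17, 11, 8, 4, by decide +kernel⟩

/-- The windows of `Dg`. -/
theorem sevDg_ok : sevDg.Cert7 where
  flat := ⟨fun _ _ _ _ => rfl, fun _ _ _ _ => rfl, fun _ _ _ _ => rfl, fun _ _ _ _ => rfl,
    fun _ _ _ _ => rfl, fun _ _ _ _ => rfl⟩
  fits := ⟨by norm_num [sevDg], by norm_num [sevDg], by norm_num [sevDg],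
    by norm_num [sevDg]⟩
  left := ⟨235, 13, 12, 6, 3, by decide +kernel⟩
  right := ⟨218, 13, 10, 6, 3, by decide +kernel⟩
  up := ⟨273, 16, 12, 7, 4, by decide +kernel⟩
  down := ⟨274, 17, 11, 8, 4, by decide +kernel⟩

/-- The windows of `Dh`. -/
theorem sevDh_ok : sevDh.Cert7 where
  flat := ⟨fun _ _ _ _ => rfl, fun _ _ _ _ => rfl, fun _ _ _ _ => rfl, fun _ _ _ _ => rfl,
    fun _ _ _ _ => rfl, fun _ _ _ _ => rfl⟩
  fits := ⟨by norm_num [sevDh], by norm_num [sevDh], by norm_num [sevDh],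
    by norm_num [sevDh]⟩
  left := ⟨234, 13, 12, 6, 3, by decide +kernel⟩
  right := ⟨213, 13, 10, 6, 3, by decide +kernel⟩
  up := ⟨272, 16, 12, 7, 4, by decide +kernel⟩
  down := ⟨270, 17, 11, 8, 4, by decide +kernel⟩

/-- The windows of `Di`. -/
theorem sevDi_ok : sevDi.Cert7 where
  flat := ⟨fun _ _ _ _ => rfl, fun _ _ _ _ => rfl, fun _ _ _ _ => rfl, fun _ _ _ _ => rfl,
    fun _ _ _ _ => rfl, fun _ _ _ _ => rfl⟩
  fits := ⟨by norm_num [sevDi], by norm_num [sevDi], by norm_num [sevDi],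
    by norm_num [sevDi]⟩
  left := ⟨233, 13, 12, 6, 3, by decide +kernel⟩
  right := ⟨219, 13, 10, 6, 3, by decide +kernel⟩
  up := ⟨270, 16, 12, 7, 4, by decide +kernel⟩
  down := ⟨271, 17, 11, 8, 4, by decide +kernel⟩

/-- The windows of `Dj`. -/
theorem sevDj_ok : sevDj.Cert7 where
  flat := ⟨fun _ _ _ _ => rfl, fun _ _ _ _ => rfl, fun _ _ _ _ => rfl, fun _ _ _ _ => rfl,
    fun _ _ _ _ => rfl, fun _ _ _ _ => rfl⟩
  fits := ⟨by norm_num [sevDj], by norm_num [sevDj], by norm_num [sevDj],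
    by norm_num [sevDj]⟩
  left := ⟨236, 13, 12, 6, 3, by decide +kernel⟩
  right := ⟨224, 13, 10, 6, 3, by decide +kernel⟩
  up := ⟨275, 16, 12, 7, 4, by decide +kernel⟩
  down := ⟨279, 17, 11, 8, 4, by decide +kernel⟩

/-- The windows of `Dk`. -/
theorem sevDk_ok : sevDk.Cert7 where
  flat := ⟨fun _ _ _ _ => rfl, fun _ _ _ _ => rfl, fun _ _ _ _ => rfl, fun _ _ _ _ => rfl,
    fun _ _ _ _ => rfl, fun _ _ _ _ => rfl⟩
  fits := ⟨by norm_num [sevDk], by norm_num [sevDk], by norm_num [sevDk],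
    by norm_num [sevDk]⟩
  left := ⟨234, 13, 12, 6, 3, by decide +kernel⟩
  right := ⟨220, 13, 10, 6, 3, by decide +kernel⟩
  up := ⟨273, 16, 12, 7, 4, by decide +kernel⟩
  down := ⟨274, 17, 11, 8, 4, by decide +kernel⟩

/-- The windows of `Dl`. -/
theorem sevDl_ok : sevDl.Cert7 where
  flat := ⟨fun _ _ _ _ => rfl, fun _ _ _ _ => rfl, fun _ _ _ _ => rfl, fun _ _ _ _ => rfl,
    fun _ _ _ _ => rfl, fun _ _ _ _ => rfl⟩
  fits := ⟨by norm_num [sevDl], by norm_num [sevDl], by norm_num [sevDl],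
    by norm_num [sevDl]⟩
  left := ⟨251, 13, 12, 6, 3, by decide +kernel⟩
  right := ⟨232, 13, 10, 6, 3, by decide +kernel⟩
  up := ⟨295, 16, 12, 7, 4, by decide +kernel⟩
  down := ⟨300, 17, 11, 8, 4, by decide +kernel⟩

end Vale.Agent.P100.Calib.StripEnd
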