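import Vale.Agent.P100.Calib.SlabStripEndZoneLarge
import Vale.Agent.P100.Calib.SlabStripEndZoneSev

/-!
# The zone `4/5 ≤ u` of the strip, both ranges

Import one of the two parts, so that a range does not pay for the checks of the other.
-/
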