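import Vale.Agent.P100.Calib.SlabAllLowExpr

/-!
# The packed numerators of the lower band of the strip in the variables `(w, v, rho, tau)`

Each quantity of `StripAtoms` times powers of the denominators of the chart.
-/

namespace Vale.Agent.P100.Calib.Band.AllLow

open Pack

local instance stripAAdd : Add Pack.Ex := ⟨Ex.add⟩
local instance stripASub : Sub Pack.Ex := ⟨Ex.sub⟩
local instance stripAMul : Mul Pack.Ex := ⟨Ex.mul⟩

/-- A packed quantity. -/
def eStripASg : Pack.Ex := (eN 1) + ((Ex.var 1) * (Ex.var 2))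

/-- A packed quantity. -/
def eStripAK1 : Pack.Ex := (eN 2) * eStripASg

/-- A packed quantity. -/
def eStripA_w : Pack.Ex := Ex.var 0

/-- A packed quantity. -/
def eStripA_v : Pack.Ex := Ex.var 1

/-- A packed quantity. -/
def eStripA_I : Pack.Ex := (Ex.var 1) * (Ex.var 2)

/-- A packed quantity. -/
def eStripA_S : Pack.Ex := eN 2

/-- A packed quantity. -/
def eStripA_d : Pack.Ex := (Ex.var 3) * (Ex.var 2)

/-- A packed quantity. -/
def eStripA_a : Pack.Ex := (eN 1) - (eStripASg * ((Ex.var 3) * (Ex.var 2)))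

/-- A packed quantity. -/
def eStripA_b : Pack.Ex := (eN 1) + (eStripASg * ((Ex.var 3) * (Ex.var 2)))

/-- A packed quantity. -/
def eStripA_K : Pack.Ex := eStripAK1 - ((Ex.var 1) * ((eN 1) - (eStripASg * ((Ex.var 3) *
    (Ex.var 2)))))

/-- A packed quantity. -/
def eStripA_IT : Pack.Ex := ((Ex.var 1) * (Ex.var 2)) * ((eN 1) - (Ex.var 3))

/-- A packed quantity. -/
def eStripA_dv : Pack.Ex := ((Ex.var 3) * (Ex.var 2)) * (Ex.var 1)

/-- A packed quantity. -/
def eStripA_q : Pack.Ex := (eN 1) + eStripA_dv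

/-- A packed quantity. -/
def eStripA_D0 : Pack.Ex := (eN 2) + eStripA_dv

/-- A packed quantity. -/
def eStripA_u : Pack.Ex := (eN 1) - eStripA_w

/-- A packed quantity. -/
def eStripA_qu : Pack.Ex := eStripA_q * eStripA_u

/-- A packed quantity. -/
def eStripA_P : Pack.Ex := eStripA_b - (eStripA_a * eStripA_qu)

/-- A packed quantity. -/
def eStripA_qn : Pack.Ex := (eStripA_b * eStripA_D0) - (eStripA_S * eStripA_qu)

/-- A packed quantity. -/
def eStripA_ud : Pack.Ex := eStripA_u * eStripA_d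

/-- A packed quantity. -/
def eStripA_e1 : Pack.Ex := eStripA_ud * ((eStripA_qn * eStripAK1) - (eStripA_S * (eStripA_w *
    eStripA_b)))

/-- A packed quantity. -/
def eStripA_E0 : Pack.Ex := (eStripA_qn * eStripAK1) - (eStripA_S * (eStripA_w * (eStripA_b *
    eStripA_D0)))

/-- A packed quantity. -/
def eStripA_f0 : Pack.Ex := (eStripA_qn * eStripAK1) + (eStripA_S * (eStripA_K * eStripA_ud))

/-- A packed quantity. -/
def eStripA_N : Pack.Ex := eStripA_S * (eStripA_K * eStripA_D0)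

/-- A packed quantity. -/
def eStripA_G : Pack.Ex := (((eN 10) * (eStripA_S * (eStripA_v * eStripA_q))) *
    (Ex.pow eStripAK1 2)) + ((((eN 2) * eStripAK1) + ((eN 20) * eStripA_I)) * (eStripA_K *
    eStripA_IT))

/-- A packed quantity. -/
def eStripA_Gv : Pack.Ex := (((eN 10) * (eStripA_S * ((eN 1) + ((eN 2) * eStripA_dv)))) *
    (Ex.pow eStripAK1 2)) - ((eStripAK1 + ((eN 10) * eStripA_I)) * (((eN 2) * (eStripA_a *
    eStripA_IT)) + (eStripA_K * (eStripA_S * eStripA_d))))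

/-- A packed quantity. -/
def eStripA_n : Pack.Ex := (((eN 10) * eStripA_K) * (Ex.pow eStripAK1 2)) - (eStripA_w * eStripA_G)

/-- A packed quantity. -/
def eStripA_be : Pack.Ex := (((((((eN 4) * eStripAK1) + ((eN 20) * eStripA_I)) * eStripAK1) +
    ((eN 15) * (eStripA_I * (eStripA_a * eStripA_v)))) + (((eN 113) * eStripA_d) *
    (Ex.pow eStripAK1 2))) - (((eN 80) * eStripA_dv) * (Ex.pow eStripAK1 2))) + (((eN 97) *
    eStripA_w) * (Ex.pow eStripAK1 2))

/-- A packed quantity. -/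
def eStripA_A0 : Pack.Ex := eStripA_N + ((eStripA_S * (eStripA_v * eStripA_D0)) * eStripAK1)

/-- A packed quantity. -/
def eStripA_A1 : Pack.Ex := eStripA_f0 + ((eStripA_S * (eStripA_v * eStripA_ud)) * eStripAK1)

/-- A packed quantity. -/
def eStripA_FV : Pack.Ex := (((eN 100) * eStripA_a) * (Ex.pow eStripAK1 2)) + ((eN 10) *
    (eStripA_w * eStripA_Gv))

/-- A packed quantity. -/
def eStripA_c0 : Pack.Ex := (((((eN 100) * (eStripA_P * eStripA_A0)) * (Ex.pow eStripAK1 2)) -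
    ((eN 10) * (eStripA_G * (eStripA_u * eStripA_E0)))) - (eStripA_FV * (eStripA_qu *
    eStripA_N))) - ((eStripA_w * (eStripA_be * eStripA_N)) * eStripAK1)

/-- A packed quantity. -/
def eStripA_c1 : Pack.Ex := ((((((eN 10) * (eStripA_G * (eStripA_u * eStripA_e1))) -
    (((eN 100) * (eStripA_a * (eStripA_qu * eStripA_E0))) * (Ex.pow eStripAK1 2))) +
    (eStripA_FV * (eStripA_qu * eStripA_f0))) + (((eN 100) * (eStripA_a * (eStripA_ud *
    (eStripA_qu * eStripA_N)))) * (Ex.pow eStripAK1 2))) - (((eN 100) * (eStripA_P *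
    ((eStripA_A1 + (eStripA_ud * eStripA_A0)) + eStripA_E0))) * (Ex.pow eStripAK1 2))) +
    ((eStripA_w * (eStripA_be * eStripA_f0)) * eStripAK1)

/-- A packed quantity. -/
def eStripA_c2 : Pack.Ex := (((eN 100) * (eStripA_a * (eStripA_qu * eStripA_e1))) - ((eN 100) *
    (eStripA_a * (eStripA_ud * (eStripA_qu * eStripA_f0))))) + ((eN 100) * (eStripA_P *
    ((eStripA_ud * eStripA_A1) + eStripA_e1)))

/-- A packed quantity. -/
def eStripA_condA : Pack.Ex := ((eN 0) * (Ex.pow eStripAK1 9)) - (((eStripA_c2 * (eStripA_n *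
    eStripA_n)) + ((eN 10) * (eStripA_c1 * (eStripA_n * eStripA_P)))) + (((eN 100) *
    (eStripA_c0 * (eStripA_P * eStripA_P))) * (Ex.pow eStripAK1 2)))

/-- A packed quantity. -/
def eStripA_condB : Pack.Ex := ((eN 10) * (eStripA_c1 * eStripA_P)) + ((eN 2) * (eStripA_c2 *
    eStripA_n))

/-- A packed quantity. -/
def eStripA_condC : Pack.Ex := (eStripA_c1 * eStripA_f0) + (((eN 2) * (eStripA_c2 *
    eStripA_N)) * (Ex.pow eStripAK1 2))

/-- The condition at the band, less a monomial. -/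
def eStripAMain : Pack.Ex :=
  eStripA_condA - Ex.pow (Ex.var 0) 3 * (Ex.var 1 * (Ex.pow (Ex.var 2) 3 * Ex.pow (Ex.var 3) 2))

/-- A box. -/
def stripAMainOneBox : ℕ → Chart
  | 0 => ⟨0, 1, 1, 1⟩ | 1 => ⟨0, 1, 9, 9⟩ | 2 => ⟨0, 19, 25, 25⟩ | _ => ⟨0, 1, 1, 1⟩

/-- A box. -/
def stripAMainTwoBox : ℕ → Chart
  | 0 => ⟨0, 1, 2, 2⟩ | 1 => ⟨0, 1, 9, 9⟩ | 2 => ⟨114, 175, 150, 150⟩ | _ => ⟨0, 1, 2, 2⟩

/-- A box. -/
def stripAMainThreeBox : ℕ → Chart
  | 0 => ⟨1, 2, 2, 2⟩ | 1 => ⟨0, 1, 9, 9⟩ | 2 => ⟨114, 175, 150, 150⟩ | _ => ⟨0, 1, 2, 2⟩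

/-- A box. -/
def stripAUpperAllBox : ℕ → Chart
  | 0 => ⟨0, 1, 1, 1⟩ | 1 => ⟨0, 1, 9, 9⟩ | 2 => ⟨0, 7, 6, 6⟩ | _ => ⟨0, 1, 1, 1⟩

/-- A box. -/
def stripALowerAllBox : ℕ → Chart
  | 0 => ⟨0, 1, 1, 1⟩ | 1 => ⟨0, 1, 9, 9⟩ | 2 => ⟨0, 7, 6, 6⟩ | _ => ⟨0, 1, 1, 1⟩

theorem stripAMainOne_ok : checkFour stripAMainOneBox 190 5 13 16 9 eStripAMain = true := by
  decide +kernel

theorem stripAMainTwo_ok : checkFour stripAMainTwoBox 250 5 13 16 9 eStripAMain = true := by
  decide +kernel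

theorem stripAMainThree_ok : checkFour stripAMainThreeBox 250 5 13 16 9 eStripAMain = true := by
  decide +kernel

theorem stripAUpperAll_ok : checkFour stripAUpperAllBox 120 4 9 12 7 eStripA_condB = true := by
  decide +kernel

theorem stripALowerAll_ok : checkFour stripALowerAllBox 130 4 10 13 7 eStripA_condC = true := by
  decide +kernel

end Vale.Agent.P100.Calib.Band.AllLow
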