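import Vale.Agent.P100.Calib.SlabAllLow
import Vale.Agent.P100.Calib.SlabStripAtoms
import Vale.Agent.P100.Calib.SlabStripExprA

/-!
# The values of the packed numerators in the chart A of the strip

`StripChartA` relates a point of the chart to the variables.
-/

namespace Vale.Agent.P100.Calib.Band.AllLow

open Pack

local instance stripEvalAAdd : Add Pack.Ex := ⟨Ex.add⟩
local instance stripEvalASub : Sub Pack.Ex := ⟨Ex.sub⟩
local instance stripEvalAMul : Mul Pack.Ex := ⟨Ex.mul⟩

/-- The values of the variables. -/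
structure StripChartA (x : ℕ → ℝ) (p : StripAtoms) (k : ℝ) : Prop where
  hk : eStripAK1.eval x = k
  h_w : eStripA_w.eval x = p.w
  h_v : eStripA_v.eval x = p.v
  h_I : eStripA_I.eval x = p.I * (k)
  h_S : eStripA_S.eval x = p.S * (k)
  h_d : eStripA_d.eval x = p.d
  h_a : eStripA_a.eval x = p.a * (k)
  h_b : eStripA_b.eval x = p.b * (k)
  h_K : eStripA_K.eval x = p.K * (k)
  h_IT : eStripA_IT.eval x = p.IT * (k)
  h_dv : eStripA_dv.eval x = p.dv

variable {x : ℕ → ℝ} {p : StripAtoms} {k : ℝ}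

theorem evalA_q (h : StripChartA x p k) :
    eStripA_q.eval x = p.q := by
  simp only [eStripA_q, StripAtoms.q, eval_add', eval_num', h.h_dv]
  push_cast
  ring

theorem evalA_D0 (h : StripChartA x p k) :
    eStripA_D0.eval x = p.D0 := by
  simp only [eStripA_D0, StripAtoms.D0, eval_add', eval_num', h.h_dv]
  push_cast
  ring

theorem evalA_u (h : StripChartA x p k) :
    eStripA_u.eval x = p.u := by
  simp only [eStripA_u, StripAtoms.u, eval_sub', eval_num', h.h_w]
  push_cast
  ring

theorem evalA_qu (h : StripChartA x p k) :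
    eStripA_qu.eval x = p.qu := by
  simp only [eStripA_qu, StripAtoms.qu, eval_mul', evalA_q h, evalA_u h]

theorem evalA_P (h : StripChartA x p k) :
    eStripA_P.eval x = p.P * (k) := by
  simp only [eStripA_P, StripAtoms.P, eval_sub', eval_mul', h.h_b, h.h_a, evalA_qu h]
  ring

theorem evalA_qn (h : StripChartA x p k) :
    eStripA_qn.eval x = p.qn * (k) := by
  simp only [eStripA_qn, StripAtoms.qn, eval_sub', eval_mul', h.h_b, evalA_D0 h, h.h_S, evalA_qu h]
  ring

theorem evalA_ud (h : StripChartA x p k) :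
    eStripA_ud.eval x = p.ud := by
  simp only [eStripA_ud, StripAtoms.ud, eval_mul', evalA_u h, h.h_d]

theorem evalA_e1 (h : StripChartA x p k) :
    eStripA_e1.eval x = p.e1 * (k ^ 2) := by
  simp only [eStripA_e1, StripAtoms.e1, eval_sub', eval_mul', evalA_ud h, evalA_qn h, h.hk,
    h.h_S, h.h_w, h.h_b]
  ring

theorem evalA_E0 (h : StripChartA x p k) :
    eStripA_E0.eval x = p.E0 * (k ^ 2) := by
  simp only [eStripA_E0, StripAtoms.E0, eval_sub', eval_mul', evalA_qn h, h.hk, h.h_S, h.h_w,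
    h.h_b, evalA_D0 h]
  ring

theorem evalA_f0 (h : StripChartA x p k) :
    eStripA_f0.eval x = p.f0 * (k ^ 2) := by
  simp only [eStripA_f0, StripAtoms.f0, eval_add', eval_mul', evalA_qn h, h.hk, h.h_S, h.h_K,
    evalA_ud h]
  ring

theorem evalA_N (h : StripChartA x p k) :
    eStripA_N.eval x = p.N * (k ^ 2) := by
  simp only [eStripA_N, StripAtoms.N, eval_mul', h.h_S, h.h_K, evalA_D0 h]
  ring

theorem evalA_G (h : StripChartA x p k) :
    eStripA_G.eval x = p.G * (k ^ 3) := by
  simp only [eStripA_G, StripAtoms.G, eval_add', eval_num', Ex.eval, h.h_S, h.h_v, evalA_q h,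
    h.hk, h.h_I, h.h_K, h.h_IT]
  push_cast
  ring

theorem evalA_Gv (h : StripChartA x p k) :
    eStripA_Gv.eval x = p.Gv * (k ^ 3) := by
  simp only [eStripA_Gv, StripAtoms.Gv, eval_sub', eval_num', Ex.eval, h.h_S, h.h_dv, h.hk,
    h.h_I, h.h_a, h.h_IT, h.h_K, h.h_d]
  push_cast
  ring

theorem evalA_n (h : StripChartA x p k) :
    eStripA_n.eval x = p.n * (k ^ 3) := by
  simp only [eStripA_n, StripAtoms.n, eval_sub', eval_num', Ex.eval, h.h_K, h.hk, h.h_w, evalA_G h]
  push_cast
  ring

theorem evalA_be (h : StripChartA x p k) :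
    eStripA_be.eval x = p.be * (k ^ 2) := by
  simp only [eStripA_be, StripAtoms.be, eval_add', eval_sub', eval_num', Ex.eval, h.hk, h.h_I,
    h.h_a, h.h_v, h.h_d, h.h_dv, h.h_w]
  push_cast
  ring

theorem evalA_A0 (h : StripChartA x p k) :
    eStripA_A0.eval x = p.A0 * (k ^ 2) := by
  simp only [eStripA_A0, StripAtoms.A0, eval_add', eval_mul', evalA_N h, h.h_S, h.h_v,
    evalA_D0 h, h.hk]
  ring

theorem evalA_A1 (h : StripChartA x p k) :
    eStripA_A1.eval x = p.A1 * (k ^ 2) := by
  simp only [eStripA_A1, StripAtoms.A1, eval_add', eval_mul', evalA_f0 h, h.h_S, h.h_v,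
    evalA_ud h, h.hk]
  ring

theorem evalA_FV (h : StripChartA x p k) :
    eStripA_FV.eval x = p.FV * (k ^ 3) := by
  simp only [eStripA_FV, StripAtoms.FV, eval_add', eval_num', Ex.eval, h.h_a, h.hk, h.h_w,
    evalA_Gv h]
  push_cast
  ring

theorem evalA_c0 (h : StripChartA x p k) :
    eStripA_c0.eval x = p.c0 * (k ^ 5) := by
  simp only [eStripA_c0, StripAtoms.c0, eval_sub', eval_num', Ex.eval, evalA_P h, evalA_A0 h,
    h.hk, evalA_G h, evalA_u h, evalA_E0 h, evalA_FV h, evalA_qu h, evalA_N h, h.h_w, evalA_be h]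
  push_cast
  ring

theorem evalA_c1 (h : StripChartA x p k) :
    eStripA_c1.eval x = p.c1 * (k ^ 5) := by
  simp only [eStripA_c1, StripAtoms.c1, eval_add', eval_sub', eval_num', Ex.eval, evalA_G h,
    evalA_u h, evalA_e1 h, h.h_a, evalA_qu h, evalA_E0 h, h.hk, evalA_FV h, evalA_f0 h,
    evalA_ud h, evalA_N h, evalA_P h, evalA_A1 h, evalA_A0 h, h.h_w, evalA_be h]
  push_cast
  ring

theorem evalA_c2 (h : StripChartA x p k) :
    eStripA_c2.eval x = p.c2 * (k ^ 3) := by
  simp only [eStripA_c2, StripAtoms.c2, eval_add', eval_sub', eval_mul', eval_num', h.h_a,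
    evalA_qu h, evalA_e1 h, evalA_ud h, evalA_f0 h, evalA_P h, evalA_A1 h]
  push_cast
  ring

theorem evalA_condA (h : StripChartA x p k) :
    eStripA_condA.eval x = p.condA * (k ^ 9) := by
  simp only [eStripA_condA, StripAtoms.condA, eval_sub', eval_num', Ex.eval, h.hk, evalA_c2 h,
    evalA_n h, evalA_c1 h, evalA_P h, evalA_c0 h]
  push_cast
  ring

theorem evalA_condB (h : StripChartA x p k) :
    eStripA_condB.eval x = p.condB * (k ^ 6) := by
  simp only [eStripA_condB, StripAtoms.condB, eval_add', eval_mul', eval_num', evalA_c1 h,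
    evalA_P h, evalA_c2 h, evalA_n h]
  push_cast
  ring

theorem evalA_condC (h : StripChartA x p k) :
    eStripA_condC.eval x = p.condC * (k ^ 7) := by
  simp only [eStripA_condC, StripAtoms.condC, eval_add', eval_num', Ex.eval, evalA_c1 h,
    evalA_f0 h, evalA_c2 h, evalA_N h, h.hk]
  push_cast
  ring

end Vale.Agent.P100.Calib.Band.AllLow
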