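import Vale.Agent.P100.Calib.SlabAllLowExpr

/-!
# The packed numerators of the lower band of the strip in the variables `(w, K, I, tau)`

Each quantity of `StripAtoms` times powers of the denominators of the chart.
-/

namespace Vale.Agent.P100.Calib.Band.AllLow

open Pack

local instance stripBAdd : Add Pack.Ex := ⟨Ex.add⟩
local instance stripBSub : Sub Pack.Ex := ⟨Ex.sub⟩
local instance stripBMul : Mul Pack.Ex := ⟨Ex.mul⟩

/-- A packed quantity. -/
def eStripBS0 : Pack.Ex := (eN 1) - ((eN 2) * (Ex.var 2))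

/-- A packed quantity. -/
def eStripBY : Pack.Ex := (eN 1) - (Ex.var 1)

/-- A packed quantity. -/
def eStripBIt : Pack.Ex := (Ex.var 2) * (Ex.var 3)

/-- A packed quantity. -/
def eStripBK1 : Pack.Ex := (eN 2) * ((eStripBS0 * eStripBY) + eStripBIt)

/-- A packed quantity. -/
def eStripBK2 : Pack.Ex := (eN 1) - ((eN 2) * (Ex.var 2))

/-- A packed quantity. -/
def eStripB_w : Pack.Ex := Ex.var 0

/-- A packed quantity. -/
def eStripB_v : Pack.Ex := (eN 1) * eStripBK1

/-- A packed quantity. -/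
def eStripB_I : Pack.Ex := Ex.var 2

/-- A packed quantity. -/
def eStripB_S : Pack.Ex := (eN 1) - ((eN 2) * (Ex.var 2))

/-- A packed quantity. -/
def eStripB_d : Pack.Ex := (eN 2) * (eStripBS0 * eStripBIt)

/-- A packed quantity. -/
def eStripB_a : Pack.Ex := (eStripBS0 * eStripBS0) * eStripBY

/-- A packed quantity. -/
def eStripB_b : Pack.Ex := ((eStripBS0 * eStripBS0) * eStripBY) + ((eN 2) * (eStripBS0 * eStripBIt))

/-- A packed quantity. -/
def eStripB_K : Pack.Ex := Ex.var 1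

/-- A packed quantity. -/
def eStripB_IT : Pack.Ex := (Ex.var 2) - eStripBIt

/-- A packed quantity. -/
def eStripB_dv : Pack.Ex := (eN 2) * eStripBIt

/-- A packed quantity. -/
def eStripB_q : Pack.Ex := eStripBK2 + eStripB_dv

/-- A packed quantity. -/
def eStripB_D0 : Pack.Ex := ((eN 2) * eStripBK2) + eStripB_dv

/-- A packed quantity. -/
def eStripB_u : Pack.Ex := (eN 1) - eStripB_w

/-- A packed quantity. -/
def eStripB_qu : Pack.Ex := eStripB_q * eStripB_u

/-- A packed quantity. -/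
def eStripB_P : Pack.Ex := (eStripB_b * eStripBK2) - (eStripB_a * eStripB_qu)

/-- A packed quantity. -/
def eStripB_qn : Pack.Ex := (eStripB_b * eStripB_D0) - ((eStripB_S * eStripB_qu) * eStripBK1)

/-- A packed quantity. -/
def eStripB_ud : Pack.Ex := eStripB_u * eStripB_d

/-- A packed quantity. -/
def eStripB_e1 : Pack.Ex := eStripB_ud * (eStripB_qn - ((eStripB_S * (eStripB_w * eStripB_b)) *
    eStripBK2))

/-- A packed quantity. -/
def eStripB_E0 : Pack.Ex := eStripB_qn - (eStripB_S * (eStripB_w * (eStripB_b * eStripB_D0)))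

/-- A packed quantity. -/
def eStripB_f0 : Pack.Ex := eStripB_qn + ((eStripB_S * (eStripB_K * eStripB_ud)) * eStripBK2)

/-- A packed quantity. -/
def eStripB_N : Pack.Ex := eStripB_S * (eStripB_K * eStripB_D0)

/-- A packed quantity. -/
def eStripB_G : Pack.Ex := ((eN 10) * (eStripB_S * (eStripB_v * eStripB_q))) + ((((eN 2) +
    ((eN 20) * eStripB_I)) * (eStripB_K * eStripB_IT)) * (Ex.pow eStripBK2 3))

/-- A packed quantity. -/
def eStripB_Gv : Pack.Ex := (((eN 10) * (eStripB_S * (eStripBK2 + ((eN 2) * eStripB_dv)))) *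
    eStripBK1) - ((((eN 1) + ((eN 10) * eStripB_I)) * (((eN 2) * (eStripB_a * eStripB_IT)) +
    (eStripB_K * (eStripB_S * eStripB_d)))) * eStripBK2)

/-- A packed quantity. -/
def eStripB_n : Pack.Ex := (((eN 10) * eStripB_K) * (Ex.pow eStripBK2 3)) - (eStripB_w * eStripB_G)

/-- A packed quantity. -/
def eStripB_be : Pack.Ex := (((((((eN 4) + ((eN 20) * eStripB_I)) * eStripBK1) *
    (Ex.pow eStripBK2 2)) + ((eN 15) * (eStripB_I * (eStripB_a * eStripB_v)))) + (((eN 113) *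
    eStripB_d) * (Ex.pow eStripBK2 2))) - ((((eN 80) * eStripB_dv) * eStripBK1) * eStripBK2)) +
    ((((eN 97) * eStripB_w) * eStripBK1) * (Ex.pow eStripBK2 2))

/-- A packed quantity. -/
def eStripB_A0 : Pack.Ex := (eStripB_N * (Ex.pow eStripBK2 2)) + (eStripB_S * (eStripB_v *
    eStripB_D0))

/-- A packed quantity. -/
def eStripB_A1 : Pack.Ex := (eStripB_f0 * eStripBK2) + (eStripB_S * (eStripB_v * eStripB_ud))

/-- A packed quantity. -/
def eStripB_FV : Pack.Ex := (((eN 100) * eStripB_a) * eStripBK2) + ((eN 10) * (eStripB_w *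
    eStripB_Gv))

/-- A packed quantity. -/
def eStripB_c0 : Pack.Ex := ((((eN 100) * (eStripB_P * eStripB_A0)) - ((eN 10) * (eStripB_G *
    (eStripB_u * eStripB_E0)))) - ((eStripB_FV * (eStripB_qu * eStripB_N)) * eStripBK2)) -
    ((eStripB_w * (eStripB_be * eStripB_N)) * eStripBK2)

/-- A packed quantity. -/
def eStripB_c1 : Pack.Ex := ((((((eN 10) * (eStripB_G * (eStripB_u * eStripB_e1))) -
    (((eN 100) * (eStripB_a * (eStripB_qu * eStripB_E0))) * (Ex.pow eStripBK2 2))) +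
    ((eStripB_FV * (eStripB_qu * eStripB_f0)) * eStripBK2)) + (((eN 100) * (eStripB_a *
    (eStripB_ud * (eStripB_qu * eStripB_N)))) * (Ex.pow eStripBK2 2))) - ((eN 100) *
    (eStripB_P * (((eStripB_A1 * eStripBK2) + (eStripB_ud * eStripB_A0)) + (eStripB_E0 *
    (Ex.pow eStripBK2 2)))))) + ((eStripB_w * (eStripB_be * eStripB_f0)) * eStripBK2)

/-- A packed quantity. -/
def eStripB_c2 : Pack.Ex := ((((eN 100) * (eStripB_a * (eStripB_qu * eStripB_e1))) -
    ((eN 100) * (eStripB_a * (eStripB_ud * (eStripB_qu * eStripB_f0))))) * eStripBK2) +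
    ((eN 100) * (eStripB_P * ((eStripB_ud * eStripB_A1) + (eStripB_e1 * eStripBK2))))

/-- A packed quantity. -/
def eStripB_condA : Pack.Ex := (((eN 0) * (Ex.pow eStripBK1 3)) * (Ex.pow eStripBK2 9)) -
    (((eStripB_c2 * (eStripB_n * eStripB_n)) + (((eN 10) * (eStripB_c1 * (eStripB_n *
    eStripB_P))) * eStripBK2)) + (((eN 100) * (eStripB_c0 * (eStripB_P * eStripB_P))) *
    (Ex.pow eStripBK2 3)))

/-- A packed quantity. -/
def eStripB_condB : Pack.Ex := (((eN 10) * (eStripB_c1 * eStripB_P)) * eStripBK2) + ((eN 2) *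
    (eStripB_c2 * eStripB_n))

/-- A packed quantity. -/
def eStripB_condC : Pack.Ex := (eStripB_c1 * eStripB_f0) + (((eN 2) * (eStripB_c2 *
    eStripB_N)) * eStripBK2)

/-- The condition at the band, less a monomial. -/
def eStripBMain : Pack.Ex :=
  eStripB_condA - Ex.pow (Ex.var 0) 3 * (Ex.pow (Ex.var 1) 2 * (Ex.pow (Ex.var 2) 3 *
      Ex.pow (Ex.var 3) 2))

/-- A box. -/
def stripBMainOneBox : ℕ → Chart
  | 0 => ⟨0, 1, 1, 1⟩ | 1 => ⟨0, 500, 1000, 1000⟩ | 2 => ⟨1, 0, 20, 20⟩ | _ => ⟨0, 1, 1, 1⟩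

/-- A box. -/
def stripBMainTwoBox : ℕ → Chart
  | 0 => ⟨0, 1, 2, 2⟩ | 1 => ⟨500, 966, 1000, 1000⟩ | 2 => ⟨1, 0, 20, 20⟩ | _ => ⟨0, 1, 1, 1⟩

/-- A box. -/
def stripBMainThreeBox : ℕ → Chart
  | 0 => ⟨1, 2, 2, 2⟩ | 1 => ⟨500, 966, 1000, 1000⟩ | 2 => ⟨1, 0, 20, 20⟩ | _ => ⟨0, 1, 1, 1⟩

/-- A box. -/
def stripBUpperAllBox : ℕ → Chart
  | 0 => ⟨0, 1, 1, 1⟩ | 1 => ⟨0, 966, 1000, 1000⟩ | 2 => ⟨1, 0, 20, 20⟩ | _ => ⟨0, 1, 1, 1⟩

/-- A box. -/
def stripBLowerAllBox : ℕ → Chart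
  | 0 => ⟨0, 1, 1, 1⟩ | 1 => ⟨0, 966, 1000, 1000⟩ | 2 => ⟨1, 0, 20, 20⟩ | _ => ⟨0, 1, 1, 1⟩

theorem stripBMainOne_ok : checkFour stripBMainOneBox 210 5 5 20 8 eStripBMain = true := by
  decide +kernel

theorem stripBMainTwo_ok : checkFour stripBMainTwoBox 210 5 5 20 8 eStripBMain = true := by
  decide +kernel

theorem stripBMainThree_ok : checkFour stripBMainThreeBox 210 5 5 20 8 eStripBMain = true := by
  decide +kernel

theorem stripBUpperAll_ok : checkFour stripBUpperAllBox 160 4 4 15 6 eStripB_condB = true := by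
  decide +kernel

theorem stripBLowerAll_ok : checkFour stripBLowerAllBox 160 4 4 15 7 eStripB_condC = true := by
  decide +kernel

end Vale.Agent.P100.Calib.Band.AllLow
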