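import Vale.Agent.P100.Calib.SlabAllLow
import Vale.Agent.P100.Calib.SlabStripAtoms
import Vale.Agent.P100.Calib.SlabStripExprB

/-!
# The values of the packed numerators in the chart B of the strip

`StripChartB` relates a point of the chart to the variables.
-/

namespace Vale.Agent.P100.Calib.Band.AllLow

open Pack

local instance stripEvalBAdd : Add Pack.Ex := ⟨Ex.add⟩
local instance stripEvalBSub : Sub Pack.Ex := ⟨Ex.sub⟩
local instance stripEvalBMul : Mul Pack.Ex := ⟨Ex.mul⟩

/-- The values of the variables. -/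
structure StripChartB (x : ℕ → ℝ) (p : StripAtoms) (k : ℝ) : Prop where
  hk : eStripBK1.eval x = k
  hk2 : eStripBK2.eval x = p.S
  h_w : eStripB_w.eval x = p.w
  h_v : eStripB_v.eval x = p.v * (p.S ^ 2)
  h_I : eStripB_I.eval x = p.I
  h_S : eStripB_S.eval x = p.S
  h_d : eStripB_d.eval x = p.d * (k)
  h_a : eStripB_a.eval x = p.a * (k)
  h_b : eStripB_b.eval x = p.b * (k)
  h_K : eStripB_K.eval x = p.K
  h_IT : eStripB_IT.eval x = p.IT
  h_dv : eStripB_dv.eval x = p.dv * (p.S)

variable {x : ℕ → ℝ} {p : StripAtoms} {k : ℝ}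

theorem evalB_q (h : StripChartB x p k) :
    eStripB_q.eval x = p.q * (p.S) := by
  simp only [eStripB_q, StripAtoms.q, eval_add', h.hk2, h.h_dv]
  ring

theorem evalB_D0 (h : StripChartB x p k) :
    eStripB_D0.eval x = p.D0 * (p.S) := by
  simp only [eStripB_D0, StripAtoms.D0, eval_add', eval_mul', eval_num', h.hk2, h.h_dv]
  push_cast
  ring

theorem evalB_u (h : StripChartB x p k) :
    eStripB_u.eval x = p.u := by
  simp only [eStripB_u, StripAtoms.u, eval_sub', eval_num', h.h_w]
  push_cast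
  ring

theorem evalB_qu (h : StripChartB x p k) :
    eStripB_qu.eval x = p.qu * (p.S) := by
  simp only [eStripB_qu, StripAtoms.qu, eval_mul', evalB_q h, evalB_u h]
  ring

theorem evalB_P (h : StripChartB x p k) :
    eStripB_P.eval x = p.P * (k * p.S) := by
  simp only [eStripB_P, StripAtoms.P, eval_sub', eval_mul', h.h_b, h.hk2, h.h_a, evalB_qu h]
  ring

theorem evalB_qn (h : StripChartB x p k) :
    eStripB_qn.eval x = p.qn * (k * p.S) := by
  simp only [eStripB_qn, StripAtoms.qn, eval_sub', eval_mul', h.h_b, evalB_D0 h, h.h_S,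
    evalB_qu h, h.hk]
  ring

theorem evalB_ud (h : StripChartB x p k) :
    eStripB_ud.eval x = p.ud * (k) := by
  simp only [eStripB_ud, StripAtoms.ud, eval_mul', evalB_u h, h.h_d]
  ring

theorem evalB_e1 (h : StripChartB x p k) :
    eStripB_e1.eval x = p.e1 * (k ^ 2 * p.S) := by
  simp only [eStripB_e1, StripAtoms.e1, eval_sub', eval_mul', evalB_ud h, evalB_qn h, h.h_S,
    h.h_w, h.h_b, h.hk2]
  ring

theorem evalB_E0 (h : StripChartB x p k) :
    eStripB_E0.eval x = p.E0 * (k * p.S) := by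
  simp only [eStripB_E0, StripAtoms.E0, eval_sub', eval_mul', evalB_qn h, h.h_S, h.h_w, h.h_b,
    evalB_D0 h]
  ring

theorem evalB_f0 (h : StripChartB x p k) :
    eStripB_f0.eval x = p.f0 * (k * p.S) := by
  simp only [eStripB_f0, StripAtoms.f0, eval_add', eval_mul', evalB_qn h, h.h_S, h.h_K,
    evalB_ud h, h.hk2]
  ring

theorem evalB_N (h : StripChartB x p k) :
    eStripB_N.eval x = p.N * (p.S) := by
  simp only [eStripB_N, StripAtoms.N, eval_mul', h.h_S, h.h_K, evalB_D0 h]
  ring

theorem evalB_G (h : StripChartB x p k) :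
    eStripB_G.eval x = p.G * (p.S ^ 3) := by
  simp only [eStripB_G, StripAtoms.G, eval_add', eval_num', Ex.eval, h.h_S, h.h_v, evalB_q h,
    h.h_I, h.h_K, h.h_IT, h.hk2]
  push_cast
  ring

theorem evalB_Gv (h : StripChartB x p k) :
    eStripB_Gv.eval x = p.Gv * (k * p.S) := by
  simp only [eStripB_Gv, StripAtoms.Gv, eval_add', eval_sub', eval_mul', eval_num', h.h_S, h.hk2,
    h.h_dv, h.hk, h.h_I, h.h_a, h.h_IT, h.h_K, h.h_d]
  push_cast
  ring

theorem evalB_n (h : StripChartB x p k) :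
    eStripB_n.eval x = p.n * (p.S ^ 3) := by
  simp only [eStripB_n, StripAtoms.n, eval_sub', eval_num', Ex.eval, h.h_K, h.hk2, h.h_w, evalB_G h]
  push_cast
  ring

theorem evalB_be (h : StripChartB x p k) :
    eStripB_be.eval x = p.be * (k * p.S ^ 2) := by
  simp only [eStripB_be, StripAtoms.be, eval_add', eval_sub', eval_num', Ex.eval, h.h_I, h.hk,
    h.hk2, h.h_a, h.h_v, h.h_d, h.h_dv, h.h_w]
  push_cast
  ring

theorem evalB_A0 (h : StripChartB x p k) :
    eStripB_A0.eval x = p.A0 * (p.S ^ 3) := by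
  simp only [eStripB_A0, StripAtoms.A0, eval_add', Ex.eval, evalB_N h, h.hk2, h.h_S, h.h_v,
    evalB_D0 h]
  ring

theorem evalB_A1 (h : StripChartB x p k) :
    eStripB_A1.eval x = p.A1 * (k * p.S ^ 2) := by
  simp only [eStripB_A1, StripAtoms.A1, eval_add', eval_mul', evalB_f0 h, h.hk2, h.h_S, h.h_v,
    evalB_ud h]
  ring

theorem evalB_FV (h : StripChartB x p k) :
    eStripB_FV.eval x = p.FV * (k * p.S) := by
  simp only [eStripB_FV, StripAtoms.FV, eval_add', eval_mul', eval_num', h.h_a, h.hk2, h.h_w,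
    evalB_Gv h]
  push_cast
  ring

theorem evalB_c0 (h : StripChartB x p k) :
    eStripB_c0.eval x = p.c0 * (k * p.S ^ 4) := by
  simp only [eStripB_c0, StripAtoms.c0, eval_sub', eval_mul', eval_num', evalB_P h, evalB_A0 h,
    evalB_G h, evalB_u h, evalB_E0 h, evalB_FV h, evalB_qu h, evalB_N h, h.hk2, h.h_w, evalB_be h]
  push_cast
  ring

theorem evalB_c1 (h : StripChartB x p k) :
    eStripB_c1.eval x = p.c1 * (k ^ 2 * p.S ^ 4) := by
  simp only [eStripB_c1, StripAtoms.c1, eval_add', eval_sub', eval_num', Ex.eval, evalB_G h,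
    evalB_u h, evalB_e1 h, h.h_a, evalB_qu h, evalB_E0 h, h.hk2, evalB_FV h, evalB_f0 h,
    evalB_ud h, evalB_N h, evalB_P h, evalB_A1 h, evalB_A0 h, h.h_w, evalB_be h]
  push_cast
  ring

theorem evalB_c2 (h : StripChartB x p k) :
    eStripB_c2.eval x = p.c2 * (k ^ 3 * p.S ^ 3) := by
  simp only [eStripB_c2, StripAtoms.c2, eval_add', eval_sub', eval_mul', eval_num', h.h_a,
    evalB_qu h, evalB_e1 h, evalB_ud h, evalB_f0 h, h.hk2, evalB_P h, evalB_A1 h]
  push_cast
  ring

theorem evalB_condA (h : StripChartB x p k) :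
    eStripB_condA.eval x = p.condA * (k ^ 3 * p.S ^ 9) := by
  simp only [eStripB_condA, StripAtoms.condA, eval_sub', eval_num', Ex.eval, h.hk, h.hk2,
    evalB_c2 h, evalB_n h, evalB_c1 h, evalB_P h, evalB_c0 h]
  push_cast
  ring

theorem evalB_condB (h : StripChartB x p k) :
    eStripB_condB.eval x = p.condB * (k ^ 3 * p.S ^ 6) := by
  simp only [eStripB_condB, StripAtoms.condB, eval_add', eval_mul', eval_num', evalB_c1 h,
    evalB_P h, h.hk2, evalB_c2 h, evalB_n h]
  push_cast
  ring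

theorem evalB_condC (h : StripChartB x p k) :
    eStripB_condC.eval x = p.condC * (k ^ 3 * p.S ^ 5) := by
  simp only [eStripB_condC, StripAtoms.condC, eval_add', eval_mul', eval_num', evalB_c1 h,
    evalB_f0 h, evalB_c2 h, evalB_N h, h.hk2]
  push_cast
  ring

end Vale.Agent.P100.Calib.Band.AllLow
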