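import Vale.Agent.P100.Calib.SlabStripMidChart

/-!
# The checks of piece 0 on `153/200 < u ≤ 4/5`
-/

set_option linter.defProp false

namespace Vale.Agent.P100.Calib.StripMid

open Pack

/-- The numbers of piece 0. -/
def pf0 : Piece :=
  ⟨.A, (153, 200), (4, 5), (1, 1), (39, 100), (7, 4), (199, 500), (49, 100),
    (483, 500), (983, -6600, 1000), (251, -1050, 250), 38, (-19, 60, 598, 5), (199, 500), (313, 500), (9, 20),
    (1, 1), (7, 4)⟩

/-- The ranges of piece 0. -/
def boxf0 : Box :=
  ⟨(0, 1, 20), (0, 19, 18), (71, 701, 100), (39, 175, 100),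
    (153, 160, 200)⟩

/-- A check of piece 0. -/
def chkf0_0 : Chk (boxf0.cC) (bound pf0 false .l0) :=
  ⟨184, 14, 9, 2, 3, by decide +kernel⟩
/-- A check of piece 0. -/
def chkf0_1 : Chk (boxf0.cC) (bound pf0 false .l1) :=
  ⟨182, 14, 9, 2, 3, by decide +kernel⟩
/-- A check of piece 0. -/
def chkf0_2 : Chk (boxf0.cC) (bound pf0 false .r) :=
  ⟨184, 14, 9, 2, 3, by decide +kernel⟩
/-- A check of piece 0. -/
def chkf0_3 : Chk (boxf0.cC) (bound pf0 false .g0) :=
  ⟨81, 5, 3, 1, 2, by decide +kernel⟩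
/-- A check of piece 0. -/
def chkf0_4 : Chk (boxf0.cC) (bound pf0 false .g1) :=
  ⟨82, 5, 3, 1, 2, by decide +kernel⟩
/-- A check of piece 0. -/
def chkf0_5 : Chk (boxf0.cC) (bound pf0 false .t0) :=
  ⟨136, 9, 6, 2, 3, by decide +kernel⟩
/-- A check of piece 0. -/
def chkf0_6 : Chk (boxf0.cC) (bound pf0 false .t1) :=
  ⟨134, 9, 6, 2, 3, by decide +kernel⟩
/-- A check of piece 0. -/
def chkf0_7 : Chk (boxf0.cC) (bound pf0 false .w0) :=
  ⟨168, 12, 7, 3, 4, by decide +kernel⟩
/-- A check of piece 0. -/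
def chkf0_8 : Chk (boxf0.cC) (bound pf0 false .w1) :=
  ⟨171, 12, 7, 3, 4, by decide +kernel⟩
/-- A check of piece 0. -/
def chkf0_9 : Chk (boxf0.cC) (bound pf0 true .l0) :=
  ⟨184, 14, 9, 2, 3, by decide +kernel⟩
/-- A check of piece 0. -/
def chkf0_10 : Chk (boxf0.cC) (bound pf0 true .l1) :=
  ⟨182, 14, 9, 2, 3, by decide +kernel⟩
/-- A check of piece 0. -/
def chkf0_11 : Chk (boxf0.cC) (bound pf0 true .r) :=
  ⟨184, 14, 9, 2, 3, by decide +kernel⟩
/-- A check of piece 0. -/
def chkf0_12 : Chk (boxf0.cC) (bound pf0 true .g0) :=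
  ⟨81, 5, 3, 1, 2, by decide +kernel⟩
/-- A check of piece 0. -/
def chkf0_13 : Chk (boxf0.cC) (bound pf0 true .g1) :=
  ⟨82, 5, 3, 1, 2, by decide +kernel⟩
/-- A check of piece 0. -/
def chkf0_14 : Chk (boxf0.cC) (bound pf0 true .t0) :=
  ⟨136, 9, 6, 2, 3, by decide +kernel⟩
/-- A check of piece 0. -/
def chkf0_15 : Chk (boxf0.cC) (bound pf0 true .t1) :=
  ⟨134, 9, 6, 2, 3, by decide +kernel⟩
/-- A check of piece 0. -/
def chkf0_16 : Chk (boxf0.cC) (bound pf0 true .w0) :=
  ⟨168, 12, 7, 3, 4, by decide +kernel⟩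
/-- A check of piece 0. -/
def chkf0_17 : Chk (boxf0.cC) (bound pf0 true .w1) :=
  ⟨171, 12, 7, 3, 4, by decide +kernel⟩
/-- A check of piece 0. -/
def chkf0_18 : Chk (boxf0.vC) (subst (sub pf0 ⟨false, false, true, true, false⟩) (condX)) :=
  ⟨201, 15, 10, 4, 0, by decide +kernel⟩
/-- A check of piece 0. -/
def chkf0_19 : Chk (boxf0.vC) (subst (sub pf0 ⟨false, true, true, true, false⟩) (condX)) :=
  ⟨199, 15, 10, 4, 0, by decide +kernel⟩
/-- A check of piece 0. -/
def chkf0_20 : Chk (boxf0.vC) (subst (sub pf0 ⟨true, false, true, true, false⟩) (condX)) :=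
  ⟨201, 15, 10, 4, 0, by decide +kernel⟩
/-- A check of piece 0. -/
def chkf0_21 : Chk (boxf0.vC) (subst (sub pf0 ⟨true, true, true, true, false⟩) (condX)) :=
  ⟨199, 15, 10, 4, 0, by decide +kernel⟩
/-- A check of piece 0. -/
def chkf0_22 : Chk (boxf0.vC) (subst (sub pf0 ⟨false, false, true, false, false⟩) (tplMG)) :=
  ⟨347, 26, 18, 6, 0, by decide +kernel⟩
/-- A check of piece 0. -/
def chkf0_23 : Chk (boxf0.vC) (subst (sub pf0 ⟨false, true, true, false, false⟩) (tplMG)) :=
  ⟨342, 26, 18, 6, 0, by decide +kernel⟩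
/-- A check of piece 0. -/
def chkf0_24 : Chk (boxf0.vC) (subst (sub pf0 ⟨true, false, true, false, false⟩) (tplMG)) :=
  ⟨347, 26, 18, 6, 0, by decide +kernel⟩
/-- A check of piece 0. -/
def chkf0_25 : Chk (boxf0.vC) (subst (sub pf0 ⟨true, true, true, false, false⟩) (tplMG)) :=
  ⟨342, 26, 18, 6, 0, by decide +kernel⟩
/-- A check of piece 0. -/
def chkf0_26 : Chk (boxf0.vC) (subst (sub pf0 ⟨false, false, false, false, false⟩) (pf0.m1)) :=
  ⟨257, 19, 14, 4, 0, by decide +kernel⟩
/-- A check of piece 0. -/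
def chkf0_27 : Chk (boxf0.vC) (subst (sub pf0 ⟨false, true, false, false, false⟩) (pf0.m1)) :=
  ⟨255, 19, 14, 4, 0, by decide +kernel⟩
/-- A check of piece 0. -/
def chkf0_28 : Chk (boxf0.vC) (subst (sub pf0 ⟨true, false, false, false, false⟩) (pf0.m1)) :=
  ⟨257, 19, 14, 4, 0, by decide +kernel⟩
/-- A check of piece 0. -/
def chkf0_29 : Chk (boxf0.vC) (subst (sub pf0 ⟨true, true, false, false, false⟩) (pf0.m1)) :=
  ⟨255, 19, 14, 4, 0, by decide +kernel⟩
/-- A check of piece 0. -/
def chkf0_30 : Chk (boxf0.vC) (subst (sub pf0 ⟨false, false, true, false, false⟩) (strict (pf0.m2 false))) :=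
  ⟨390, 24, 17, 6, 0, by decide +kernel⟩
/-- A check of piece 0. -/
def chkf0_31 : Chk (boxf0.vC) (subst (sub pf0 ⟨false, false, true, false, true⟩) (strict (pf0.m2 false))) :=
  ⟨386, 24, 17, 6, 0, by decide +kernel⟩
/-- A check of piece 0. -/
def chkf0_32 : Chk (boxf0.vC) (subst (sub pf0 ⟨true, false, true, false, false⟩) (strict (pf0.m2 false))) :=
  ⟨390, 24, 17, 6, 0, by decide +kernel⟩
/-- A check of piece 0. -/
def chkf0_33 : Chk (boxf0.vC) (subst (sub pf0 ⟨true, false, true, false, true⟩) (strict (pf0.m2 false))) :=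
  ⟨386, 24, 17, 6, 0, by decide +kernel⟩
/-- A check of piece 0. -/
def chkf0_34 : Chk (boxf0.vC) (subst (sub pf0 ⟨false, true, true, false, false⟩) (strict (pf0.m2 true))) :=
  ⟨385, 24, 17, 6, 0, by decide +kernel⟩
/-- A check of piece 0. -/
def chkf0_35 : Chk (boxf0.vC) (subst (sub pf0 ⟨false, true, true, false, true⟩) (strict (pf0.m2 true))) :=
  ⟨381, 24, 17, 6, 0, by decide +kernel⟩
/-- A check of piece 0. -/
def chkf0_36 : Chk (boxf0.vC) (subst (sub pf0 ⟨true, true, true, false, false⟩) (strict (pf0.m2 true))) :=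
  ⟨385, 24, 17, 6, 0, by decide +kernel⟩
/-- A check of piece 0. -/
def chkf0_37 : Chk (boxf0.vC) (subst (sub pf0 ⟨true, true, true, false, true⟩) (strict (pf0.m2 true))) :=
  ⟨381, 24, 17, 6, 0, by decide +kernel⟩
/-- A check of piece 0. -/
def chkf0_38 : Chk (boxf0.vC) (subst (sub pf0 ⟨false, false, true, true, false⟩) (strict (pf0.m3 false))) :=
  ⟨481, 31, 23, 6, 0, by decide +kernel⟩
/-- A check of piece 0. -/
def chkf0_39 : Chk (boxf0.vC) (subst (sub pf0 ⟨false, false, true, true, true⟩) (strict (pf0.m3 false))) :=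
  ⟨479, 31, 23, 6, 0, by decide +kernel⟩
/-- A check of piece 0. -/
def chkf0_40 : Chk (boxf0.vC) (subst (sub pf0 ⟨false, true, true, true, false⟩) (strict (pf0.m3 false))) :=
  ⟨476, 31, 23, 6, 0, by decide +kernel⟩
/-- A check of piece 0. -/
def chkf0_41 : Chk (boxf0.vC) (subst (sub pf0 ⟨false, true, true, true, true⟩) (strict (pf0.m3 false))) :=
  ⟨474, 31, 23, 6, 0, by decide +kernel⟩
/-- A check of piece 0. -/
def chkf0_42 : Chk (boxf0.vC) (subst (sub pf0 ⟨true, false, true, true, false⟩) (strict (pf0.m3 false))) :=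
  ⟨481, 31, 23, 6, 0, by decide +kernel⟩
/-- A check of piece 0. -/
def chkf0_43 : Chk (boxf0.vC) (subst (sub pf0 ⟨true, false, true, true, true⟩) (strict (pf0.m3 false))) :=
  ⟨479, 31, 23, 6, 0, by decide +kernel⟩
/-- A check of piece 0. -/
def chkf0_44 : Chk (boxf0.vC) (subst (sub pf0 ⟨true, true, true, true, false⟩) (strict (pf0.m3 false))) :=
  ⟨476, 31, 23, 6, 0, by decide +kernel⟩
/-- A check of piece 0. -/
def chkf0_45 : Chk (boxf0.vC) (subst (sub pf0 ⟨true, true, true, true, true⟩) (strict (pf0.m3 false))) :=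
  ⟨474, 31, 23, 6, 0, by decide +kernel⟩
/-- A check of piece 0. -/
def chkf0_46 : Chk (boxf0.vC) (subst (sub pf0 ⟨false, false, true, true, false⟩) (strict (pf0.m3 true))) :=
  ⟨479, 31, 23, 6, 0, by decide +kernel⟩
/-- A check of piece 0. -/
def chkf0_47 : Chk (boxf0.vC) (subst (sub pf0 ⟨false, false, true, true, true⟩) (strict (pf0.m3 true))) :=
  ⟨477, 31, 23, 6, 0, by decide +kernel⟩
/-- A check of piece 0. -/
def chkf0_48 : Chk (boxf0.vC) (subst (sub pf0 ⟨false, true, true, true, false⟩) (strict (pf0.m3 true))) :=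
  ⟨474, 31, 23, 6, 0, by decide +kernel⟩
/-- A check of piece 0. -/
def chkf0_49 : Chk (boxf0.vC) (subst (sub pf0 ⟨false, true, true, true, true⟩) (strict (pf0.m3 true))) :=
  ⟨472, 31, 23, 6, 0, by decide +kernel⟩
/-- A check of piece 0. -/
def chkf0_50 : Chk (boxf0.vC) (subst (sub pf0 ⟨true, false, true, true, false⟩) (strict (pf0.m3 true))) :=
  ⟨479, 31, 23, 6, 0, by decide +kernel⟩
/-- A check of piece 0. -/
def chkf0_51 : Chk (boxf0.vC) (subst (sub pf0 ⟨true, false, true, true, true⟩) (strict (pf0.m3 true))) :=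
  ⟨477, 31, 23, 6, 0, by decide +kernel⟩
/-- A check of piece 0. -/
def chkf0_52 : Chk (boxf0.vC) (subst (sub pf0 ⟨true, true, true, true, false⟩) (strict (pf0.m3 true))) :=
  ⟨474, 31, 23, 6, 0, by decide +kernel⟩
/-- A check of piece 0. -/
def chkf0_53 : Chk (boxf0.vC) (subst (sub pf0 ⟨true, true, true, true, true⟩) (strict (pf0.m3 true))) :=
  ⟨472, 31, 23, 6, 0, by decide +kernel⟩
/-- A check of piece 0. -/
def chkf0_54 : Chk (boxf0.vC) (subst (sub pf0 ⟨false, false, true, true, false⟩) (negEx coMG12)) :=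
  ⟨105, 8, 5, 4, 0, by decide +kernel⟩
/-- A check of piece 0. -/
def chkf0_55 : Chk (boxf0.vC) (subst (sub pf0 ⟨false, false, true, true, false⟩) (negEx (pf0.curve2 false))) :=
  ⟨116, 9, 5, 4, 0, by decide +kernel⟩
/-- A check of piece 0. -/
def chkf0_56 : Chk (boxf0.vC) (subst (sub pf0 ⟨false, false, true, true, false⟩) (negEx (pf0.curve2 true))) :=
  ⟨113, 9, 5, 4, 0, by decide +kernel⟩
/-- A check of piece 0. -/
def chkf0_57 : Chk (boxf0.vC) (subst (sub pf0 ⟨false, false, true, true, false⟩) (negEx (pf0.curve3 false))) :=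
  ⟨118, 9, 6, 4, 0, by decide +kernel⟩
/-- A check of piece 0. -/
def chkf0_58 : Chk (boxf0.vC) (subst (sub pf0 ⟨false, false, true, true, false⟩) (negEx (pf0.curve3 true))) :=
  ⟨116, 9, 6, 4, 0, by decide +kernel⟩
/-- A check of piece 0. -/
def chkf0_59 : Chk (boxf0.vC) (subst (sub pf0 ⟨false, false, true, true, false⟩) (slopeT)) :=
  ⟨119, 10, 6, 4, 0, by decide +kernel⟩
/-- A check of piece 0. -/
def chkf0_60 : Chk (boxf0.vC) (subst (sub pf0 ⟨true, false, true, true, false⟩) (slopeT)) :=
  ⟨119, 10, 6, 4, 0, by decide +kernel⟩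
/-- A check of piece 0. -/
def chkf0_61 : Chk (boxf0.gC true) (subst (gapSub pf0 true false false) tplL) :=
  ⟨303, 25, 16, 5, 2, by decide +kernel⟩
/-- A check of piece 0. -/
def chkf0_62 : Chk (boxf0.gC true) (subst (gapSub pf0 true false true) tplL) :=
  ⟨301, 25, 16, 5, 2, by decide +kernel⟩
/-- A check of piece 0. -/
def chkf0_63 : Chk (boxf0.gC true) (subst (gapSub pf0 true true false) tplL) :=
  ⟨303, 25, 16, 5, 2, by decide +kernel⟩
/-- A check of piece 0. -/
def chkf0_64 : Chk (boxf0.gC true) (subst (gapSub pf0 true true true) tplL) :=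
  ⟨301, 25, 16, 5, 2, by decide +kernel⟩

/-- Piece 0 passes. -/
theorem certf0 : Cert pf0 boxf0 true where
  pos := by
    refine ⟨⟨⟨?_, ?_, ?_, ?_, ?_, ?_, ?_⟩, ?_, ?_, ?_, ?_, ?_, ?_, ?_, ?_, ?_, ?_, ?_⟩, ?_, ?_⟩ <;>
      norm_num [fr, pf0]
  gX := fun p l => match p, l with
    | false, false => chkf0_18
    | false, true => chkf0_19
    | true, false => chkf0_20
    | true, true => chkf0_21
  gMG := fun p l => match p, l with
    | false, false => chkf0_22
    | false, true => chkf0_23
    | true, false => chkf0_24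
    | true, true => chkf0_25
  g1 := fun p l => match p, l with
    | false, false => chkf0_26
    | false, true => chkf0_27
    | true, false => chkf0_28
    | true, true => chkf0_29
  g2 := fun s p t => match s, p, t with
    | false, false, false => chkf0_30
    | false, false, true => chkf0_31
    | false, true, false => chkf0_32
    | false, true, true => chkf0_33
    | true, false, false => chkf0_34
    | true, false, true => chkf0_35
    | true, true, false => chkf0_36
    | true, true, true => chkf0_37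
  g3 := fun s p l t => match s, p, l, t with
    | false, false, false, false => chkf0_38
    | false, false, false, true => chkf0_39
    | false, false, true, false => chkf0_40
    | false, false, true, true => chkf0_41
    | false, true, false, false => chkf0_42
    | false, true, false, true => chkf0_43
    | false, true, true, false => chkf0_44
    | false, true, true, true => chkf0_45
    | true, false, false, false => chkf0_46
    | true, false, false, true => chkf0_47
    | true, false, true, false => chkf0_48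
    | true, false, true, true => chkf0_49
    | true, true, false, false => chkf0_50
    | true, true, false, true => chkf0_51
    | true, true, true, false => chkf0_52
    | true, true, true, true => chkf0_53
  cMG := chkf0_54
  c2 := fun s => match s with
    | false => chkf0_55
    | true => chkf0_56
  c3 := fun s => match s with
    | false => chkf0_57
    | true => chkf0_58
  sT := fun p => match p with
    | false => chkf0_59
    | true => chkf0_60
  bnd := fun ze b => match ze, b with
    | false, .l0 => chkf0_0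
    | false, .l1 => chkf0_1
    | false, .r => chkf0_2
    | false, .g0 => chkf0_3
    | false, .g1 => chkf0_4
    | false, .t0 => chkf0_5
    | false, .t1 => chkf0_6
    | false, .w0 => chkf0_7
    | false, .w1 => chkf0_8
    | true, .l0 => chkf0_9
    | true, .l1 => chkf0_10
    | true, .r => chkf0_11
    | true, .g0 => chkf0_12
    | true, .g1 => chkf0_13
    | true, .t0 => chkf0_14
    | true, .t1 => chkf0_15
    | true, .w0 => chkf0_16
    | true, .w1 => chkf0_17
  gap := fun ze t => match ze, t with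
    | false, false => chkf0_61
    | false, true => chkf0_62
    | true, false => chkf0_63
    | true, true => chkf0_64

end Vale.Agent.P100.Calib.StripMid
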