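import Vale.Agent.P100.Calib.SlabStripMidEnds

/-!
# The conditions of a piece below 153/200 from its checks
-/

set_option linter.unusedVariables false

namespace Vale.Agent.P100.Calib.StripMid

open Pack

/-- The parameters of `S1`. -/
def Piece.m1 (P : Piece) : Ex := cond1 (16 * P.k₁.1 * P.g₁.2) (P.g₁.1 * P.k₁.2)

/-- The parameters of `S2`, by the sign of `TEG`. -/
def Piece.m2 (P : Piece) (pos : Bool) : Ex :=
  cond pos (cond2 P.k₂.1 P.k₂.2 1) (cond2 P.k₂'.1 P.k₂'.2 (-1))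

/-- The parameters of `S3`, by the sign of `TEG`. -/
def Piece.m3 (P : Piece) (pos : Bool) : Ex :=
  cond pos
    (cond3 (P.g₀.1 * P.k₁.2) P.k₂.2 (-2 * P.k₂.1) (8 * P.k₁.1 * P.g₀.2 * P.k₂.2))
    (cond3 (P.g₀.1 * P.k₁.2) P.k₂'.2 (2 * P.k₂'.1) (8 * P.k₁.1 * P.g₀.2 * P.k₂'.2))

/-- The second derivative of `S3` along `p`, halved, by the sign of `TEG`. -/
def Piece.curve3 (P : Piece) (pos : Bool) : Ex :=
  cond pos (Ex.add (Ex.mul (.num P.k₂.2) coA12) (Ex.mul (.num (-2 * P.k₂.1)) coT9))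
    (Ex.add (Ex.mul (.num P.k₂'.2) coA12) (Ex.mul (.num (2 * P.k₂'.1)) coT9))

/-- The second derivative of `S2` along `p`, halved, by the sign of `TEG`. -/
def Piece.curve2 (P : Piece) (pos : Bool) : Ex :=
  cond pos
    (Ex.sub (Ex.mul (.num (4 * P.k₂.1)) coG10) (Ex.mul (Ex.mul (.num (8 * 1 * P.k₂.2)) qEx) coT9))
    (Ex.sub (Ex.mul (.num (4 * P.k₂'.1)) coG10)
      (Ex.mul (Ex.mul (.num (8 * (-1) * P.k₂'.2)) qEx) coT9))

/-- Minus the slope of `TEG` along `e`. -/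
def slopeT : Ex := Ex.mul (.num (-1)) (Ex.add (Ex.mul (.var 4) coT4) (Ex.mul (.var 3) coT8))

/-- Minus an expression. -/
def negEx (e : Ex) : Ex := Ex.mul (.num (-1)) e

/-- The checks of a piece at a point. -/
structure Checks (P : Piece) (x : ℕ → ℝ) : Prop where
  gX : ∀ p l, 0 ≤ (subst (sub P ⟨p, l, true, true, false⟩) condX).eval x
  gMG : ∀ p l, 0 ≤ (subst (sub P ⟨p, l, true, false, false⟩) tplMG).eval x
  g1 : ∀ p l, 0 ≤ (subst (sub P ⟨p, l, false, false, false⟩) P.m1).eval x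
  g2 : ∀ s p t, 0 ≤ (subst (sub P ⟨p, s, true, false, t⟩) (strict (P.m2 s))).eval x
  g3 : ∀ s p l t, 0 ≤ (subst (sub P ⟨p, l, true, true, t⟩) (strict (P.m3 s))).eval x
  cMG : 0 ≤ (subst (sub P ⟨false, false, true, true, false⟩) (negEx coMG12)).eval x
  c2 : ∀ s, 0 ≤ (subst (sub P ⟨false, false, true, true, false⟩) (negEx (P.curve2 s))).eval x
  c3 : ∀ s, 0 ≤ (subst (sub P ⟨false, false, true, true, false⟩) (negEx (P.curve3 s))).eval x
  sT : ∀ p, 0 ≤ (subst (sub P ⟨p, false, true, true, false⟩) slopeT).eval x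

/-- What else the constants of a piece satisfy. -/
structure Piece.Pos2 (P : Piece) : Prop extends P.Pos where
  k₁n : 0 < P.k₁.1
  k₁ : 0 < P.k₁.2
  k₂n : 0 < P.k₂.1
  k₂ : 0 < P.k₂.2
  k₂n' : 0 < P.k₂'.1
  k₂' : 0 < P.k₂'.2
  g₀n : 0 < P.g₀.1
  g₀ : 0 < P.g₀.2
  g₁n : 0 < P.g₁.1
  g₁ : 0 < P.g₁.2
  lin : fr P.k₁ / 20 ≤ 4 / 25 * fr P.g₀

variable {P : Piece} {x : ℕ → ℝ}

theorem condX_quo {ρ : ℕ → ℝ} (h4 : ρ 4 ≠ 0) (h7 : ρ 7 ≠ 0) (h9 : ρ 9 ≠ 0) :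
    condX.eval ρ = ρ 4 * ρ 7 * ρ 9 * condX.eval (quo ρ) := by
  show ((-1 : ℤ) : ℝ) * tplX.eval ρ = _ * (((-1 : ℤ) : ℝ) * tplX.eval (quo ρ))
  rw [tplX_quo h4 h7 h9]
  ring

theorem cond1_quo {n m : ℤ} {ρ : ℕ → ℝ} (h4 : ρ 4 ≠ 0) (h7 : ρ 7 ≠ 0) (h9 : ρ 9 ≠ 0) :
    (cond1 n m).eval ρ = ρ 4 * ρ 7 * ρ 9 * (cond1 n m).eval (quo ρ) := by
  show (n : ℝ) * mEx.eval ρ * (ρ 9 * tplM.eval ρ) + (m : ℝ) * abEx.eval ρ * tplX.eval ρ =
    _ * ((n : ℝ) * mEx.eval (quo ρ) * (quo ρ 9 * tplM.eval (quo ρ)) +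
      (m : ℝ) * abEx.eval (quo ρ) * tplX.eval (quo ρ))
  rw [tplM_quo h4 h7, tplX_quo h4 h7 h9, coef_quo (e := mEx) rfl, coef_quo (e := abEx) rfl]
  simp only [quo, hatOne]
  ring

theorem cond2_quo {n q s : ℤ} {ρ : ℕ → ℝ} (h4 : ρ 4 ≠ 0) (h7 : ρ 7 ≠ 0) (h12 : ρ 12 ≠ 0)
    (h14 : ρ 14 ≠ 0) :
    (cond2 n q s).eval ρ =
      ρ 4 ^ 2 * ρ 7 * ρ 12 ^ 2 * ρ 14 ^ 2 * (cond2 n q s).eval (quo ρ) := by
  rw [eval_cond2, eval_cond2, tplG_quo h4 h12 h14, tplT_quo h4 h7 h12 h14]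
  simp only [quo, hatOne]
  ring

theorem cond3_quo {m c e n : ℤ} {ρ : ℕ → ℝ} (h4 : ρ 4 ≠ 0) (h7 : ρ 7 ≠ 0) (h9 : ρ 9 ≠ 0)
    (h12 : ρ 12 ≠ 0) (h14 : ρ 14 ≠ 0) :
    (cond3 m c e n).eval ρ =
      ρ 4 ^ 2 * ρ 7 ^ 2 * ρ 9 * ρ 12 * ρ 14 ^ 2 * (cond3 m c e n).eval (quo ρ) := by
  show (m : ℝ) * abEx.eval ρ *
        ((c : ℝ) * tplA.eval ρ + (e : ℝ) * (ρ 7 * (ρ 9 * (ρ 14 * tplT.eval ρ)))) +
      (n : ℝ) * mEx.eval ρ * (ρ 4 * (ρ 7 * (ρ 12 * (ρ 14 ^ 2 * tplX.eval ρ)))) =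
    _ * ((m : ℝ) * abEx.eval (quo ρ) * ((c : ℝ) * tplA.eval (quo ρ) +
          (e : ℝ) * (quo ρ 7 * (quo ρ 9 * (quo ρ 14 * tplT.eval (quo ρ))))) +
      (n : ℝ) * mEx.eval (quo ρ) *
        (quo ρ 4 * (quo ρ 7 * (quo ρ 12 * (quo ρ 14 ^ 2 * tplX.eval (quo ρ))))))
  rw [tplA_quo h4 h7 h9 h12 h14, tplT_quo h4 h7 h12 h14, tplX_quo h4 h7 h9,
    coef_quo (e := mEx) rfl, coef_quo (e := abEx) rfl]
  simp only [quo, hatOne]
  ring

theorem eval_strict (e : Ex) (ρ : ℕ → ℝ) :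
    (strict e).eval ρ = 2 ^ 64 * e.eval ρ - (ρ 1 * ρ 2 * (1 - ρ 0 - ρ 1)) ^ 3 := by
  show ((2 ^ 64 : ℤ) : ℝ) * e.eval ρ - (ρ 1 * ρ 2 * mEx.eval ρ) ^ 3 = _
  rw [eval_mEx]
  norm_num

theorem pos_of_strict (h : Good P x) (V : Vtx) {e : Ex}
    (he : 0 ≤ (subst (sub P V) (strict e)).eval x) : 0 < e.eval (rho P V x) := by
  rw [eval_subst, eval_strict] at he
  have e0 : rho P V x 0 = 2 * xa P x := eval_kA
  have e1 : rho P V x 1 = xd P x := rfl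
  have e2 : rho P V x 2 = xv P x := rfl
  change 0 ≤ 2 ^ 64 * e.eval (rho P V x) -
    (rho P V x 1 * rho P V x 2 * (1 - rho P V x 0 - rho P V x 1)) ^ 3 at he
  rw [e0, e1, e2, show 1 - 2 * xa P x - xd P x = 2 * xI P x by
    linarith [eval_kA' (P := P) (x := x)]] at he
  have hI := h.I
  have hd := h.d
  have hv := h.v
  have : 0 < (xd P x * xv P x * (2 * xI P x)) ^ 3 := by positivity
  linarith

/-- The variables at an end. -/
noncomputable def endVec (P : Piece) (x : ℕ → ℝ) (p : ℝ) (L : ℝ) (k : Bool) (w T : ℝ) : ℕ → ℝ :=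
  vec (xa P x) (xd P x) (xv P x) p (-L * phi P x) (-L * psi P x k) w T (kap P x)

theorem end_X (hP : P.Pos) (h : Good P x) (C : Checks P x) (p l : Bool) :
    0 ≤ condX.eval (endVec P x (pEnd P x p) (lEnd P l) true (wEnd P x true) (tEnd P x false)) := by
  have he := C.gX p l
  rw [eval_subst] at he
  obtain ⟨h4, h7, h9, h12, h14⟩ := rho_den hP h ⟨p, l, true, true, false⟩
  change 0 ≤ condX.eval (rho P ⟨p, l, true, true, false⟩ x) at he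
  rw [condX_quo h4.ne' h7.ne' h9.ne', quo_rho hP h] at he
  exact nonneg_of_mul_nonneg_right he (by positivity)

theorem end_MG (hP : P.Pos) (h : Good P x) (C : Checks P x) (p l : Bool) :
    0 ≤ tplMG.eval (endVec P x (pEnd P x p) (lEnd P l) true (wEnd P x false) (tEnd P x false)) := by
  have he := C.gMG p l
  rw [eval_subst] at he
  obtain ⟨h4, h7, h9, h12, h14⟩ := rho_den hP h ⟨p, l, true, false, false⟩
  change 0 ≤ tplMG.eval (rho P ⟨p, l, true, false, false⟩ x) at he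
  rw [tplMG_quo h4.ne' h7.ne' h9.ne' h12.ne' h14.ne', quo_rho hP h] at he
  exact nonneg_of_mul_nonneg_right he (by positivity)

theorem end_1 (hP : P.Pos) (h : Good P x) (C : Checks P x) (p l : Bool) :
    0 ≤ P.m1.eval
      (endVec P x (pEnd P x p) (lEnd P l) false (wEnd P x false) (tEnd P x false)) := by
  have he := C.g1 p l
  rw [eval_subst] at he
  obtain ⟨h4, h7, h9, h12, h14⟩ := rho_den hP h ⟨p, l, false, false, false⟩
  change 0 ≤ P.m1.eval (rho P ⟨p, l, false, false, false⟩ x) at he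
  rw [Piece.m1, cond1_quo h4.ne' h7.ne' h9.ne', quo_rho hP h] at he
  exact nonneg_of_mul_nonneg_right he (by positivity)

theorem end_2 (hP : P.Pos) (h : Good P x) (C : Checks P x) (s p t : Bool) :
    0 < (P.m2 s).eval
      (endVec P x (pEnd P x p) (lEnd P s) true (wEnd P x false) (tEnd P x t)) := by
  have he := pos_of_strict h _ (C.g2 s p t)
  obtain ⟨h4, h7, h9, h12, h14⟩ := rho_den hP h ⟨p, s, true, false, t⟩
  cases s <;>
    (simp only [Piece.m2, cond_true, cond_false] at he ⊢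
     rw [cond2_quo h4.ne' h7.ne' h12.ne' h14.ne', quo_rho hP h] at he
     exact pos_of_mul_pos_right he (by positivity))

theorem end_3 (hP : P.Pos) (h : Good P x) (C : Checks P x) (s p l t : Bool) :
    0 < (P.m3 s).eval
      (endVec P x (pEnd P x p) (lEnd P l) true (wEnd P x true) (tEnd P x t)) := by
  have he := pos_of_strict h _ (C.g3 s p l t)
  obtain ⟨h4, h7, h9, h12, h14⟩ := rho_den hP h ⟨p, l, true, true, t⟩
  cases s <;>
    (simp only [Piece.m3, cond_true, cond_false] at he ⊢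
     rw [cond3_quo h4.ne' h7.ne' h9.ne' h12.ne' h14.ne', quo_rho hP h] at he
     exact pos_of_mul_pos_right he (by positivity))

end Vale.Agent.P100.Calib.StripMid
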