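import Vale.Agent.P100.Calib.SlabStripFirstPieces
import Vale.Agent.P100.Calib.SlabStripMidSigns

/-!
# The checks of the piece A of the first stretch of the strip: rows
-/

namespace Vale.Agent.P100.Calib.StripMid

open Pack

theorem firstA_X_ff : checkFour firstABox 130 15 10 4 0
    (subst (sub firstA ⟨false, false, true, true, false⟩) condX) = true := by decide +kernel

theorem firstA_MG_ff : checkFour firstABox 223 26 18 6 0
    (subst (sub firstA ⟨false, false, true, false, false⟩) tplMG) = true := by decide +kernel

theorem firstA_One_ff : checkFour firstABox 165 19 14 4 0
    (subst (sub firstA ⟨false, false, false, false, false⟩) firstA.m1) = true := by decide +kernel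

theorem firstA_X_ft : checkFour firstABox 130 15 10 4 0
    (subst (sub firstA ⟨false, true, true, true, false⟩) condX) = true := by decide +kernel

theorem firstA_MG_ft : checkFour firstABox 223 26 18 6 0
    (subst (sub firstA ⟨false, true, true, false, false⟩) tplMG) = true := by decide +kernel

theorem firstA_One_ft : checkFour firstABox 165 19 14 4 0
    (subst (sub firstA ⟨false, true, false, false, false⟩) firstA.m1) = true := by decide +kernel

theorem firstA_X_tf : checkFour firstABox 130 15 10 4 0
    (subst (sub firstA ⟨true, false, true, true, false⟩) condX) = true := by decide +kernel

theorem firstA_MG_tf : checkFour firstABox 223 26 18 6 0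
    (subst (sub firstA ⟨true, false, true, false, false⟩) tplMG) = true := by decide +kernel

theorem firstA_One_tf : checkFour firstABox 165 19 14 4 0
    (subst (sub firstA ⟨true, false, false, false, false⟩) firstA.m1) = true := by decide +kernel

theorem firstA_X_tt : checkFour firstABox 130 15 10 4 0
    (subst (sub firstA ⟨true, true, true, true, false⟩) condX) = true := by decide +kernel

theorem firstA_MG_tt : checkFour firstABox 223 26 18 6 0
    (subst (sub firstA ⟨true, true, true, false, false⟩) tplMG) = true := by decide +kernel

theorem firstA_One_tt : checkFour firstABox 165 19 14 4 0
    (subst (sub firstA ⟨true, true, false, false, false⟩) firstA.m1) = true := by decide +kernel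

theorem firstA_cMG : checkFour firstABox 58 8 5 4 0
    (subst (sub firstA ⟨false, false, true, true, false⟩) (negEx coMG12)) = true := by decide +kernel

theorem firstA_c2_f : checkFour firstABox 67 9 5 4 0
    (subst (sub firstA ⟨false, false, true, true, false⟩) (negEx (firstA.curve2 false))) = true := by decide +kernel

theorem firstA_c3_f : checkFour firstABox 67 9 6 4 0
    (subst (sub firstA ⟨false, false, true, true, false⟩) (negEx (firstA.curve3 false))) = true := by decide +kernel

theorem firstA_sT_f : checkFour firstABox 72 10 6 4 0
    (subst (sub firstA ⟨false, false, true, true, false⟩) slopeT) = true := by decide +kernel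

theorem firstA_c2_t : checkFour firstABox 67 9 5 4 0
    (subst (sub firstA ⟨false, false, true, true, false⟩) (negEx (firstA.curve2 true))) = true := by decide +kernel

theorem firstA_c3_t : checkFour firstABox 66 9 6 4 0
    (subst (sub firstA ⟨false, false, true, true, false⟩) (negEx (firstA.curve3 true))) = true := by decide +kernel

theorem firstA_sT_t : checkFour firstABox 72 10 6 4 0
    (subst (sub firstA ⟨true, false, true, true, false⟩) slopeT) = true := by decide +kernel

end Vale.Agent.P100.Calib.StripMid
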