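import Vale.Agent.P100.Calib.SlabStripFirstPieces
import Vale.Agent.P100.Calib.SlabStripMidSigns

/-!
# The checks of the piece A of the first stretch of the strip: threei
-/

namespace Vale.Agent.P100.Calib.StripMid

open Pack

theorem firstA_Three_ffff : checkFour firstABox 330 31 23 6 0
    (subst (sub firstA ⟨false, false, true, true, false⟩) (strict (firstA.m3 false))) = true := by decide +kernel

theorem firstA_Three_fftf : checkFour firstABox 330 31 23 6 0
    (subst (sub firstA ⟨false, true, true, true, false⟩) (strict (firstA.m3 false))) = true := by decide +kernel

theorem firstA_Three_ffft : checkFour firstABox 332 31 23 6 0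
    (subst (sub firstA ⟨false, false, true, true, true⟩) (strict (firstA.m3 false))) = true := by decide +kernel

theorem firstA_Three_fftt : checkFour firstABox 332 31 23 6 0
    (subst (sub firstA ⟨false, true, true, true, true⟩) (strict (firstA.m3 false))) = true := by decide +kernel

end Vale.Agent.P100.Calib.StripMid
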