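import Vale.Agent.P100.Calib.SlabStripFirstPieces
import Vale.Agent.P100.Calib.SlabStripLLGExpr

/-!
# The checks of the piece A of the first stretch of the strip: window
-/

namespace Vale.Agent.P100.Calib.StripMid

open Pack

theorem firstA_gap_ff : checkFour firstABox 188 25 16 5 2
    (subst (gapSub firstA true false false) tplL) = true := by decide +kernel

theorem firstA_gap_ft : checkFour firstABox 190 25 16 5 2
    (subst (gapSub firstA true false true) tplL) = true := by decide +kernel

theorem firstA_l0_f : checkFour firstABox 99 12 7 2 1
    (boundRect firstA false .l0) = true := by decide +kernel

theorem firstA_l1_f : checkFour firstABox 99 12 7 2 1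
    (boundRect firstA false .l1) = true := by decide +kernel

theorem firstA_r_f : checkFour firstABox 95 12 7 2 1
    (boundRect firstA false .r) = true := by decide +kernel

theorem firstA_g0_f : checkFour firstABox 52 4 2 1 1
    (boundRect firstA false .g0) = true := by decide +kernel

theorem firstA_g1_f : checkFour firstABox 52 4 2 1 1
    (boundRect firstA false .g1) = true := by decide +kernel

theorem firstA_t0_f : checkFour firstABox 68 7 4 2 1
    (boundRect firstA false .t0) = true := by decide +kernel

theorem firstA_t1_f : checkFour firstABox 70 7 4 2 1
    (boundRect firstA false .t1) = true := by decide +kernel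

theorem firstA_w0_f : checkFour firstABox 95 11 6 3 2
    (boundBand firstA false .w0) = true := by decide +kernel

theorem firstA_w1_f : checkFour firstABox 98 11 6 3 2
    (boundBand firstA false .w1) = true := by decide +kernel

theorem firstA_top_f : checkFour firstABox 80 8 4 2 2
    (boundBand firstA false .top) = true := by decide +kernel

theorem firstA_pend_f : checkFour firstABox 83 8 4 2 2
    (boundBand firstA false .pend) = true := by decide +kernel

theorem firstA_gap_tf : checkFour firstABox 188 25 16 5 2
    (subst (gapSub firstA true true false) tplL) = true := by decide +kernel

theorem firstA_gap_tt : checkFour firstABox 190 25 16 5 2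
    (subst (gapSub firstA true true true) tplL) = true := by decide +kernel

theorem firstA_l0_t : checkFour firstABox 99 12 7 2 1
    (boundRect firstA true .l0) = true := by decide +kernel

theorem firstA_l1_t : checkFour firstABox 99 12 7 2 1
    (boundRect firstA true .l1) = true := by decide +kernel

theorem firstA_r_t : checkFour firstABox 95 12 7 2 1
    (boundRect firstA true .r) = true := by decide +kernel

theorem firstA_g0_t : checkFour firstABox 52 4 2 1 1
    (boundRect firstA true .g0) = true := by decide +kernel

theorem firstA_g1_t : checkFour firstABox 52 4 2 1 1
    (boundRect firstA true .g1) = true := by decide +kernel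

theorem firstA_t0_t : checkFour firstABox 68 7 4 2 1
    (boundRect firstA true .t0) = true := by decide +kernel

theorem firstA_t1_t : checkFour firstABox 70 7 4 2 1
    (boundRect firstA true .t1) = true := by decide +kernel

theorem firstA_w0_t : checkFour firstABox 126 13 7 3 4
    (boundBand firstA true .w0) = true := by decide +kernel

theorem firstA_w1_t : checkFour firstABox 129 13 7 3 4
    (boundBand firstA true .w1) = true := by decide +kernel

theorem firstA_top_t : checkFour firstABox 110 10 5 2 4
    (boundBand firstA true .top) = true := by decide +kernel

theorem firstA_pend_t : checkFour firstABox 113 10 5 2 4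
    (boundBand firstA true .pend) = true := by decide +kernel

end Vale.Agent.P100.Calib.StripMid
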