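import Vale.Agent.P100.Calib.SlabStripFirstPieces
import Vale.Agent.P100.Calib.SlabStripMidSigns

/-!
# The checks of the piece B of the first stretch of the strip: rows
-/

namespace Vale.Agent.P100.Calib.StripMid

open Pack

theorem firstB_X_ff : checkFour firstBBox 220 15 13 4 0
    (subst (sub firstB ⟨false, false, true, true, false⟩) condX) = true := by decide +kernel

theorem firstB_MG_ff : checkFour firstBBox 423 30 26 6 0
    (subst (sub firstB ⟨false, false, true, false, false⟩) tplMG) = true := by decide +kernel

theorem firstB_One_ff : checkFour firstBBox 280 19 17 4 0
    (subst (sub firstB ⟨false, false, false, false, false⟩) firstB.m1) = true := by decide +kernel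

theorem firstB_X_ft : checkFour firstBBox 220 15 13 4 0
    (subst (sub firstB ⟨false, true, true, true, false⟩) condX) = true := by decide +kernel

theorem firstB_MG_ft : checkFour firstBBox 423 30 26 6 0
    (subst (sub firstB ⟨false, true, true, false, false⟩) tplMG) = true := by decide +kernel

theorem firstB_One_ft : checkFour firstBBox 280 19 17 4 0
    (subst (sub firstB ⟨false, true, false, false, false⟩) firstB.m1) = true := by decide +kernel

theorem firstB_X_tf : checkFour firstBBox 220 15 13 4 0
    (subst (sub firstB ⟨true, false, true, true, false⟩) condX) = true := by decide +kernel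

theorem firstB_MG_tf : checkFour firstBBox 423 30 26 6 0
    (subst (sub firstB ⟨true, false, true, false, false⟩) tplMG) = true := by decide +kernel

theorem firstB_One_tf : checkFour firstBBox 280 19 17 4 0
    (subst (sub firstB ⟨true, false, false, false, false⟩) firstB.m1) = true := by decide +kernel

theorem firstB_X_tt : checkFour firstBBox 220 15 13 4 0
    (subst (sub firstB ⟨true, true, true, true, false⟩) condX) = true := by decide +kernel

theorem firstB_MG_tt : checkFour firstBBox 423 30 26 6 0
    (subst (sub firstB ⟨true, true, true, false, false⟩) tplMG) = true := by decide +kernel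

theorem firstB_One_tt : checkFour firstBBox 280 19 17 4 0
    (subst (sub firstB ⟨true, true, false, false, false⟩) firstB.m1) = true := by decide +kernel

theorem firstB_cMG : checkFour firstBBox 101 8 5 4 0
    (subst (sub firstB ⟨false, false, true, true, false⟩) (negEx coMG12)) = true := by decide +kernel

theorem firstB_c2_f : checkFour firstBBox 114 9 5 4 0
    (subst (sub firstB ⟨false, false, true, true, false⟩) (negEx (firstB.curve2 false))) = true := by decide +kernel

theorem firstB_c3_f : checkFour firstBBox 114 9 6 4 0
    (subst (sub firstB ⟨false, false, true, true, false⟩) (negEx (firstB.curve3 false))) = true := by decide +kernel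

theorem firstB_sT_f : checkFour firstBBox 127 10 7 4 0
    (subst (sub firstB ⟨false, false, true, true, false⟩) slopeT) = true := by decide +kernel

theorem firstB_c2_t : checkFour firstBBox 113 9 5 4 0
    (subst (sub firstB ⟨false, false, true, true, false⟩) (negEx (firstB.curve2 true))) = true := by decide +kernel

theorem firstB_c3_t : checkFour firstBBox 115 9 6 4 0
    (subst (sub firstB ⟨false, false, true, true, false⟩) (negEx (firstB.curve3 true))) = true := by decide +kernel

theorem firstB_sT_t : checkFour firstBBox 127 10 7 4 0
    (subst (sub firstB ⟨true, false, true, true, false⟩) slopeT) = true := by decide +kernel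

end Vale.Agent.P100.Calib.StripMid
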