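import Vale.Agent.P100.Calib.SlabStripFirstPieces
import Vale.Agent.P100.Calib.SlabStripMidSigns

/-!
# The checks of the piece B of the first stretch of the strip: threeiii
-/

namespace Vale.Agent.P100.Calib.StripMid

open Pack

theorem firstB_Three_tfff : checkFour firstBBox 561 35 31 6 0
    (subst (sub firstB ⟨false, false, true, true, false⟩) (strict (firstB.m3 true))) = true := by decide +kernel

theorem firstB_Three_tftf : checkFour firstBBox 561 35 31 6 0
    (subst (sub firstB ⟨false, true, true, true, false⟩) (strict (firstB.m3 true))) = true := by decide +kernel

theorem firstB_Three_tfft : checkFour firstBBox 560 35 31 6 0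
    (subst (sub firstB ⟨false, false, true, true, true⟩) (strict (firstB.m3 true))) = true := by decide +kernel

theorem firstB_Three_tftt : checkFour firstBBox 560 35 31 6 0
    (subst (sub firstB ⟨false, true, true, true, true⟩) (strict (firstB.m3 true))) = true := by decide +kernel

end Vale.Agent.P100.Calib.StripMid
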