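import Vale.Agent.P100.Calib.SlabStripFirstPieces
import Vale.Agent.P100.Calib.SlabStripLLGExpr

/-!
# The checks of the piece B of the first stretch of the strip: window
-/

namespace Vale.Agent.P100.Calib.StripMid

open Pack

theorem firstB_gap_ff : checkFour firstBBox 350 26 22 5 2
    (subst (gapSub firstB true false false) tplL) = true := by decide +kernel

theorem firstB_gap_ft : checkFour firstBBox 349 26 22 5 2
    (subst (gapSub firstB true false true) tplL) = true := by decide +kernel

theorem firstB_l0_f : checkFour firstBBox 174 12 11 2 1
    (boundRect firstB false .l0) = true := by decide +kernel

theorem firstB_l1_f : checkFour firstBBox 174 12 11 2 1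
    (boundRect firstB false .l1) = true := by decide +kernel

theorem firstB_r_f : checkFour firstBBox 171 12 11 2 1
    (boundRect firstB false .r) = true := by decide +kernel

theorem firstB_g0_f : checkFour firstBBox 75 4 3 1 1
    (boundRect firstB false .g0) = true := by decide +kernel

theorem firstB_g1_f : checkFour firstBBox 75 4 3 1 1
    (boundRect firstB false .g1) = true := by decide +kernel

theorem firstB_t0_f : checkFour firstBBox 106 7 4 2 1
    (boundRect firstB false .t0) = true := by decide +kernel

theorem firstB_t1_f : checkFour firstBBox 105 7 4 2 1
    (boundRect firstB false .t1) = true := by decide +kernel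

theorem firstB_w0_f : checkFour firstBBox 160 11 9 3 2
    (boundBand firstB false .w0) = true := by decide +kernel

theorem firstB_w1_f : checkFour firstBBox 167 11 10 3 2
    (boundBand firstB false .w1) = true := by decide +kernel

theorem firstB_top_f : checkFour firstBBox 129 8 7 2 2
    (boundBand firstB false .top) = true := by decide +kernel

theorem firstB_pend_f : checkFour firstBBox 132 8 7 2 2
    (boundBand firstB false .pend) = true := by decide +kernel

theorem firstB_gap_tf : checkFour firstBBox 350 26 22 5 2
    (subst (gapSub firstB true true false) tplL) = true := by decide +kernel

theorem firstB_gap_tt : checkFour firstBBox 349 26 22 5 2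
    (subst (gapSub firstB true true true) tplL) = true := by decide +kernel

theorem firstB_l0_t : checkFour firstBBox 174 12 11 2 1
    (boundRect firstB true .l0) = true := by decide +kernel

theorem firstB_l1_t : checkFour firstBBox 174 12 11 2 1
    (boundRect firstB true .l1) = true := by decide +kernel

theorem firstB_r_t : checkFour firstBBox 171 12 11 2 1
    (boundRect firstB true .r) = true := by decide +kernel

theorem firstB_g0_t : checkFour firstBBox 75 4 3 1 1
    (boundRect firstB true .g0) = true := by decide +kernel

theorem firstB_g1_t : checkFour firstBBox 75 4 3 1 1
    (boundRect firstB true .g1) = true := by decide +kernel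

theorem firstB_t0_t : checkFour firstBBox 106 7 4 2 1
    (boundRect firstB true .t0) = true := by decide +kernel

theorem firstB_t1_t : checkFour firstBBox 105 7 4 2 1
    (boundRect firstB true .t1) = true := by decide +kernel

theorem firstB_w0_t : checkFour firstBBox 204 13 11 3 4
    (boundBand firstB true .w0) = true := by decide +kernel

theorem firstB_w1_t : checkFour firstBBox 211 13 12 3 4
    (boundBand firstB true .w1) = true := by decide +kernel

theorem firstB_top_t : checkFour firstBBox 173 10 9 2 4
    (boundBand firstB true .top) = true := by decide +kernel

theorem firstB_pend_t : checkFour firstBBox 176 10 9 2 4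
    (boundBand firstB true .pend) = true := by decide +kernel

end Vale.Agent.P100.Calib.StripMid
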