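import Vale.Agent.P100.Calib.SlabStripFirstPieces
import Vale.Agent.P100.Calib.SlabStripMidSigns

/-!
# The checks of the piece C of the first stretch of the strip: rows
-/

namespace Vale.Agent.P100.Calib.StripMid

open Pack

theorem firstC_X_ff : checkFour firstCBox 242 13 10 4 0
    (subst (sub firstC ⟨false, false, true, true, false⟩) condX) = true := by decide +kernel

theorem firstC_MG_ff : checkFour firstCBox 464 26 20 6 0
    (subst (sub firstC ⟨false, false, true, false, false⟩) tplMG) = true := by decide +kernel

theorem firstC_One_ff : checkFour firstCBox 320 17 14 4 0
    (subst (sub firstC ⟨false, false, false, false, false⟩) firstC.m1) = true := by decide +kernel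

theorem firstC_X_ft : checkFour firstCBox 240 13 10 4 0
    (subst (sub firstC ⟨false, true, true, true, false⟩) condX) = true := by decide +kernel

theorem firstC_MG_ft : checkFour firstCBox 460 26 20 6 0
    (subst (sub firstC ⟨false, true, true, false, false⟩) tplMG) = true := by decide +kernel

theorem firstC_One_ft : checkFour firstCBox 318 17 14 4 0
    (subst (sub firstC ⟨false, true, false, false, false⟩) firstC.m1) = true := by decide +kernel

theorem firstC_X_tf : checkFour firstCBox 242 13 10 4 0
    (subst (sub firstC ⟨true, false, true, true, false⟩) condX) = true := by decide +kernel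

theorem firstC_MG_tf : checkFour firstCBox 464 26 20 6 0
    (subst (sub firstC ⟨true, false, true, false, false⟩) tplMG) = true := by decide +kernel

theorem firstC_One_tf : checkFour firstCBox 320 17 14 4 0
    (subst (sub firstC ⟨true, false, false, false, false⟩) firstC.m1) = true := by decide +kernel

theorem firstC_X_tt : checkFour firstCBox 240 13 10 4 0
    (subst (sub firstC ⟨true, true, true, true, false⟩) condX) = true := by decide +kernel

theorem firstC_MG_tt : checkFour firstCBox 460 26 20 6 0
    (subst (sub firstC ⟨true, true, true, false, false⟩) tplMG) = true := by decide +kernel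

theorem firstC_One_tt : checkFour firstCBox 318 17 14 4 0
    (subst (sub firstC ⟨true, true, false, false, false⟩) firstC.m1) = true := by decide +kernel

theorem firstC_cMG : checkFour firstCBox 99 5 5 4 0
    (subst (sub firstC ⟨false, false, true, true, false⟩) (negEx coMG12)) = true := by decide +kernel

theorem firstC_c2_f : checkFour firstCBox 104 5 5 4 0
    (subst (sub firstC ⟨false, false, true, true, false⟩) (negEx (firstC.curve2 false))) = true := by decide +kernel

theorem firstC_c3_f : checkFour firstCBox 116 6 6 4 0
    (subst (sub firstC ⟨false, false, true, true, false⟩) (negEx (firstC.curve3 false))) = true := by decide +kernel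

theorem firstC_sT_f : checkFour firstCBox 130 7 6 4 0
    (subst (sub firstC ⟨false, false, true, true, false⟩) slopeT) = true := by decide +kernel

theorem firstC_c2_t : checkFour firstCBox 103 5 5 4 0
    (subst (sub firstC ⟨false, false, true, true, false⟩) (negEx (firstC.curve2 true))) = true := by decide +kernel

theorem firstC_c3_t : checkFour firstCBox 116 6 6 4 0
    (subst (sub firstC ⟨false, false, true, true, false⟩) (negEx (firstC.curve3 true))) = true := by decide +kernel

theorem firstC_sT_t : checkFour firstCBox 130 7 6 4 0
    (subst (sub firstC ⟨true, false, true, true, false⟩) slopeT) = true := by decide +kernel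

end Vale.Agent.P100.Calib.StripMid
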