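import Vale.Agent.P100.Calib.SlabStripFirstPieces
import Vale.Agent.P100.Calib.SlabStripMidSigns

/-!
# The checks of the piece C of the first stretch of the strip: twoii
-/

namespace Vale.Agent.P100.Calib.StripMid

open Pack

theorem firstC_Two_tff : checkFour firstCBox 492 24 19 6 0
    (subst (sub firstC ⟨false, true, true, false, false⟩) (strict (firstC.m2 true))) = true := by decide +kernel

theorem firstC_Two_tft : checkFour firstCBox 492 24 19 6 0
    (subst (sub firstC ⟨false, true, true, false, true⟩) (strict (firstC.m2 true))) = true := by decide +kernel

theorem firstC_Two_ttf : checkFour firstCBox 492 24 19 6 0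
    (subst (sub firstC ⟨true, true, true, false, false⟩) (strict (firstC.m2 true))) = true := by decide +kernel

theorem firstC_Two_ttt : checkFour firstCBox 492 24 19 6 0
    (subst (sub firstC ⟨true, true, true, false, true⟩) (strict (firstC.m2 true))) = true := by decide +kernel

end Vale.Agent.P100.Calib.StripMid
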