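import Vale.Agent.P100.Calib.SlabStripFirstPieces
import Vale.Agent.P100.Calib.SlabStripLLGExpr

/-!
# The checks of the piece C of the first stretch of the strip: window
-/

namespace Vale.Agent.P100.Calib.StripMid

open Pack

theorem firstC_gap_ff : checkFour firstCBox 375 22 17 5 2
    (subst (gapSub firstC true false false) tplL) = true := by decide +kernel

theorem firstC_gap_ft : checkFour firstCBox 375 22 17 5 2
    (subst (gapSub firstC true false true) tplL) = true := by decide +kernel

theorem firstC_l0_f : checkFour firstCBox 184 11 7 2 1
    (boundRect firstC false .l0) = true := by decide +kernel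

theorem firstC_l1_f : checkFour firstCBox 182 11 7 2 1
    (boundRect firstC false .l1) = true := by decide +kernel

theorem firstC_r_f : checkFour firstCBox 184 11 7 2 1
    (boundRect firstC false .r) = true := by decide +kernel

theorem firstC_g0_f : checkFour firstCBox 73 3 2 1 1
    (boundRect firstC false .g0) = true := by decide +kernel

theorem firstC_g1_f : checkFour firstCBox 73 3 2 1 1
    (boundRect firstC false .g1) = true := by decide +kernel

theorem firstC_t0_f : checkFour firstCBox 99 4 4 2 1
    (boundRect firstC false .t0) = true := by decide +kernel

theorem firstC_t1_f : checkFour firstCBox 99 4 4 2 1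
    (boundRect firstC false .t1) = true := by decide +kernel

theorem firstC_w0_f : checkFour firstCBox 162 9 6 3 2
    (boundBand firstC false .w0) = true := by decide +kernel

theorem firstC_w1_f : checkFour firstCBox 173 10 6 3 2
    (boundBand firstC false .w1) = true := by decide +kernel

theorem firstC_top_f : checkFour firstCBox 130 7 4 2 2
    (boundBand firstC false .top) = true := by decide +kernel

theorem firstC_pend_f : checkFour firstCBox 133 7 4 2 2
    (boundBand firstC false .pend) = true := by decide +kernel

theorem firstC_gap_tf : checkFour firstCBox 375 22 17 5 2
    (subst (gapSub firstC true true false) tplL) = true := by decide +kernel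

theorem firstC_gap_tt : checkFour firstCBox 375 22 17 5 2
    (subst (gapSub firstC true true true) tplL) = true := by decide +kernel

theorem firstC_l0_t : checkFour firstCBox 184 11 7 2 1
    (boundRect firstC true .l0) = true := by decide +kernel

theorem firstC_l1_t : checkFour firstCBox 182 11 7 2 1
    (boundRect firstC true .l1) = true := by decide +kernel

theorem firstC_r_t : checkFour firstCBox 184 11 7 2 1
    (boundRect firstC true .r) = true := by decide +kernel

theorem firstC_g0_t : checkFour firstCBox 73 3 2 1 1
    (boundRect firstC true .g0) = true := by decide +kernel

theorem firstC_g1_t : checkFour firstCBox 73 3 2 1 1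
    (boundRect firstC true .g1) = true := by decide +kernel

theorem firstC_t0_t : checkFour firstCBox 99 4 4 2 1
    (boundRect firstC true .t0) = true := by decide +kernel

theorem firstC_t1_t : checkFour firstCBox 99 4 4 2 1
    (boundRect firstC true .t1) = true := by decide +kernel

theorem firstC_w0_t : checkFour firstCBox 207 11 7 3 4
    (boundBand firstC true .w0) = true := by decide +kernel

theorem firstC_w1_t : checkFour firstCBox 218 12 7 3 4
    (boundBand firstC true .w1) = true := by decide +kernel

theorem firstC_top_t : checkFour firstCBox 174 9 5 2 4
    (boundBand firstC true .top) = true := by decide +kernel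

theorem firstC_pend_t : checkFour firstCBox 178 9 5 2 4
    (boundBand firstC true .pend) = true := by decide +kernel

end Vale.Agent.P100.Calib.StripMid
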