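import Vale.Agent.P100.Calib.SlabStripFirstPieces
import Vale.Agent.P100.Calib.SlabStripMidSigns

/-!
# The checks of the piece D of the first stretch of the strip: threeii
-/

namespace Vale.Agent.P100.Calib.StripMid

open Pack

theorem firstD_Three_ftff : checkFour firstDBox 627 31 25 6 0
    (subst (sub firstD ⟨true, false, true, true, false⟩) (strict (firstD.m3 false))) = true := by decide +kernel

theorem firstD_Three_fttf : checkFour firstDBox 625 31 25 6 0
    (subst (sub firstD ⟨true, true, true, true, false⟩) (strict (firstD.m3 false))) = true := by decide +kernel

theorem firstD_Three_ftft : checkFour firstDBox 631 31 25 6 0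
    (subst (sub firstD ⟨true, false, true, true, true⟩) (strict (firstD.m3 false))) = true := by decide +kernel

theorem firstD_Three_fttt : checkFour firstDBox 629 31 25 6 0
    (subst (sub firstD ⟨true, true, true, true, true⟩) (strict (firstD.m3 false))) = true := by decide +kernel

end Vale.Agent.P100.Calib.StripMid
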