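import Vale.Agent.P100.Calib.SlabStripFirstPieces
import Vale.Agent.P100.Calib.SlabStripLLGExpr

/-!
# The checks of the piece D of the first stretch of the strip: window
-/

namespace Vale.Agent.P100.Calib.StripMid

open Pack

theorem firstD_gap_ff : checkFour firstDBox 373 22 17 5 2
    (subst (gapSub firstD true false false) tplL) = true := by decide +kernel

theorem firstD_gap_ft : checkFour firstDBox 376 22 17 5 2
    (subst (gapSub firstD true false true) tplL) = true := by decide +kernel

theorem firstD_l0_f : checkFour firstDBox 184 11 7 2 1
    (boundRect firstD false .l0) = true := by decide +kernel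

theorem firstD_l1_f : checkFour firstDBox 183 11 7 2 1
    (boundRect firstD false .l1) = true := by decide +kernel

theorem firstD_r_f : checkFour firstDBox 184 11 7 2 1
    (boundRect firstD false .r) = true := by decide +kernel

theorem firstD_g0_f : checkFour firstDBox 73 3 2 1 1
    (boundRect firstD false .g0) = true := by decide +kernel

theorem firstD_g1_f : checkFour firstDBox 73 3 2 1 1
    (boundRect firstD false .g1) = true := by decide +kernel

theorem firstD_t0_f : checkFour firstDBox 96 4 4 2 1
    (boundRect firstD false .t0) = true := by decide +kernel

theorem firstD_t1_f : checkFour firstDBox 99 4 4 2 1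
    (boundRect firstD false .t1) = true := by decide +kernel

theorem firstD_w0_f : checkFour firstDBox 162 9 6 3 2
    (boundBand firstD false .w0) = true := by decide +kernel

theorem firstD_w1_f : checkFour firstDBox 173 10 6 3 2
    (boundBand firstD false .w1) = true := by decide +kernel

theorem firstD_top_f : checkFour firstDBox 130 7 4 2 2
    (boundBand firstD false .top) = true := by decide +kernel

theorem firstD_pend_f : checkFour firstDBox 133 7 4 2 2
    (boundBand firstD false .pend) = true := by decide +kernel

theorem firstD_gap_tf : checkFour firstDBox 373 22 17 5 2
    (subst (gapSub firstD true true false) tplL) = true := by decide +kernel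

theorem firstD_gap_tt : checkFour firstDBox 376 22 17 5 2
    (subst (gapSub firstD true true true) tplL) = true := by decide +kernel

theorem firstD_l0_t : checkFour firstDBox 184 11 7 2 1
    (boundRect firstD true .l0) = true := by decide +kernel

theorem firstD_l1_t : checkFour firstDBox 183 11 7 2 1
    (boundRect firstD true .l1) = true := by decide +kernel

theorem firstD_r_t : checkFour firstDBox 184 11 7 2 1
    (boundRect firstD true .r) = true := by decide +kernel

theorem firstD_g0_t : checkFour firstDBox 73 3 2 1 1
    (boundRect firstD true .g0) = true := by decide +kernel

theorem firstD_g1_t : checkFour firstDBox 73 3 2 1 1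
    (boundRect firstD true .g1) = true := by decide +kernel

theorem firstD_t0_t : checkFour firstDBox 96 4 4 2 1
    (boundRect firstD true .t0) = true := by decide +kernel

theorem firstD_t1_t : checkFour firstDBox 99 4 4 2 1
    (boundRect firstD true .t1) = true := by decide +kernel

theorem firstD_w0_t : checkFour firstDBox 207 11 7 3 4
    (boundBand firstD true .w0) = true := by decide +kernel

theorem firstD_w1_t : checkFour firstDBox 218 12 7 3 4
    (boundBand firstD true .w1) = true := by decide +kernel

theorem firstD_top_t : checkFour firstDBox 174 9 5 2 4
    (boundBand firstD true .top) = true := by decide +kernel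

theorem firstD_pend_t : checkFour firstDBox 178 9 5 2 4
    (boundBand firstD true .pend) = true := by decide +kernel

end Vale.Agent.P100.Calib.StripMid
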