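import Vale.Agent.P100.Calib.SlabStripMidBoundExpr

/-!
# The window of a piece on the first stretch of the strip: numerators

Here `x₂` places `v` and `x₃` is `u`. The slope `t = (H - hc)/u` runs between the sharp bands;
`tN` is `5 b (1 + 2 I) (b - u a) t` eightfold, at the band chosen by `up`.
-/

namespace Vale.Agent.P100.Calib.StripMid

open Pack Pack.Ex

local instance firstExprAdd : Add Ex := ⟨Ex.add⟩
local instance firstExprSub : Sub Ex := ⟨Ex.sub⟩
local instance firstExprMul : Mul Ex := ⟨Ex.mul⟩

/-- `1 + d v`. -/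
def rQ (K : Kind) : Ex := num 1 + kD K * kV K

/-- `2 + d v`. -/
def rP (K : Kind) : Ex := num 2 + kD K * kV K

/-- `2 C` times the denominator of the window. -/
def rC (P : Piece) (ze : Bool) : Ex :=
  num P.z.2 * kS P.kind * (num 2 - kA P.kind * kV P.kind) +
    cond ze (num (2 * P.z.1) * kI P.kind) (num 0)

/-- `2 D1` times the denominator of the window. -/
def rD (P : Piece) (ze : Bool) : Ex :=
  num P.z.2 * (kB P.kind * rP P.kind - num 2 * kS P.kind * var 3 * rQ P.kind) +
    var 3 * kD P.kind * rC P ze

/-- `2 u C (2 + d v)` times the denominator of the window. -/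
def rN (P : Piece) (ze : Bool) : Ex := var 3 * rC P ze * rP P.kind

/-- The numerator of `- g E`. -/
def rL (P : Piece) (ze : Bool) : Ex :=
  rD P ze * (kBb P.kind * kV P.kind * kDk P.kind + uAK P.kind) - uKn P.kind * rN P ze

/-- `D1 - d u C (2 + d v)`. -/
def rR (P : Piece) (ze : Bool) : Ex := rD P ze - kD P.kind * rN P ze

/-- The seven bounds that are affine in the Flow without a pole at `u = 0`. -/
inductive Bd7 where
  | l0 | l1 | r | g0 | g1 | t0 | t1

/-- A bound in the rectangle, as a nonnegative numerator. -/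
def boundRect (P : Piece) (ze : Bool) : Bd7 → Ex
  | .l0 => num (2 * P.l₀.2) * rL P ze -
      num (P.l₀.1 * P.z.2) * kB P.kind * rP P.kind * uAK P.kind
  | .l1 => num (P.l₁.1 * P.z.2) * kB P.kind * rP P.kind * uAK P.kind -
      num (2 * P.l₁.2) * rL P ze
  | .r => num P.r.2 * rR P ze * uAK P.kind - num P.r.1 * rL P ze
  | .g0 => num (2 * P.g₀.2) * rD P ze - num (P.g₀.1 * P.z.2) * kB P.kind * rP P.kind
  | .g1 => num (P.g₁.1 * P.z.2) * kB P.kind * rP P.kind - num (2 * P.g₁.2) * rD P ze
  | .t0 => num P.t₀.2.2 * rR P ze -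
      (num P.t₀.1 + num P.t₀.2.1 * kD P.kind) * rQ P.kind * rD P ze
  | .t1 => (num P.t₁.1 + num P.t₁.2.1 * kD P.kind) * rQ P.kind * rD P ze -
      num P.t₁.2.2 * rR P ze

/-- Eight times the part of the slope of the bands they share. -/
def tBase (K : Kind) : Ex :=
  num 20 * kA K + num 80 * kI K - num 160 * kI K * kA K -
    num 10 * kA K * (num 2 - kA K) * kV K

/-- Eightfold, the numerator of the slope. -/
def tN (K : Kind) (up : Bool) : Ex :=
  let I := kI K
  let A := kA K
  (num 1 + num 2 * I) *
      cond up (tBase K + num 4 * I * A + num 16 * I * A * A + num 100 * I * I * A * A * A -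
          num 256 * (num 2 - num 3 * A) * I * I)
        (tBase K - num 160 * (num 1 - A) * I * I - num 4 * I * A) +
    cond up (num 8 * var 3 * I * (A + num 3 * I) *
        (num 16 - num 6 * A + var 3 * ((num 54 - num 25 * A) * (num 1 - num 4 * I)))) (num 0)

/-- The denominator of the slope, eightfold. -/
def tE (K : Kind) : Ex :=
  num 10 * kB K * (num 1 + num 2 * kI K) * (kB K - var 3 * kA K)

/-- `H` times that denominator. -/
def tH (K : Kind) (up : Bool) : Ex :=
  num 10 * kS K * (num 2 + (num 2 - kA K) * kV K) * (kB K - var 3 * kA K) + var 3 * tN K up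

/-- `2 + d v - u d H` times that denominator. -/
def tDen (K : Kind) (up : Bool) : Ex := rP K * tE K - var 3 * kD K * tH K up

/-- Twice `b (2 + d v) - S u (1 + d v)`. -/
def tQ (K : Kind) : Ex := kB K * rP K - num 2 * kS K * var 3 * rQ K

/-- The numerator of `g W1`, scaled. -/
def tW (K : Kind) (up : Bool) : Ex :=
  tQ K * (kS K * tH K up * (kA K - (num 2 - kA K) * kD K * kV K) -
    (num 1 + num 2 * kI K) * kB K * tN K up)

/-- `(2 b)² S² I (2 + d v - u d H)`, scaled. -/
def tWd (K : Kind) (up : Bool) : Ex :=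
  kI K * pow (kB K) 2 * pow (kS K) 2 * tDen K up

/-- The four bounds in the slope: those of `g W1` and the two upper ends of the Flow. -/
inductive Bd3 where
  | w0 | w1 | top | pend

/-- A bound at a band, as a nonnegative numerator. -/
def boundBand (P : Piece) (up : Bool) : Bd3 → Ex
  | .w0 => num 4 * tW P.kind up + num P.w₀ * tWd P.kind up
  | .w1 => (num P.w.1 + num P.w.2.1 * kI P.kind - num P.w.2.2.1 * kD P.kind) * tWd P.kind up -
      num (4 * P.w.2.2.2) * tW P.kind up
  | .top => (num P.z.2 * kS P.kind * (num 2 - kA P.kind * kV P.kind) +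
      num (2 * P.z.1) * kI P.kind) * tDen P.kind up - num P.z.2 * tQ P.kind * tH P.kind up
  | .pend => (num (9 * P.z.2) * (num 2 - kA P.kind * kV P.kind) +
      num (2 * P.z.1) * kI P.kind * (num 9 + num 20 * kI P.kind)) * kS P.kind * tDen P.kind up -
      num (9 * P.z.2) * tQ P.kind * tH P.kind up

end Vale.Agent.P100.Calib.StripMid
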