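import Vale.Agent.P100.Calib.SlabStripFirstExpr

/-!
# The pieces of the first stretch of the strip
-/

namespace Vale.Agent.P100.Calib.StripMid

/-- The piece `d ≤ I ≤ 1/7`. -/
def firstA : Piece :=
  ⟨.A, (0, 1), (1, 10), (41, 50), (0, 1), (1, 1),
    (899, 500), (1007, 500), (99, 100), (249, -150, 250), (1006, -125, 1000), 90,
    (-59, 2000, 1600, 10), (899, 500), (1001, 500), (9, 20), (3, 4), (4, 5)⟩

/-- Its box: `x₂` places `v`, `x₃` is `u`. -/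
def firstABox : ℕ → Pack.Chart
  | 0 => ⟨0, 1, 7, 7⟩
  | 1 => ⟨0, 1, 1, 1⟩
  | 2 => ⟨-1, 4, 10, 10⟩
  | _ => ⟨0, 101, 1000, 1000⟩

/-- The piece `d ≤ 3/25`, `I ≤ 6 d/5`. -/
def firstB : Piece :=
  ⟨.B, (0, 1), (1, 10), (41, 50), (0, 1), (1, 1),
    (899, 500), (1007, 500), (99, 100), (998, -575, 1000), (501, 0, 500), 56,
    (-66, 600, 200, 10), (899, 500), (1001, 500), (9, 20), (3, 4), (5, 2)⟩

/-- Its box: `x₂` places `v`, `x₃` is `u`. -/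
def firstBBox : ℕ → Pack.Chart
  | 0 => ⟨0, 12, 100, 100⟩
  | 1 => ⟨0, 6, 5, 5⟩
  | 2 => ⟨-1, 4, 10, 10⟩
  | _ => ⟨0, 101, 1000, 1000⟩

/-- The piece `3/25 ≤ d ≤ 11/50`, `I ≤ 13/100`. -/
def firstC : Piece :=
  ⟨.D, (0, 1), (1, 10), (41, 50), (0, 1), (1, 1),
    (899, 500), (252, 125), (989, 1000), (493, -225, 500), (501, 0, 500), 53,
    (-58, 200, 200, 10), (919, 500), (1001, 500), (9, 20), (1, 1), (3, 1)⟩

/-- Its box: `x₂` places `v`, `x₃` is `u`. -/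
def firstCBox : ℕ → Pack.Chart
  | 0 => ⟨0, 13, 100, 100⟩
  | 1 => ⟨12, 22, 100, 100⟩
  | 2 => ⟨-1, 4, 10, 10⟩
  | _ => ⟨0, 101, 1000, 1000⟩

/-- The piece `11/50 ≤ d ≤ 19/50`, `I ≤ 2/25`. -/
def firstD : Piece :=
  ⟨.D, (0, 1), (1, 10), (41, 50), (0, 1), (1, 1),
    (899, 500), (503, 250), (991, 1000), (49, -15, 50), (501, 0, 500), 33,
    (-45, -400, 200, 10), (933, 500), (1001, 500), (41, 100), (11, 5), (13, 5)⟩

/-- Its box: `x₂` places `v`, `x₃` is `u`. -/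
def firstDBox : ℕ → Pack.Chart
  | 0 => ⟨0, 8, 100, 100⟩
  | 1 => ⟨22, 38, 100, 100⟩
  | 2 => ⟨-1, 4, 10, 10⟩
  | _ => ⟨0, 101, 1000, 1000⟩

end Vale.Agent.P100.Calib.StripMid
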