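import Vale.Agent.P100.Calib.SlabAllUpExpr

/-!
# The numerators of the sharp bands of the first stretch of the strip

`allLowG` and `allUpG` with smaller coefficients of the terms of second order in `I`.
-/

namespace Vale.Agent.P100.Calib.Band.AllLow

open Pack

local instance tightAdd : Add Pack.Ex := ⟨Ex.add⟩
local instance tightSub : Sub Pack.Ex := ⟨Ex.sub⟩
local instance tightMul : Mul Pack.Ex := ⟨Ex.mul⟩

/-- The correction of the lower slope. -/
def eTightLow (I a : Pack.Ex) : Pack.Ex := eN 90 * (eN 1 - eN 2 * a) * I * I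

/-- The correction of the upper slope. -/
def eTightUp (I a : Pack.Ex) : Pack.Ex := eN (-1900) * I * I * a * a * a

/-- `Gn` of the lower band. -/
def eTightLowN (I a : Pack.Ex) : Pack.Ex := eGn I a + eU * eJ I * eTightLow I a

/-- Its derivative in `u`. -/
def eTightLowU (I a : Pack.Ex) : Pack.Ex := eGu I a + eJ I * eTightLow I a

/-- `Gn` of the upper band. -/
def eTightUpN (I a : Pack.Ex) : Pack.Ex := eUpN I a + eU * eJ I * eTightUp I a

/-- Its derivative in `u`. -/
def eTightUpU (I a : Pack.Ex) : Pack.Ex := eUpNu I a + eJ I * eTightUp I a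

/-- The flow on the lower band, less a monomial. -/
def eTightLowI : Pack.Ex :=
  eN 16 * eBandNum (eTightLowN (.var 2) (.var 3)) (eTightLowU (.var 2) (.var 3))
    (eGv (.var 2) (.var 3)) (.var 2) (.var 3) - eU * .var 2 * .var 3

/-- The flow on the upper band, less a monomial. -/
def eTightUpI : Pack.Ex :=
  eN (-16) * eBandNum (eTightUpN (.var 2) (.var 3)) (eTightUpU (.var 2) (.var 3))
    (eGv (.var 2) (.var 3)) (.var 2) (.var 3) - eU * .var 2 * .var 3

/-- The denominator on the lower band, less a constant. -/
def eTightLowDenI : Pack.Ex :=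
  eN 4 * eBandDen (eTightLowN (.var 2) (.var 3)) (.var 2) (.var 3) - eN 1

/-- The denominator on the upper band, less a constant. -/
def eTightUpDenI : Pack.Ex :=
  eN 4 * eBandDen (eTightUpN (.var 2) (.var 3)) (.var 2) (.var 3) - eN 1

end Vale.Agent.P100.Calib.Band.AllLow
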