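import Vale.Agent.P100.Calib.SlabStripStartBand
import Vale.Agent.P100.Calib.SlabStripTightExpr

/-!
# The sharp bands of the first stretch of the strip

For real `N ≥ 7` and `31/100 < a` the bands `tightLowG` and `tightUpG` hold on `0 < u ≤ 1/10`
wherever `v ≤ 3 I` there, `I = allStabI a b`.
-/

set_option linter.unusedVariables false

open Set Filter Topology

namespace Vale.Agent.P100.Calib.Band

open Vale.Agent.P100.Bubble Chart Pack

/-- The numerator of the lower band. -/
def tightLowN (a I b u v : ℝ) : ℝ :=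
  allLowN a I b u v + u * ((1 + 2 * I) * (90 * (1 - 2 * a) * I * I))

/-- Its derivative in `u`. -/
def tightLowNu (a I v : ℝ) : ℝ := allLowNu a I v + (1 + 2 * I) * (90 * (1 - 2 * a) * I * I)

/-- The numerator of the upper band. -/
def tightUpN (a I b u v : ℝ) : ℝ :=
  allUpN a I b u v + u * ((1 + 2 * I) * (-1900 * I * I * a * a * a))

/-- Its derivative in `u`. -/
def tightUpNu (a I u v : ℝ) : ℝ := allUpNu a I u v + (1 + 2 * I) * (-1900 * I * I * a * a * a)

/-- **The band.** -/
noncomputable def tightLowG (a b u v : ℝ) : ℝ :=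
  tightLowN a ((1 - (a + b)) / 2) b u v / (5 * (b * (2 - (a + b))) * allPole a b u)

/-- Its derivative in `u`. -/
noncomputable def tightLowGu (a b u v : ℝ) : ℝ :=
  (tightLowNu a ((1 - (a + b)) / 2) v * allPole a b u -
      tightLowN a ((1 - (a + b)) / 2) b u v * allPole' a b u) /
    (5 * (b * (2 - (a + b))) * allPole a b u ^ 2)

theorem hasGradTwo_tightLow {a b : ℝ} (ha : 0 < a) (hd : 0 < b - a) (hS : a + b < 2) :
    HasGradTwo (tightLowG a b) (tightLowGu a b) (fun u _ => allLowGv a b u) := by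
  intro u v du dv t hu hv
  have hp := allPole_pos (u := u t) ha hd
  have hb : 0 < b := by linarith
  have h2 : 0 < 2 - (a + b) := by linarith
  obtain ⟨K, hK⟩ : ∃ K, K = (1 + 2 * ((1 - (a + b)) / 2)) *
      (90 * (1 - 2 * a) * ((1 - (a + b)) / 2) * ((1 - (a + b)) / 2)) := ⟨_, rfl⟩
  have h0 := hasGradTwo_allLow ha hd hS u v du dv t hu hv
  have h1 := ((hu.mul_const K).fun_div (((hasDerivAt_allPole a b (u t)).comp t hu).const_mul
    (5 * (b * (2 - (a + b))))) (by simp only [Function.comp_apply]; positivity))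
  refine ((h0.fun_add h1).congr_of_eventuallyEq (Filter.Eventually.of_forall fun s => ?_)).congr_deriv ?_
  · simp only [tightLowG, tightLowN, allLowG, hK, Function.comp_apply]
    ring
  · simp only [tightLowGu, tightLowNu, tightLowN, allLowGu, hK, Function.comp_apply]
    field_simp
    ring

theorem continuous_tightLow {a b : ℝ} (ha : 0 < a) (hd : 0 < b - a) (hS : a + b < 2) :
    Continuous (fun w : ℝ × ℝ => tightLowG a b w.1 w.2) ∧
      Continuous (fun w : ℝ × ℝ => tightLowGu a b w.1 w.2) ∧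
      Continuous (fun w : ℝ × ℝ => allLowGv a b w.1) := by
  have hb : 0 < b := by linarith
  have hk : 0 < 5 * (b * (2 - (a + b))) := by nlinarith
  have cp : Continuous fun w : ℝ × ℝ => allPole a b w.1 := by unfold allPole; fun_prop
  have cp' : Continuous fun w : ℝ × ℝ => allPole' a b w.1 := by unfold allPole'; fun_prop
  have hp : ∀ w : ℝ × ℝ, allPole a b w.1 ≠ 0 := fun w => (allPole_pos ha hd).ne'
  refine ⟨?_, ?_, (continuous_allLow ha hd hS).2.2⟩
  · refine Continuous.div (by unfold tightLowN allLowN allLowP; fun_prop) (continuous_const.mul cp)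
      fun w => mul_ne_zero hk.ne' (hp w)
  · refine Continuous.div ?_ (continuous_const.mul (cp.pow 2))
      fun w => mul_ne_zero hk.ne' (pow_ne_zero 2 (hp w))
    exact ((by unfold tightLowNu allLowNu allLowP; fun_prop : Continuous fun w : ℝ × ℝ =>
        tightLowNu a ((1 - (a + b)) / 2) w.2).mul cp).sub
      ((by unfold tightLowN allLowN allLowP; fun_prop : Continuous fun w : ℝ × ℝ =>
        tightLowN a ((1 - (a + b)) / 2) b w.1 w.2).mul cp')

/-- **The band.** -/
noncomputable def tightUpG (a b u v : ℝ) : ℝ :=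
  tightUpN a ((1 - (a + b)) / 2) b u v / (5 * (b * (2 - (a + b))) * allPole a b u)

/-- Its derivative in `u`. -/
noncomputable def tightUpGu (a b u v : ℝ) : ℝ :=
  (tightUpNu a ((1 - (a + b)) / 2) u v * allPole a b u -
      tightUpN a ((1 - (a + b)) / 2) b u v * allPole' a b u) /
    (5 * (b * (2 - (a + b))) * allPole a b u ^ 2)

theorem hasGradTwo_tightUp {a b : ℝ} (ha : 0 < a) (hd : 0 < b - a) (hS : a + b < 2) :
    HasGradTwo (tightUpG a b) (tightUpGu a b) (fun u _ => allLowGv a b u) := by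
  intro u v du dv t hu hv
  have hp := allPole_pos (u := u t) ha hd
  have hb : 0 < b := by linarith
  have h2 : 0 < 2 - (a + b) := by linarith
  obtain ⟨K, hK⟩ : ∃ K, K = (1 + 2 * ((1 - (a + b)) / 2)) *
      (-1900 * ((1 - (a + b)) / 2) * ((1 - (a + b)) / 2) * a * a * a) := ⟨_, rfl⟩
  have h0 := hasGradTwo_allUp ha hd hS u v du dv t hu hv
  have h1 := ((hu.mul_const K).fun_div (((hasDerivAt_allPole a b (u t)).comp t hu).const_mul
    (5 * (b * (2 - (a + b))))) (by simp only [Function.comp_apply]; positivity))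
  refine ((h0.fun_add h1).congr_of_eventuallyEq (Filter.Eventually.of_forall fun s => ?_)).congr_deriv ?_
  · simp only [tightUpG, tightUpN, allUpG, hK, Function.comp_apply]
    ring
  · simp only [tightUpGu, tightUpNu, tightUpN, allUpGu, hK, Function.comp_apply]
    field_simp
    ring

theorem continuous_tightUp {a b : ℝ} (ha : 0 < a) (hd : 0 < b - a) (hS : a + b < 2) :
    Continuous (fun w : ℝ × ℝ => tightUpG a b w.1 w.2) ∧
      Continuous (fun w : ℝ × ℝ => tightUpGu a b w.1 w.2)
       := by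
  have hb : 0 < b := by linarith
  have hk : 0 < 5 * (b * (2 - (a + b))) := by nlinarith
  have cp : Continuous fun w : ℝ × ℝ => allPole a b w.1 := by unfold allPole; fun_prop
  have cp' : Continuous fun w : ℝ × ℝ => allPole' a b w.1 := by unfold allPole'; fun_prop
  have hp : ∀ w : ℝ × ℝ, allPole a b w.1 ≠ 0 := fun w => (allPole_pos ha hd).ne'
  refine ⟨?_, ?_⟩
  · refine Continuous.div (by unfold tightUpN allUpN allUpP; fun_prop) (continuous_const.mul cp)
      fun w => mul_ne_zero hk.ne' (hp w)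
  · refine Continuous.div ?_ (continuous_const.mul (cp.pow 2))
      fun w => mul_ne_zero hk.ne' (pow_ne_zero 2 (hp w))
    exact ((by unfold tightUpNu allUpNu allUpP; fun_prop : Continuous fun w : ℝ × ℝ =>
        tightUpNu a ((1 - (a + b)) / 2) w.1 w.2).mul cp).sub
      ((by unfold tightUpN allUpN allUpP; fun_prop : Continuous fun w : ℝ × ℝ =>
        tightUpN a ((1 - (a + b)) / 2) b w.1 w.2).mul cp')

namespace AllLow

local instance stripTightAdd : Add Pack.Ex := ⟨Ex.add⟩
local instance stripTightSub : Sub Pack.Ex := ⟨Ex.sub⟩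
local instance stripTightMul : Mul Pack.Ex := ⟨Ex.mul⟩

/-- The values on the band. -/
theorem eval_tight_low {a b I u X : ℝ} {x : ℕ → ℝ} (tI tA : Pack.Ex)
    (hI : tI.eval x = I) (ha : tA.eval x = a) (hu : x 0 = u) (hX : x 1 = X)
    (hb : b = 1 - 2 * I - a) (hu1 : u ≤ 1) (ha0 : 0 < a) (hd : 0 < b - a) (hI0 : 0 ≤ I) :
    let G := tightLowG a b u (2 * I * X)
    let Gd := 5 * (b * (1 + 2 * I)) * (b - u * a)
    0 < Gd ∧ allDen a b u (2 * I * X) G * Gd = (eBandDen (eTightLowN tI tA) tI tA).eval x ∧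
      allDot a b u (2 * I * X) G (-tightLowGu a b u (2 * I * X)) (-allLowGv a b u) 1 * Gd ^ 3 =
        (eBandNum (eTightLowN tI tA) (eTightLowU tI tA) (eGv tI tA) tI tA).eval x := by
  intro G Gd
  obtain ⟨hp, hp'⟩ := allPole_eq (a := a) (b := b) hu1
  have hb0 : 0 < b := by linarith
  have hw : 0 < b - u * a := by linarith [mul_le_mul_of_nonneg_right hu1 ha0.le]
  have eS2 : 2 - (a + b) = 1 + 2 * I := by rw [hb]; ring
  have eI' : (1 - (a + b)) / 2 = I := by rw [hb]; ring
  have eG : G = tightLowN a I b u (2 * I * X) / Gd := by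
    simp only [G, Gd, tightLowG, hp, eS2, eI']
  have eu : -tightLowGu a b u (2 * I * X) =
      -((tightLowNu a I (2 * I * X) * Gd -
        tightLowN a I b u (2 * I * X) * ((-5) * (b * (1 + 2 * I)) * a)) / Gd ^ 2) := by
    simp only [Gd, tightLowGu, hp, hp', eS2, eI']
    field_simp
  have ev : -allLowGv a b u = -(allLowNv a I b u / Gd) := by
    simp only [Gd, allLowGv, hp, eS2, eI']
  have hn : (eTightLowN tI tA).eval x = tightLowN a I b u (2 * I * X) := by
    simp only [eTightLowN, eTightLow, eGn, eP, AllLow.eS, AllLow.eQ, eW, eB, eJ, eU, eV,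
      tightLowN, allLowN, allLowP, eval_add', eval_sub', eval_num', Ex.eval, hI, ha, hu, hX, hb]
    push_cast; ring
  have hnu : (eTightLowU tI tA).eval x = tightLowNu a I (2 * I * X) := by
    simp only [eTightLowU, eTightLow, eGu, eP, AllLow.eS, AllLow.eQ, eJ, eV,
      tightLowNu, allLowNu, allLowP, eval_add', eval_sub', eval_num', Ex.eval, hI, ha, hX]
    push_cast; ring
  have hnv : (eGv tI tA).eval x = allLowNv a I b u := by
    simp only [eGv, AllLow.eS, eW, eB, eJ, eU, allLowNv, eval_sub',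
      eval_num', Ex.eval, hI, ha, hu, hb]
    push_cast; ring
  obtain ⟨hG, k1, k2⟩ := eval_bandAll _ _ _ tI tA hI ha hn hnu hnv hu hX hb hu1 ha0 hd hI0
  exact ⟨hG, by rw [eG]; exact k1, by rw [eG, eu, ev]; exact k2⟩

/-- The values on the band. -/
theorem eval_tight_up {a b I u X : ℝ} {x : ℕ → ℝ} (tI tA : Pack.Ex)
    (hI : tI.eval x = I) (ha : tA.eval x = a) (hu : x 0 = u) (hX : x 1 = X)
    (hb : b = 1 - 2 * I - a) (hu1 : u ≤ 1) (ha0 : 0 < a) (hd : 0 < b - a) (hI0 : 0 ≤ I) :
    let G := tightUpG a b u (2 * I * X)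
    let Gd := 5 * (b * (1 + 2 * I)) * (b - u * a)
    0 < Gd ∧ allDen a b u (2 * I * X) G * Gd = (eBandDen (eTightUpN tI tA) tI tA).eval x ∧
      allDot a b u (2 * I * X) G (-tightUpGu a b u (2 * I * X)) (-allLowGv a b u) 1 * Gd ^ 3 =
        (eBandNum (eTightUpN tI tA) (eTightUpU tI tA) (eGv tI tA) tI tA).eval x := by
  intro G Gd
  obtain ⟨hp, hp'⟩ := allPole_eq (a := a) (b := b) hu1
  have hb0 : 0 < b := by linarith
  have hw : 0 < b - u * a := by linarith [mul_le_mul_of_nonneg_right hu1 ha0.le]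
  have eS2 : 2 - (a + b) = 1 + 2 * I := by rw [hb]; ring
  have eI' : (1 - (a + b)) / 2 = I := by rw [hb]; ring
  have eG : G = tightUpN a I b u (2 * I * X) / Gd := by
    simp only [G, Gd, tightUpG, hp, eS2, eI']
  have eu : -tightUpGu a b u (2 * I * X) =
      -((tightUpNu a I u (2 * I * X) * Gd -
        tightUpN a I b u (2 * I * X) * ((-5) * (b * (1 + 2 * I)) * a)) / Gd ^ 2) := by
    simp only [Gd, tightUpGu, hp, hp', eS2, eI']
    field_simp
  have ev : -allLowGv a b u = -(allLowNv a I b u / Gd) := by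
    simp only [Gd, allLowGv, hp, eS2, eI']
  have hn : (eTightUpN tI tA).eval x = tightUpN a I b u (2 * I * X) := by
    simp only [eTightUpN, eTightUp, eUpN, eUpP, eUpC, eUpK, AllLow.eS, AllLow.eQ, eW, eB, eJ, eU, eV,
      tightUpN, allUpN, allUpP, eval_add', eval_sub', eval_num', Ex.eval, hI, ha, hu, hX, hb]
    push_cast; ring
  have hnu : (eTightUpU tI tA).eval x = tightUpNu a I u (2 * I * X) := by
    simp only [eTightUpU, eTightUp, eUpNu, eUpP, eUpC, eUpK, AllLow.eS, AllLow.eQ, eJ, eU, eV,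
      tightUpNu, allUpNu, allUpP, eval_add', eval_sub', eval_num', Ex.eval, hI, ha, hu, hX]
    push_cast; ring
  have hnv : (eGv tI tA).eval x = allLowNv a I b u := by
    simp only [eGv, AllLow.eS, eW, eB, eJ, eU, allLowNv, eval_sub',
      eval_num', Ex.eval, hI, ha, hu, hb]
    push_cast; ring
  obtain ⟨hG, k1, k2⟩ := eval_bandAll _ _ _ tI tA hI ha hn hnu hnv hu hX hb hu1 ha0 hd hI0
  exact ⟨hG, by rw [eG]; exact k1, by rw [eG, eu, ev]; exact k2⟩

/-- `u ∈ [0, 11/100)`, `X ∈ [87/100, 151/100)`, `I ∈ [0, 15/100)`, `a ∈ [31/100, 51/100)`. -/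
def tightBox : ℕ → Chart
  | 0 => ⟨0, 11, 100, 100⟩
  | 1 => ⟨87, 151, 100, 100⟩
  | 2 => ⟨0, 15, 100, 100⟩
  | _ => ⟨31, 51, 100, 100⟩

theorem tight_flow : checkFour tightBox 259 5 3 14 9 eTightLowI = true := by decide +kernel

theorem tight_den : checkFour tightBox 94 2 1 5 3 eTightLowDenI = true := by decide +kernel

theorem tight_up : checkFour tightBox 305 9 3 14 11 eTightUpI = true := by decide +kernel

theorem tight_up_den : checkFour tightBox 117 4 1 5 4 eTightUpDenI = true := by decide +kernel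

/-- The signs on both bands. -/
theorem tight_signs {N a b u v : ℝ} (hb : SlabBoxAll N a b) (h7 : 7 ≤ N) (ha : 31 / 100 < a)
    (hu : 0 < u) (hu1 : u ≤ 1 / 10) (hv : VRange N a b v) (hE : v ≤ 3 * allStabI a b) :
    (0 < allDen a b u v (tightLowG a b u v) ∧
        0 < allDot a b u v (tightLowG a b u v) (-tightLowGu a b u v) (-allLowGv a b u) 1) ∧
      (0 < allDen a b u v (tightUpG a b u v) ∧
        allDot a b u v (tightUpG a b u v) (-tightUpGu a b u v) (-allLowGv a b u) 1 < 0) := by
  obtain ⟨ha0, hb0, hd, -, -, -, ha2⟩ := hb.facts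
  have hN : 0 < N := by linarith
  obtain ⟨I, hI⟩ : ∃ I, I = allStabI a b := ⟨_, rfl⟩
  rw [← hI] at hE
  have hbI : b = 1 - 2 * I - a := by rw [hI, allStabI]; ring
  have hIN : N * I = 1 := by
    have e := hb.sum
    rw [hbI] at e
    linarith
  have hI0 : 0 < I := pos_of_mul_pos_right (hIN ▸ one_pos) hN.le
  have hI7 : I ≤ 1 / 7 := by
    refine le_of_mul_le_mul_left (a := N) ?_ hN
    linarith
  obtain ⟨X, rfl⟩ : ∃ X, v = 2 * I * X :=
    ⟨v / (2 * I), (mul_div_cancel₀ v (mul_pos two_pos hI0).ne').symm⟩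
  have hX1 : 1 < (1 + 2 * a * I) * X := by
    have e : (N + 2 * a) * (2 * I * X) = 2 * ((1 + 2 * a * I) * X) := by
      linear_combination 2 * X * hIN
    linarith [hv.low]
  have hX0 : 0 < X := pos_of_mul_pos_right (one_pos.trans hX1) (by positivity)
  have hXlo : 87 / 100 ≤ X := by
    have h1 : 2 * a * I ≤ 1 / 7 := by
      have := mul_le_mul ha2.le hI7 hI0.le (by norm_num)
      linarith
    have := mul_le_mul_of_nonneg_right h1 hX0.le
    linarith
  have hXhi : X ≤ 3 / 2 := le_of_mul_le_mul_left (a := 2 * I) (by linarith) (by positivity)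
  set x : ℕ → ℝ := fun i => if i = 0 then u else if i = 1 then X else if i = 2 then I else a
    with hx
  have hp : ∀ i < 4, ∃ t : ℝ, 0 ≤ t ∧
      0 < ((tightBox i).c : ℝ) + (tightBox i).d * t ∧
      ((tightBox i).a : ℝ) + (tightBox i).b * t =
        x i * (((tightBox i).c : ℝ) + (tightBox i).d * t) := by
    intro i hi
    interval_cases i <;> refine side_point (by norm_num) ?_ ?_ <;>
      simp [hx, tightBox] <;> linarith
  constructor
  · have h1 := nonneg_of_checkFour tight_flow hp
    have h2 := nonneg_of_checkFour tight_den hp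
    obtain ⟨hG, k1, k2⟩ := eval_tight_low (b := b) (u := u) (X := X) (.var 2) (.var 3)
      (x := x) (by simp [hx, Ex.eval]) (by simp [hx, Ex.eval]) (by simp [hx])
      (by simp [hx]) hbI (by linarith) ha0 hd hI0.le
    simp only [eTightLowI, eTightLowDenI, eU, eval_sub', eval_num', Ex.eval] at h1 h2
    push_cast at h1 h2
    simp [hx] at h1
    have hm : 0 < u * I * a := by positivity
    exact ⟨pos_of_mul_pos_left (by rw [k1]; linarith) hG.le,
      pos_of_mul_pos_left (by rw [k2]; linarith) (pow_pos hG 3).le⟩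
  · have h1 := nonneg_of_checkFour tight_up hp
    have h2 := nonneg_of_checkFour tight_up_den hp
    obtain ⟨hG, k1, k2⟩ := eval_tight_up (b := b) (u := u) (X := X) (.var 2) (.var 3)
      (x := x) (by simp [hx, Ex.eval]) (by simp [hx, Ex.eval]) (by simp [hx])
      (by simp [hx]) hbI (by linarith) ha0 hd hI0.le
    simp only [eTightUpI, eTightUpDenI, eU, eval_sub', eval_num', Ex.eval] at h1 h2
    push_cast at h1 h2
    simp [hx] at h1
    have hm : 0 < u * I * a := by positivity
    exact ⟨pos_of_mul_pos_left (by rw [k1]; linarith) hG.le,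
      neg_of_mul_neg_left (by rw [k2]; linarith) (pow_pos hG 3).le⟩

end AllLow

variable {N p q : ℝ} {S : Set ℝ} {R x y s dx dy : ℝ → ℝ}

/-- **The bands of the first stretch of the strip** for real `N ≥ 7` and `31/100 < 1/(p+1)`. -/
theorem orbit_strip_tight (hf : IsOrbitFns N p q S R x y s dx dy)
    (hb : SlabBoxAll N (1 / (p + 1)) (1 / (q + 1))) (h7 : 7 ≤ N) (ha : 31 / 100 < 1 / (p + 1))
    (hv : ∀ z ∈ S, 0 < R z → uOf N (R z) (x z) ≤ 1 / 10 →
      vOf (1 / (p + 1)) (1 / (q + 1)) (y z / x z) ≤ 3 * allStabI (1 / (p + 1)) (1 / (q + 1)))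
    {w : ℝ} (hw : w ∈ S) (hw0 : 0 < R w) (hwu : uOf N (R w) (x w) ≤ 1 / 10) :
    let al := 1 / (p + 1)
    let be := 1 / (q + 1)
    let u := uOf N (R w) (x w)
    let v := vOf al be (y w / x w)
    let H := hOf N (R w) (x w) (y w) w / (be - al)
    tightLowG al be u v < H ∧ H < tightUpG al be u v := by
  intro al be u v H
  obtain ⟨ha0, hb0, hd, -⟩ := hb.facts
  have hS : al + be < 2 := by simp only [al, be]; linarith [hb.S_lt]
  obtain ⟨c1, c2, c3⟩ := continuous_tightLow ha0 hd hS
  obtain ⟨d1, d2⟩ := continuous_tightUp ha0 hd hS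
  have hpole : allPole al be 0 = be - 0 * al := (allPole_eq zero_le_one).1
  have h2 : (2 : ℝ) - (al + be) ≠ 0 := by linarith
  have hbe : be ≠ 0 := hb0.ne'
  constructor
  · have key := band_step_all hf hb (u₁ := 1 / 10) (one_mul 1) (hasGradTwo_tightLow ha0 hd hS)
      c1 c2 c3 (fun _ v => v ≤ 3 * allStabI al be) hv (fun v _ _ _ => ?_)
      (fun u v hu _ hu1 hvr hE => ?_) hw hw0 hwu
    · linarith
    · refine le_of_eq ?_
      simp only [tightLowG, allHc, tightLowN, allLowN, hpole, zero_mul, sub_zero, add_zero, al, be] at h2 hbe ⊢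
      field_simp
      ring
    · rw [one_mul]
      exact (AllLow.tight_signs hb h7 ha hu hu1 hvr hE).1
  · have key := band_step_all hf hb (e := -1) (u₁ := 1 / 10) (by norm_num)
      (hasGradTwo_tightUp ha0 hd hS) d1 d2 c3 (fun _ v => v ≤ 3 * allStabI al be) hv
      (fun v _ _ _ => ?_) (fun u v hu _ hu1 hvr hE => ?_) hw hw0 hwu
    · linarith
    · refine le_of_eq ?_
      simp only [tightUpG, allHc, tightUpN, allUpN, hpole, zero_mul, sub_zero, add_zero, al, be] at h2 hbe ⊢
      field_simp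
      ring
    · obtain ⟨h1, h2⟩ := (AllLow.tight_signs hb h7 ha hu hu1 hvr hE).2
      exact ⟨h1, by linarith⟩

end Vale.Agent.P100.Calib.Band
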