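import Vale.Agent.P100.Calib.SlabStripMidWindow
import Vale.Agent.P100.Calib.SlabStripFirstExpr
import Vale.Agent.P100.Calib.SlabStripTight

/-!
# The window of a piece on the first stretch of the strip

The bounds that are affine in the Flow follow from its two ends, those of `g W1` and the upper end
of the Flow from the two bands, in whose slope they are affine.
-/

set_option linter.unusedVariables false

namespace Vale.Agent.P100.Calib.StripMid

open Pack Band

local instance firstWindowAdd : Add Ex := ⟨Ex.add⟩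
local instance firstWindowSub : Sub Ex := ⟨Ex.sub⟩
local instance firstWindowMul : Mul Ex := ⟨Ex.mul⟩

variable {P : Piece} {x : ℕ → ℝ}

theorem ev_mul (e f : Ex) : (e * f).eval x = e.eval x * f.eval x := rfl

theorem ev_add (e f : Ex) : (e + f).eval x = e.eval x + f.eval x := rfl

theorem ev_sub (e f : Ex) : (e - f).eval x = e.eval x - f.eval x := rfl

theorem eval_rQ : (rQ P.kind).eval x = 1 + xd P x * xv P x := by
  show ((1 : ℤ) : ℝ) + xd P x * xv P x = _
  norm_num

theorem eval_rP : (rP P.kind).eval x = 2 + xd P x * xv P x := by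
  show ((2 : ℤ) : ℝ) + xd P x * xv P x = _
  norm_num

theorem eval_rC (hz : 0 < P.z.2) (ze : Bool) : (rC P ze).eval x = 2 * P.z.2 * cEnd P x ze := by
  have hz' : (P.z.2 : ℝ) ≠ 0 := by exact_mod_cast hz.ne'
  cases ze
  · show ((P.z.2 : ℤ) : ℝ) * (kS P.kind).eval x * (((2 : ℤ) : ℝ) - (kA P.kind).eval x * xv P x) +
      ((0 : ℤ) : ℝ) = _
    rw [eval_kA]
    simp only [cEnd, cond_false]
    push_cast; ring
  · show ((P.z.2 : ℤ) : ℝ) * (kS P.kind).eval x * (((2 : ℤ) : ℝ) - (kA P.kind).eval x * xv P x) +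
      ((2 * P.z.1 : ℤ) : ℝ) * xI P x = _
    rw [eval_kA]
    simp only [cEnd, cond_true, fr]
    push_cast; field_simp

theorem eval_rD (hz : 0 < P.z.2) (ze : Bool) : (rD P ze).eval x = 2 * P.z.2 *
    wD (xa P x) (xd P x) (xv P x) ((kS P.kind).eval x) (x 3) (cEnd P x ze) := by
  show ((P.z.2 : ℤ) : ℝ) * ((kB P.kind).eval x * (rP P.kind).eval x -
    ((2 : ℤ) : ℝ) * (kS P.kind).eval x * x 3 * (rQ P.kind).eval x) +
    x 3 * xd P x * (rC P ze).eval x = _
  rw [eval_kB, eval_rP, eval_rQ, eval_rC hz]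
  unfold wD
  push_cast; ring

theorem eval_rN (hz : 0 < P.z.2) (ze : Bool) : (rN P ze).eval x = 2 * P.z.2 *
    (x 3 * cEnd P x ze * (2 + xd P x * xv P x)) := by
  show x 3 * (rC P ze).eval x * (rP P.kind).eval x = _
  rw [eval_rC hz, eval_rP]; ring

theorem eval_rL (hz : 0 < P.z.2) (ze : Bool) : (rL P ze).eval x = 2 * P.z.2 *
    wL (xa P x) (xd P x) (xv P x) ((kS P.kind).eval x) (x 3) (cEnd P x ze)
      ((kBb P.kind).eval x) ((kAb P.kind).eval x) ((kDk P.kind).eval x) (xI P x) := by
  show (rD P ze).eval x * ((kBb P.kind).eval x * xv P x * (kDk P.kind).eval x +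
      ((kAb P.kind).eval x + (kBb P.kind).eval x)) -
    ((kAb P.kind).eval x * xd P x - ((3 : ℤ) : ℝ) * xI P x ^ 2 * (kBb P.kind).eval x) *
      (rN P ze).eval x = _
  rw [eval_rD hz, eval_rN hz]
  unfold wL
  push_cast; ring

theorem eval_rR (hz : 0 < P.z.2) (ze : Bool) : (rR P ze).eval x = 2 * P.z.2 *
    wR (xa P x) (xd P x) (xv P x) ((kS P.kind).eval x) (x 3) (cEnd P x ze) := by
  show (rD P ze).eval x - xd P x * (rN P ze).eval x = _
  rw [eval_rD hz, eval_rN hz]
  unfold wR
  ring

theorem eval_uAK' : (uAK P.kind).eval x = (kAb P.kind).eval x + (kBb P.kind).eval x := rfl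

/-- The bound that a rectangle bound gives. -/
def Bd7.toBd : Bd7 → Bd
  | .l0 => .l0
  | .l1 => .l1
  | .r => .r
  | .g0 => .g0
  | .g1 => .g1
  | .t0 => .t0
  | .t1 => .t1

theorem wBound_rect_end (hP : P.Pos2) (ze : Bool) (b : Bd7)
    (hb : 0 ≤ (boundRect P ze b).eval x) : 0 ≤ wBound P x (cEnd P x ze) b.toBd := by
  have hz := hP.z
  have hzr : (0 : ℝ) < P.z.2 := by exact_mod_cast hP.z
  have q0 : (0 : ℝ) < P.l₀.2 := by exact_mod_cast hP.l₀
  have q1 : (0 : ℝ) < P.l₁.2 := by exact_mod_cast hP.l₁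
  have q2 : (0 : ℝ) < P.r.2 := by exact_mod_cast hP.r
  have q3 : (0 : ℝ) < P.g₀.2 := by exact_mod_cast hP.g₀
  have q4 : (0 : ℝ) < P.g₁.2 := by exact_mod_cast hP.g₁
  have q5 : (0 : ℝ) < P.t₀.2.2 := by exact_mod_cast hP.t₀
  have q6 : (0 : ℝ) < P.t₁.2.2 := by exact_mod_cast hP.t₁
  cases b <;>
    simp only [boundRect, Bd7.toBd, ev_sub, Ex.eval, eval_rL hz, eval_rR hz,
      eval_rD hz, eval_kB, eval_rP, eval_rQ, eval_uAK', wBound, fr, tEnd, cond_true,
      cond_false, ← show xd P x = (kD P.kind).eval x from rfl] at hb ⊢ <;>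
    push_cast at hb
  case l0 =>
    refine of_factor (c := 2 * (P.z.2 : ℝ) * P.l₀.2) (by positivity) hb ?_
    field_simp
  case l1 =>
    refine of_factor (c := 2 * (P.z.2 : ℝ) * P.l₁.2) (by positivity) hb ?_
    field_simp
  case r =>
    refine of_factor (c := 2 * (P.z.2 : ℝ) * P.r.2) (by positivity) hb ?_
    field_simp
  case g0 =>
    refine of_factor (c := 2 * (P.z.2 : ℝ) * P.g₀.2) (by positivity) hb ?_
    field_simp
  case g1 =>
    refine of_factor (c := 2 * (P.z.2 : ℝ) * P.g₁.2) (by positivity) hb ?_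
    field_simp
  case t0 =>
    refine of_factor (c := 2 * (P.z.2 : ℝ) * P.t₀.2.2) (by positivity) hb ?_
    field_simp
  case t1 =>
    refine of_factor (c := 2 * (P.z.2 : ℝ) * P.t₁.2.2) (by positivity) hb ?_
    field_simp

/-- The seven bounds in between. -/
theorem wBound_rect (hP : P.Pos2) (hb : ∀ ze b, 0 ≤ (boundRect P ze b).eval x)
    {C : ℝ} (h0 : cEnd P x false ≤ C) (h1 : C ≤ cEnd P x true) (b : Bd7) :
    0 ≤ wBound P x C b.toBd := by
  obtain ⟨s, hs0, hs1, rfl⟩ := exists_mix h0 h1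
  rw [wBound_mix]
  exact mix_nonneg (wBound_rect_end hP false b (hb false b))
    (wBound_rect_end hP true b (hb true b)) hs0 hs1

/-- `b (2 + d v) - S u (1 + d v)`. -/
noncomputable def wq (P : Piece) (x : ℕ → ℝ) : ℝ :=
  (xa P x + xd P x) * (2 + xd P x * xv P x) -
    (kS P.kind).eval x * x 3 * (1 + xd P x * xv P x)

/-- `h` at the centre, over `d`. -/
noncomputable def wHc (P : Piece) (x : ℕ → ℝ) : ℝ :=
  (kS P.kind).eval x * (1 + (1 - xa P x) * xv P x) /
    ((xa P x + xd P x) * (2 - (kS P.kind).eval x))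

/-- `H` at the slope `t`. -/
noncomputable def wH (P : Piece) (x : ℕ → ℝ) (t : ℝ) : ℝ := wHc P x + x 3 * t

/-- The denominator of the chart at the slope `t`. -/
noncomputable def wDen (P : Piece) (x : ℕ → ℝ) (t : ℝ) : ℝ :=
  2 + xd P x * xv P x - x 3 * (xd P x * wH P x t)

/-- The Flow at the slope `t`. -/
noncomputable def wC (P : Piece) (x : ℕ → ℝ) (t : ℝ) : ℝ := wq P x * wH P x t / wDen P x t

/-- The bracket of `g W1`. -/
noncomputable def wBr (P : Piece) (x : ℕ → ℝ) (t : ℝ) : ℝ :=
  wq P x * ((kS P.kind).eval x * wH P x t * (xa P x - (1 - xa P x) * xd P x * xv P x) -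
    (2 - (kS P.kind).eval x) * (xa P x + xd P x) * t)

/-- A bound of `boundBand` at the slope `t`, affine in `t`. -/
noncomputable def wAt (P : Piece) (x : ℕ → ℝ) (t : ℝ) : Bd3 → ℝ
  | .w0 => 4 * wBr P x t + P.w₀ * (xI P x * (xa P x + xd P x) ^ 2 * (kS P.kind).eval x ^ 2 *
      wDen P x t)
  | .w1 => (P.w.1 + P.w.2.1 * xI P x - P.w.2.2.1 * xd P x) *
      (xI P x * (xa P x + xd P x) ^ 2 * (kS P.kind).eval x ^ 2 * wDen P x t) -
      4 * P.w.2.2.2 * wBr P x t
  | .top => cEnd P x true * wDen P x t - wq P x * wH P x t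
  | .pend => pEnd P x true * (kS P.kind).eval x / 4 * wDen P x t - wq P x * wH P x t

theorem wAt_mix (s t₀ t₁ : ℝ) (b : Bd3) :
    wAt P x (mix s t₀ t₁) b = mix s (wAt P x t₀ b) (wAt P x t₁ b) := by
  cases b <;> simp only [wAt, wBr, wDen, wH, mix] <;> ring

/-- An end of the slope. -/
noncomputable def tSlope (P : Piece) (x : ℕ → ℝ) (up : Bool) : ℝ :=
  (tN P.kind up).eval x / (tE P.kind).eval x

theorem tE_pos (h : Good P x) (hu : x 3 < 1) : 0 < (tE P.kind).eval x := by
  have hI := h.I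
  have ha := h.a
  have hd := h.d
  show 0 < ((10 : ℤ) : ℝ) * (kB P.kind).eval x * (((1 : ℤ) : ℝ) + ((2 : ℤ) : ℝ) * xI P x) *
    ((kB P.kind).eval x - x 3 * (kA P.kind).eval x)
  rw [eval_kB, eval_kA]
  have : 0 < 2 * (xa P x + xd P x) - x 3 * (2 * xa P x) := by
    linarith [mul_lt_mul_of_pos_right hu ha]
  push_cast
  positivity

theorem eval_tH (h : Good P x) (hu : x 3 < 1) (up : Bool) :
    (tH P.kind up).eval x = (tE P.kind).eval x * wH P x (tSlope P x up) := by
  have hE := tE_pos h hu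
  have e : (tE P.kind).eval x * wH P x (tSlope P x up) =
      (tE P.kind).eval x * wHc P x + x 3 * (tN P.kind up).eval x := by
    simp only [wH, tSlope]; field_simp
  rw [e]
  show ((10 : ℤ) : ℝ) * (kS P.kind).eval x *
      (((2 : ℤ) : ℝ) + (((2 : ℤ) : ℝ) - (kA P.kind).eval x) * xv P x) *
      ((kB P.kind).eval x - x 3 * (kA P.kind).eval x) + x 3 * (tN P.kind up).eval x =
    ((10 : ℤ) : ℝ) * (kB P.kind).eval x * (((1 : ℤ) : ℝ) + ((2 : ℤ) : ℝ) * xI P x) *
      ((kB P.kind).eval x - x 3 * (kA P.kind).eval x) * wHc P x + x 3 * (tN P.kind up).eval x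
  have hb : 0 < xa P x + xd P x := by linarith [h.a, h.d]
  have hI := h.I
  have h2 : 2 - (kS P.kind).eval x = 1 + 2 * xI P x := by rw [eval_kS]; ring
  simp only [wHc, h2, eval_kA, eval_kB]
  push_cast
  field_simp

theorem eval_tDen (h : Good P x) (hu : x 3 < 1) (up : Bool) :
    (tDen P.kind up).eval x = (tE P.kind).eval x * wDen P x (tSlope P x up) := by
  show (rP P.kind).eval x * (tE P.kind).eval x - x 3 * xd P x * (tH P.kind up).eval x = _
  rw [eval_rP, eval_tH h hu]
  unfold wDen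
  ring

theorem eval_tQ : (tQ P.kind).eval x = 2 * wq P x := by
  show (kB P.kind).eval x * (rP P.kind).eval x -
    ((2 : ℤ) : ℝ) * (kS P.kind).eval x * x 3 * (rQ P.kind).eval x = _
  rw [eval_kB, eval_rP, eval_rQ]
  unfold wq
  push_cast; ring

theorem eval_tW (h : Good P x) (hu : x 3 < 1) (up : Bool) :
    (tW P.kind up).eval x = 4 * (tE P.kind).eval x * wBr P x (tSlope P x up) := by
  have hE := tE_pos h hu
  have eN : (tN P.kind up).eval x = (tE P.kind).eval x * tSlope P x up := by
    simp only [tSlope]; field_simp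
  show (tQ P.kind).eval x * ((kS P.kind).eval x * (tH P.kind up).eval x *
      ((kA P.kind).eval x - (((2 : ℤ) : ℝ) - (kA P.kind).eval x) * xd P x * xv P x) -
    (((1 : ℤ) : ℝ) + ((2 : ℤ) : ℝ) * xI P x) * (kB P.kind).eval x * (tN P.kind up).eval x) = _
  rw [eval_tQ, eval_tH h hu, eN, eval_kA, eval_kB]
  have h2 : 2 - (kS P.kind).eval x = 1 + 2 * xI P x := by rw [eval_kS]; ring
  simp only [wBr, h2]
  push_cast; ring

theorem eval_tWd (h : Good P x) (hu : x 3 < 1) (up : Bool) :
    (tWd P.kind up).eval x = 4 * (tE P.kind).eval x * (xI P x * (xa P x + xd P x) ^ 2 *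
      (kS P.kind).eval x ^ 2 * wDen P x (tSlope P x up)) := by
  show xI P x * (kB P.kind).eval x ^ 2 * (kS P.kind).eval x ^ 2 * (tDen P.kind up).eval x = _
  rw [eval_tDen h hu, eval_kB]; ring

theorem wAt_end (hP : P.Pos2) (h : Good P x) (hu : x 3 < 1) (up : Bool) (b : Bd3)
    (hb : 0 ≤ (boundBand P up b).eval x) : 0 ≤ wAt P x (tSlope P x up) b := by
  have hE := tE_pos h hu
  have hzr : (0 : ℝ) < P.z.2 := by exact_mod_cast hP.z
  cases b
  case w0 =>
    simp only [boundBand, ev_add, Ex.eval, eval_tW h hu, eval_tWd h hu] at hb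
    refine of_factor (c := 4 * (tE P.kind).eval x) (by positivity) hb ?_
    simp only [wAt]; push_cast; ring
  case w1 =>
    simp only [boundBand, ev_sub, Ex.eval, eval_tW h hu, eval_tWd h hu,
      show (kI P.kind).eval x = xI P x from rfl, show (kD P.kind).eval x = xd P x from rfl] at hb
    refine of_factor (c := 4 * (tE P.kind).eval x) (by positivity) hb ?_
    simp only [wAt]; push_cast; ring
  case top =>
    simp only [boundBand, ev_sub, Ex.eval, eval_tDen h hu, eval_tQ, eval_tH h hu,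
      eval_kA, show (kI P.kind).eval x = xI P x from rfl,
      show (kV P.kind).eval x = xv P x from rfl] at hb
    refine of_factor (c := 2 * (P.z.2 : ℝ) * (tE P.kind).eval x) (by positivity) hb ?_
    simp only [wAt, cEnd, cond_true, fr]; push_cast; field_simp
  case pend =>
    simp only [boundBand, ev_mul, ev_add, ev_sub, Ex.eval, eval_tDen h hu, eval_tQ, eval_tH h hu,
      eval_kA, show (kI P.kind).eval x = xI P x from rfl,
      show (kV P.kind).eval x = xv P x from rfl] at hb
    refine of_factor (c := 18 * (P.z.2 : ℝ) * (tE P.kind).eval x) (by positivity) hb ?_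
    simp only [wAt, pEnd, cond_true, fr]; push_cast; field_simp; ring

/-- A bound of the bands anywhere between them. -/
theorem wAt_nonneg (hP : P.Pos2) (h : Good P x) (hu : x 3 < 1)
    (hb : ∀ up b, 0 ≤ (boundBand P up b).eval x) {t : ℝ} (h0 : tSlope P x false ≤ t)
    (h1 : t ≤ tSlope P x true) (b : Bd3) : 0 ≤ wAt P x t b := by
  obtain ⟨s, hs0, hs1, rfl⟩ := exists_mix h0 h1
  rw [wAt_mix]
  exact mix_nonneg (wAt_end hP h hu false b (hb false b)) (wAt_end hP h hu true b (hb true b))
    hs0 hs1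

/-- `wD` at the Flow. -/
theorem wD_wC {t : ℝ} (hD : 0 < wDen P x t) :
    wD (xa P x) (xd P x) (xv P x) ((kS P.kind).eval x) (x 3) (wC P x t) =
      wq P x * (2 + xd P x * xv P x) / wDen P x t := by
  rw [eq_div_iff hD.ne']
  simp only [wD, wC]
  field_simp
  simp only [wq, wDen]
  ring

/-- The numerator of `g W1` at the Flow. -/
theorem wN_wC {t : ℝ} (h : Good P x) (hD : 0 < wDen P x t) :
    wN (xa P x) (xd P x) (xv P x) ((kS P.kind).eval x) (x 3) (wC P x t) =
      x 3 * (2 + xd P x * xv P x) * wBr P x t / wDen P x t := by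
  rw [eq_div_iff hD.ne']
  have e : wN (xa P x) (xd P x) (xv P x) ((kS P.kind).eval x) (x 3) (wC P x t) * wDen P x t =
      x 3 * (kS P.kind).eval x * (2 + xd P x * xv P x) * (wq P x * wH P x t) *
        (xa P x - (1 - xa P x) * xd P x * xv P x) -
      (2 - (kS P.kind).eval x) * (xa P x + xd P x) * (wq P x * wH P x t) * (2 + xd P x * xv P x) +
      wq P x * (2 + xd P x * xv P x) * (kS P.kind).eval x * (1 + (1 - xa P x) * xv P x) := by
    simp only [wN, wD_wC hD]
    simp only [wC]
    field_simp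
  rw [e]
  have hc : (kS P.kind).eval x * (1 + (1 - xa P x) * xv P x) =
      (xa P x + xd P x) * (2 - (kS P.kind).eval x) * wHc P x := by
    have hb : 0 < xa P x + xd P x := by linarith [h.a, h.d]
    have h2 : 0 < 2 - (kS P.kind).eval x := by rw [eval_kS]; linarith [h.I]
    simp only [wHc]; field_simp
  simp only [wBr, wH]
  linear_combination wq P x * (2 + xd P x * xv P x) * hc

/-- The nine bounds and the upper end of the Flow at a slope between the bands. -/
theorem wBound_first (hP : P.Pos2) (h : Good P x) (hu0 : 0 < x 3) (hu : x 3 < 1)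
    (hr : ∀ ze b, 0 ≤ (boundRect P ze b).eval x) (hb : ∀ up b, 0 ≤ (boundBand P up b).eval x)
    {t : ℝ} (h0 : tSlope P x false ≤ t) (h1 : t ≤ tSlope P x true) (hD : 0 < wDen P x t)
    (hC : cEnd P x false ≤ wC P x t) :
    wC P x t ≤ cEnd P x true ∧ 4 * wC P x t ≤ (kS P.kind).eval x * pEnd P x true ∧
      ∀ b, 0 ≤ wBound P x (wC P x t) b := by
  have hT := wAt_nonneg hP h hu hb h0 h1
  have htop : wC P x t ≤ cEnd P x true := by
    have := hT .top
    simp only [wAt] at this
    rw [wC, div_le_iff₀ hD]; linarith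
  have hpe : 4 * wC P x t ≤ (kS P.kind).eval x * pEnd P x true := by
    have := hT .pend
    simp only [wAt] at this
    rw [wC, ← mul_div_assoc, div_le_iff₀ hD]; linarith
  refine ⟨htop, hpe, fun b => ?_⟩
  have hk : 0 < x 3 * (2 + xd P x * xv P x) / wDen P x t := by
    have := h.d; have := h.v; positivity
  cases b
  case w0 =>
    refine (mul_nonneg hk.le (hT .w0)).trans_eq ?_
    simp only [wBound, wAt, wN_wC h hD]
    field_simp
  case w1 =>
    have hw : (0 : ℝ) < P.w.2.2.2 := by exact_mod_cast hP.w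
    refine (mul_nonneg (div_nonneg hk.le hw.le) (hT .w1)).trans_eq ?_
    simp only [wBound, wAt, wN_wC h hD]
    field_simp
  all_goals first
    | exact wBound_rect hP hr hC htop .l0
    | exact wBound_rect hP hr hC htop .l1
    | exact wBound_rect hP hr hC htop .r
    | exact wBound_rect hP hr hC htop .g0
    | exact wBound_rect hP hr hC htop .g1
    | exact wBound_rect hP hr hC htop .t0
    | exact wBound_rect hP hr hC htop .t1

/-- The slope lies between the ends where `H` lies between the bands. -/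
theorem slope_window (h : Good P x) (hu0 : 0 < x 3) (hu : x 3 < 1) {t : ℝ}
    (hl : tightLowG (xa P x) (xa P x + xd P x) (x 3) (xv P x) ≤ wH P x t)
    (hr : wH P x t ≤ tightUpG (xa P x) (xa P x + xd P x) (x 3) (xv P x)) :
    tSlope P x false ≤ t ∧ t ≤ tSlope P x true := by
  have hE := tE_pos h hu
  have ha := h.a
  have hd := h.d
  have hI := h.I
  have eI : (1 - (xa P x + (xa P x + xd P x))) / 2 = xI P x := by
    linarith [eval_kA' (P := P) (x := x)]
  have e2 : 2 - (xa P x + (xa P x + xd P x)) = 1 + 2 * xI P x := by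
    linarith [eval_kA' (P := P) (x := x)]
  have eP : allPole (xa P x) (xa P x + xd P x) (x 3) = xa P x + xd P x - x 3 * xa P x :=
    (allPole_eq hu.le).1
  have eS : (kS P.kind).eval x = 1 - 2 * xI P x := eval_kS
  have eE : (tE P.kind).eval x =
      8 * (5 * ((xa P x + xd P x) * (1 + 2 * xI P x)) * (xa P x + xd P x - x 3 * xa P x)) := by
    show ((10 : ℤ) : ℝ) * (kB P.kind).eval x * (((1 : ℤ) : ℝ) + ((2 : ℤ) : ℝ) * xI P x) *
      ((kB P.kind).eval x - x 3 * (kA P.kind).eval x) = _
    rw [eval_kB, eval_kA]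
    push_cast; ring
  have hK : 0 < 5 * ((xa P x + xd P x) * (1 + 2 * xI P x)) *
      (xa P x + xd P x - x 3 * xa P x) := by linarith
  have key : ∀ up, wH P x (tSlope P x up) = (tH P.kind up).eval x / (tE P.kind).eval x :=
    fun up => by rw [eval_tH h hu]; field_simp
  have eL : tightLowG (xa P x) (xa P x + xd P x) (x 3) (xv P x) = wH P x (tSlope P x false) := by
    rw [key, eE]
    simp only [tightLowG, eI, e2, eP]
    rw [← mul_assoc 5, div_eq_div_iff (by linarith) (by linarith)]
    simp only [tightLowN, allLowN, allLowP, tH, tN, tBase, cond_false, ev_add, ev_sub,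
      Ex.eval, eval_kA, eval_kB, eS, show (kI P.kind).eval x = xI P x from rfl,
      show (kV P.kind).eval x = xv P x from rfl]
    push_cast; ring
  have eU : tightUpG (xa P x) (xa P x + xd P x) (x 3) (xv P x) = wH P x (tSlope P x true) := by
    rw [key, eE]
    simp only [tightUpG, eI, e2, eP]
    rw [← mul_assoc 5, div_eq_div_iff (by linarith) (by linarith)]
    simp only [tightUpN, allUpN, allUpP, tH, tN, tBase, cond_true, ev_add, ev_sub,
      Ex.eval, eval_kA, eval_kB, eS, show (kI P.kind).eval x = xI P x from rfl,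
      show (kV P.kind).eval x = xv P x from rfl]
    push_cast; ring
  rw [eL] at hl
  rw [eU] at hr
  simp only [wH, add_le_add_iff_left] at hl hr
  exact ⟨le_of_mul_le_mul_left hl hu0, le_of_mul_le_mul_left hr hu0⟩

end Vale.Agent.P100.Calib.StripMid
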