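import Vale.Agent.P100.Calib.SlabStripMidPoint
import Vale.Agent.P100.Calib.SlabStripFirstWindow
import Vale.Agent.P100.Calib.SlabStripFirstPieces
import Vale.Agent.P100.Calib.SlabStripChart

/-!
# The closed signs of a piece of the first stretch of the strip at a point of the chart
-/

set_option linter.unusedVariables false

namespace Vale.Agent.P100.Calib.StripMid

open Pack Band Closed

/-- The checks of a piece in the rectangle at a point. -/
structure FirstChecks (P : Piece) (x : ℕ → ℝ) : Prop where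
  rows : Checks P x
  rect : ∀ ze b, 0 ≤ (boundRect P ze b).eval x
  band : ∀ up b, 0 ≤ (boundBand P up b).eval x
  gap : ∀ ze t, 0 ≤ (subst (gapSub P true ze t) tplL).eval x

/-- The variables of a piece place the point `(d, S, u, v)`. -/
structure Places (P : Piece) (x : ℕ → ℝ) (d S u v : ℝ) : Prop where
  hd : xd P x = d
  hI : xI P x = (1 - S) / 2
  hv : xv P x = v
  hu : x 3 = u

variable {P : Piece} {x : ℕ → ℝ} {d S u v t : ℝ} {n : ℕ}

theorem Places.hS (h : Places P x d S u v) : (kS P.kind).eval x = S := by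
  rw [eval_kS, h.hI]; ring

theorem Places.ha (h : Places P x d S u v) : xa P x = (S - d) / 2 := by
  linarith [eval_kA' (P := P) (x := x), h.hd, h.hI]

/-- `D2 d` from the chart. -/
theorem kap_of_kind (hI : 0 < xI P x) (hS : 0 < (kS P.kind).eval x) (hd : 0 < xd P x)
    (hA : P.kind = .A → (1 - xI P x) * xd P x ≤ (kS P.kind).eval x * xI P x)
    (hB : P.kind ≠ .A → (kS P.kind).eval x * xI P x ≤ (1 - xI P x) * xd P x) :
    (AllN.kapAll (1 / xI P x) (xa P x) + 1) / xd P x = kap P x := by
  have eA := eval_kA' (P := P) (x := x)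
  have eS := eval_kS (P := P) (x := x)
  have e : -(2 * (1 / xI P x * xa P x) * (1 / xI P x - 1) / (1 / xI P x - 2) ^ 2) =
      -1 + ((1 - xI P x) * xd P x - (kS P.kind).eval x * xI P x) / (kS P.kind).eval x ^ 2 := by
    have h2 : 1 / xI P x - 2 = (kS P.kind).eval x / xI P x := by rw [eS]; field_simp
    rw [h2]
    field_simp
    rw [eS] at *
    linear_combination (-(1 : ℝ) + xI P x) * eA
  have hS2 : 0 < (kS P.kind).eval x ^ 2 := by positivity
  rw [AllN.kapAll, e]
  rcases hk : P.kind with _ | _ | _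
  · have h0 := hA hk
    simp only [kap, hk] at *
    rw [max_eq_left (by
      have : ((1 - xI P x) * xd P x - (kS Kind.A).eval x * xI P x) /
          (kS Kind.A).eval x ^ 2 ≤ 0 := div_nonpos_of_nonpos_of_nonneg (by linarith) hS2.le
      linarith)]
    norm_num
  all_goals
    have h0 := hB (by rw [hk]; simp)
    rw [hk] at h0 hS2 hS
    rw [max_eq_right (by
      have := div_nonneg (sub_nonneg.2 h0) hS2.le
      linarith)]
    simp only [kap, hk]
  · have e1 : xI P x = x 1 * xd P x := by simp [xI, xd, kI, kD, hk, Ex.eval]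
    rw [e1] at *
    field_simp
    ring
  · field_simp
    ring

/-- **The closed signs of a piece of the first stretch at a point of the chart.** -/
theorem signs_first (hb : All.ChartBox n d S) (hF : All.ChartFacts d S u v t)
    (ha : 31 / 100 < (S - d) / 2) (hP : P.Pos3) (hx : Places P x d S u v)
    (hI : xI P x ≤ 1 / 7) (hlin : fr P.k₁ / 7 ≤ 4 / 25 * fr P.g₀)
    (hk : (AllN.kapAll (1 / xI P x) (xa P x) + 1) / xd P x = kap P x)
    (hl : tightLowG ((S - d) / 2) ((S + d) / 2) u v ≤ chH d S u v t)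
    (hr : chH d S u v t ≤ tightUpG ((S - d) / 2) ((S + d) / 2) u v) (K : FirstChecks P x) :
    Strip.ChartSigns d S u v t := by
  have eS := hx.hS
  have eA := hx.ha
  have hS1 : 0 < 1 - S := sub_pos.2 hb.S_lt
  have ha0 : 0 < (S - d) / 2 := by linarith
  have hS0 : 0 < S := by linarith [hb.S_low]
  have hb0 : 0 < (S + d) / 2 := by linarith [hb.pos]
  have hv0 : 0 < v := by
    have h2 := (mul_pos two_pos hS1).trans hF.v_crit
    refine pos_of_mul_pos_left h2 ?_
    have := mul_nonneg (show 0 ≤ S - d by linarith) hS1.le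
    linarith
  have h : Good P x := ⟨by rw [hx.hI]; linarith, by rw [hx.hd]; exact hb.pos,
    by rw [eA]; exact ha0, by rw [hx.hv]; exact hv0, by rw [eS]; exact hS0⟩
  have eb : xa P x + xd P x = (S + d) / 2 := by rw [eA, hx.hd]; ring
  have hu0 : 0 < x 3 := by rw [hx.hu]; exact hF.u_pos
  have hu1 : x 3 < 1 := by rw [hx.hu]; exact hF.u_lt
  have eH : wH P x t = chH d S u v t := by
    simp only [wH, wHc, chH, eS, eA, hx.hv, hx.hu, hx.hd]
    rw [show (S - d) / 2 + d = (S + d) / 2 by ring]
  obtain ⟨t0, t1⟩ := slope_window h hu0 hu1 (t := t)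
    (by rw [eH, eb, eA, hx.hu, hx.hv]; exact hl) (by rw [eH, eb, eA, hx.hu, hx.hv]; exact hr)
  have hdv : 0 < d * v := mul_pos hb.pos hv0
  have hudH : u * (d * chH d S u v t) < 1 := by
    have := mul_pos hb.pos hF.H_pos
    have := mul_lt_mul_of_pos_right hF.u_lt this
    linarith [hF.h_lt]
  have eDen : wDen P x t = 2 + d * v - d * u * chH d S u v t := by
    simp only [wDen, eH, hx.hd, hx.hv, hx.hu]; ring
  have hD : 0 < wDen P x t := by rw [eDen]; linarith
  have eQ : wq P x = (2 + d * v) * ((S + d) / 2) - S * u * (1 + d * v) := by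
    rw [wq, eb, eS, hx.hd, hx.hv, hx.hu]; ring
  have eg : chG d S u v t = 2 * wq P x / (xI P x * ((S + d) / 2) * wDen P x t) := by
    rw [chG, eDen, eQ, hx.hI]
    field_simp
    ring
  have hC : cEnd P x false ≤ wC P x t := by
    have hd' := hF.drift
    rw [eg, hx.hI] at hd'
    simp only [cEnd, cond_false, add_zero, wC, eS, eA, hx.hv, eH]
    rw [le_div_iff₀ hD]
    have hD' := hD.ne'
    have k : 0 < (1 - S) * ((S + d) / 2) := by positivity
    rw [show 2 * wq P x / ((1 - S) / 2 * ((S + d) / 2) * wDen P x t) * chH d S u v t / 2 =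
      2 * wq P x * chH d S u v t / wDen P x t / ((1 - S) * ((S + d) / 2)) by field_simp,
      div_lt_div_iff_of_pos_right k, lt_div_iff₀ hD] at hd'
    linarith
  obtain ⟨hC', hpe, hB⟩ := wBound_first hP.toPos2 h hu0 hu1 K.rect K.band t0 t1 hD hC
  have hgap : ∀ ze τ, 0 ≤ gapFun P x (cEnd P x ze) (tEnd P x τ) := fun ze τ =>
    gap_end hP.toPos2 h (e := 1) one_pos true ze τ rfl rfl rfl (by simp [Ex.eval])
      (by simp only [cond_true, mul_one]; rfl) (K.gap ze τ)
  have hlin' : fr P.k₁ * xI P x ≤ 4 / 25 * fr P.g₀ :=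
    (mul_le_mul_of_nonneg_left hI
      (div_nonneg (by exact_mod_cast hP.k₁n.le) (Nat.cast_nonneg _))).trans (le_of_eq_of_le (mul_one_div _ _) hlin)
  have hab : 1 / 10 ≤ xa P x * (xa P x + xd P x) := by
    rw [eb, eA]
    refine le_trans (by norm_num) (mul_le_mul (show 31 / 100 ≤ (S - d) / 2 by linarith)
      (show (1 / 3 : ℝ) ≤ (S + d) / 2 by linarith [hb.S_low, hb.pos]) (by norm_num) ha0.le)
  have hav : xa P x * xv P x < 1 := by rw [eA, hx.hv]; linarith [hF.r_lt]
  have eI : xI P x = (1 - S) / 2 := hx.hI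
  have hSd : S + d ≠ 0 := by linarith [hb.pos]
  have F : Fields P x (wC P x t) (chG d S u v t) (chW d S u v t) (chW1 d S u v t) (chR S u) := by
    refine ⟨?_, ?_, ?_, ?_⟩
    · rw [wD_wC hD, eg, eb, hx.hd, hx.hv]
      have := h.I
      have : (2 : ℝ) + d * v ≠ 0 := by positivity
      field_simp
    · rw [eg, eb, chW, ← eH, eS, wC, eI]
      field_simp
      ring
    · rw [chR, eS, eI, hx.hu]; field_simp
    · rw [wN_wC h hD, eg, eb, eI, chW1, ← eH, eS, hx.hd, hx.hv, hx.hu]
      simp only [wBr, eS, eA, hx.hd, hx.hv]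
      have hu' := hF.u_pos.ne'
      have : (2 : ℝ) + d * v ≠ 0 := by positivity
      field_simp
      ring
  have key := signs_point_gen hP h hI hlin' hpe hab hu0 hav K.rows hC hC' hB hgap F hk
  rw [eA, hx.hd, hx.hv] at key
  refine Strip.ChartSigns.of_arrow hb hv0 ?_ key
  rw [eg]
  have hq : 0 < wq P x := by
    rw [eQ]
    have h4 : S * u * (1 + d * v) < S * (1 + d * v) :=
      mul_lt_mul_of_pos_right (mul_lt_of_lt_one_right hS0 hF.u_lt) (show 0 < 1 + d * v by linarith)
    linarith [mul_lt_mul_of_pos_left hF.r_lt hb.pos]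
  have := h.I
  positivity

end Vale.Agent.P100.Calib.StripMid
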