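import Vale.Agent.P100.Calib.SlabStripFirstPoint
import Vale.Agent.P100.Calib.SlabStripFirstCheckARows
import Vale.Agent.P100.Calib.SlabStripFirstCheckATwoI
import Vale.Agent.P100.Calib.SlabStripFirstCheckATwoII
import Vale.Agent.P100.Calib.SlabStripFirstCheckAThreeI
import Vale.Agent.P100.Calib.SlabStripFirstCheckAThreeII
import Vale.Agent.P100.Calib.SlabStripFirstCheckAThreeIII
import Vale.Agent.P100.Calib.SlabStripFirstCheckAThreeIV
import Vale.Agent.P100.Calib.SlabStripFirstCheckAWindow
import Vale.Agent.P100.Calib.SlabStripFirstCheckBRows
import Vale.Agent.P100.Calib.SlabStripFirstCheckBTwoI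
import Vale.Agent.P100.Calib.SlabStripFirstCheckBTwoII
import Vale.Agent.P100.Calib.SlabStripFirstCheckBThreeI
import Vale.Agent.P100.Calib.SlabStripFirstCheckBThreeII
import Vale.Agent.P100.Calib.SlabStripFirstCheckBThreeIII
import Vale.Agent.P100.Calib.SlabStripFirstCheckBThreeIV
import Vale.Agent.P100.Calib.SlabStripFirstCheckBWindow
import Vale.Agent.P100.Calib.SlabStripFirstCheckCRows
import Vale.Agent.P100.Calib.SlabStripFirstCheckCTwoI
import Vale.Agent.P100.Calib.SlabStripFirstCheckCTwoII
import Vale.Agent.P100.Calib.SlabStripFirstCheckCThreeI
import Vale.Agent.P100.Calib.SlabStripFirstCheckCThreeII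
import Vale.Agent.P100.Calib.SlabStripFirstCheckCThreeIII
import Vale.Agent.P100.Calib.SlabStripFirstCheckCThreeIV
import Vale.Agent.P100.Calib.SlabStripFirstCheckCWindow
import Vale.Agent.P100.Calib.SlabStripFirstCheckDRows
import Vale.Agent.P100.Calib.SlabStripFirstCheckDTwoI
import Vale.Agent.P100.Calib.SlabStripFirstCheckDTwoII
import Vale.Agent.P100.Calib.SlabStripFirstCheckDThreeI
import Vale.Agent.P100.Calib.SlabStripFirstCheckDThreeII
import Vale.Agent.P100.Calib.SlabStripFirstCheckDThreeIII
import Vale.Agent.P100.Calib.SlabStripFirstCheckDThreeIV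
import Vale.Agent.P100.Calib.SlabStripFirstCheckDWindow

/-!
# The closed signs of the strip on `0 < u ≤ 1/10`

The four pieces cover `I ≤ 1/7`, `d + 2 I < 19/50` and `v < 2 I · 7/5`.
-/

set_option linter.unusedVariables false

namespace Vale.Agent.P100.Calib.StripMid

open Pack Band Closed

theorem firstA_pos : firstA.Pos3 := by
  refine ⟨⟨⟨?_, ?_, ?_, ?_, ?_, ?_, ?_⟩, ?_, ?_, ?_, ?_, ?_, ?_, ?_, ?_, ?_, ?_, ?_⟩, ?_, ?_⟩ <;>
    norm_num [firstA, fr]

theorem firstA_checks {x : ℕ → ℝ}
    (hp : ∀ i < 4, ∃ t : ℝ, 0 ≤ t ∧ 0 < ((firstABox i).c : ℝ) + (firstABox i).d * t ∧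
      ((firstABox i).a : ℝ) + (firstABox i).b * t = x i * (((firstABox i).c : ℝ) + (firstABox i).d * t)) :
    FirstChecks firstA x := by
  refine ⟨⟨?_, ?_, ?_, ?_, ?_, ?_, ?_, ?_, ?_⟩, ?_, ?_, ?_⟩
  · exact fun
      | false, false => nonneg_of_checkFour firstA_X_ff hp
      | false, true => nonneg_of_checkFour firstA_X_ft hp
      | true, false => nonneg_of_checkFour firstA_X_tf hp
      | true, true => nonneg_of_checkFour firstA_X_tt hp
  · exact fun
      | false, false => nonneg_of_checkFour firstA_MG_ff hp
      | false, true => nonneg_of_checkFour firstA_MG_ft hp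
      | true, false => nonneg_of_checkFour firstA_MG_tf hp
      | true, true => nonneg_of_checkFour firstA_MG_tt hp
  · exact fun
      | false, false => nonneg_of_checkFour firstA_One_ff hp
      | false, true => nonneg_of_checkFour firstA_One_ft hp
      | true, false => nonneg_of_checkFour firstA_One_tf hp
      | true, true => nonneg_of_checkFour firstA_One_tt hp
  · exact fun
      | false, false, false => nonneg_of_checkFour firstA_Two_fff hp
      | false, false, true => nonneg_of_checkFour firstA_Two_fft hp
      | false, true, false => nonneg_of_checkFour firstA_Two_ftf hp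
      | false, true, true => nonneg_of_checkFour firstA_Two_ftt hp
      | true, false, false => nonneg_of_checkFour firstA_Two_tff hp
      | true, false, true => nonneg_of_checkFour firstA_Two_tft hp
      | true, true, false => nonneg_of_checkFour firstA_Two_ttf hp
      | true, true, true => nonneg_of_checkFour firstA_Two_ttt hp
  · exact fun
      | false, false, false, false => nonneg_of_checkFour firstA_Three_ffff hp
      | false, false, false, true => nonneg_of_checkFour firstA_Three_ffft hp
      | false, false, true, false => nonneg_of_checkFour firstA_Three_fftf hp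
      | false, false, true, true => nonneg_of_checkFour firstA_Three_fftt hp
      | false, true, false, false => nonneg_of_checkFour firstA_Three_ftff hp
      | false, true, false, true => nonneg_of_checkFour firstA_Three_ftft hp
      | false, true, true, false => nonneg_of_checkFour firstA_Three_fttf hp
      | false, true, true, true => nonneg_of_checkFour firstA_Three_fttt hp
      | true, false, false, false => nonneg_of_checkFour firstA_Three_tfff hp
      | true, false, false, true => nonneg_of_checkFour firstA_Three_tfft hp
      | true, false, true, false => nonneg_of_checkFour firstA_Three_tftf hp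
      | true, false, true, true => nonneg_of_checkFour firstA_Three_tftt hp
      | true, true, false, false => nonneg_of_checkFour firstA_Three_ttff hp
      | true, true, false, true => nonneg_of_checkFour firstA_Three_ttft hp
      | true, true, true, false => nonneg_of_checkFour firstA_Three_tttf hp
      | true, true, true, true => nonneg_of_checkFour firstA_Three_tttt hp
  · exact nonneg_of_checkFour firstA_cMG hp
  · exact fun
      | false => nonneg_of_checkFour firstA_c2_f hp
      | true => nonneg_of_checkFour firstA_c2_t hp
  · exact fun
      | false => nonneg_of_checkFour firstA_c3_f hp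
      | true => nonneg_of_checkFour firstA_c3_t hp
  · exact fun
      | false => nonneg_of_checkFour firstA_sT_f hp
      | true => nonneg_of_checkFour firstA_sT_t hp
  · exact fun
      | false, .l0 => nonneg_of_checkFour firstA_l0_f hp
      | false, .l1 => nonneg_of_checkFour firstA_l1_f hp
      | false, .r => nonneg_of_checkFour firstA_r_f hp
      | false, .g0 => nonneg_of_checkFour firstA_g0_f hp
      | false, .g1 => nonneg_of_checkFour firstA_g1_f hp
      | false, .t0 => nonneg_of_checkFour firstA_t0_f hp
      | false, .t1 => nonneg_of_checkFour firstA_t1_f hp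
      | true, .l0 => nonneg_of_checkFour firstA_l0_t hp
      | true, .l1 => nonneg_of_checkFour firstA_l1_t hp
      | true, .r => nonneg_of_checkFour firstA_r_t hp
      | true, .g0 => nonneg_of_checkFour firstA_g0_t hp
      | true, .g1 => nonneg_of_checkFour firstA_g1_t hp
      | true, .t0 => nonneg_of_checkFour firstA_t0_t hp
      | true, .t1 => nonneg_of_checkFour firstA_t1_t hp
  · exact fun
      | false, .w0 => nonneg_of_checkFour firstA_w0_f hp
      | false, .w1 => nonneg_of_checkFour firstA_w1_f hp
      | false, .top => nonneg_of_checkFour firstA_top_f hp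
      | false, .pend => nonneg_of_checkFour firstA_pend_f hp
      | true, .w0 => nonneg_of_checkFour firstA_w0_t hp
      | true, .w1 => nonneg_of_checkFour firstA_w1_t hp
      | true, .top => nonneg_of_checkFour firstA_top_t hp
      | true, .pend => nonneg_of_checkFour firstA_pend_t hp
  · exact fun
      | false, false => nonneg_of_checkFour firstA_gap_ff hp
      | false, true => nonneg_of_checkFour firstA_gap_ft hp
      | true, false => nonneg_of_checkFour firstA_gap_tf hp
      | true, true => nonneg_of_checkFour firstA_gap_tt hp

theorem firstB_pos : firstB.Pos3 := by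
  refine ⟨⟨⟨?_, ?_, ?_, ?_, ?_, ?_, ?_⟩, ?_, ?_, ?_, ?_, ?_, ?_, ?_, ?_, ?_, ?_, ?_⟩, ?_, ?_⟩ <;>
    norm_num [firstB, fr]

theorem firstB_checks {x : ℕ → ℝ}
    (hp : ∀ i < 4, ∃ t : ℝ, 0 ≤ t ∧ 0 < ((firstBBox i).c : ℝ) + (firstBBox i).d * t ∧
      ((firstBBox i).a : ℝ) + (firstBBox i).b * t = x i * (((firstBBox i).c : ℝ) + (firstBBox i).d * t)) :
    FirstChecks firstB x := by
  refine ⟨⟨?_, ?_, ?_, ?_, ?_, ?_, ?_, ?_, ?_⟩, ?_, ?_, ?_⟩
  · exact fun
      | false, false => nonneg_of_checkFour firstB_X_ff hp
      | false, true => nonneg_of_checkFour firstB_X_ft hp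
      | true, false => nonneg_of_checkFour firstB_X_tf hp
      | true, true => nonneg_of_checkFour firstB_X_tt hp
  · exact fun
      | false, false => nonneg_of_checkFour firstB_MG_ff hp
      | false, true => nonneg_of_checkFour firstB_MG_ft hp
      | true, false => nonneg_of_checkFour firstB_MG_tf hp
      | true, true => nonneg_of_checkFour firstB_MG_tt hp
  · exact fun
      | false, false => nonneg_of_checkFour firstB_One_ff hp
      | false, true => nonneg_of_checkFour firstB_One_ft hp
      | true, false => nonneg_of_checkFour firstB_One_tf hp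
      | true, true => nonneg_of_checkFour firstB_One_tt hp
  · exact fun
      | false, false, false => nonneg_of_checkFour firstB_Two_fff hp
      | false, false, true => nonneg_of_checkFour firstB_Two_fft hp
      | false, true, false => nonneg_of_checkFour firstB_Two_ftf hp
      | false, true, true => nonneg_of_checkFour firstB_Two_ftt hp
      | true, false, false => nonneg_of_checkFour firstB_Two_tff hp
      | true, false, true => nonneg_of_checkFour firstB_Two_tft hp
      | true, true, false => nonneg_of_checkFour firstB_Two_ttf hp
      | true, true, true => nonneg_of_checkFour firstB_Two_ttt hp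
  · exact fun
      | false, false, false, false => nonneg_of_checkFour firstB_Three_ffff hp
      | false, false, false, true => nonneg_of_checkFour firstB_Three_ffft hp
      | false, false, true, false => nonneg_of_checkFour firstB_Three_fftf hp
      | false, false, true, true => nonneg_of_checkFour firstB_Three_fftt hp
      | false, true, false, false => nonneg_of_checkFour firstB_Three_ftff hp
      | false, true, false, true => nonneg_of_checkFour firstB_Three_ftft hp
      | false, true, true, false => nonneg_of_checkFour firstB_Three_fttf hp
      | false, true, true, true => nonneg_of_checkFour firstB_Three_fttt hp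
      | true, false, false, false => nonneg_of_checkFour firstB_Three_tfff hp
      | true, false, false, true => nonneg_of_checkFour firstB_Three_tfft hp
      | true, false, true, false => nonneg_of_checkFour firstB_Three_tftf hp
      | true, false, true, true => nonneg_of_checkFour firstB_Three_tftt hp
      | true, true, false, false => nonneg_of_checkFour firstB_Three_ttff hp
      | true, true, false, true => nonneg_of_checkFour firstB_Three_ttft hp
      | true, true, true, false => nonneg_of_checkFour firstB_Three_tttf hp
      | true, true, true, true => nonneg_of_checkFour firstB_Three_tttt hp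
  · exact nonneg_of_checkFour firstB_cMG hp
  · exact fun
      | false => nonneg_of_checkFour firstB_c2_f hp
      | true => nonneg_of_checkFour firstB_c2_t hp
  · exact fun
      | false => nonneg_of_checkFour firstB_c3_f hp
      | true => nonneg_of_checkFour firstB_c3_t hp
  · exact fun
      | false => nonneg_of_checkFour firstB_sT_f hp
      | true => nonneg_of_checkFour firstB_sT_t hp
  · exact fun
      | false, .l0 => nonneg_of_checkFour firstB_l0_f hp
      | false, .l1 => nonneg_of_checkFour firstB_l1_f hp
      | false, .r => nonneg_of_checkFour firstB_r_f hp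
      | false, .g0 => nonneg_of_checkFour firstB_g0_f hp
      | false, .g1 => nonneg_of_checkFour firstB_g1_f hp
      | false, .t0 => nonneg_of_checkFour firstB_t0_f hp
      | false, .t1 => nonneg_of_checkFour firstB_t1_f hp
      | true, .l0 => nonneg_of_checkFour firstB_l0_t hp
      | true, .l1 => nonneg_of_checkFour firstB_l1_t hp
      | true, .r => nonneg_of_checkFour firstB_r_t hp
      | true, .g0 => nonneg_of_checkFour firstB_g0_t hp
      | true, .g1 => nonneg_of_checkFour firstB_g1_t hp
      | true, .t0 => nonneg_of_checkFour firstB_t0_t hp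
      | true, .t1 => nonneg_of_checkFour firstB_t1_t hp
  · exact fun
      | false, .w0 => nonneg_of_checkFour firstB_w0_f hp
      | false, .w1 => nonneg_of_checkFour firstB_w1_f hp
      | false, .top => nonneg_of_checkFour firstB_top_f hp
      | false, .pend => nonneg_of_checkFour firstB_pend_f hp
      | true, .w0 => nonneg_of_checkFour firstB_w0_t hp
      | true, .w1 => nonneg_of_checkFour firstB_w1_t hp
      | true, .top => nonneg_of_checkFour firstB_top_t hp
      | true, .pend => nonneg_of_checkFour firstB_pend_t hp
  · exact fun
      | false, false => nonneg_of_checkFour firstB_gap_ff hp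
      | false, true => nonneg_of_checkFour firstB_gap_ft hp
      | true, false => nonneg_of_checkFour firstB_gap_tf hp
      | true, true => nonneg_of_checkFour firstB_gap_tt hp

theorem firstC_pos : firstC.Pos3 := by
  refine ⟨⟨⟨?_, ?_, ?_, ?_, ?_, ?_, ?_⟩, ?_, ?_, ?_, ?_, ?_, ?_, ?_, ?_, ?_, ?_, ?_⟩, ?_, ?_⟩ <;>
    norm_num [firstC, fr]

theorem firstC_checks {x : ℕ → ℝ}
    (hp : ∀ i < 4, ∃ t : ℝ, 0 ≤ t ∧ 0 < ((firstCBox i).c : ℝ) + (firstCBox i).d * t ∧
      ((firstCBox i).a : ℝ) + (firstCBox i).b * t = x i * (((firstCBox i).c : ℝ) + (firstCBox i).d * t)) :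
    FirstChecks firstC x := by
  refine ⟨⟨?_, ?_, ?_, ?_, ?_, ?_, ?_, ?_, ?_⟩, ?_, ?_, ?_⟩
  · exact fun
      | false, false => nonneg_of_checkFour firstC_X_ff hp
      | false, true => nonneg_of_checkFour firstC_X_ft hp
      | true, false => nonneg_of_checkFour firstC_X_tf hp
      | true, true => nonneg_of_checkFour firstC_X_tt hp
  · exact fun
      | false, false => nonneg_of_checkFour firstC_MG_ff hp
      | false, true => nonneg_of_checkFour firstC_MG_ft hp
      | true, false => nonneg_of_checkFour firstC_MG_tf hp
      | true, true => nonneg_of_checkFour firstC_MG_tt hp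
  · exact fun
      | false, false => nonneg_of_checkFour firstC_One_ff hp
      | false, true => nonneg_of_checkFour firstC_One_ft hp
      | true, false => nonneg_of_checkFour firstC_One_tf hp
      | true, true => nonneg_of_checkFour firstC_One_tt hp
  · exact fun
      | false, false, false => nonneg_of_checkFour firstC_Two_fff hp
      | false, false, true => nonneg_of_checkFour firstC_Two_fft hp
      | false, true, false => nonneg_of_checkFour firstC_Two_ftf hp
      | false, true, true => nonneg_of_checkFour firstC_Two_ftt hp
      | true, false, false => nonneg_of_checkFour firstC_Two_tff hp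
      | true, false, true => nonneg_of_checkFour firstC_Two_tft hp
      | true, true, false => nonneg_of_checkFour firstC_Two_ttf hp
      | true, true, true => nonneg_of_checkFour firstC_Two_ttt hp
  · exact fun
      | false, false, false, false => nonneg_of_checkFour firstC_Three_ffff hp
      | false, false, false, true => nonneg_of_checkFour firstC_Three_ffft hp
      | false, false, true, false => nonneg_of_checkFour firstC_Three_fftf hp
      | false, false, true, true => nonneg_of_checkFour firstC_Three_fftt hp
      | false, true, false, false => nonneg_of_checkFour firstC_Three_ftff hp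
      | false, true, false, true => nonneg_of_checkFour firstC_Three_ftft hp
      | false, true, true, false => nonneg_of_checkFour firstC_Three_fttf hp
      | false, true, true, true => nonneg_of_checkFour firstC_Three_fttt hp
      | true, false, false, false => nonneg_of_checkFour firstC_Three_tfff hp
      | true, false, false, true => nonneg_of_checkFour firstC_Three_tfft hp
      | true, false, true, false => nonneg_of_checkFour firstC_Three_tftf hp
      | true, false, true, true => nonneg_of_checkFour firstC_Three_tftt hp
      | true, true, false, false => nonneg_of_checkFour firstC_Three_ttff hp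
      | true, true, false, true => nonneg_of_checkFour firstC_Three_ttft hp
      | true, true, true, false => nonneg_of_checkFour firstC_Three_tttf hp
      | true, true, true, true => nonneg_of_checkFour firstC_Three_tttt hp
  · exact nonneg_of_checkFour firstC_cMG hp
  · exact fun
      | false => nonneg_of_checkFour firstC_c2_f hp
      | true => nonneg_of_checkFour firstC_c2_t hp
  · exact fun
      | false => nonneg_of_checkFour firstC_c3_f hp
      | true => nonneg_of_checkFour firstC_c3_t hp
  · exact fun
      | false => nonneg_of_checkFour firstC_sT_f hp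
      | true => nonneg_of_checkFour firstC_sT_t hp
  · exact fun
      | false, .l0 => nonneg_of_checkFour firstC_l0_f hp
      | false, .l1 => nonneg_of_checkFour firstC_l1_f hp
      | false, .r => nonneg_of_checkFour firstC_r_f hp
      | false, .g0 => nonneg_of_checkFour firstC_g0_f hp
      | false, .g1 => nonneg_of_checkFour firstC_g1_f hp
      | false, .t0 => nonneg_of_checkFour firstC_t0_f hp
      | false, .t1 => nonneg_of_checkFour firstC_t1_f hp
      | true, .l0 => nonneg_of_checkFour firstC_l0_t hp
      | true, .l1 => nonneg_of_checkFour firstC_l1_t hp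
      | true, .r => nonneg_of_checkFour firstC_r_t hp
      | true, .g0 => nonneg_of_checkFour firstC_g0_t hp
      | true, .g1 => nonneg_of_checkFour firstC_g1_t hp
      | true, .t0 => nonneg_of_checkFour firstC_t0_t hp
      | true, .t1 => nonneg_of_checkFour firstC_t1_t hp
  · exact fun
      | false, .w0 => nonneg_of_checkFour firstC_w0_f hp
      | false, .w1 => nonneg_of_checkFour firstC_w1_f hp
      | false, .top => nonneg_of_checkFour firstC_top_f hp
      | false, .pend => nonneg_of_checkFour firstC_pend_f hp
      | true, .w0 => nonneg_of_checkFour firstC_w0_t hp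
      | true, .w1 => nonneg_of_checkFour firstC_w1_t hp
      | true, .top => nonneg_of_checkFour firstC_top_t hp
      | true, .pend => nonneg_of_checkFour firstC_pend_t hp
  · exact fun
      | false, false => nonneg_of_checkFour firstC_gap_ff hp
      | false, true => nonneg_of_checkFour firstC_gap_ft hp
      | true, false => nonneg_of_checkFour firstC_gap_tf hp
      | true, true => nonneg_of_checkFour firstC_gap_tt hp

theorem firstD_pos : firstD.Pos3 := by
  refine ⟨⟨⟨?_, ?_, ?_, ?_, ?_, ?_, ?_⟩, ?_, ?_, ?_, ?_, ?_, ?_, ?_, ?_, ?_, ?_, ?_⟩, ?_, ?_⟩ <;>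
    norm_num [firstD, fr]

theorem firstD_checks {x : ℕ → ℝ}
    (hp : ∀ i < 4, ∃ t : ℝ, 0 ≤ t ∧ 0 < ((firstDBox i).c : ℝ) + (firstDBox i).d * t ∧
      ((firstDBox i).a : ℝ) + (firstDBox i).b * t = x i * (((firstDBox i).c : ℝ) + (firstDBox i).d * t)) :
    FirstChecks firstD x := by
  refine ⟨⟨?_, ?_, ?_, ?_, ?_, ?_, ?_, ?_, ?_⟩, ?_, ?_, ?_⟩
  · exact fun
      | false, false => nonneg_of_checkFour firstD_X_ff hp
      | false, true => nonneg_of_checkFour firstD_X_ft hp
      | true, false => nonneg_of_checkFour firstD_X_tf hp
      | true, true => nonneg_of_checkFour firstD_X_tt hp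
  · exact fun
      | false, false => nonneg_of_checkFour firstD_MG_ff hp
      | false, true => nonneg_of_checkFour firstD_MG_ft hp
      | true, false => nonneg_of_checkFour firstD_MG_tf hp
      | true, true => nonneg_of_checkFour firstD_MG_tt hp
  · exact fun
      | false, false => nonneg_of_checkFour firstD_One_ff hp
      | false, true => nonneg_of_checkFour firstD_One_ft hp
      | true, false => nonneg_of_checkFour firstD_One_tf hp
      | true, true => nonneg_of_checkFour firstD_One_tt hp
  · exact fun
      | false, false, false => nonneg_of_checkFour firstD_Two_fff hp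
      | false, false, true => nonneg_of_checkFour firstD_Two_fft hp
      | false, true, false => nonneg_of_checkFour firstD_Two_ftf hp
      | false, true, true => nonneg_of_checkFour firstD_Two_ftt hp
      | true, false, false => nonneg_of_checkFour firstD_Two_tff hp
      | true, false, true => nonneg_of_checkFour firstD_Two_tft hp
      | true, true, false => nonneg_of_checkFour firstD_Two_ttf hp
      | true, true, true => nonneg_of_checkFour firstD_Two_ttt hp
  · exact fun
      | false, false, false, false => nonneg_of_checkFour firstD_Three_ffff hp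
      | false, false, false, true => nonneg_of_checkFour firstD_Three_ffft hp
      | false, false, true, false => nonneg_of_checkFour firstD_Three_fftf hp
      | false, false, true, true => nonneg_of_checkFour firstD_Three_fftt hp
      | false, true, false, false => nonneg_of_checkFour firstD_Three_ftff hp
      | false, true, false, true => nonneg_of_checkFour firstD_Three_ftft hp
      | false, true, true, false => nonneg_of_checkFour firstD_Three_fttf hp
      | false, true, true, true => nonneg_of_checkFour firstD_Three_fttt hp
      | true, false, false, false => nonneg_of_checkFour firstD_Three_tfff hp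
      | true, false, false, true => nonneg_of_checkFour firstD_Three_tfft hp
      | true, false, true, false => nonneg_of_checkFour firstD_Three_tftf hp
      | true, false, true, true => nonneg_of_checkFour firstD_Three_tftt hp
      | true, true, false, false => nonneg_of_checkFour firstD_Three_ttff hp
      | true, true, false, true => nonneg_of_checkFour firstD_Three_ttft hp
      | true, true, true, false => nonneg_of_checkFour firstD_Three_tttf hp
      | true, true, true, true => nonneg_of_checkFour firstD_Three_tttt hp
  · exact nonneg_of_checkFour firstD_cMG hp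
  · exact fun
      | false => nonneg_of_checkFour firstD_c2_f hp
      | true => nonneg_of_checkFour firstD_c2_t hp
  · exact fun
      | false => nonneg_of_checkFour firstD_c3_f hp
      | true => nonneg_of_checkFour firstD_c3_t hp
  · exact fun
      | false => nonneg_of_checkFour firstD_sT_f hp
      | true => nonneg_of_checkFour firstD_sT_t hp
  · exact fun
      | false, .l0 => nonneg_of_checkFour firstD_l0_f hp
      | false, .l1 => nonneg_of_checkFour firstD_l1_f hp
      | false, .r => nonneg_of_checkFour firstD_r_f hp
      | false, .g0 => nonneg_of_checkFour firstD_g0_f hp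
      | false, .g1 => nonneg_of_checkFour firstD_g1_f hp
      | false, .t0 => nonneg_of_checkFour firstD_t0_f hp
      | false, .t1 => nonneg_of_checkFour firstD_t1_f hp
      | true, .l0 => nonneg_of_checkFour firstD_l0_t hp
      | true, .l1 => nonneg_of_checkFour firstD_l1_t hp
      | true, .r => nonneg_of_checkFour firstD_r_t hp
      | true, .g0 => nonneg_of_checkFour firstD_g0_t hp
      | true, .g1 => nonneg_of_checkFour firstD_g1_t hp
      | true, .t0 => nonneg_of_checkFour firstD_t0_t hp
      | true, .t1 => nonneg_of_checkFour firstD_t1_t hp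
  · exact fun
      | false, .w0 => nonneg_of_checkFour firstD_w0_f hp
      | false, .w1 => nonneg_of_checkFour firstD_w1_f hp
      | false, .top => nonneg_of_checkFour firstD_top_f hp
      | false, .pend => nonneg_of_checkFour firstD_pend_f hp
      | true, .w0 => nonneg_of_checkFour firstD_w0_t hp
      | true, .w1 => nonneg_of_checkFour firstD_w1_t hp
      | true, .top => nonneg_of_checkFour firstD_top_t hp
      | true, .pend => nonneg_of_checkFour firstD_pend_t hp
  · exact fun
      | false, false => nonneg_of_checkFour firstD_gap_ff hp
      | false, true => nonneg_of_checkFour firstD_gap_ft hp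
      | true, false => nonneg_of_checkFour firstD_gap_tf hp
      | true, true => nonneg_of_checkFour firstD_gap_tt hp

/-- A coordinate of a box. -/
theorem first_side {A B den : ℕ} (C : Chart) (hC : C = ⟨(A : ℤ), (B : ℤ), (den : ℤ), (den : ℤ)⟩)
    (hden : 0 < den) {y : ℝ} (h1 : (A : ℝ) / den ≤ y) (h2 : y < (B : ℝ) / den) :
    ∃ t : ℝ, 0 ≤ t ∧ 0 < (C.c : ℝ) + C.d * t ∧ (C.a : ℝ) + C.b * t = y * ((C.c : ℝ) + C.d * t) := by
  have hd : (0 : ℝ) < den := by exact_mod_cast hden
  subst hC
  rw [div_le_iff₀ hd] at h1
  rw [lt_div_iff₀ hd] at h2
  exact AllLow.side_point hden (by exact_mod_cast h1) (by exact_mod_cast h2)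

theorem first_Y {y : ℝ} (h1 : -(1 / 10) ≤ y) (h2 : y < 2 / 5) :
    ∃ t : ℝ, 0 ≤ t ∧ 0 < ((10 : ℤ) : ℝ) + ((10 : ℤ) : ℝ) * t ∧
      ((-1 : ℤ) : ℝ) + ((4 : ℤ) : ℝ) * t = y * (((10 : ℤ) : ℝ) + ((10 : ℤ) : ℝ) * t) :=
  AllLow.side_point (A := -1) (B := 4) (den := 10) (by norm_num) (by push_cast; linarith)
    (by push_cast; linarith)

/-- **The closed signs of the strip on `0 < u ≤ 1/10`**, `n ≥ 7`, between the sharp bands. -/
theorem signs_first_strip {n : ℕ} {d S u v t : ℝ} (hn : 7 ≤ n) (hb : All.ChartBox n d S)
    (ha : 31 / 100 < (S - d) / 2) (hF : All.ChartFacts d S u v t) (hu : u ≤ 1 / 10)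
    (hv : v < (1 - S) * (7 / 5))
    (hl : tightLowG ((S - d) / 2) ((S + d) / 2) u v ≤ chH d S u v t)
    (hr : chH d S u v t ≤ tightUpG ((S - d) / 2) ((S + d) / 2) u v) :
    Strip.ChartSigns d S u v t := by
  have hS1 : 0 < 1 - S := sub_pos.2 hb.S_lt
  have hS0 : 0 < S := by linarith [hb.S_low]
  have hd := hb.pos
  have h7 : (7 : ℝ) < 2 / (1 - S) := lt_of_le_of_lt (by exact_mod_cast hn) hb.dim_low
  rw [lt_div_iff₀ hS1] at h7
  obtain ⟨I, hI⟩ : ∃ I, I = (1 - S) / 2 := ⟨_, rfl⟩
  have hI0 : 0 < I := by linarith
  have eS : S = 1 - 2 * I := by linarith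
  obtain ⟨Y, hY⟩ : ∃ Y, Y = v / (1 - S) - 1 := ⟨_, rfl⟩
  have eV : v = 2 * I * (1 + Y) := by rw [hY, hI]; field_simp; ring
  have hY1 : Y < 2 / 5 := by
    refine lt_of_mul_lt_mul_left (a := 2 * I) ?_ (by linarith)
    rw [eS] at hv
    linarith
  have hY0 : -(1 / 10) ≤ Y := by
    by_contra hh
    have hc := hF.v_crit
    have e1 : 0 ≤ 2 + (S - d) * (1 - S) := by
      have := mul_nonneg (show 0 ≤ S - d by linarith) hS1.le
      linarith
    have e2 := mul_le_mul_of_nonneg_right (show v ≤ 2 * I * (9 / 10) by
      rw [eV]; exact mul_le_mul_of_nonneg_left (by linarith [not_le.1 hh]) (by linarith)) e1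
    have e3 : (S - d) * (1 - S) ≤ 10 / 49 := by
      have h1 := mul_nonneg (show 0 ≤ 2 / 7 - (1 - S) by linarith)
        (show 0 ≤ 5 / 7 - (1 - S) by linarith)
      have h2 := mul_pos hd hS1
      linarith
    have e4 := mul_le_mul_of_nonneg_left (show 2 + (S - d) * (1 - S) ≤ 20 / 9 by linarith)
      (show 0 ≤ 2 * I * (9 / 10) by positivity)
    rw [hI] at e2 e4
    linarith
  have hu0 := hF.u_pos
  have hu1 : u < 101 / 1000 := by linarith
  have hI7 : I < 1 / 7 := by linarith
  have hdI : 2 * I + d < 19 / 50 := by linarith
  rcases le_or_gt ((1 - I) * d) (S * I) with hk | hk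
  · have hdlt : d < I := by
      refine lt_of_mul_lt_mul_left (a := 1 - I) (hk.trans_lt ?_) (by linarith)
      exact mul_lt_mul_of_pos_right (by linarith) hI0
    let x : ℕ → ℝ := fun i => if i = 0 then I else if i = 1 then d / I else if i = 2 then Y else u
    have hx : Places firstA x d S u v := ⟨by simp [xd, kD, firstA, Ex.eval, x]; field_simp,
      by simp [xI, kI, firstA, Ex.eval, x, hI],
      by simp [xv, kV, kI, firstA, Ex.eval, x]; linarith, by simp [x]⟩
    refine signs_first hb hF ha firstA_pos hx (by rw [hx.hI]; linarith) (by norm_num [firstA, fr])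
      (kap_of_kind (by rw [hx.hI]; linarith) (by rw [hx.hS]; exact hS0) (by rw [hx.hd]; exact hd)
        (fun _ => by rw [hx.hI, hx.hd, hx.hS, ← hI]; exact hk) (fun h => absurd rfl h))
      hl hr (firstA_checks fun i hi => ?_)
    interval_cases i
    · exact first_side (A := 0) (B := 1) (den := 7) _ rfl (by norm_num) (by simp [x]; linarith)
        (by simp [x]; linarith)
    · exact first_side (A := 0) (B := 1) (den := 1) _ rfl (by norm_num)
        (by simp [x]; positivity) (by simp [x]; rw [div_lt_one hI0]; exact hdlt)
    · exact first_Y hY0 hY1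
    · exact first_side (A := 0) (B := 101) (den := 1000) _ rfl (by norm_num)
        (by simp [x]; linarith) (by simp [x]; linarith)
  have hkB : ∀ (P : Piece) (x : ℕ → ℝ), Places P x d S u v → P.kind ≠ .A →
      (AllN.kapAll (1 / xI P x) (xa P x) + 1) / xd P x = kap P x := fun P x hx hne =>
    kap_of_kind (by rw [hx.hI]; linarith) (by rw [hx.hS]; exact hS0) (by rw [hx.hd]; exact hd)
      (fun h => absurd h hne) (fun _ => by rw [hx.hI, hx.hd, hx.hS, ← hI]; exact hk.le)
  rcases lt_or_ge d (3 / 25) with h1 | h1
  · have hr1 : I / d < 6 / 5 := by
      rw [div_lt_iff₀ hd]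
      rw [eS] at hk
      by_contra hh
      have h6 := mul_le_mul_of_nonneg_left (not_lt.1 hh) (show 0 ≤ 1 - I by linarith)
      have h7' := mul_lt_mul_of_pos_left (show 7 * I < 1 by linarith) hI0
      linarith
    let x : ℕ → ℝ := fun i => if i = 0 then d else if i = 1 then I / d else if i = 2 then Y else u
    have hx : Places firstB x d S u v := ⟨by simp [xd, kD, firstB, Ex.eval, x],
      by simp [xI, kI, firstB, Ex.eval, x, ← hI]; field_simp,
      by simp [xv, kV, kI, firstB, Ex.eval, x]; rw [div_mul_cancel₀ I hd.ne']; linarith,
      by simp [x]⟩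
    refine signs_first hb hF ha firstB_pos hx (by rw [hx.hI]; linarith) (by norm_num [firstB, fr])
      (hkB _ _ hx (by simp [firstB])) hl hr (firstB_checks fun i hi => ?_)
    interval_cases i
    · exact first_side (A := 0) (B := 12) (den := 100) _ rfl (by norm_num)
        (by simp [x]; linarith) (by simp [x]; linarith)
    · exact first_side (A := 0) (B := 6) (den := 5) _ rfl (by norm_num)
        (by simp [x]; positivity) (by simpa [x] using hr1)
    · exact first_Y hY0 hY1
    · exact first_side (A := 0) (B := 101) (den := 1000) _ rfl (by norm_num)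
        (by simp [x]; linarith) (by simp [x]; linarith)
  let x : ℕ → ℝ := fun i => if i = 0 then I else if i = 1 then d else if i = 2 then Y else u
  rcases lt_or_ge d (11 / 50) with h2 | h2
  · have hx : Places firstC x d S u v := ⟨by simp [xd, kD, firstC, Ex.eval, x],
      by simp [xI, kI, firstC, Ex.eval, x, hI], by simp [xv, kV, kI, firstC, Ex.eval, x]; linarith,
      by simp [x]⟩
    refine signs_first hb hF ha firstC_pos hx (by rw [hx.hI]; linarith) (by norm_num [firstC, fr])
      (hkB _ _ hx (by simp [firstC])) hl hr (firstC_checks fun i hi => ?_)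
    interval_cases i
    · exact first_side (A := 0) (B := 13) (den := 100) _ rfl (by norm_num)
        (by simp [x]; linarith) (by simp [x]; linarith)
    · exact first_side (A := 12) (B := 22) (den := 100) _ rfl (by norm_num)
        (by simp [x]; linarith) (by simp [x]; linarith)
    · exact first_Y hY0 hY1
    · exact first_side (A := 0) (B := 101) (den := 1000) _ rfl (by norm_num)
        (by simp [x]; linarith) (by simp [x]; linarith)
  · have hx : Places firstD x d S u v := ⟨by simp [xd, kD, firstD, Ex.eval, x],
      by simp [xI, kI, firstD, Ex.eval, x, hI], by simp [xv, kV, kI, firstD, Ex.eval, x]; linarith,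
      by simp [x]⟩
    refine signs_first hb hF ha firstD_pos hx (by rw [hx.hI]; linarith) (by norm_num [firstD, fr])
      (hkB _ _ hx (by simp [firstD])) hl hr (firstD_checks fun i hi => ?_)
    interval_cases i
    · exact first_side (A := 0) (B := 8) (den := 100) _ rfl (by norm_num)
        (by simp [x]; linarith) (by simp [x]; linarith)
    · exact first_side (A := 22) (B := 38) (den := 100) _ rfl (by norm_num)
        (by simp [x]; linarith) (by simp [x]; linarith)
    · exact first_Y hY0 hY1
    · exact first_side (A := 0) (B := 101) (den := 1000) _ rfl (by norm_num)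
        (by simp [x]; linarith) (by simp [x]; linarith)

end Vale.Agent.P100.Calib.StripMid
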