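import Vale.Agent.P100.Calib.SlabAllLowExpr

/-!
# The packed numerators of the upper bands of the strip in the variables `(w, K, I, tau)`

Each quantity of `StripAtoms` times powers of the denominators of the chart.
-/

namespace Vale.Agent.P100.Calib.Band.AllLow

open Pack

local instance stripUpBAdd : Add Pack.Ex := ⟨Ex.add⟩
local instance stripUpBSub : Sub Pack.Ex := ⟨Ex.sub⟩
local instance stripUpBMul : Mul Pack.Ex := ⟨Ex.mul⟩

/-- A packed quantity. -/
def eStripUpBS0 : Pack.Ex := (eN 1) - ((eN 2) * (Ex.var 2))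

/-- A packed quantity. -/
def eStripUpBY : Pack.Ex := (eN 1) - (Ex.var 1)

/-- A packed quantity. -/
def eStripUpBIt : Pack.Ex := (Ex.var 2) * (Ex.var 3)

/-- A packed quantity. -/
def eStripUpBK1 : Pack.Ex := (eN 2) * ((eStripUpBS0 * eStripUpBY) + eStripUpBIt)

/-- A packed quantity. -/
def eStripUpBK2 : Pack.Ex := (eN 1) - ((eN 2) * (Ex.var 2))

/-- A packed quantity. -/
def eStripUpB_w : Pack.Ex := Ex.var 0

/-- A packed quantity. -/
def eStripUpB_v : Pack.Ex := (eN 1) * eStripUpBK1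

/-- A packed quantity. -/
def eStripUpB_I : Pack.Ex := Ex.var 2

/-- A packed quantity. -/
def eStripUpB_S : Pack.Ex := (eN 1) - ((eN 2) * (Ex.var 2))

/-- A packed quantity. -/
def eStripUpB_d : Pack.Ex := (eN 2) * (eStripUpBS0 * eStripUpBIt)

/-- A packed quantity. -/
def eStripUpB_a : Pack.Ex := (eStripUpBS0 * eStripUpBS0) * eStripUpBY

/-- A packed quantity. -/
def eStripUpB_b : Pack.Ex := ((eStripUpBS0 * eStripUpBS0) * eStripUpBY) + ((eN 2) * (eStripUpBS0
    * eStripUpBIt))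

/-- A packed quantity. -/
def eStripUpB_K : Pack.Ex := Ex.var 1

/-- A packed quantity. -/
def eStripUpB_IT : Pack.Ex := (Ex.var 2) - eStripUpBIt

/-- A packed quantity. -/
def eStripUpB_dv : Pack.Ex := (eN 2) * eStripUpBIt

/-- A packed quantity. -/
def eStripUpB_T : Pack.Ex := (eN 1) - (Ex.var 3)

/-- A packed quantity. -/
def eStripUpB_q : Pack.Ex := eStripUpBK2 + eStripUpB_dv

/-- A packed quantity. -/
def eStripUpB_D0 : Pack.Ex := ((eN 2) * eStripUpBK2) + eStripUpB_dv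

/-- A packed quantity. -/
def eStripUpB_u : Pack.Ex := (eN 1) - eStripUpB_w

/-- A packed quantity. -/
def eStripUpB_qu : Pack.Ex := eStripUpB_q * eStripUpB_u

/-- A packed quantity. -/
def eStripUpB_P : Pack.Ex := (eStripUpB_b * eStripUpBK2) - (eStripUpB_a * eStripUpB_qu)

/-- A packed quantity. -/
def eStripUpB_qn : Pack.Ex := (eStripUpB_b * eStripUpB_D0) - ((eStripUpB_S * eStripUpB_qu) *
    eStripUpBK1)

/-- A packed quantity. -/
def eStripUpB_ud : Pack.Ex := eStripUpB_u * eStripUpB_d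

/-- A packed quantity. -/
def eStripUpB_e1 : Pack.Ex := eStripUpB_ud * (eStripUpB_qn - ((eStripUpB_S * (eStripUpB_w *
    eStripUpB_b)) * eStripUpBK2))

/-- A packed quantity. -/
def eStripUpB_E0 : Pack.Ex := eStripUpB_qn - (eStripUpB_S * (eStripUpB_w * (eStripUpB_b *
    eStripUpB_D0)))

/-- A packed quantity. -/
def eStripUpB_f0 : Pack.Ex := eStripUpB_qn + ((eStripUpB_S * (eStripUpB_K * eStripUpB_ud)) *
    eStripUpBK2)

/-- A packed quantity. -/
def eStripUpB_N : Pack.Ex := eStripUpB_S * (eStripUpB_K * eStripUpB_D0)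

/-- A packed quantity. -/
def eStripUpB_A0 : Pack.Ex := (eStripUpB_N * (Ex.pow eStripUpBK2 2)) + (eStripUpB_S *
    (eStripUpB_v * eStripUpB_D0))

/-- A packed quantity. -/
def eStripUpB_A1 : Pack.Ex := (eStripUpB_f0 * eStripUpBK2) + (eStripUpB_S * (eStripUpB_v *
    eStripUpB_ud))

/-- A packed quantity. -/
def eStripUpB_upK : Pack.Ex := ((eN 100) * eStripUpB_b) - (eStripUpB_a * (eStripUpB_u * ((eN 155)
    - ((eN 105) * eStripUpB_u))))

/-- A packed quantity. -/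
def eStripUpB_upKu : Pack.Ex := ((eN 0) * eStripUpBK1) - (eStripUpB_a * ((eN 155) - ((eN 210) *
    eStripUpB_u)))

/-- A packed quantity. -/
def eStripUpB_upP0 : Pack.Ex := (((((eN 653) * eStripUpB_I) * eStripUpBK1) + ((eN 189) *
    (eStripUpB_a * eStripUpB_I))) - (((eN 828) * (eStripUpB_I * eStripUpB_I)) * eStripUpBK1)) -
    ((eN 398) * eStripUpBK1)

/-- A packed quantity. -/
def eStripUpB_upP1 : Pack.Ex := (((((eN 464) * eStripUpBK1) - ((eN 1676) * eStripUpB_a)) *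
    eStripUpBK1) + ((eN 1565) * (eStripUpB_a * eStripUpB_a))) + (eStripUpB_I * (((((eN 5790) *
    eStripUpB_a) * eStripUpBK1) + ((eN 1661) * (eStripUpB_a * eStripUpB_a))) - ((eN 2620) *
    (Ex.pow eStripUpBK1 2))))

/-- A packed quantity. -/
def eStripUpB_upP2 : Pack.Ex := (((((eN 8980) * eStripUpB_a) - ((eN 1503) * eStripUpBK1)) *
    eStripUpBK1) - ((eN 13330) * (eStripUpB_a * eStripUpB_a))) + (eStripUpB_I * (((((eN 4840) *
    eStripUpBK1) - ((eN 15870) * eStripUpB_a)) * eStripUpBK1) + ((eN 1947) * (eStripUpB_a *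
    eStripUpB_a))))

/-- A packed quantity. -/
def eStripUpB_upPsi : Pack.Ex := (eStripUpB_upP0 * eStripUpBK1) + (eStripUpB_u * (eStripUpB_upP1
    + (eStripUpB_u * (eStripUpB_upP2 + (((eN 60) * (eStripUpB_u * eStripUpB_u)) * (Ex.pow
    eStripUpBK1 2))))))

/-- A packed quantity. -/
def eStripUpB_upPsiU : Pack.Ex := eStripUpB_upP1 + (eStripUpB_u * (((eN 2) * eStripUpB_upP2) +
    (((eN 240) * (eStripUpB_u * eStripUpB_u)) * (Ex.pow eStripUpBK1 2))))

/-- A packed quantity. -/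
def eStripUpB_upN : Pack.Ex := (((((eN 100) * eStripUpBK1) * (Ex.pow eStripUpBK2 2)) +
    (eStripUpB_upK * eStripUpB_v)) * eStripUpBK1) + ((eStripUpB_I * eStripUpB_upPsi) * (Ex.pow
    eStripUpBK2 2))

/-- A packed quantity. -/
def eStripUpB_upNu : Pack.Ex := ((eStripUpB_upKu * eStripUpB_v) * eStripUpBK1) + ((eStripUpB_I *
    eStripUpB_upPsiU) * (Ex.pow eStripUpBK2 2))

/-- A packed quantity. -/
def eStripUpB_upW : Pack.Ex := (eN 100) * (eStripUpB_b - (eStripUpB_u * eStripUpB_a))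

/-- A packed quantity. -/
def eStripUpB_upEn : Pack.Ex := (((eStripUpB_E0 * eStripUpB_upW) * (Ex.pow eStripUpBK1 2)) *
    (Ex.pow eStripUpBK2 2)) - (eStripUpB_e1 * eStripUpB_upN)

/-- A packed quantity. -/
def eStripUpB_upFl : Pack.Ex := (eStripUpB_f0 * eStripUpB_upN) - (((eStripUpB_N * eStripUpB_upW)
    * (Ex.pow eStripUpBK1 2)) * (Ex.pow eStripUpBK2 2))

/-- A packed quantity. -/
def eStripUpB_upFh : Pack.Ex := ((((((eStripUpB_A0 * (eStripUpB_upW * eStripUpB_upW)) * (Ex.pow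
    eStripUpBK1 2)) * (Ex.pow eStripUpBK2 2)) - ((((eStripUpB_A1 * eStripUpBK2) + (eStripUpB_ud *
    eStripUpB_A0)) + (eStripUpB_E0 * (Ex.pow eStripUpBK2 2))) * (eStripUpB_upN * eStripUpB_upW)))
    * (Ex.pow eStripUpBK1 2)) * eStripUpBK2) + (((eStripUpB_ud * eStripUpB_A1) + (eStripUpB_e1 *
    eStripUpBK2)) * (eStripUpB_upN * eStripUpB_upN))

/-- A packed quantity. -/
def eStripUpB_upFwd : Pack.Ex := (((((eStripUpB_upNu * eStripUpB_upW) + (eStripUpB_upN * ((eN
    100) * eStripUpB_a))) * (eStripUpB_u * eStripUpB_upEn)) + (((eStripUpB_upK * (eStripUpB_qu *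
    (eStripUpB_upFl * eStripUpB_upW))) * (Ex.pow eStripUpBK1 2)) * eStripUpBK2)) * eStripUpBK2) -
    (eStripUpB_upFh * eStripUpB_upW)

/-- A packed quantity. -/
def eStripUpB_upDen : Pack.Ex := (((eStripUpB_D0 * eStripUpB_upW) * (Ex.pow eStripUpBK1 2)) *
    eStripUpBK2) - (eStripUpB_ud * eStripUpB_upN)

/-- A packed quantity. -/
def eStripUpB_upKI : Pack.Ex := eStripUpB_K * eStripUpB_IT

/-- A packed quantity. -/
def eStripUpB_upG : Pack.Ex := ((eN 20) * (eStripUpB_S * (eStripUpB_v * eStripUpB_q))) - ((((eN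
    14) + ((eN 6) * eStripUpB_u)) * eStripUpB_upKI) * (Ex.pow eStripUpBK2 3))

/-- A packed quantity. -/
def eStripUpB_upGu : Pack.Ex := (eN 0) - ((eN 6) * eStripUpB_upKI)

/-- A packed quantity. -/
def eStripUpB_upGv : Pack.Ex := (((eN 20) * (eStripUpB_S * (eStripUpBK2 + ((eN 2) *
    eStripUpB_dv)))) * eStripUpBK1) + ((((eN 7) + ((eN 3) * eStripUpB_u)) * (((eN 2) *
    (eStripUpB_a * eStripUpB_IT)) + (eStripUpB_K * (eStripUpB_S * eStripUpB_d)))) * eStripUpBK2)

/-- A packed quantity. -/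
def eStripUpB_upM : Pack.Ex := (((eN 20) * eStripUpB_K) * (Ex.pow eStripUpBK2 3)) - (eStripUpB_w
    * eStripUpB_upG)

/-- A packed quantity. -/
def eStripUpB_upFU : Pack.Ex := (eN 5) * (((eStripUpB_w * eStripUpB_upGu) * (Ex.pow eStripUpBK2
    3)) - eStripUpB_upG)

/-- A packed quantity. -/
def eStripUpB_upFV : Pack.Ex := (((eN 100) * eStripUpB_a) * eStripUpBK2) + ((eN 5) * (eStripUpB_w
    * eStripUpB_upGv))

/-- A packed quantity. -/
def eStripUpB_upC0 : Pack.Ex := ((eStripUpB_upFU * (eStripUpB_u * eStripUpB_E0)) -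
    ((eStripUpB_upFV * (eStripUpB_qu * eStripUpB_N)) * eStripUpBK2)) + ((eN 100) * (eStripUpB_P *
    eStripUpB_A0))

/-- A packed quantity. -/
def eStripUpB_upC1 : Pack.Ex := (((((((eN 100) * (eStripUpB_a * (eStripUpB_ud * (eStripUpB_qu *
    eStripUpB_N)))) * eStripUpBK2) + (eStripUpB_upFV * (eStripUpB_qu * eStripUpB_f0))) - (((eN
    100) * (eStripUpB_a * (eStripUpB_qu * eStripUpB_E0))) * eStripUpBK2)) * eStripUpBK2) -
    (eStripUpB_upFU * (eStripUpB_u * eStripUpB_e1))) - ((eN 100) * (eStripUpB_P * (((eStripUpB_A1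
    * eStripUpBK2) + (eStripUpB_ud * eStripUpB_A0)) + (eStripUpB_E0 * (Ex.pow eStripUpBK2 2)))))

/-- A packed quantity. -/
def eStripUpB_upC2 : Pack.Ex := ((((eN 100) * (eStripUpB_a * (eStripUpB_qu * eStripUpB_e1))) -
    ((eN 100) * (eStripUpB_a * (eStripUpB_ud * (eStripUpB_qu * eStripUpB_f0))))) * eStripUpBK2) +
    ((eN 100) * (eStripUpB_P * ((eStripUpB_ud * eStripUpB_A1) + (eStripUpB_e1 * eStripUpBK2))))

/-- A packed quantity. -/
def eStripUpB_upA : Pack.Ex := ((eStripUpB_upC2 * (eStripUpB_upM * eStripUpB_upM)) + (((eN 20) *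
    (eStripUpB_upC1 * (eStripUpB_upM * eStripUpB_P))) * eStripUpBK2)) + (((eN 400) *
    (eStripUpB_upC0 * (eStripUpB_P * eStripUpB_P))) * (Ex.pow eStripUpBK2 3))

/-- A packed quantity. -/
def eStripUpB_upGap : Pack.Ex := (eStripUpB_upN * ((eN 20) * eStripUpB_P)) - ((eStripUpB_upM *
    eStripUpB_upW) * (Ex.pow eStripUpBK1 2))

/-- A packed quantity. -/
def eStripUpB_upAm : Pack.Ex := (((eN 5000) * eStripUpB_upA) * (Ex.pow eStripUpBK1 2)) - ((((eN
    888) - ((eN 1000) * eStripUpB_u)) * ((((eN 93) * eStripUpBK1) + ((eN 340) * eStripUpB_d)) *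
    (eStripUpB_w * (eStripUpB_P * (eStripUpB_K * (eStripUpB_T * eStripUpB_upGap)))))) * (Ex.pow
    eStripUpBK2 5))

/-- A packed quantity. -/
def eStripUpB_upB : Pack.Ex := (((eN 20) * (eStripUpB_upC1 * eStripUpB_P)) * eStripUpBK2) + ((eN
    2) * (eStripUpB_upC2 * eStripUpB_upM))

/-- A packed quantity. -/
def eStripUpB_upC : Pack.Ex := (eStripUpB_d * eStripUpB_upC1) + (((eN 2) * eStripUpB_upC2) *
    eStripUpBK2)

/-- A condition less a monomial. -/
def eStripUpBFwdLess : Pack.Ex := eStripUpB_upFwd - ((Ex.pow (Ex.var 0) 3) * ((Ex.var 1) *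
    ((Ex.pow (Ex.var 2) 3) * (Ex.pow (Ex.var 3) 2))))

/-- A condition less a monomial. -/
def eStripUpBDenLess : Pack.Ex := eStripUpB_upDen - ((Ex.var 0) * ((Ex.var 1) * ((Ex.var 2) *
    (Ex.var 3))))

/-- A condition less a monomial. -/
def eStripUpBEndLess : Pack.Ex := eStripUpB_upA - ((Ex.pow (Ex.var 0) 3) * ((Ex.pow (Ex.var 1) 2)
    * ((Ex.pow (Ex.var 2) 3) * (Ex.pow (Ex.var 3) 2))))

/-- A condition less a monomial. -/
def eStripUpBMidLess : Pack.Ex := eStripUpB_upAm - ((Ex.var 0) * ((Ex.var 1) * ((Ex.var 2) *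
    (Ex.var 3))))

end Vale.Agent.P100.Calib.Band.AllLow
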