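import Vale.Agent.P100.Calib.SlabAllLowExpr

/-!
# The packed numerators of the upper bands of the strip in the variables `(w, v, rho, theta)`

Each quantity of `StripAtoms` times powers of the denominators of the chart.
-/

namespace Vale.Agent.P100.Calib.Band.AllLow

open Pack

local instance stripUpCAdd : Add Pack.Ex := ⟨Ex.add⟩
local instance stripUpCSub : Sub Pack.Ex := ⟨Ex.sub⟩
local instance stripUpCMul : Mul Pack.Ex := ⟨Ex.mul⟩

/-- A packed quantity. -/
def eStripUpCSg : Pack.Ex := (eN 1) + ((Ex.var 1) * (Ex.var 2))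

/-- A packed quantity. -/
def eStripUpCK1 : Pack.Ex := (eN 100) * eStripUpCSg

/-- A packed quantity. -/
def eStripUpCK2 : Pack.Ex := (eN 1) * (Ex.var 2)

/-- A packed quantity. -/
def eStripUpCTh : Pack.Ex := (Ex.var 3) * (((eN 19) * eStripUpCSg) - ((eN 50) * ((Ex.var 1) *
    (Ex.var 2))))

/-- A packed quantity. -/
def eStripUpC_w : Pack.Ex := Ex.var 0

/-- A packed quantity. -/
def eStripUpC_v : Pack.Ex := Ex.var 1

/-- A packed quantity. -/
def eStripUpC_I : Pack.Ex := (eN 50) * ((Ex.var 1) * (Ex.var 2))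

/-- A packed quantity. -/
def eStripUpC_S : Pack.Ex := eN 100

/-- A packed quantity. -/
def eStripUpC_d : Pack.Ex := (eN 2) * eStripUpCTh

/-- A packed quantity. -/
def eStripUpC_a : Pack.Ex := (eN 50) - eStripUpCTh

/-- A packed quantity. -/
def eStripUpC_b : Pack.Ex := (eN 50) + eStripUpCTh

/-- A packed quantity. -/
def eStripUpC_K : Pack.Ex := eStripUpCK1 - ((Ex.var 1) * ((eN 50) - eStripUpCTh))

/-- A packed quantity. -/
def eStripUpC_IT : Pack.Ex := (((eN 50) * ((Ex.var 1) * (Ex.var 2))) * eStripUpCK1) - ((eN 100) *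
    (eStripUpCTh * (Ex.var 1)))

/-- A packed quantity. -/
def eStripUpC_dv : Pack.Ex := ((eN 2) * eStripUpCTh) * (Ex.var 1)

/-- A packed quantity. -/
def eStripUpC_T : Pack.Ex := ((Ex.var 2) * eStripUpCK1) - ((eN 2) * eStripUpCTh)

/-- A packed quantity. -/
def eStripUpC_q : Pack.Ex := eStripUpCK1 + eStripUpC_dv

/-- A packed quantity. -/
def eStripUpC_D0 : Pack.Ex := ((eN 2) * eStripUpCK1) + eStripUpC_dv

/-- A packed quantity. -/
def eStripUpC_u : Pack.Ex := (eN 1) - eStripUpC_w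

/-- A packed quantity. -/
def eStripUpC_qu : Pack.Ex := eStripUpC_q * eStripUpC_u

/-- A packed quantity. -/
def eStripUpC_P : Pack.Ex := (eStripUpC_b * eStripUpCK1) - (eStripUpC_a * eStripUpC_qu)

/-- A packed quantity. -/
def eStripUpC_qn : Pack.Ex := (eStripUpC_b * eStripUpC_D0) - (eStripUpC_S * eStripUpC_qu)

/-- A packed quantity. -/
def eStripUpC_ud : Pack.Ex := eStripUpC_u * eStripUpC_d

/-- A packed quantity. -/
def eStripUpC_e1 : Pack.Ex := eStripUpC_ud * (eStripUpC_qn - (eStripUpC_S * (eStripUpC_w *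
    eStripUpC_b)))

/-- A packed quantity. -/
def eStripUpC_E0 : Pack.Ex := (eStripUpC_qn * eStripUpCK1) - (eStripUpC_S * (eStripUpC_w *
    (eStripUpC_b * eStripUpC_D0)))

/-- A packed quantity. -/
def eStripUpC_f0 : Pack.Ex := (eStripUpC_qn * eStripUpCK1) + (eStripUpC_S * (eStripUpC_K *
    eStripUpC_ud))

/-- A packed quantity. -/
def eStripUpC_N : Pack.Ex := eStripUpC_S * (eStripUpC_K * eStripUpC_D0)

/-- A packed quantity. -/
def eStripUpC_A0 : Pack.Ex := eStripUpC_N + ((eStripUpC_S * (eStripUpC_v * eStripUpC_D0)) *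
    eStripUpCK1)

/-- A packed quantity. -/
def eStripUpC_A1 : Pack.Ex := eStripUpC_f0 + ((eStripUpC_S * (eStripUpC_v * eStripUpC_ud)) *
    eStripUpCK1)

/-- A packed quantity. -/
def eStripUpC_upK : Pack.Ex := ((eN 100) * eStripUpC_b) - (eStripUpC_a * (eStripUpC_u * ((eN 155)
    - ((eN 105) * eStripUpC_u))))

/-- A packed quantity. -/
def eStripUpC_upKu : Pack.Ex := ((eN 0) * eStripUpCK1) - (eStripUpC_a * ((eN 155) - ((eN 210) *
    eStripUpC_u)))

/-- A packed quantity. -/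
def eStripUpC_upP0 : Pack.Ex := (((((eN 653) * eStripUpC_I) * eStripUpCK1) + ((eN 189) *
    (eStripUpC_a * eStripUpC_I))) - ((eN 828) * (eStripUpC_I * eStripUpC_I))) - ((eN 398) *
    (Ex.pow eStripUpCK1 2))

/-- A packed quantity. -/
def eStripUpC_upP1 : Pack.Ex := ((((((eN 464) * eStripUpCK1) - ((eN 1676) * eStripUpC_a)) *
    eStripUpCK1) + ((eN 1565) * (eStripUpC_a * eStripUpC_a))) * eStripUpCK1) + (eStripUpC_I *
    (((((eN 5790) * eStripUpC_a) * eStripUpCK1) + ((eN 1661) * (eStripUpC_a * eStripUpC_a))) -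
    ((eN 2620) * (Ex.pow eStripUpCK1 2))))

/-- A packed quantity. -/
def eStripUpC_upP2 : Pack.Ex := ((((((eN 8980) * eStripUpC_a) - ((eN 1503) * eStripUpCK1)) *
    eStripUpCK1) - ((eN 13330) * (eStripUpC_a * eStripUpC_a))) * eStripUpCK1) + (eStripUpC_I *
    (((((eN 4840) * eStripUpCK1) - ((eN 15870) * eStripUpC_a)) * eStripUpCK1) + ((eN 1947) *
    (eStripUpC_a * eStripUpC_a))))

/-- A packed quantity. -/
def eStripUpC_upPsi : Pack.Ex := (eStripUpC_upP0 * eStripUpCK1) + (eStripUpC_u * (eStripUpC_upP1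
    + (eStripUpC_u * (eStripUpC_upP2 + (((eN 60) * (eStripUpC_u * eStripUpC_u)) * (Ex.pow
    eStripUpCK1 3))))))

/-- A packed quantity. -/
def eStripUpC_upPsiU : Pack.Ex := eStripUpC_upP1 + (eStripUpC_u * (((eN 2) * eStripUpC_upP2) +
    (((eN 240) * (eStripUpC_u * eStripUpC_u)) * (Ex.pow eStripUpCK1 3))))

/-- A packed quantity. -/
def eStripUpC_upN : Pack.Ex := ((((eN 100) * eStripUpCK1) + (eStripUpC_upK * eStripUpC_v)) *
    (Ex.pow eStripUpCK1 3)) + (eStripUpC_I * eStripUpC_upPsi)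

/-- A packed quantity. -/
def eStripUpC_upNu : Pack.Ex := ((eStripUpC_upKu * eStripUpC_v) * (Ex.pow eStripUpCK1 3)) +
    (eStripUpC_I * eStripUpC_upPsiU)

/-- A packed quantity. -/
def eStripUpC_upW : Pack.Ex := (eN 100) * (eStripUpC_b - (eStripUpC_u * eStripUpC_a))

/-- A packed quantity. -/
def eStripUpC_upEn : Pack.Ex := ((eStripUpC_E0 * eStripUpC_upW) * (Ex.pow eStripUpCK1 3)) -
    (eStripUpC_e1 * eStripUpC_upN)

/-- A packed quantity. -/
def eStripUpC_upFl : Pack.Ex := (eStripUpC_f0 * eStripUpC_upN) - ((eStripUpC_N * eStripUpC_upW) *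
    (Ex.pow eStripUpCK1 3))

/-- A packed quantity. -/
def eStripUpC_upFh : Pack.Ex := ((((eStripUpC_A0 * (eStripUpC_upW * eStripUpC_upW)) * (Ex.pow
    eStripUpCK1 4)) - ((((eStripUpC_A1 * eStripUpCK1) + (eStripUpC_ud * eStripUpC_A0)) +
    (eStripUpC_E0 * eStripUpCK1)) * (eStripUpC_upN * eStripUpC_upW))) * (Ex.pow eStripUpCK1 3)) +
    (((eStripUpC_ud * eStripUpC_A1) + (eStripUpC_e1 * eStripUpCK1)) * (eStripUpC_upN *
    eStripUpC_upN))

/-- A packed quantity. -/
def eStripUpC_upFwd : Pack.Ex := (((((eStripUpC_upNu * eStripUpC_upW) + (eStripUpC_upN * ((eN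
    100) * eStripUpC_a))) * (eStripUpC_u * eStripUpC_upEn)) + ((eStripUpC_upK * (eStripUpC_qu *
    (eStripUpC_upFl * eStripUpC_upW))) * (Ex.pow eStripUpCK1 2))) * eStripUpCK1) -
    (eStripUpC_upFh * eStripUpC_upW)

/-- A packed quantity. -/
def eStripUpC_upDen : Pack.Ex := ((eStripUpC_D0 * eStripUpC_upW) * (Ex.pow eStripUpCK1 3)) -
    (eStripUpC_ud * eStripUpC_upN)

/-- A packed quantity. -/
def eStripUpC_upKI : Pack.Ex := eStripUpC_K * eStripUpC_IT

/-- A packed quantity. -/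
def eStripUpC_upG : Pack.Ex := (((eN 20) * (eStripUpC_S * (eStripUpC_v * eStripUpC_q))) *
    eStripUpCK1) - (((eN 14) + ((eN 6) * eStripUpC_u)) * eStripUpC_upKI)

/-- A packed quantity. -/
def eStripUpC_upGu : Pack.Ex := ((eN 0) * (Ex.pow eStripUpCK1 3)) - ((eN 6) * eStripUpC_upKI)

/-- A packed quantity. -/
def eStripUpC_upGv : Pack.Ex := (((eN 20) * (eStripUpC_S * (eStripUpCK1 + ((eN 2) *
    eStripUpC_dv)))) * eStripUpCK1) + (((eN 7) + ((eN 3) * eStripUpC_u)) * (((eN 2) *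
    (eStripUpC_a * eStripUpC_IT)) + (eStripUpC_K * (eStripUpC_S * eStripUpC_d))))

/-- A packed quantity. -/
def eStripUpC_upM : Pack.Ex := (((eN 20) * eStripUpC_K) * (Ex.pow eStripUpCK1 2)) - (eStripUpC_w
    * eStripUpC_upG)

/-- A packed quantity. -/
def eStripUpC_upFU : Pack.Ex := (eN 5) * ((eStripUpC_w * eStripUpC_upGu) - eStripUpC_upG)

/-- A packed quantity. -/
def eStripUpC_upFV : Pack.Ex := (((eN 100) * eStripUpC_a) * (Ex.pow eStripUpCK1 2)) + ((eN 5) *
    (eStripUpC_w * eStripUpC_upGv))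

/-- A packed quantity. -/
def eStripUpC_upC0 : Pack.Ex := (((eStripUpC_upFU * (eStripUpC_u * eStripUpC_E0)) * eStripUpCK1)
    - (eStripUpC_upFV * (eStripUpC_qu * eStripUpC_N))) + (((eN 100) * (eStripUpC_P *
    eStripUpC_A0)) * (Ex.pow eStripUpCK1 2))

/-- A packed quantity. -/
def eStripUpC_upC1 : Pack.Ex := ((((((eN 100) * (eStripUpC_a * (eStripUpC_ud * (eStripUpC_qu *
    eStripUpC_N)))) * eStripUpCK1) + (eStripUpC_upFV * (eStripUpC_qu * eStripUpC_f0))) - (((eN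
    100) * (eStripUpC_a * (eStripUpC_qu * eStripUpC_E0))) * (Ex.pow eStripUpCK1 2))) -
    ((eStripUpC_upFU * (eStripUpC_u * eStripUpC_e1)) * eStripUpCK1)) - (((eN 100) * (eStripUpC_P
    * (((eStripUpC_A1 * eStripUpCK1) + (eStripUpC_ud * eStripUpC_A0)) + (eStripUpC_E0 *
    eStripUpCK1)))) * eStripUpCK1)

/-- A packed quantity. -/
def eStripUpC_upC2 : Pack.Ex := ((((eN 100) * (eStripUpC_a * (eStripUpC_qu * eStripUpC_e1))) *
    eStripUpCK1) - ((eN 100) * (eStripUpC_a * (eStripUpC_ud * (eStripUpC_qu * eStripUpC_f0))))) +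
    ((eN 100) * (eStripUpC_P * ((eStripUpC_ud * eStripUpC_A1) + (eStripUpC_e1 * eStripUpCK1))))

/-- A packed quantity. -/
def eStripUpC_upA : Pack.Ex := ((eStripUpC_upC2 * (eStripUpC_upM * eStripUpC_upM)) + ((eN 20) *
    (eStripUpC_upC1 * (eStripUpC_upM * eStripUpC_P)))) + (((eN 400) * (eStripUpC_upC0 *
    (eStripUpC_P * eStripUpC_P))) * eStripUpCK1)

/-- A packed quantity. -/
def eStripUpC_upGap : Pack.Ex := (eStripUpC_upN * ((eN 20) * eStripUpC_P)) - ((eStripUpC_upM *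
    eStripUpC_upW) * (Ex.pow eStripUpCK1 2))

/-- A packed quantity. -/
def eStripUpC_upAm : Pack.Ex := (((eN 5000) * eStripUpC_upA) * eStripUpCK2) - ((((eN 888) - ((eN
    1000) * eStripUpC_u)) * ((((eN 93) * eStripUpCK1) + ((eN 340) * eStripUpC_d)) * (eStripUpC_w
    * (eStripUpC_P * (eStripUpC_K * (eStripUpC_T * eStripUpC_upGap)))))) * eStripUpCK1)

/-- A packed quantity. -/
def eStripUpC_upB : Pack.Ex := ((eN 20) * (eStripUpC_upC1 * eStripUpC_P)) + ((eN 2) *
    (eStripUpC_upC2 * eStripUpC_upM))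

/-- A packed quantity. -/
def eStripUpC_upC : Pack.Ex := (eStripUpC_d * eStripUpC_upC1) + (((eN 2) * eStripUpC_upC2) *
    (Ex.pow eStripUpCK1 2))

/-- A condition less a monomial. -/
def eStripUpCFwdLess : Pack.Ex := eStripUpC_upFwd - ((Ex.var 0) * ((Ex.var 1) * ((Ex.var 2) *
    (Ex.var 3))))

/-- A condition less a monomial. -/
def eStripUpCDenLess : Pack.Ex := eStripUpC_upDen - (eN 1)

/-- A condition less a monomial. -/
def eStripUpCEndLess : Pack.Ex := eStripUpC_upA - ((Ex.pow (Ex.var 0) 2) * ((Ex.var 1) * ((Ex.pow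
    (Ex.var 2) 2) * (Ex.var 3))))

/-- A condition less a monomial. -/
def eStripUpCMidLess : Pack.Ex := eStripUpC_upAm - ((Ex.var 0) * ((Ex.var 1) * ((Ex.var 2) *
    (Ex.var 3))))

end Vale.Agent.P100.Calib.Band.AllLow
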