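import Vale.Agent.P100.Calib.SlabStripUpExprA
import Vale.Agent.P100.Calib.SlabStripUpExprB
import Vale.Agent.P100.Calib.SlabStripUpExprC

/-!
# The checks of the bounds of the flow in the strip

`flEnd`, `flMid` and `flMidC` in the three charts of `SlabStripUpCharts`.
-/

set_option linter.defProp false

namespace Vale.Agent.P100.Calib.Band.AllLow

open Pack

local instance stripFlAdd : Add Pack.Ex := ⟨Ex.add⟩
local instance stripFlSub : Sub Pack.Ex := ⟨Ex.sub⟩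
local instance stripFlMul : Mul Pack.Ex := ⟨Ex.mul⟩

/-- A packed quantity. -/
def eStripUpA_flEnd : Pack.Ex := (((eN 2) * (eStripUpA_I * (((eStripUpA_D0 * ((eN 20) *
    eStripUpA_P)) * eStripUpAK1) - (eStripUpA_ud * eStripUpA_upM)))) * eStripUpAK1) -
    ((eStripUpA_f0 * eStripUpA_upM) - ((eStripUpA_N * ((eN 20) * eStripUpA_P)) * eStripUpAK1))

/-- A packed quantity. -/
def eStripUpA_flMix : Pack.Ex := (((eN 4) * (eStripUpA_upM * eStripUpA_upW)) * (Ex.pow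
    eStripUpAK1 2)) + (eStripUpA_upN * ((eN 20) * eStripUpA_P))

/-- A packed quantity. -/
def eStripUpA_flMid : Pack.Ex := ((eStripUpA_I * (((eStripUpA_D0 * ((eN 100) * (eStripUpA_P *
    eStripUpA_upW))) * (Ex.pow eStripUpAK1 3)) - (eStripUpA_ud * eStripUpA_flMix))) *
    eStripUpAK1) - ((eStripUpA_f0 * eStripUpA_flMix) - ((eStripUpA_N * ((eN 100) * (eStripUpA_P *
    eStripUpA_upW))) * (Ex.pow eStripUpAK1 3)))

/-- A packed quantity. -/
def eStripUpC_flEnd : Pack.Ex := (((eN 2) * (eStripUpC_I * (((eStripUpC_D0 * ((eN 20) *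
    eStripUpC_P)) * eStripUpCK1) - (eStripUpC_ud * eStripUpC_upM)))) * eStripUpCK1) -
    ((eStripUpC_f0 * eStripUpC_upM) - ((eStripUpC_N * ((eN 20) * eStripUpC_P)) * eStripUpCK1))

/-- A packed quantity. -/
def eStripUpC_flMixC : Pack.Ex := (((eN 7) * (eStripUpC_upM * eStripUpC_upW)) * (Ex.pow
    eStripUpCK1 2)) + ((eN 3) * (eStripUpC_upN * ((eN 20) * eStripUpC_P)))

/-- A packed quantity. -/
def eStripUpC_flMidC : Pack.Ex := ((eStripUpC_I * (((eStripUpC_D0 * ((eN 200) * (eStripUpC_P *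
    eStripUpC_upW))) * (Ex.pow eStripUpCK1 3)) - (eStripUpC_ud * eStripUpC_flMixC))) *
    eStripUpCK1) - ((eStripUpC_f0 * eStripUpC_flMixC) - ((eStripUpC_N * ((eN 200) * (eStripUpC_P
    * eStripUpC_upW))) * (Ex.pow eStripUpCK1 3)))

/-- A packed quantity. -/
def eStripUpB_flEnd : Pack.Ex := (((eN 2) * (eStripUpB_I * (((eStripUpB_D0 * ((eN 20) *
    eStripUpB_P)) * eStripUpBK2) - (eStripUpB_ud * eStripUpB_upM)))) * eStripUpBK2) -
    ((eStripUpB_f0 * eStripUpB_upM) - ((eStripUpB_N * ((eN 20) * eStripUpB_P)) * (Ex.pow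
    eStripUpBK2 2)))

/-- A packed quantity. -/
def eStripUpB_flMix : Pack.Ex := (((eN 4) * (eStripUpB_upM * eStripUpB_upW)) * (Ex.pow
    eStripUpBK1 2)) + (eStripUpB_upN * ((eN 20) * eStripUpB_P))

/-- A packed quantity. -/
def eStripUpB_flMid : Pack.Ex := ((eStripUpB_I * ((((eStripUpB_D0 * ((eN 100) * (eStripUpB_P *
    eStripUpB_upW))) * (Ex.pow eStripUpBK1 2)) * eStripUpBK2) - (eStripUpB_ud *
    eStripUpB_flMix))) * eStripUpBK2) - ((eStripUpB_f0 * eStripUpB_flMix) - (((eStripUpB_N * ((eN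
    100) * (eStripUpB_P * eStripUpB_upW))) * (Ex.pow eStripUpBK1 2)) * (Ex.pow eStripUpBK2 2)))

/-- A box. -/
def stripFlowEndABox : ℕ → Chart
  | 0 => ⟨0, 14, 25, 25⟩ | 1 => ⟨0, 1, 5, 5⟩ | 2 => ⟨0, 2, 5, 5⟩ | _ => ⟨0, 1, 1, 1⟩

/-- The check of this box. -/
def stripFlowEndA_ok : checkFour stripFlowEndABox 80 3 6 7 4 eStripUpA_flEnd = true := by
  decide +kernel

/-- A box. -/
def stripFlowMidABox : ℕ → Chart
  | 0 => ⟨25, 56, 100, 100⟩ | 1 => ⟨0, 1, 5, 5⟩ | 2 => ⟨0, 2, 5, 5⟩ | _ => ⟨0, 1, 1, 1⟩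

/-- The check of this box. -/
def stripFlowMidA_ok : checkFour stripFlowMidABox 160 6 10 13 6 eStripUpA_flMid = true := by
  decide +kernel

/-- A box. -/
def stripFlowEndCBox : ℕ → Chart
  | 0 => ⟨0, 14, 25, 25⟩ | 1 => ⟨0, 1, 5, 5⟩ | 2 => ⟨12, 35, 30, 30⟩ | _ => ⟨0, 1, 1, 1⟩

/-- The check of this box. -/
def stripFlowEndC_ok : checkFour stripFlowEndCBox 140 3 8 6 4 eStripUpC_flEnd = true := by
  decide +kernel

/-- A box. -/
def stripFlowMidCBox : ℕ → Chart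
  | 0 => ⟨25, 56, 100, 100⟩ | 1 => ⟨0, 1, 5, 5⟩ | 2 => ⟨12, 35, 30, 30⟩ | _ => ⟨0, 1, 1, 1⟩

/-- The check of this box. -/
def stripFlowMidC_ok : checkFour stripFlowMidCBox 230 6 12 9 6 eStripUpC_flMidC = true := by
  decide +kernel

/-- A box. -/
def stripFlowEndBBox : ℕ → Chart
  | 0 => ⟨0, 14, 25, 25⟩ | 1 => ⟨0, 469, 500, 500⟩ | 2 => ⟨1, 0, 20, 20⟩ | _ => ⟨0, 1, 1, 1⟩

/-- The check of this box. -/
def stripFlowEndB_ok : checkFour stripFlowEndBBox 100 3 2 8 4 eStripUpB_flEnd = true := by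
  decide +kernel

/-- A box. -/
def stripFlowMidBBox : ℕ → Chart
  | 0 => ⟨25, 56, 100, 100⟩ | 1 => ⟨0, 469, 500, 500⟩ | 2 => ⟨1, 0, 20, 20⟩ | _ => ⟨0, 1, 1, 1⟩

/-- The check of this box. -/
def stripFlowMidB_ok : checkFour stripFlowMidBBox 210 6 5 15 7 eStripUpB_flMid = true := by
  decide +kernel

end Vale.Agent.P100.Calib.Band.AllLow
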