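import Vale.Agent.P100.Pack.FastFour

/-!
# The blocks of the strip in scaled variables: numerators

In the variables `(2 a, d, v)` and numerators and denominators of `b g W`, `g E M/b`, `g K M/b`,
`b² g W1`, `G d²/(a b)`, `G1 d²/(a b)`, `D2 d`, with `b = a + d`, `M = 1 - 2 a - d`.
-/

namespace Vale.Agent.P100.Calib.StripMid

open Pack Pack.Ex

local instance hatAdd : Add Ex := ⟨Ex.add⟩
local instance hatMul : Mul Ex := ⟨Ex.mul⟩

/-- A coefficient. -/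
def coG0 : Ex := ((((num (-256))
 + ((var 2)
 * ((num (-128))
 + ((var 2)
 * (num (-16))))))
 + ((var 1)
 * (((num (-256))
 + ((var 2)
 * ((num (-384))
 + ((var 2)
 * ((num (176))
 + ((var 2)
 * (num (-32))))))))
 + ((var 1)
 * (((var 2)
 * ((num (-384))
 + ((var 2)
 * ((num (-224))
 + ((var 2)
 * ((num (704))
 + ((var 2)
 * (num (-56)))))))))
 + ((var 1)
 * (((var 2)
 * ((num (-128))
 + ((var 2)
 * ((num (160))
 + ((var 2)
 * ((num (-96))
 + ((var 2)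
 * ((num (552))
 + ((var 2)
 * (num (-40)))))))))))
 + ((var 1)
 * (((var 2)
 * ((var 2)
 * ((num (-528))
 + ((var 2)
 * ((num (544))
 + ((var 2)
 * ((num (64))
 + ((var 2)
 * ((num (152))
 + ((var 2)
 * (num (-9))))))))))))
 + ((var 1)
 * (((var 2)
 * ((var 2)
 * ((num (-80))
 + ((var 2)
 * ((num (-896))
 + ((var 2)
 * ((num (224))
 + ((var 2)
 * ((num (64))
 + ((var 2)
 * (num (3))))))))))))
 + ((var 1)
 * (((var 2)
 * ((var 2)
 * ((var 2)
 * ((num (-224))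
 + ((var 2)
 * ((num (-712))
 + ((var 2)
 * ((num (-32))
 + ((var 2)
 * (num (14)))))))))))
 + ((var 1)
 * (((var 2)
 * ((var 2)
 * ((var 2)
 * ((var 2)
 * ((num (-200))
 + ((var 2)
 * ((num (-216))
 + ((var 2)
 * (num (-2))))))))))
 + ((var 1)
 * (((var 2)
 * ((var 2)
 * ((var 2)
 * ((var 2)
 * ((var 2)
 * ((num (-56))
 + ((var 2)
 * (num (-5)))))))))
 + ((var 1)
 * ((var 2)
 * ((var 2)
 * ((var 2)
 * ((var 2)
 * ((var 2)
 * ((var 2)
 * (num (-1))))))))))))))))))))))))))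
 + ((var 0)
 * ((((num (-256))
 + ((var 2)
 * ((num (896))
 + ((var 2)
 * (num (624))))))
 + ((var 1)
 * (((var 2)
 * ((var 2)
 * ((num (128))
 + ((var 2)
 * (num (1248))))))
 + ((var 1)
 * (((var 2)
 * ((num (-896))
 + ((var 2)
 * ((num (2080))
 + ((var 2)
 * ((num (-2080))
 + ((var 2)
 * (num (920)))))))))
 + ((var 1)
 * (((var 2)
 * ((var 2)
 * ((num (-2688))
 + ((var 2)
 * ((num (3328))
 + ((var 2)
 * ((num (-1648))
 + ((var 2)
 * (num (296))))))))))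
 + ((var 1)
 * (((var 2)
 * ((var 2)
 * ((num (-400))
 + ((var 2)
 * ((num (-3488))
 + ((var 2)
 * ((num (1456))
 + ((var 2)
 * ((num (-336))
 + ((var 2)
 * (num (27))))))))))))
 + ((var 1)
 * (((var 2)
 * ((var 2)
 * ((var 2)
 * ((num (-1056))
 + ((var 2)
 * ((num (-2352))
 + ((var 2)
 * ((num (-48))
 + ((var 2)
 * (num (12)))))))))))
 + ((var 1)
 * (((var 2)
 * ((var 2)
 * ((var 2)
 * ((var 2)
 * ((num (-872))
 + ((var 2)
 * ((num (-656))
 + ((var 2)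
 * (num (-38))))))))))
 + ((var 1)
 * (((var 2)
 * ((var 2)
 * ((var 2)
 * ((var 2)
 * ((var 2)
 * ((num (-216))
 + ((var 2)
 * (num (-4)))))))))
 + ((var 1)
 * ((var 2)
 * ((var 2)
 * ((var 2)
 * ((var 2)
 * ((var 2)
 * ((var 2)
 * (num (3))))))))))))))))))))))))
 + ((var 0)
 * ((((var 2)
 * ((num (384))
 + ((var 2)
 * (num (-1824)))))
 + ((var 1)
 * (((var 2)
 * ((num (-1408))
 + ((var 2)
 * ((num (3168))
 + ((var 2)
 * (num (-3648)))))))
 + ((var 1)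
 * (((var 2)
 * ((var 2)
 * ((num (-3552))
 + ((var 2)
 * ((num (5280))
 + ((var 2)
 * (num (-2368))))))))
 + ((var 1)
 * (((var 2)
 * ((var 2)
 * ((num (-1120))
 + ((var 2)
 * ((num (-3808))
 + ((var 2)
 * ((num (2640))
 + ((var 2)
 * (num (-544))))))))))
 + ((var 1)
 * (((var 2)
 * ((var 2)
 * ((var 2)
 * ((num (-2624))
 + ((var 2)
 * ((num (-2192))
 + ((var 2)
 * ((num (144))
 + ((var 2)
 * (num (-18)))))))))))
 + ((var 1)
 * (((var 2)
 * ((var 2)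
 * ((var 2)
 * ((var 2)
 * ((num (-1952))
 + ((var 2)
 * ((num (-528))
 + ((var 2)
 * (num (-54))))))))))
 + ((var 1)
 * (((var 2)
 * ((var 2)
 * ((var 2)
 * ((var 2)
 * ((var 2)
 * ((num (-448))
 + ((var 2)
 * (num (34)))))))))
 + ((var 1)
 * ((var 2)
 * ((var 2)
 * ((var 2)
 * ((var 2)
 * ((var 2)
 * ((var 2)
 * (num (6))))))))))))))))))))))
 + ((var 0)
 * ((((var 2)
 * ((num (-640))
 + ((var 2)
 * (num (1248)))))
 + ((var 1)
 * (((var 2)
 * ((var 2)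
 * ((num (-1152))
 + ((var 2)
 * (num (2496))))))
 + ((var 1)
 * (((var 2)
 * ((var 2)
 * ((num (-1760))
 + ((var 2)
 * ((num (-736))
 + ((var 2)
 * (num (1408))))))))
 + ((var 1)
 * (((var 2)
 * ((var 2)
 * ((var 2)
 * ((num (-3776))
 + ((var 2)
 * ((num (-176))
 + ((var 2)
 * (num (160)))))))))
 + ((var 1)
 * (((var 2)
 * ((var 2)
 * ((var 2)
 * ((var 2)
 * ((num (-2624))
 + ((var 2)
 * ((num (48))
 + ((var 2)
 * (num (-18))))))))))
 + ((var 1)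
 * (((var 2)
 * ((var 2)
 * ((var 2)
 * ((var 2)
 * ((var 2)
 * ((num (-608))
 + ((var 2)
 * (num (60)))))))))
 + ((var 1)
 * ((var 2)
 * ((var 2)
 * ((var 2)
 * ((var 2)
 * ((var 2)
 * ((var 2)
 * (num (-10))))))))))))))))))))
 + ((var 0)
 * ((((var 2)
 * ((var 2)
 * (num (240))))
 + ((var 1)
 * (((var 2)
 * ((var 2)
 * ((num (-1360))
 + ((var 2)
 * (num (480))))))
 + ((var 1)
 * (((var 2)
 * ((var 2)
 * ((var 2)
 * ((num (-2784))
 + ((var 2)
 * (num (376)))))))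
 + ((var 1)
 * (((var 2)
 * ((var 2)
 * ((var 2)
 * ((var 2)
 * ((num (-1880))
 + ((var 2)
 * (num (136))))))))
 + ((var 1)
 * (((var 2)
 * ((var 2)
 * ((var 2)
 * ((var 2)
 * ((var 2)
 * ((num (-456))
 + ((var 2)
 * (num (27)))))))))
 + ((var 1)
 * ((var 2)
 * ((var 2)
 * ((var 2)
 * ((var 2)
 * ((var 2)
 * ((var 2)
 * (num (-21))))))))))))))))))
 + ((var 0)
 * (((var 2)
 * ((var 2)
 * (num (-400))))
 + ((var 1)
 * (((var 2)
 * ((var 2)
 * ((var 2)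
 * (num (-800)))))
 + ((var 1)
 * (((var 2)
 * ((var 2)
 * ((var 2)
 * ((var 2)
 * (num (-536))))))
 + ((var 1)
 * (((var 2)
 * ((var 2)
 * ((var 2)
 * ((var 2)
 * ((var 2)
 * (num (-136)))))))
 + ((var 1)
 * ((var 2)
 * ((var 2)
 * ((var 2)
 * ((var 2)
 * ((var 2)
 * ((var 2)
 * (num (-9))))))))))))))))))))))))))

/-- A coefficient. -/
def coG1 : Ex := (((var 1)
 * (((var 2)
 * ((num (256))
 + ((var 2)
 * (num (-128)))))
 + ((var 1)
 * (((var 2)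
 * ((num (-256))
 + ((var 2)
 * ((num (640))
 + ((var 2)
 * (num (-256)))))))
 + ((var 1)
 * (((var 2)
 * ((num (-256))
 + ((var 2)
 * ((num (-640))
 + ((var 2)
 * ((num (576))
 + ((var 2)
 * (num (-160)))))))))
 + ((var 1)
 * (((var 2)
 * ((num (256))
 + ((var 2)
 * ((num (-640))
 + ((var 2)
 * ((num (-576))
 + ((var 2)
 * ((num (224))
 + ((var 2)
 * (num (-32)))))))))))
 + ((var 1)
 * (((var 2)
 * ((var 2)
 * ((num (768))
 + ((var 2)
 * ((num (-576))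
 + ((var 2)
 * ((num (-224))
 + ((var 2)
 * (num (32))))))))))
 + ((var 1)
 * (((var 2)
 * ((var 2)
 * ((var 2)
 * ((num (832))
 + ((var 2)
 * ((num (-224))
 + ((var 2)
 * (num (-32)))))))))
 + ((var 1)
 * (((var 2)
 * ((var 2)
 * ((var 2)
 * ((var 2)
 * ((num (384))
 + ((var 2)
 * (num (-32))))))))
 + ((var 1)
 * ((var 2)
 * ((var 2)
 * ((var 2)
 * ((var 2)
 * ((var 2)
 * (num (64))))))))))))))))))))))
 + ((var 0)
 * (((var 1)
 * (((var 2)
 * (num (-256)))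
 + ((var 1)
 * (((var 2)
 * ((num (-512))
 + ((var 2)
 * (num (-640)))))
 + ((var 1)
 * (((var 2)
 * ((num (768))
 + ((var 2)
 * ((num (-1280))
 + ((var 2)
 * (num (-576)))))))
 + ((var 1)
 * (((var 2)
 * ((var 2)
 * ((num (2432))
 + ((var 2)
 * ((num (-1152))
 + ((var 2)
 * (num (-224))))))))
 + ((var 1)
 * (((var 2)
 * ((var 2)
 * ((var 2)
 * ((num (2752))
 + ((var 2)
 * ((num (-448))
 + ((var 2)
 * (num (-32)))))))))
 + ((var 1)
 * (((var 2)
 * ((var 2)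
 * ((var 2)
 * ((var 2)
 * ((num (1312))
 + ((var 2)
 * (num (-64))))))))
 + ((var 1)
 * ((var 2)
 * ((var 2)
 * ((var 2)
 * ((var 2)
 * ((var 2)
 * (num (224))))))))))))))))))))
 + ((var 0)
 * (((var 1)
 * (((var 2)
 * (num (-256)))
 + ((var 1)
 * (((var 2)
 * ((num (768))
 + ((var 2)
 * (num (-640)))))
 + ((var 1)
 * (((var 2)
 * ((var 2)
 * ((num (2688))
 + ((var 2)
 * (num (-576))))))
 + ((var 1)
 * (((var 2)
 * ((var 2)
 * ((var 2)
 * ((num (3264))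
 + ((var 2)
 * (num (-224)))))))
 + ((var 1)
 * (((var 2)
 * ((var 2)
 * ((var 2)
 * ((var 2)
 * ((num (1632))
 + ((var 2)
 * (num (-32))))))))
 + ((var 1)
 * ((var 2)
 * ((var 2)
 * ((var 2)
 * ((var 2)
 * ((var 2)
 * (num (288))))))))))))))))))
 + ((var 0)
 * (((var 1)
 * (((var 2)
 * (num (256)))
 + ((var 1)
 * (((var 2)
 * ((var 2)
 * (num (1152))))
 + ((var 1)
 * (((var 2)
 * ((var 2)
 * ((var 2)
 * (num (1600)))))
 + ((var 1)
 * (((var 2)
 * ((var 2)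
 * ((var 2)
 * ((var 2)
 * (num (864))))))
 + ((var 1)
 * ((var 2)
 * ((var 2)
 * ((var 2)
 * ((var 2)
 * ((var 2)
 * (num (160))))))))))))))))
 + ((var 0)
 * ((var 1)
 * (((var 2)
 * ((var 2)
 * (num (128))))
 + ((var 1)
 * (((var 2)
 * ((var 2)
 * ((var 2)
 * (num (256)))))
 + ((var 1)
 * (((var 2)
 * ((var 2)
 * ((var 2)
 * ((var 2)
 * (num (160))))))
 + ((var 1)
 * ((var 2)
 * ((var 2)
 * ((var 2)
 * ((var 2)
 * ((var 2)
 * (num (32))))))))))))))))))))))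

/-- A coefficient. -/
def coG2 : Ex := (((num (-256))
 + ((var 1)
 * (((num (256))
 + ((var 2)
 * (num (-768))))
 + ((var 1)
 * (((num (256))
 + ((var 2)
 * ((num (768))
 + ((var 2)
 * (num (-896))))))
 + ((var 1)
 * (((num (-256))
 + ((var 2)
 * ((num (768))
 + ((var 2)
 * ((num (896))
 + ((var 2)
 * (num (-512))))))))
 + ((var 1)
 * (((var 2)
 * ((num (-768))
 + ((var 2)
 * ((num (896))
 + ((var 2)
 * ((num (512))
 + ((var 2)
 * (num (-144)))))))))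
 + ((var 1)
 * (((var 2)
 * ((var 2)
 * ((num (-896))
 + ((var 2)
 * ((num (512))
 + ((var 2)
 * ((num (144))
 + ((var 2)
 * (num (-16))))))))))
 + ((var 1)
 * (((var 2)
 * ((var 2)
 * ((var 2)
 * ((num (-512))
 + ((var 2)
 * ((num (144))
 + ((var 2)
 * (num (16)))))))))
 + ((var 1)
 * (((var 2)
 * ((var 2)
 * ((var 2)
 * ((var 2)
 * ((num (-144))
 + ((var 2)
 * (num (16))))))))
 + ((var 1)
 * ((var 2)
 * ((var 2)
 * ((var 2)
 * ((var 2)
 * ((var 2)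
 * (num (-16)))))))))))))))))))))))
 + ((var 0)
 * (((num (256))
 + ((var 1)
 * (((num (512))
 + ((var 2)
 * (num (768))))
 + ((var 1)
 * (((num (-768))
 + ((var 2)
 * ((num (1536))
 + ((var 2)
 * (num (896))))))
 + ((var 1)
 * (((var 2)
 * ((num (-2304))
 + ((var 2)
 * ((num (1792))
 + ((var 2)
 * (num (512)))))))
 + ((var 1)
 * (((var 2)
 * ((var 2)
 * ((num (-2688))
 + ((var 2)
 * ((num (1024))
 + ((var 2)
 * (num (144))))))))
 + ((var 1)
 * (((var 2)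
 * ((var 2)
 * ((var 2)
 * ((num (-1536))
 + ((var 2)
 * ((num (288))
 + ((var 2)
 * (num (16)))))))))
 + ((var 1)
 * (((var 2)
 * ((var 2)
 * ((var 2)
 * ((var 2)
 * ((num (-432))
 + ((var 2)
 * (num (32))))))))
 + ((var 1)
 * ((var 2)
 * ((var 2)
 * ((var 2)
 * ((var 2)
 * ((var 2)
 * (num (-48)))))))))))))))))))))
 + ((var 0)
 * (((num (256))
 + ((var 1)
 * (((num (-768))
 + ((var 2)
 * (num (768))))
 + ((var 1)
 * (((var 2)
 * ((num (-2304))
 + ((var 2)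
 * (num (896)))))
 + ((var 1)
 * (((var 2)
 * ((var 2)
 * ((num (-2688))
 + ((var 2)
 * (num (512))))))
 + ((var 1)
 * (((var 2)
 * ((var 2)
 * ((var 2)
 * ((num (-1536))
 + ((var 2)
 * (num (144)))))))
 + ((var 1)
 * (((var 2)
 * ((var 2)
 * ((var 2)
 * ((var 2)
 * ((num (-432))
 + ((var 2)
 * (num (16))))))))
 + ((var 1)
 * ((var 2)
 * ((var 2)
 * ((var 2)
 * ((var 2)
 * ((var 2)
 * (num (-48)))))))))))))))))))
 + ((var 0)
 * ((num (-256))
 + ((var 1)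
 * (((var 2)
 * (num (-768)))
 + ((var 1)
 * (((var 2)
 * ((var 2)
 * (num (-896))))
 + ((var 1)
 * (((var 2)
 * ((var 2)
 * ((var 2)
 * (num (-512)))))
 + ((var 1)
 * (((var 2)
 * ((var 2)
 * ((var 2)
 * ((var 2)
 * (num (-144))))))
 + ((var 1)
 * ((var 2)
 * ((var 2)
 * ((var 2)
 * ((var 2)
 * ((var 2)
 * (num (-16)))))))))))))))))))))))

/-- A coefficient. -/
def coG3 : Ex := (((var 2)
 * ((var 2)
 * (num (-4096))))
 + ((var 1)
 * (((var 2)
 * ((var 2)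
 * ((var 2)
 * (num (-8192)))))
 + ((var 1)
 * (((var 2)
 * ((var 2)
 * ((var 2)
 * ((var 2)
 * (num (-5120))))))
 + ((var 1)
 * ((var 2)
 * ((var 2)
 * ((var 2)
 * ((var 2)
 * ((var 2)
 * (num (-1024)))))))))))))

/-- A coefficient. -/
def coG4 : Ex := (((var 1)
 * (((var 2)
 * ((var 2)
 * ((num (-512))
 + ((var 2)
 * (num (-256))))))
 + ((var 1)
 * (((var 2)
 * ((var 2)
 * ((num (1024))
 + ((var 2)
 * ((num (-1280))
 + ((var 2)
 * (num (-384))))))))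
 + ((var 1)
 * (((var 2)
 * ((var 2)
 * ((num (512))
 + ((var 2)
 * ((num (2816))
 + ((var 2)
 * ((num (-1024))
 + ((var 2)
 * (num (-128))))))))))
 + ((var 1)
 * (((var 2)
 * ((var 2)
 * ((var 2)
 * ((num (1280))
 + ((var 2)
 * ((num (2432))
 + ((var 2)
 * (num (-256)))))))))
 + ((var 1)
 * (((var 2)
 * ((var 2)
 * ((var 2)
 * ((var 2)
 * ((num (1024))
 + ((var 2)
 * (num (640))))))))
 + ((var 1)
 * ((var 2)
 * ((var 2)
 * ((var 2)
 * ((var 2)
 * ((var 2)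
 * (num (256))))))))))))))))))
 + ((var 0)
 * (((var 1)
 * (((var 2)
 * ((var 2)
 * ((num (1024))
 + ((var 2)
 * (num (-256))))))
 + ((var 1)
 * (((var 2)
 * ((var 2)
 * ((num (1024))
 + ((var 2)
 * ((num (3584))
 + ((var 2)
 * (num (-384))))))))
 + ((var 1)
 * (((var 2)
 * ((var 2)
 * ((var 2)
 * ((num (2816))
 + ((var 2)
 * ((num (3584))
 + ((var 2)
 * (num (-128)))))))))
 + ((var 1)
 * (((var 2)
 * ((var 2)
 * ((var 2)
 * ((var 2)
 * ((num (2432))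
 + ((var 2)
 * (num (1024))))))))
 + ((var 1)
 * ((var 2)
 * ((var 2)
 * ((var 2)
 * ((var 2)
 * ((var 2)
 * (num (640))))))))))))))))
 + ((var 0)
 * (((var 1)
 * (((var 2)
 * ((var 2)
 * ((num (512))
 + ((var 2)
 * (num (768))))))
 + ((var 1)
 * (((var 2)
 * ((var 2)
 * ((var 2)
 * ((num (1792))
 + ((var 2)
 * (num (1152)))))))
 + ((var 1)
 * (((var 2)
 * ((var 2)
 * ((var 2)
 * ((var 2)
 * ((num (1792))
 + ((var 2)
 * (num (384))))))))
 + ((var 1)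
 * ((var 2)
 * ((var 2)
 * ((var 2)
 * ((var 2)
 * ((var 2)
 * (num (512))))))))))))))
 + ((var 0)
 * ((var 1)
 * (((var 2)
 * ((var 2)
 * ((var 2)
 * (num (256)))))
 + ((var 1)
 * (((var 2)
 * ((var 2)
 * ((var 2)
 * ((var 2)
 * (num (384))))))
 + ((var 1)
 * ((var 2)
 * ((var 2)
 * ((var 2)
 * ((var 2)
 * ((var 2)
 * (num (128))))))))))))))))))

/-- A coefficient. -/
def coG5 : Ex := ((((var 2)
 * (num (-1024)))
 + ((var 1)
 * (((var 2)
 * ((num (2048))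
 + ((var 2)
 * (num (-2560)))))
 + ((var 1)
 * (((var 2)
 * ((num (-1024))
 + ((var 2)
 * ((num (5120))
 + ((var 2)
 * (num (-2304)))))))
 + ((var 1)
 * (((var 2)
 * ((var 2)
 * ((num (-2560))
 + ((var 2)
 * ((num (4608))
 + ((var 2)
 * (num (-896))))))))
 + ((var 1)
 * (((var 2)
 * ((var 2)
 * ((var 2)
 * ((num (-2304))
 + ((var 2)
 * ((num (1792))
 + ((var 2)
 * (num (-128)))))))))
 + ((var 1)
 * (((var 2)
 * ((var 2)
 * ((var 2)
 * ((var 2)
 * ((num (-896))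
 + ((var 2)
 * (num (256))))))))
 + ((var 1)
 * ((var 2)
 * ((var 2)
 * ((var 2)
 * ((var 2)
 * ((var 2)
 * (num (-128)))))))))))))))))))
 + ((var 0)
 * ((((var 2)
 * (num (2048)))
 + ((var 1)
 * (((var 2)
 * ((num (-2048))
 + ((var 2)
 * (num (5120)))))
 + ((var 1)
 * (((var 2)
 * ((var 2)
 * ((num (-5120))
 + ((var 2)
 * (num (4608))))))
 + ((var 1)
 * (((var 2)
 * ((var 2)
 * ((var 2)
 * ((num (-4608))
 + ((var 2)
 * (num (1792)))))))
 + ((var 1)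
 * (((var 2)
 * ((var 2)
 * ((var 2)
 * ((var 2)
 * ((num (-1792))
 + ((var 2)
 * (num (256))))))))
 + ((var 1)
 * ((var 2)
 * ((var 2)
 * ((var 2)
 * ((var 2)
 * ((var 2)
 * (num (-256)))))))))))))))))
 + ((var 0)
 * (((var 2)
 * (num (-1024)))
 + ((var 1)
 * (((var 2)
 * ((var 2)
 * (num (-2560))))
 + ((var 1)
 * (((var 2)
 * ((var 2)
 * ((var 2)
 * (num (-2304)))))
 + ((var 1)
 * (((var 2)
 * ((var 2)
 * ((var 2)
 * ((var 2)
 * (num (-896))))))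
 + ((var 1)
 * ((var 2)
 * ((var 2)
 * ((var 2)
 * ((var 2)
 * ((var 2)
 * (num (-128)))))))))))))))))))

/-- A coefficient. -/
def coG6 : Ex := ((((var 2)
 * ((var 2)
 * (num (-1024))))
 + ((var 1)
 * (((var 2)
 * ((var 2)
 * ((num (-1024))
 + ((var 2)
 * (num (-2048))))))
 + ((var 1)
 * (((var 2)
 * ((var 2)
 * ((var 2)
 * ((num (-2048))
 + ((var 2)
 * (num (-1280)))))))
 + ((var 1)
 * (((var 2)
 * ((var 2)
 * ((var 2)
 * ((var 2)
 * ((num (-1280))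
 + ((var 2)
 * (num (-256))))))))
 + ((var 1)
 * ((var 2)
 * ((var 2)
 * ((var 2)
 * ((var 2)
 * ((var 2)
 * (num (-256)))))))))))))))
 + ((var 0)
 * (((var 2)
 * ((var 2)
 * (num (-1024))))
 + ((var 1)
 * (((var 2)
 * ((var 2)
 * ((var 2)
 * (num (-2048)))))
 + ((var 1)
 * (((var 2)
 * ((var 2)
 * ((var 2)
 * ((var 2)
 * (num (-1280))))))
 + ((var 1)
 * ((var 2)
 * ((var 2)
 * ((var 2)
 * ((var 2)
 * ((var 2)
 * (num (-256)))))))))))))))

/-- A coefficient. -/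
def coG7 : Ex := ((((num (128))
 + ((var 2)
 * (num (32))))
 + ((var 1)
 * (((num (128))
 + ((var 2)
 * ((num (224))
 + ((var 2)
 * (num (64))))))
 + ((var 1)
 * (((var 2)
 * ((num (224))
 + ((var 2)
 * ((var 2)
 * (num (88))))))
 + ((var 1)
 * (((var 2)
 * ((num (32))
 + ((var 2)
 * ((num (64))
 + ((var 2)
 * ((num (-88))
 + ((var 2)
 * (num (56)))))))))
 + ((var 1)
 * (((var 2)
 * ((var 2)
 * ((num (128))
 + ((var 2)
 * ((num (-24))
 + ((var 2)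
 * (num (8))))))))
 + ((var 1)
 * (((var 2)
 * ((var 2)
 * ((var 2)
 * ((num (152))
 + ((var 2)
 * (num (8)))))))
 + ((var 1)
 * ((var 2)
 * ((var 2)
 * ((var 2)
 * ((var 2)
 * (num (56))))))))))))))))))
 + ((var 0)
 * ((((num (128))
 + ((var 2)
 * (num (-224))))
 + ((var 1)
 * (((var 2)
 * ((num (128))
 + ((var 2)
 * (num (-448)))))
 + ((var 1)
 * (((var 2)
 * ((num (224))
 + ((var 2)
 * ((num (-128))
 + ((var 2)
 * (num (-216)))))))
 + ((var 1)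
 * (((var 2)
 * ((var 2)
 * ((num (576))
 + ((var 2)
 * ((num (-112))
 + ((var 2)
 * (num (8))))))))
 + ((var 1)
 * (((var 2)
 * ((var 2)
 * ((var 2)
 * ((num (520))
 + ((var 2)
 * (num (16)))))))
 + ((var 1)
 * ((var 2)
 * ((var 2)
 * ((var 2)
 * ((var 2)
 * (num (168))))))))))))))))
 + ((var 0)
 * ((((var 2)
 * (num (-96)))
 + ((var 1)
 * (((var 2)
 * ((num (352))
 + ((var 2)
 * (num (-192)))))
 + ((var 1)
 * (((var 2)
 * ((var 2)
 * ((num (768))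
 + ((var 2)
 * (num (-88))))))
 + ((var 1)
 * (((var 2)
 * ((var 2)
 * ((var 2)
 * ((num (584))
 + ((var 2)
 * (num (8)))))))
 + ((var 1)
 * ((var 2)
 * ((var 2)
 * ((var 2)
 * ((var 2)
 * (num (168))))))))))))))
 + ((var 0)
 * (((var 2)
 * (num (160)))
 + ((var 1)
 * (((var 2)
 * ((var 2)
 * (num (320))))
 + ((var 1)
 * (((var 2)
 * ((var 2)
 * ((var 2)
 * (num (216)))))
 + ((var 1)
 * ((var 2)
 * ((var 2)
 * ((var 2)
 * ((var 2)
 * (num (56))))))))))))))))))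

/-- A coefficient. -/
def coG8 : Ex := (((var 1)
 * (((var 2)
 * (num (128)))
 + ((var 1)
 * (((var 2)
 * ((var 2)
 * (num (256))))
 + ((var 1)
 * (((var 2)
 * ((num (-128))
 + ((var 2)
 * ((var 2)
 * (num (160))))))
 + ((var 1)
 * (((var 2)
 * ((var 2)
 * ((num (-256))
 + ((var 2)
 * ((var 2)
 * (num (32)))))))
 + ((var 1)
 * (((var 2)
 * ((var 2)
 * ((var 2)
 * (num (-160)))))
 + ((var 1)
 * ((var 2)
 * ((var 2)
 * ((var 2)
 * ((var 2)
 * (num (-32)))))))))))))))))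
 + ((var 0)
 * (((var 1)
 * ((var 1)
 * (((var 2)
 * (num (-256)))
 + ((var 1)
 * (((var 2)
 * ((var 2)
 * (num (-512))))
 + ((var 1)
 * (((var 2)
 * ((var 2)
 * ((var 2)
 * (num (-320)))))
 + ((var 1)
 * ((var 2)
 * ((var 2)
 * ((var 2)
 * ((var 2)
 * (num (-64))))))))))))))
 + ((var 0)
 * ((var 1)
 * (((var 2)
 * (num (-128)))
 + ((var 1)
 * (((var 2)
 * ((var 2)
 * (num (-256))))
 + ((var 1)
 * (((var 2)
 * ((var 2)
 * ((var 2)
 * (num (-160)))))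
 + ((var 1)
 * ((var 2)
 * ((var 2)
 * ((var 2)
 * ((var 2)
 * (num (-32)))))))))))))))))

/-- A coefficient. -/
def coG9 : Ex := (((var 1)
 * (((var 2)
 * ((var 2)
 * (num (256))))
 + ((var 1)
 * (((var 2)
 * ((var 2)
 * ((num (-256))
 + ((var 2)
 * (num (384))))))
 + ((var 1)
 * (((var 2)
 * ((var 2)
 * ((var 2)
 * ((num (-384))
 + ((var 2)
 * (num (128)))))))
 + ((var 1)
 * ((var 2)
 * ((var 2)
 * ((var 2)
 * ((var 2)
 * (num (-128)))))))))))))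
 + ((var 0)
 * ((var 1)
 * (((var 2)
 * ((var 2)
 * (num (-256))))
 + ((var 1)
 * (((var 2)
 * ((var 2)
 * ((var 2)
 * (num (-384)))))
 + ((var 1)
 * ((var 2)
 * ((var 2)
 * ((var 2)
 * ((var 2)
 * (num (-128)))))))))))))

/-- A coefficient. -/
def coG10 : Ex := (((num (-16))
 + ((var 1)
 * (((num (-16))
 + ((var 2)
 * (num (-32))))
 + ((var 1)
 * (((var 2)
 * ((num (-32))
 + ((var 2)
 * (num (-32)))))
 + ((var 1)
 * (((var 2)
 * ((var 2)
 * ((num (-32))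
 + ((var 2)
 * (num (-16))))))
 + ((var 1)
 * ((var 2)
 * ((var 2)
 * ((var 2)
 * (num (-16)))))))))))))
 + ((var 0)
 * ((num (-16))
 + ((var 1)
 * (((var 2)
 * (num (-32)))
 + ((var 1)
 * (((var 2)
 * ((var 2)
 * (num (-32))))
 + ((var 1)
 * ((var 2)
 * ((var 2)
 * ((var 2)
 * (num (-16)))))))))))))

/-- The numerator of a form. -/
def tplG : Ex := (((((var 14) * ((var 14) * ((var 12) * ((var 12) * ((var 4) * ((var 4) * coG0))))))
 + ((var 14) * ((var 13) * ((var 12) * ((var 12) * ((var 4) * ((var 4) * coG1)))))))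
 + (((var 13) * ((var 13) * ((var 12) * ((var 12) * ((var 4) * ((var 4) * coG2))))))
 + (((var 14) * ((var 14) * ((var 12) * ((var 11) * ((var 4) * ((var 4) * coG3))))))
 + ((var 14) * ((var 14) * ((var 12) * ((var 10) * ((var 4) * ((var 4) * coG4)))))))))
 + ((((var 14) * ((var 13) * ((var 12) * ((var 10) * ((var 4) * ((var 4) * coG5))))))
 + (((var 14) * ((var 14) * ((var 10) * ((var 10) * ((var 4) * ((var 4) * coG6))))))
 + ((var 14) * ((var 14) * ((var 12) * ((var 12) * ((var 4) * ((var 3) * coG7))))))))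
 + (((var 14) * ((var 13) * ((var 12) * ((var 12) * ((var 4) * ((var 3) * coG8))))))
 + (((var 14) * ((var 14) * ((var 12) * ((var 10) * ((var 4) * ((var 3) * coG9))))))
 + ((var 14) * ((var 14) * ((var 12) * ((var 12) * ((var 3) * ((var 3) * coG10))))))))))

/-- A coefficient. -/
def coMG0 : Ex := ((((num (-256))
 + ((var 2)
 * ((num (1408))
 + ((var 2)
 * (num (-16))))))
 + ((var 1)
 * (((var 2)
 * ((num (-2304))
 + ((var 2)
 * ((num (3392))
 + ((var 2)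
 * (num (-32)))))))
 + ((var 1)
 * (((var 2)
 * ((num (384))
 + ((var 2)
 * ((num (-5728))
 + ((var 2)
 * ((num (2784))
 + ((var 2)
 * (num (-56)))))))))
 + ((var 1)
 * (((var 2)
 * ((var 2)
 * ((num (832))
 + ((var 2)
 * ((num (-4864))
 + ((var 2)
 * ((num (960))
 + ((var 2)
 * (num (-40))))))))))
 + ((var 1)
 * (((var 2)
 * ((var 2)
 * ((num (-16))
 + ((var 2)
 * ((num (352))
 + ((var 2)
 * ((num (-1440))
 + ((var 2)
 * ((num (112))
 + ((var 2)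
 * (num (-9))))))))))))
 + ((var 1)
 * (((var 2)
 * ((var 2)
 * ((var 2)
 * ((num (-32))
 + ((var 2)
 * ((num (-96))
 + ((var 2)
 * ((num (-160))
 + ((var 2)
 * (num (12)))))))))))
 + ((var 1)
 * (((var 2)
 * ((var 2)
 * ((var 2)
 * ((var 2)
 * ((num (-8))
 + ((var 2)
 * ((num (16))
 + ((var 2)
 * (num (2))))))))))
 + ((var 1)
 * (((var 2)
 * ((var 2)
 * ((var 2)
 * ((var 2)
 * ((var 2)
 * ((num (8))
 + ((var 2)
 * (num (-4)))))))))
 + ((var 1)
 * ((var 2)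
 * ((var 2)
 * ((var 2)
 * ((var 2)
 * ((var 2)
 * ((var 2)
 * (num (-1))))))))))))))))))))))))
 + ((var 0)
 * ((((var 2)
 * (num (-3072)))
 + ((var 1)
 * (((var 2)
 * ((num (2304))
 + ((var 2)
 * (num (-6848)))))
 + ((var 1)
 * (((var 2)
 * ((var 2)
 * ((num (4992))
 + ((var 2)
 * ((num (-3904))
 + ((var 2)
 * (num (176))))))))
 + ((var 1)
 * (((var 2)
 * ((var 2)
 * ((num (-192))
 + ((var 2)
 * ((num (2880))
 + ((var 2)
 * ((num (-480))
 + ((var 2)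
 * (num (176))))))))))
 + ((var 1)
 * (((var 2)
 * ((var 2)
 * ((var 2)
 * ((num (-384))
 + ((var 2)
 * ((num (400))
 + ((var 2)
 * ((num (-192))
 + ((var 2)
 * (num (60)))))))))))
 + ((var 1)
 * (((var 2)
 * ((var 2)
 * ((var 2)
 * ((var 2)
 * ((num (-160))
 + ((var 2)
 * ((num (176))
 + ((var 2)
 * (num (-52))))))))))
 + ((var 1)
 * (((var 2)
 * ((var 2)
 * ((var 2)
 * ((var 2)
 * ((var 2)
 * ((num (32))
 + ((var 2)
 * (num (-12)))))))))
 + ((var 1)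
 * ((var 2)
 * ((var 2)
 * ((var 2)
 * ((var 2)
 * ((var 2)
 * ((var 2)
 * (num (4))))))))))))))))))))))
 + ((var 0)
 * ((((var 2)
 * ((num (1920))
 + ((var 2)
 * (num (352)))))
 + ((var 1)
 * (((var 2)
 * ((var 2)
 * ((num (4160))
 + ((var 2)
 * (num (704))))))
 + ((var 1)
 * (((var 2)
 * ((var 2)
 * ((num (-736))
 + ((var 2)
 * ((num (2528))
 + ((var 2)
 * (num (-192))))))))
 + ((var 1)
 * (((var 2)
 * ((var 2)
 * ((var 2)
 * ((num (-1472))
 + ((var 2)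
 * ((num (896))
 + ((var 2)
 * (num (-544)))))))))
 + ((var 1)
 * (((var 2)
 * ((var 2)
 * ((var 2)
 * ((var 2)
 * ((num (-816))
 + ((var 2)
 * ((num (560))
 + ((var 2)
 * (num (-118))))))))))
 + ((var 1)
 * (((var 2)
 * ((var 2)
 * ((var 2)
 * ((var 2)
 * ((var 2)
 * ((num (-80))
 + ((var 2)
 * (num (52)))))))))
 + ((var 1)
 * ((var 2)
 * ((var 2)
 * ((var 2)
 * ((var 2)
 * ((var 2)
 * ((var 2)
 * (num (2))))))))))))))))))))
 + ((var 0)
 * (((var 1)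
 * (((var 2)
 * ((var 2)
 * (num (-960))))
 + ((var 1)
 * (((var 2)
 * ((var 2)
 * ((var 2)
 * ((num (-1920))
 + ((var 2)
 * (num (400)))))))
 + ((var 1)
 * (((var 2)
 * ((var 2)
 * ((var 2)
 * ((var 2)
 * ((num (-1184))
 + ((var 2)
 * (num (400))))))))
 + ((var 1)
 * (((var 2)
 * ((var 2)
 * ((var 2)
 * ((var 2)
 * ((var 2)
 * ((num (-224))
 + ((var 2)
 * (num (60)))))))))
 + ((var 1)
 * ((var 2)
 * ((var 2)
 * ((var 2)
 * ((var 2)
 * ((var 2)
 * ((var 2)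
 * (num (-12)))))))))))))))))
 + ((var 0)
 * (((var 2)
 * ((var 2)
 * (num (-400))))
 + ((var 1)
 * (((var 2)
 * ((var 2)
 * ((var 2)
 * (num (-800)))))
 + ((var 1)
 * (((var 2)
 * ((var 2)
 * ((var 2)
 * ((var 2)
 * (num (-520))))))
 + ((var 1)
 * (((var 2)
 * ((var 2)
 * ((var 2)
 * ((var 2)
 * ((var 2)
 * (num (-120)))))))
 + ((var 1)
 * ((var 2)
 * ((var 2)
 * ((var 2)
 * ((var 2)
 * ((var 2)
 * ((var 2)
 * (num (-9))))))))))))))))))))))))

/-- A coefficient. -/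
def coMG1 : Ex := (((var 1)
 * (((var 2)
 * ((num (1024))
 + ((var 2)
 * (num (128)))))
 + ((var 1)
 * (((var 2)
 * ((num (-1024))
 + ((var 2)
 * ((num (2560))
 + ((var 2)
 * (num (256)))))))
 + ((var 1)
 * (((var 2)
 * ((var 2)
 * ((num (-2688))
 + ((var 2)
 * ((num (2304))
 + ((var 2)
 * (num (160))))))))
 + ((var 1)
 * (((var 2)
 * ((var 2)
 * ((var 2)
 * ((num (-2560))
 + ((var 2)
 * ((num (896))
 + ((var 2)
 * (num (32)))))))))
 + ((var 1)
 * (((var 2)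
 * ((var 2)
 * ((var 2)
 * ((var 2)
 * ((num (-1056))
 + ((var 2)
 * (num (128))))))))
 + ((var 1)
 * ((var 2)
 * ((var 2)
 * ((var 2)
 * ((var 2)
 * ((var 2)
 * (num (-160))))))))))))))))))
 + ((var 0)
 * (((var 1)
 * (((var 2)
 * (num (-1024)))
 + ((var 1)
 * (((var 2)
 * ((var 2)
 * (num (-2816))))
 + ((var 1)
 * (((var 2)
 * ((var 2)
 * ((var 2)
 * (num (-2816)))))
 + ((var 1)
 * (((var 2)
 * ((var 2)
 * ((var 2)
 * ((var 2)
 * (num (-1216))))))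
 + ((var 1)
 * ((var 2)
 * ((var 2)
 * ((var 2)
 * ((var 2)
 * ((var 2)
 * (num (-192))))))))))))))))
 + ((var 0)
 * ((var 1)
 * (((var 2)
 * ((var 2)
 * (num (-128))))
 + ((var 1)
 * (((var 2)
 * ((var 2)
 * ((var 2)
 * (num (-256)))))
 + ((var 1)
 * (((var 2)
 * ((var 2)
 * ((var 2)
 * ((var 2)
 * (num (-160))))))
 + ((var 1)
 * ((var 2)
 * ((var 2)
 * ((var 2)
 * ((var 2)
 * ((var 2)
 * (num (-32))))))))))))))))))

/-- A coefficient. -/
def coMG2 : Ex := (((num (-256))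
 + ((var 1)
 * (((num (512))
 + ((var 2)
 * (num (-768))))
 + ((var 1)
 * (((num (-256))
 + ((var 2)
 * ((num (1536))
 + ((var 2)
 * (num (-896))))))
 + ((var 1)
 * (((var 2)
 * ((num (-768))
 + ((var 2)
 * ((num (1792))
 + ((var 2)
 * (num (-512)))))))
 + ((var 1)
 * (((var 2)
 * ((var 2)
 * ((num (-896))
 + ((var 2)
 * ((num (1024))
 + ((var 2)
 * (num (-144))))))))
 + ((var 1)
 * (((var 2)
 * ((var 2)
 * ((var 2)
 * ((num (-512))
 + ((var 2)
 * ((num (288))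
 + ((var 2)
 * (num (-16)))))))))
 + ((var 1)
 * (((var 2)
 * ((var 2)
 * ((var 2)
 * ((var 2)
 * ((num (-144))
 + ((var 2)
 * (num (32))))))))
 + ((var 1)
 * ((var 2)
 * ((var 2)
 * ((var 2)
 * ((var 2)
 * ((var 2)
 * (num (-16)))))))))))))))))))))
 + ((var 0)
 * (((num (512))
 + ((var 1)
 * (((num (-512))
 + ((var 2)
 * (num (1536))))
 + ((var 1)
 * (((var 2)
 * ((num (-1536))
 + ((var 2)
 * (num (1792)))))
 + ((var 1)
 * (((var 2)
 * ((var 2)
 * ((num (-1792))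
 + ((var 2)
 * (num (1024))))))
 + ((var 1)
 * (((var 2)
 * ((var 2)
 * ((var 2)
 * ((num (-1024))
 + ((var 2)
 * (num (288)))))))
 + ((var 1)
 * (((var 2)
 * ((var 2)
 * ((var 2)
 * ((var 2)
 * ((num (-288))
 + ((var 2)
 * (num (32))))))))
 + ((var 1)
 * ((var 2)
 * ((var 2)
 * ((var 2)
 * ((var 2)
 * ((var 2)
 * (num (-32)))))))))))))))))))
 + ((var 0)
 * ((num (-256))
 + ((var 1)
 * (((var 2)
 * (num (-768)))
 + ((var 1)
 * (((var 2)
 * ((var 2)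
 * (num (-896))))
 + ((var 1)
 * (((var 2)
 * ((var 2)
 * ((var 2)
 * (num (-512)))))
 + ((var 1)
 * (((var 2)
 * ((var 2)
 * ((var 2)
 * ((var 2)
 * (num (-144))))))
 + ((var 1)
 * ((var 2)
 * ((var 2)
 * ((var 2)
 * ((var 2)
 * ((var 2)
 * (num (-16)))))))))))))))))))))

/-- A coefficient. -/
def coMG3 : Ex := ((((var 2)
 * (num (256)))
 + ((var 1)
 * (((var 2)
 * ((num (-256))
 + ((var 2)
 * (num (384)))))
 + ((var 1)
 * (((var 2)
 * ((var 2)
 * ((num (-384))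
 + ((var 2)
 * (num (128))))))
 + ((var 1)
 * ((var 2)
 * ((var 2)
 * ((var 2)
 * (num (-128)))))))))))
 + ((var 0)
 * (((var 2)
 * (num (-256)))
 + ((var 1)
 * (((var 2)
 * ((var 2)
 * (num (-384))))
 + ((var 1)
 * ((var 2)
 * ((var 2)
 * ((var 2)
 * (num (-128)))))))))))

/-- A coefficient. -/
def coMG4 : Ex := (((var 2)
 * ((var 2)
 * (num (-512))))
 + ((var 1)
 * (((var 2)
 * ((var 2)
 * ((var 2)
 * (num (-768)))))
 + ((var 1)
 * ((var 2)
 * ((var 2)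
 * ((var 2)
 * ((var 2)
 * (num (-256))))))))))

/-- A coefficient. -/
def coMG5 : Ex := ((((var 2)
 * (num (-256)))
 + ((var 1)
 * (((var 2)
 * ((num (256))
 + ((var 2)
 * (num (-256)))))
 + ((var 1)
 * (((var 2)
 * ((var 2)
 * ((num (640))
 + ((var 2)
 * (num (32))))))
 + ((var 1)
 * (((var 2)
 * ((var 2)
 * ((var 2)
 * ((num (416))
 + ((var 2)
 * (num (32)))))))
 + ((var 1)
 * ((var 2)
 * ((var 2)
 * ((var 2)
 * ((var 2)
 * (num (32))))))))))))))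
 + ((var 0)
 * (((var 2)
 * (num (256)))
 + ((var 1)
 * (((var 2)
 * ((var 2)
 * (num (512))))
 + ((var 1)
 * (((var 2)
 * ((var 2)
 * ((var 2)
 * (num (224)))))
 + ((var 1)
 * ((var 2)
 * ((var 2)
 * ((var 2)
 * ((var 2)
 * (num (-32))))))))))))))

/-- A coefficient. -/
def coMG6 : Ex := (((var 1)
 * (((var 2)
 * (num (-128)))
 + ((var 1)
 * (((var 2)
 * ((num (128))
 + ((var 2)
 * (num (-256)))))
 + ((var 1)
 * (((var 2)
 * ((var 2)
 * ((num (256))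
 + ((var 2)
 * (num (-160))))))
 + ((var 1)
 * (((var 2)
 * ((var 2)
 * ((var 2)
 * ((num (160))
 + ((var 2)
 * (num (-32)))))))
 + ((var 1)
 * ((var 2)
 * ((var 2)
 * ((var 2)
 * ((var 2)
 * (num (32)))))))))))))))
 + ((var 0)
 * ((var 1)
 * (((var 2)
 * (num (128)))
 + ((var 1)
 * (((var 2)
 * ((var 2)
 * (num (256))))
 + ((var 1)
 * (((var 2)
 * ((var 2)
 * ((var 2)
 * (num (160)))))
 + ((var 1)
 * ((var 2)
 * ((var 2)
 * ((var 2)
 * ((var 2)
 * (num (32)))))))))))))))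

/-- A coefficient. -/
def coMG7 : Ex := ((var 1)
 * ((var 1)
 * (((var 2)
 * ((var 2)
 * (num (-16))))
 + ((var 1)
 * ((var 2)
 * ((var 2)
 * ((var 2)
 * (num (-16)))))))))

/-- A coefficient. -/
def coMG8 : Ex := ((((num (128))
 + ((var 2)
 * (num (-224))))
 + ((var 1)
 * (((var 2)
 * ((num (448))
 + ((var 2)
 * (num (-320)))))
 + ((var 1)
 * (((var 2)
 * ((num (32))
 + ((var 2)
 * ((num (832))
 + ((var 2)
 * (num (-296)))))))
 + ((var 1)
 * (((var 2)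
 * ((var 2)
 * ((num (-64))
 + ((var 2)
 * ((num (688))
 + ((var 2)
 * (num (-200))))))))
 + ((var 1)
 * (((var 2)
 * ((var 2)
 * ((num (-64))
 + ((var 2)
 * ((num (-72))
 + ((var 2)
 * ((num (144))
 + ((var 2)
 * (num (-12))))))))))
 + ((var 1)
 * (((var 2)
 * ((var 2)
 * ((var 2)
 * ((num (-128))
 + ((var 2)
 * ((num (24))
 + ((var 2)
 * (num (8)))))))))
 + ((var 1)
 * ((var 2)
 * ((var 2)
 * ((var 2)
 * ((var 2)
 * ((num (-64))
 + ((var 2)
 * (num (4))))))))))))))))))))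
 + ((var 0)
 * ((((var 2)
 * (num (512)))
 + ((var 1)
 * (((var 2)
 * ((num (-320))
 + ((var 2)
 * (num (896)))))
 + ((var 1)
 * (((var 2)
 * ((var 2)
 * ((num (-768))
 + ((var 2)
 * (num (496))))))
 + ((var 1)
 * (((var 2)
 * ((var 2)
 * ((num (-128))
 + ((var 2)
 * ((num (-496))
 + ((var 2)
 * (num (112))))))))
 + ((var 1)
 * (((var 2)
 * ((var 2)
 * ((var 2)
 * ((num (-288))
 + ((var 2)
 * ((num (-48))
 + ((var 2)
 * (num (40)))))))))
 + ((var 1)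
 * ((var 2)
 * ((var 2)
 * ((var 2)
 * ((var 2)
 * ((num (-160))
 + ((var 2)
 * (num (-8))))))))))))))))))
 + ((var 0)
 * ((((var 2)
 * (num (-352)))
 + ((var 1)
 * (((var 2)
 * ((var 2)
 * (num (-704))))
 + ((var 1)
 * (((var 2)
 * ((var 2)
 * ((num (-64))
 + ((var 2)
 * (num (-424))))))
 + ((var 1)
 * (((var 2)
 * ((var 2)
 * ((var 2)
 * ((num (-192))
 + ((var 2)
 * (num (-72)))))))
 + ((var 1)
 * ((var 2)
 * ((var 2)
 * ((var 2)
 * ((var 2)
 * ((num (-128))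
 + ((var 2)
 * (num (-12))))))))))))))))
 + ((var 0)
 * ((var 1)
 * ((var 1)
 * (((var 2)
 * ((var 2)
 * ((var 2)
 * (num (-32)))))
 + ((var 1)
 * ((var 2)
 * ((var 2)
 * ((var 2)
 * ((var 2)
 * (num (-32))))))))))))))))

/-- A coefficient. -/
def coMG9 : Ex := (((var 1)
 * (((var 2)
 * (num (-64)))
 + ((var 1)
 * (((var 2)
 * ((var 2)
 * (num (-128))))
 + ((var 1)
 * (((var 2)
 * ((num (64))
 + ((var 2)
 * ((var 2)
 * (num (-80))))))
 + ((var 1)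
 * (((var 2)
 * ((var 2)
 * ((num (128))
 + ((var 2)
 * ((var 2)
 * (num (-16)))))))
 + ((var 1)
 * (((var 2)
 * ((var 2)
 * ((var 2)
 * (num (80)))))
 + ((var 1)
 * ((var 2)
 * ((var 2)
 * ((var 2)
 * ((var 2)
 * (num (16)))))))))))))))))
 + ((var 0)
 * (((var 1)
 * ((var 1)
 * (((var 2)
 * (num (128)))
 + ((var 1)
 * (((var 2)
 * ((var 2)
 * (num (256))))
 + ((var 1)
 * (((var 2)
 * ((var 2)
 * ((var 2)
 * (num (160)))))
 + ((var 1)
 * ((var 2)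
 * ((var 2)
 * ((var 2)
 * ((var 2)
 * (num (32))))))))))))))
 + ((var 0)
 * ((var 1)
 * (((var 2)
 * (num (64)))
 + ((var 1)
 * (((var 2)
 * ((var 2)
 * (num (128))))
 + ((var 1)
 * (((var 2)
 * ((var 2)
 * ((var 2)
 * (num (80)))))
 + ((var 1)
 * ((var 2)
 * ((var 2)
 * ((var 2)
 * ((var 2)
 * (num (16)))))))))))))))))

/-- A coefficient. -/
def coMG10 : Ex := (((var 1)
 * (((var 2)
 * ((var 2)
 * (num (-512))))
 + ((var 1)
 * (((var 2)
 * ((var 2)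
 * ((num (256))
 + ((var 2)
 * (num (-768))))))
 + ((var 1)
 * (((var 2)
 * ((var 2)
 * ((var 2)
 * ((num (384))
 + ((var 2)
 * (num (-256)))))))
 + ((var 1)
 * ((var 2)
 * ((var 2)
 * ((var 2)
 * ((var 2)
 * (num (128)))))))))))))
 + ((var 0)
 * ((var 1)
 * (((var 2)
 * ((var 2)
 * (num (256))))
 + ((var 1)
 * (((var 2)
 * ((var 2)
 * ((var 2)
 * (num (384)))))
 + ((var 1)
 * ((var 2)
 * ((var 2)
 * ((var 2)
 * ((var 2)
 * (num (128)))))))))))))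

/-- A coefficient. -/
def coMG11 : Ex := (((var 1)
 * ((var 1)
 * (((var 2)
 * ((var 2)
 * (num (16))))
 + ((var 1)
 * (((var 2)
 * ((var 2)
 * ((num (16))
 + ((var 2)
 * (num (16))))))
 + ((var 1)
 * ((var 2)
 * ((var 2)
 * ((var 2)
 * (num (16)))))))))))
 + ((var 0)
 * ((var 1)
 * ((var 1)
 * (((var 2)
 * ((var 2)
 * (num (16))))
 + ((var 1)
 * ((var 2)
 * ((var 2)
 * ((var 2)
 * (num (16)))))))))))

/-- A coefficient. -/
def coMG12 : Ex := (((num (-16))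
 + ((var 1)
 * (((var 2)
 * (num (-32)))
 + ((var 1)
 * (((var 2)
 * ((var 2)
 * (num (-4))))
 + ((var 1)
 * (((var 2)
 * ((var 2)
 * ((num (-8))
 + ((var 2)
 * (num (12))))))
 + ((var 1)
 * (((var 2)
 * ((var 2)
 * ((num (-4))
 + ((var 2)
 * ((num (-8))
 + ((var 2)
 * (num (-4))))))))
 + ((var 1)
 * ((var 2)
 * ((var 2)
 * ((var 2)
 * (num (-4)))))))))))))))
 + ((var 0)
 * (((var 1)
 * ((var 1)
 * (((var 2)
 * ((var 2)
 * (num (-8))))
 + ((var 1)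
 * (((var 2)
 * ((var 2)
 * ((num (-8))
 + ((var 2)
 * (num (-8))))))
 + ((var 1)
 * ((var 2)
 * ((var 2)
 * ((var 2)
 * (num (-8)))))))))))
 + ((var 0)
 * ((var 1)
 * ((var 1)
 * (((var 2)
 * ((var 2)
 * (num (-4))))
 + ((var 1)
 * ((var 2)
 * ((var 2)
 * ((var 2)
 * (num (-4)))))))))))))

/-- The numerator of a form. -/
def tplMG : Ex := (((((var 14) * ((var 14) * ((var 12) * ((var 9) * ((var 7) * ((var 7) * ((var 4) * ((var 4) * coMG0))))))))
 + (((var 14) * ((var 13) * ((var 12) * ((var 9) * ((var 7) * ((var 7) * ((var 4) * ((var 4) * coMG1))))))))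
 + ((var 13) * ((var 13) * ((var 12) * ((var 9) * ((var 7) * ((var 7) * ((var 4) * ((var 4) * coMG2))))))))))
 + (((var 14) * ((var 14) * ((var 12) * ((var 8) * ((var 7) * ((var 7) * ((var 4) * ((var 4) * coMG3))))))))
 + (((var 14) * ((var 14) * ((var 12) * ((var 9) * ((var 7) * ((var 6) * ((var 4) * ((var 4) * coMG4))))))))
 + ((var 14) * ((var 14) * ((var 12) * ((var 9) * ((var 7) * ((var 5) * ((var 4) * ((var 4) * coMG5)))))))))))
 + ((((var 14) * ((var 13) * ((var 12) * ((var 9) * ((var 7) * ((var 5) * ((var 4) * ((var 4) * coMG6))))))))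
 + (((var 14) * ((var 14) * ((var 12) * ((var 9) * ((var 5) * ((var 5) * ((var 4) * ((var 4) * coMG7))))))))
 + ((var 14) * ((var 14) * ((var 12) * ((var 9) * ((var 7) * ((var 7) * ((var 4) * ((var 3) * coMG8))))))))))
 + ((((var 14) * ((var 13) * ((var 12) * ((var 9) * ((var 7) * ((var 7) * ((var 4) * ((var 3) * coMG9))))))))
 + ((var 14) * ((var 14) * ((var 10) * ((var 9) * ((var 7) * ((var 7) * ((var 4) * ((var 3) * coMG10)))))))))
 + (((var 14) * ((var 14) * ((var 12) * ((var 9) * ((var 7) * ((var 5) * ((var 4) * ((var 3) * coMG11))))))))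
 + ((var 14) * ((var 14) * ((var 12) * ((var 9) * ((var 7) * ((var 7) * ((var 3) * ((var 3) * coMG12))))))))))))

/-- A coefficient. -/
def coA0 : Ex := ((((num (-256))
 + ((var 2)
 * ((num (1920))
 + ((var 2)
 * (num (-16))))))
 + ((var 1)
 * (((num (-256))
 + ((var 2)
 * ((num (-1920))
 + ((var 2)
 * ((num (4272))
 + ((var 2)
 * (num (-32))))))))
 + ((var 1)
 * (((var 2)
 * ((num (128))
 + ((var 2)
 * ((num (-3744))
 + ((var 2)
 * ((num (3136))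
 + ((var 2)
 * (num (-56)))))))))
 + ((var 1)
 * (((var 2)
 * ((num (-128))
 + ((var 2)
 * ((num (864))
 + ((var 2)
 * ((num (-2976))
 + ((var 2)
 * ((num (872))
 + ((var 2)
 * (num (-40)))))))))))
 + ((var 1)
 * (((var 2)
 * ((var 2)
 * ((num (-336))
 + ((var 2)
 * ((num (736))
 + ((var 2)
 * ((num (-1152))
 + ((var 2)
 * ((num (40))
 + ((var 2)
 * (num (-9))))))))))))
 + ((var 1)
 * (((var 2)
 * ((var 2)
 * ((num (-16))
 + ((var 2)
 * ((num (-320))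
 + ((var 2)
 * ((num (160))
 + ((var 2)
 * ((num (-208))
 + ((var 2)
 * (num (3))))))))))))
 + ((var 1)
 * (((var 2)
 * ((var 2)
 * ((var 2)
 * ((num (-32))
 + ((var 2)
 * ((num (-72))
 + ((var 2)
 * ((num (16))
 + ((var 2)
 * (num (14)))))))))))
 + ((var 1)
 * (((var 2)
 * ((var 2)
 * ((var 2)
 * ((var 2)
 * ((num (-8))
 + ((var 2)
 * ((num (56))
 + ((var 2)
 * (num (-2))))))))))
 + ((var 1)
 * (((var 2)
 * ((var 2)
 * ((var 2)
 * ((var 2)
 * ((var 2)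
 * ((num (8))
 + ((var 2)
 * (num (-5)))))))))
 + ((var 1)
 * ((var 2)
 * ((var 2)
 * ((var 2)
 * ((var 2)
 * ((var 2)
 * ((var 2)
 * (num (-1))))))))))))))))))))))))))
 + ((var 0)
 * ((((num (-256))
 + ((var 2)
 * ((num (-4736))
 + ((var 2)
 * (num (-400))))))
 + ((var 1)
 * (((var 2)
 * ((num (5120))
 + ((var 2)
 * ((num (-10368))
 + ((var 2)
 * (num (-800)))))))
 + ((var 1)
 * (((var 2)
 * ((num (-896))
 + ((var 2)
 * ((num (11744))
 + ((var 2)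
 * ((num (-7392))
 + ((var 2)
 * (num (-360)))))))))
 + ((var 1)
 * (((var 2)
 * ((var 2)
 * ((num (-2304))
 + ((var 2)
 * ((num (8960))
 + ((var 2)
 * ((num (-2160))
 + ((var 2)
 * (num (40))))))))))
 + ((var 1)
 * (((var 2)
 * ((var 2)
 * ((num (-208))
 + ((var 2)
 * ((num (-2400))
 + ((var 2)
 * ((num (2480))
 + ((var 2)
 * ((num (-288))
 + ((var 2)
 * (num (51))))))))))))
 + ((var 1)
 * (((var 2)
 * ((var 2)
 * ((var 2)
 * ((num (-416))
 + ((var 2)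
 * ((num (-816))
 + ((var 2)
 * ((num (112))
 + ((var 2)
 * (num (20)))))))))))
 + ((var 1)
 * (((var 2)
 * ((var 2)
 * ((var 2)
 * ((var 2)
 * ((num (-168))
 + ((var 2)
 * ((num (160))
 + ((var 2)
 * (num (-62))))))))))
 + ((var 1)
 * (((var 2)
 * ((var 2)
 * ((var 2)
 * ((var 2)
 * ((var 2)
 * ((num (40))
 + ((var 2)
 * (num (-12)))))))))
 + ((var 1)
 * ((var 2)
 * ((var 2)
 * ((var 2)
 * ((var 2)
 * ((var 2)
 * ((var 2)
 * (num (3))))))))))))))))))))))))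
 + ((var 0)
 * ((((var 2)
 * ((num (4992))
 + ((var 2)
 * (num (992)))))
 + ((var 1)
 * (((var 2)
 * ((num (-1408))
 + ((var 2)
 * ((num (9824))
 + ((var 2)
 * (num (1984)))))))
 + ((var 1)
 * (((var 2)
 * ((var 2)
 * ((num (-3360))
 + ((var 2)
 * ((num (6112))
 + ((var 2)
 * (num (912))))))))
 + ((var 1)
 * (((var 2)
 * ((var 2)
 * ((num (-928))
 + ((var 2)
 * ((num (-3360))
 + ((var 2)
 * ((num (832))
 + ((var 2)
 * (num (-80))))))))))
 + ((var 1)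
 * (((var 2)
 * ((var 2)
 * ((var 2)
 * ((num (-1856))
 + ((var 2)
 * ((num (-800))
 + ((var 2)
 * ((num (-336))
 + ((var 2)
 * (num (-58)))))))))))
 + ((var 1)
 * (((var 2)
 * ((var 2)
 * ((var 2)
 * ((var 2)
 * ((num (-976))
 + ((var 2)
 * ((num (528))
 + ((var 2)
 * (num (-118))))))))))
 + ((var 1)
 * (((var 2)
 * ((var 2)
 * ((var 2)
 * ((var 2)
 * ((var 2)
 * ((num (-48))
 + ((var 2)
 * (num (42)))))))))
 + ((var 1)
 * ((var 2)
 * ((var 2)
 * ((var 2)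
 * ((var 2)
 * ((var 2)
 * ((var 2)
 * (num (6))))))))))))))))))))))
 + ((var 0)
 * ((((var 2)
 * ((num (-640))
 + ((var 2)
 * (num (-1056)))))
 + ((var 1)
 * (((var 2)
 * ((var 2)
 * ((num (-1152))
 + ((var 2)
 * (num (-2112))))))
 + ((var 1)
 * (((var 2)
 * ((var 2)
 * ((num (-1696))
 + ((var 2)
 * ((num (-800))
 + ((var 2)
 * (num (-1488))))))))
 + ((var 1)
 * (((var 2)
 * ((var 2)
 * ((var 2)
 * ((num (-3392))
 + ((var 2)
 * ((num (560))
 + ((var 2)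
 * (num (-432)))))))))
 + ((var 1)
 * (((var 2)
 * ((var 2)
 * ((var 2)
 * ((var 2)
 * ((num (-2000))
 + ((var 2)
 * ((num (800))
 + ((var 2)
 * (num (-58))))))))))
 + ((var 1)
 * (((var 2)
 * ((var 2)
 * ((var 2)
 * ((var 2)
 * ((var 2)
 * ((num (-304))
 + ((var 2)
 * (num (100)))))))))
 + ((var 1)
 * ((var 2)
 * ((var 2)
 * ((var 2)
 * ((var 2)
 * ((var 2)
 * ((var 2)
 * (num (-10))))))))))))))))))))
 + ((var 0)
 * ((((var 2)
 * ((var 2)
 * (num (240))))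
 + ((var 1)
 * (((var 2)
 * ((var 2)
 * ((num (-1360))
 + ((var 2)
 * (num (480))))))
 + ((var 1)
 * (((var 2)
 * ((var 2)
 * ((var 2)
 * ((num (-2720))
 + ((var 2)
 * (num (616)))))))
 + ((var 1)
 * (((var 2)
 * ((var 2)
 * ((var 2)
 * ((var 2)
 * ((num (-1704))
 + ((var 2)
 * (num (376))))))))
 + ((var 1)
 * (((var 2)
 * ((var 2)
 * ((var 2)
 * ((var 2)
 * ((var 2)
 * ((num (-344))
 + ((var 2)
 * (num (51)))))))))
 + ((var 1)
 * ((var 2)
 * ((var 2)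
 * ((var 2)
 * ((var 2)
 * ((var 2)
 * ((var 2)
 * (num (-21))))))))))))))))))
 + ((var 0)
 * (((var 2)
 * ((var 2)
 * (num (-400))))
 + ((var 1)
 * (((var 2)
 * ((var 2)
 * ((var 2)
 * (num (-800)))))
 + ((var 1)
 * (((var 2)
 * ((var 2)
 * ((var 2)
 * ((var 2)
 * (num (-520))))))
 + ((var 1)
 * (((var 2)
 * ((var 2)
 * ((var 2)
 * ((var 2)
 * ((var 2)
 * (num (-120)))))))
 + ((var 1)
 * ((var 2)
 * ((var 2)
 * ((var 2)
 * ((var 2)
 * ((var 2)
 * ((var 2)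
 * (num (-9))))))))))))))))))))))))))

/-- A coefficient. -/
def coA1 : Ex := (((var 1)
 * (((var 2)
 * ((var 2)
 * (num (128))))
 + ((var 1)
 * (((var 2)
 * ((var 2)
 * ((num (128))
 + ((var 2)
 * (num (256))))))
 + ((var 1)
 * (((var 2)
 * ((var 2)
 * ((num (-128))
 + ((var 2)
 * ((num (256))
 + ((var 2)
 * (num (160))))))))
 + ((var 1)
 * (((var 2)
 * ((var 2)
 * ((num (-128))
 + ((var 2)
 * ((num (-256))
 + ((var 2)
 * ((num (160))
 + ((var 2)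
 * (num (32))))))))))
 + ((var 1)
 * (((var 2)
 * ((var 2)
 * ((var 2)
 * ((num (-256))
 + ((var 2)
 * ((num (-160))
 + ((var 2)
 * (num (32)))))))))
 + ((var 1)
 * (((var 2)
 * ((var 2)
 * ((var 2)
 * ((var 2)
 * ((num (-160))
 + ((var 2)
 * (num (-32))))))))
 + ((var 1)
 * ((var 2)
 * ((var 2)
 * ((var 2)
 * ((var 2)
 * ((var 2)
 * (num (-32))))))))))))))))))))
 + ((var 0)
 * (((var 1)
 * (((var 2)
 * ((var 2)
 * (num (128))))
 + ((var 1)
 * (((var 2)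
 * ((var 2)
 * ((num (-256))
 + ((var 2)
 * (num (256))))))
 + ((var 1)
 * (((var 2)
 * ((var 2)
 * ((num (-384))
 + ((var 2)
 * ((num (-512))
 + ((var 2)
 * (num (160))))))))
 + ((var 1)
 * (((var 2)
 * ((var 2)
 * ((var 2)
 * ((num (-768))
 + ((var 2)
 * ((num (-320))
 + ((var 2)
 * (num (32)))))))))
 + ((var 1)
 * (((var 2)
 * ((var 2)
 * ((var 2)
 * ((var 2)
 * ((num (-480))
 + ((var 2)
 * (num (-64))))))))
 + ((var 1)
 * ((var 2)
 * ((var 2)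
 * ((var 2)
 * ((var 2)
 * ((var 2)
 * (num (-96))))))))))))))))))
 + ((var 0)
 * (((var 1)
 * (((var 2)
 * ((var 2)
 * (num (-128))))
 + ((var 1)
 * (((var 2)
 * ((var 2)
 * ((num (-384))
 + ((var 2)
 * (num (-256))))))
 + ((var 1)
 * (((var 2)
 * ((var 2)
 * ((var 2)
 * ((num (-768))
 + ((var 2)
 * (num (-160)))))))
 + ((var 1)
 * (((var 2)
 * ((var 2)
 * ((var 2)
 * ((var 2)
 * ((num (-480))
 + ((var 2)
 * (num (-32))))))))
 + ((var 1)
 * ((var 2)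
 * ((var 2)
 * ((var 2)
 * ((var 2)
 * ((var 2)
 * (num (-96))))))))))))))))
 + ((var 0)
 * ((var 1)
 * (((var 2)
 * ((var 2)
 * (num (-128))))
 + ((var 1)
 * (((var 2)
 * ((var 2)
 * ((var 2)
 * (num (-256)))))
 + ((var 1)
 * (((var 2)
 * ((var 2)
 * ((var 2)
 * ((var 2)
 * (num (-160))))))
 + ((var 1)
 * ((var 2)
 * ((var 2)
 * ((var 2)
 * ((var 2)
 * ((var 2)
 * (num (-32))))))))))))))))))))

/-- A coefficient. -/
def coA2 : Ex := (((num (-256))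
 + ((var 1)
 * (((num (256))
 + ((var 2)
 * (num (-768))))
 + ((var 1)
 * (((num (256))
 + ((var 2)
 * ((num (768))
 + ((var 2)
 * (num (-896))))))
 + ((var 1)
 * (((num (-256))
 + ((var 2)
 * ((num (768))
 + ((var 2)
 * ((num (896))
 + ((var 2)
 * (num (-512))))))))
 + ((var 1)
 * (((var 2)
 * ((num (-768))
 + ((var 2)
 * ((num (896))
 + ((var 2)
 * ((num (512))
 + ((var 2)
 * (num (-144)))))))))
 + ((var 1)
 * (((var 2)
 * ((var 2)
 * ((num (-896))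
 + ((var 2)
 * ((num (512))
 + ((var 2)
 * ((num (144))
 + ((var 2)
 * (num (-16))))))))))
 + ((var 1)
 * (((var 2)
 * ((var 2)
 * ((var 2)
 * ((num (-512))
 + ((var 2)
 * ((num (144))
 + ((var 2)
 * (num (16)))))))))
 + ((var 1)
 * (((var 2)
 * ((var 2)
 * ((var 2)
 * ((var 2)
 * ((num (-144))
 + ((var 2)
 * (num (16))))))))
 + ((var 1)
 * ((var 2)
 * ((var 2)
 * ((var 2)
 * ((var 2)
 * ((var 2)
 * (num (-16)))))))))))))))))))))))
 + ((var 0)
 * (((num (256))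
 + ((var 1)
 * (((num (512))
 + ((var 2)
 * (num (768))))
 + ((var 1)
 * (((num (-768))
 + ((var 2)
 * ((num (1536))
 + ((var 2)
 * (num (896))))))
 + ((var 1)
 * (((var 2)
 * ((num (-2304))
 + ((var 2)
 * ((num (1792))
 + ((var 2)
 * (num (512)))))))
 + ((var 1)
 * (((var 2)
 * ((var 2)
 * ((num (-2688))
 + ((var 2)
 * ((num (1024))
 + ((var 2)
 * (num (144))))))))
 + ((var 1)
 * (((var 2)
 * ((var 2)
 * ((var 2)
 * ((num (-1536))
 + ((var 2)
 * ((num (288))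
 + ((var 2)
 * (num (16)))))))))
 + ((var 1)
 * (((var 2)
 * ((var 2)
 * ((var 2)
 * ((var 2)
 * ((num (-432))
 + ((var 2)
 * (num (32))))))))
 + ((var 1)
 * ((var 2)
 * ((var 2)
 * ((var 2)
 * ((var 2)
 * ((var 2)
 * (num (-48)))))))))))))))))))))
 + ((var 0)
 * (((num (256))
 + ((var 1)
 * (((num (-768))
 + ((var 2)
 * (num (768))))
 + ((var 1)
 * (((var 2)
 * ((num (-2304))
 + ((var 2)
 * (num (896)))))
 + ((var 1)
 * (((var 2)
 * ((var 2)
 * ((num (-2688))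
 + ((var 2)
 * (num (512))))))
 + ((var 1)
 * (((var 2)
 * ((var 2)
 * ((var 2)
 * ((num (-1536))
 + ((var 2)
 * (num (144)))))))
 + ((var 1)
 * (((var 2)
 * ((var 2)
 * ((var 2)
 * ((var 2)
 * ((num (-432))
 + ((var 2)
 * (num (16))))))))
 + ((var 1)
 * ((var 2)
 * ((var 2)
 * ((var 2)
 * ((var 2)
 * ((var 2)
 * (num (-48)))))))))))))))))))
 + ((var 0)
 * ((num (-256))
 + ((var 1)
 * (((var 2)
 * (num (-768)))
 + ((var 1)
 * (((var 2)
 * ((var 2)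
 * (num (-896))))
 + ((var 1)
 * (((var 2)
 * ((var 2)
 * ((var 2)
 * (num (-512)))))
 + ((var 1)
 * (((var 2)
 * ((var 2)
 * ((var 2)
 * ((var 2)
 * (num (-144))))))
 + ((var 1)
 * ((var 2)
 * ((var 2)
 * ((var 2)
 * ((var 2)
 * ((var 2)
 * (num (-16)))))))))))))))))))))))

/-- A coefficient. -/
def coA3 : Ex := ((((var 2)
 * (num (-256)))
 + ((var 1)
 * (((var 2)
 * ((num (-256))
 + ((var 2)
 * (num (-384)))))
 + ((var 1)
 * (((var 2)
 * ((var 2)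
 * ((num (-384))
 + ((var 2)
 * (num (-128))))))
 + ((var 1)
 * ((var 2)
 * ((var 2)
 * ((var 2)
 * (num (-128)))))))))))
 + ((var 0)
 * (((var 2)
 * (num (-256)))
 + ((var 1)
 * (((var 2)
 * ((var 2)
 * (num (-384))))
 + ((var 1)
 * ((var 2)
 * ((var 2)
 * ((var 2)
 * (num (-128)))))))))))

/-- A coefficient. -/
def coA4 : Ex := (((var 2)
 * ((var 2)
 * (num (-512))))
 + ((var 1)
 * (((var 2)
 * ((var 2)
 * ((var 2)
 * (num (-768)))))
 + ((var 1)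
 * ((var 2)
 * ((var 2)
 * ((var 2)
 * ((var 2)
 * (num (-256))))))))))

/-- A coefficient. -/
def coA5 : Ex := ((((var 2)
 * (num (-256)))
 + ((var 1)
 * (((var 2)
 * ((num (256))
 + ((var 2)
 * (num (-256)))))
 + ((var 1)
 * (((var 2)
 * ((var 2)
 * ((num (384))
 + ((var 2)
 * (num (32))))))
 + ((var 1)
 * (((var 2)
 * ((var 2)
 * ((var 2)
 * ((num (256))
 + ((var 2)
 * (num (32)))))))
 + ((var 1)
 * (((var 2)
 * ((var 2)
 * ((var 2)
 * ((num (-32))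
 + ((var 2)
 * (num (128)))))))
 + ((var 1)
 * ((var 2)
 * ((var 2)
 * ((var 2)
 * ((var 2)
 * (num (-32))))))))))))))))
 + ((var 0)
 * ((((var 2)
 * (num (256)))
 + ((var 1)
 * (((var 2)
 * ((var 2)
 * (num (512))))
 + ((var 1)
 * (((var 2)
 * ((var 2)
 * ((var 2)
 * (num (448)))))
 + ((var 1)
 * (((var 2)
 * ((var 2)
 * ((var 2)
 * ((num (-64))
 + ((var 2)
 * (num (192)))))))
 + ((var 1)
 * ((var 2)
 * ((var 2)
 * ((var 2)
 * ((var 2)
 * (num (-64))))))))))))))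
 + ((var 0)
 * ((var 1)
 * ((var 1)
 * (((var 2)
 * ((var 2)
 * ((var 2)
 * (num (-32)))))
 + ((var 1)
 * ((var 2)
 * ((var 2)
 * ((var 2)
 * ((var 2)
 * (num (-32))))))))))))))

/-- A coefficient. -/
def coA6 : Ex := (((var 1)
 * (((var 2)
 * (num (-128)))
 + ((var 1)
 * (((var 2)
 * ((num (256))
 + ((var 2)
 * (num (-256)))))
 + ((var 1)
 * (((var 2)
 * ((num (-128))
 + ((var 2)
 * ((num (512))
 + ((var 2)
 * (num (-160)))))))
 + ((var 1)
 * (((var 2)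
 * ((var 2)
 * ((num (-256))
 + ((var 2)
 * ((num (320))
 + ((var 2)
 * (num (-32))))))))
 + ((var 1)
 * (((var 2)
 * ((var 2)
 * ((var 2)
 * ((num (-160))
 + ((var 2)
 * (num (64)))))))
 + ((var 1)
 * ((var 2)
 * ((var 2)
 * ((var 2)
 * ((var 2)
 * (num (-32)))))))))))))))))
 + ((var 0)
 * (((var 1)
 * (((var 2)
 * (num (256)))
 + ((var 1)
 * (((var 2)
 * ((num (-256))
 + ((var 2)
 * (num (512)))))
 + ((var 1)
 * (((var 2)
 * ((var 2)
 * ((num (-512))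
 + ((var 2)
 * (num (320))))))
 + ((var 1)
 * (((var 2)
 * ((var 2)
 * ((var 2)
 * ((num (-320))
 + ((var 2)
 * (num (64)))))))
 + ((var 1)
 * ((var 2)
 * ((var 2)
 * ((var 2)
 * ((var 2)
 * (num (-64)))))))))))))))
 + ((var 0)
 * ((var 1)
 * (((var 2)
 * (num (-128)))
 + ((var 1)
 * (((var 2)
 * ((var 2)
 * (num (-256))))
 + ((var 1)
 * (((var 2)
 * ((var 2)
 * ((var 2)
 * (num (-160)))))
 + ((var 1)
 * ((var 2)
 * ((var 2)
 * ((var 2)
 * ((var 2)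
 * (num (-32)))))))))))))))))

/-- A coefficient. -/
def coA7 : Ex := (((var 1)
 * ((var 1)
 * (((var 2)
 * ((var 2)
 * (num (-16))))
 + ((var 1)
 * (((var 2)
 * ((var 2)
 * ((num (-16))
 + ((var 2)
 * (num (-16))))))
 + ((var 1)
 * ((var 2)
 * ((var 2)
 * ((var 2)
 * (num (-16)))))))))))
 + ((var 0)
 * ((var 1)
 * ((var 1)
 * (((var 2)
 * ((var 2)
 * (num (-16))))
 + ((var 1)
 * ((var 2)
 * ((var 2)
 * ((var 2)
 * (num (-16)))))))))))

/-- A coefficient. -/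
def coA8 : Ex := ((((num (128))
 + ((var 2)
 * (num (-608))))
 + ((var 1)
 * (((num (128))
 + ((var 2)
 * ((num (608))
 + ((var 2)
 * (num (-1344))))))
 + ((var 1)
 * (((var 2)
 * ((num (224))
 + ((var 2)
 * ((num (768))
 + ((var 2)
 * (num (-840)))))))
 + ((var 1)
 * (((var 2)
 * ((num (32))
 + ((var 2)
 * ((num (64))
 + ((var 2)
 * ((num (168))
 + ((var 2)
 * (num (-104)))))))))
 + ((var 1)
 * (((var 2)
 * ((var 2)
 * ((var 2)
 * ((num (-120))
 + ((var 2)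
 * ((num (-152))
 + ((var 2)
 * (num (36)))))))))
 + ((var 1)
 * (((var 2)
 * ((var 2)
 * ((var 2)
 * ((num (-104))
 + ((var 2)
 * ((num (-120))
 + ((var 2)
 * (num (-36)))))))))
 + ((var 1)
 * (((var 2)
 * ((var 2)
 * ((var 2)
 * ((var 2)
 * ((num (-72))
 + ((var 2)
 * (num (-4))))))))
 + ((var 1)
 * ((var 2)
 * ((var 2)
 * ((var 2)
 * ((var 2)
 * ((var 2)
 * (num (4)))))))))))))))))))))
 + ((var 0)
 * ((((num (128))
 + ((var 2)
 * (num (1184))))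
 + ((var 1)
 * (((var 2)
 * ((num (-896))
 + ((var 2)
 * (num (2240)))))
 + ((var 1)
 * (((var 2)
 * ((num (224))
 + ((var 2)
 * ((num (-2176))
 + ((var 2)
 * (num (936)))))))
 + ((var 1)
 * (((var 2)
 * ((var 2)
 * ((num (320))
 + ((var 2)
 * ((num (-1328))
 + ((var 2)
 * (num (-120))))))))
 + ((var 1)
 * (((var 2)
 * ((var 2)
 * ((var 2)
 * ((num (-120))
 + ((var 2)
 * ((num (-208))
 + ((var 2)
 * (num (-68)))))))))
 + ((var 1)
 * (((var 2)
 * ((var 2)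
 * ((var 2)
 * ((var 2)
 * ((num (-216))
 + ((var 2)
 * (num (72))))))))
 + ((var 1)
 * ((var 2)
 * ((var 2)
 * ((var 2)
 * ((var 2)
 * ((var 2)
 * (num (-4)))))))))))))))))))
 + ((var 0)
 * ((((var 2)
 * (num (-1120)))
 + ((var 1)
 * (((var 2)
 * ((num (352))
 + ((var 2)
 * (num (-2240)))))
 + ((var 1)
 * (((var 2)
 * ((var 2)
 * ((num (640))
 + ((var 2)
 * (num (-1208))))))
 + ((var 1)
 * (((var 2)
 * ((var 2)
 * ((var 2)
 * ((num (72))
 + ((var 2)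
 * (num (-88)))))))
 + ((var 1)
 * (((var 2)
 * ((var 2)
 * ((var 2)
 * ((var 2)
 * ((num (-216))
 + ((var 2)
 * (num (76))))))))
 + ((var 1)
 * ((var 2)
 * ((var 2)
 * ((var 2)
 * ((var 2)
 * ((var 2)
 * (num (-20)))))))))))))))))
 + ((var 0)
 * (((var 2)
 * (num (160)))
 + ((var 1)
 * (((var 2)
 * ((var 2)
 * (num (320))))
 + ((var 1)
 * (((var 2)
 * ((var 2)
 * ((var 2)
 * (num (88)))))
 + ((var 1)
 * (((var 2)
 * ((var 2)
 * ((var 2)
 * ((var 2)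
 * (num (-72))))))
 + ((var 1)
 * ((var 2)
 * ((var 2)
 * ((var 2)
 * ((var 2)
 * ((var 2)
 * (num (-12)))))))))))))))))))))

/-- A coefficient. -/
def coA9 : Ex := (((var 1)
 * (((var 2)
 * (num (-64)))
 + ((var 1)
 * (((var 2)
 * ((num (-64))
 + ((var 2)
 * (num (-128)))))
 + ((var 1)
 * (((var 2)
 * ((num (64))
 + ((var 2)
 * ((num (-128))
 + ((var 2)
 * (num (-80)))))))
 + ((var 1)
 * (((var 2)
 * ((num (64))
 + ((var 2)
 * ((num (128))
 + ((var 2)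
 * ((num (-80))
 + ((var 2)
 * (num (-16)))))))))
 + ((var 1)
 * (((var 2)
 * ((var 2)
 * ((num (128))
 + ((var 2)
 * ((num (80))
 + ((var 2)
 * (num (-16))))))))
 + ((var 1)
 * (((var 2)
 * ((var 2)
 * ((var 2)
 * ((num (80))
 + ((var 2)
 * (num (16)))))))
 + ((var 1)
 * ((var 2)
 * ((var 2)
 * ((var 2)
 * ((var 2)
 * (num (16)))))))))))))))))))
 + ((var 0)
 * (((var 1)
 * (((var 2)
 * (num (-64)))
 + ((var 1)
 * (((var 2)
 * ((num (128))
 + ((var 2)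
 * (num (-128)))))
 + ((var 1)
 * (((var 2)
 * ((num (192))
 + ((var 2)
 * ((num (256))
 + ((var 2)
 * (num (-80)))))))
 + ((var 1)
 * (((var 2)
 * ((var 2)
 * ((num (384))
 + ((var 2)
 * ((num (160))
 + ((var 2)
 * (num (-16))))))))
 + ((var 1)
 * (((var 2)
 * ((var 2)
 * ((var 2)
 * ((num (240))
 + ((var 2)
 * (num (32)))))))
 + ((var 1)
 * ((var 2)
 * ((var 2)
 * ((var 2)
 * ((var 2)
 * (num (48)))))))))))))))))
 + ((var 0)
 * (((var 1)
 * (((var 2)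
 * (num (64)))
 + ((var 1)
 * (((var 2)
 * ((num (192))
 + ((var 2)
 * (num (128)))))
 + ((var 1)
 * (((var 2)
 * ((var 2)
 * ((num (384))
 + ((var 2)
 * (num (80))))))
 + ((var 1)
 * (((var 2)
 * ((var 2)
 * ((var 2)
 * ((num (240))
 + ((var 2)
 * (num (16)))))))
 + ((var 1)
 * ((var 2)
 * ((var 2)
 * ((var 2)
 * ((var 2)
 * (num (48)))))))))))))))
 + ((var 0)
 * ((var 1)
 * (((var 2)
 * (num (64)))
 + ((var 1)
 * (((var 2)
 * ((var 2)
 * (num (128))))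
 + ((var 1)
 * (((var 2)
 * ((var 2)
 * ((var 2)
 * (num (80)))))
 + ((var 1)
 * ((var 2)
 * ((var 2)
 * ((var 2)
 * ((var 2)
 * (num (16)))))))))))))))))))

/-- A coefficient. -/
def coA10 : Ex := (((var 1)
 * (((var 2)
 * ((var 2)
 * (num (-512))))
 + ((var 1)
 * (((var 2)
 * ((var 2)
 * ((num (256))
 + ((var 2)
 * (num (-768))))))
 + ((var 1)
 * (((var 2)
 * ((var 2)
 * ((var 2)
 * ((num (384))
 + ((var 2)
 * (num (-256)))))))
 + ((var 1)
 * ((var 2)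
 * ((var 2)
 * ((var 2)
 * ((var 2)
 * (num (128)))))))))))))
 + ((var 0)
 * ((var 1)
 * (((var 2)
 * ((var 2)
 * (num (256))))
 + ((var 1)
 * (((var 2)
 * ((var 2)
 * ((var 2)
 * (num (384)))))
 + ((var 1)
 * ((var 2)
 * ((var 2)
 * ((var 2)
 * ((var 2)
 * (num (128)))))))))))))

/-- A coefficient. -/
def coA11 : Ex := (((var 1)
 * ((var 1)
 * (((var 2)
 * ((var 2)
 * (num (16))))
 + ((var 1)
 * (((var 2)
 * ((var 2)
 * ((num (32))
 + ((var 2)
 * (num (16))))))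
 + ((var 1)
 * (((var 2)
 * ((var 2)
 * ((num (16))
 + ((var 2)
 * (num (32))))))
 + ((var 1)
 * ((var 2)
 * ((var 2)
 * ((var 2)
 * (num (16)))))))))))))
 + ((var 0)
 * (((var 1)
 * ((var 1)
 * (((var 2)
 * ((var 2)
 * (num (32))))
 + ((var 1)
 * (((var 2)
 * ((var 2)
 * ((num (32))
 + ((var 2)
 * (num (32))))))
 + ((var 1)
 * ((var 2)
 * ((var 2)
 * ((var 2)
 * (num (32)))))))))))
 + ((var 0)
 * ((var 1)
 * ((var 1)
 * (((var 2)
 * ((var 2)
 * (num (16))))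
 + ((var 1)
 * ((var 2)
 * ((var 2)
 * ((var 2)
 * (num (16)))))))))))))

/-- A coefficient. -/
def coA12 : Ex := (((num (-16))
 + ((var 1)
 * (((num (-16))
 + ((var 2)
 * (num (-32))))
 + ((var 1)
 * (((var 2)
 * ((num (-32))
 + ((var 2)
 * (num (-4)))))
 + ((var 1)
 * (((var 2)
 * ((var 2)
 * ((num (-12))
 + ((var 2)
 * (num (12))))))
 + ((var 1)
 * (((var 2)
 * ((var 2)
 * ((num (-12))
 + ((var 2)
 * ((num (4))
 + ((var 2)
 * (num (-4))))))))
 + ((var 1)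
 * (((var 2)
 * ((var 2)
 * ((num (-4))
 + ((var 2)
 * ((num (-12))
 + ((var 2)
 * (num (-4))))))))
 + ((var 1)
 * ((var 2)
 * ((var 2)
 * ((var 2)
 * (num (-4)))))))))))))))))
 + ((var 0)
 * (((num (-16))
 + ((var 1)
 * (((var 2)
 * (num (-32)))
 + ((var 1)
 * (((var 2)
 * ((var 2)
 * (num (-12))))
 + ((var 1)
 * (((var 2)
 * ((var 2)
 * ((num (-24))
 + ((var 2)
 * (num (4))))))
 + ((var 1)
 * (((var 2)
 * ((var 2)
 * ((num (-12))
 + ((var 2)
 * ((num (-24))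
 + ((var 2)
 * (num (-4))))))))
 + ((var 1)
 * ((var 2)
 * ((var 2)
 * ((var 2)
 * (num (-12)))))))))))))))
 + ((var 0)
 * (((var 1)
 * ((var 1)
 * (((var 2)
 * ((var 2)
 * (num (-12))))
 + ((var 1)
 * (((var 2)
 * ((var 2)
 * ((num (-12))
 + ((var 2)
 * (num (-12))))))
 + ((var 1)
 * ((var 2)
 * ((var 2)
 * ((var 2)
 * (num (-12)))))))))))
 + ((var 0)
 * ((var 1)
 * ((var 1)
 * (((var 2)
 * ((var 2)
 * (num (-4))))
 + ((var 1)
 * ((var 2)
 * ((var 2)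
 * ((var 2)
 * (num (-4)))))))))))))))

/-- The numerator of a form. -/
def tplA : Ex := (((((var 14) * ((var 14) * ((var 12) * ((var 9) * ((var 7) * ((var 7) * ((var 4) * ((var 4) * coA0))))))))
 + (((var 14) * ((var 13) * ((var 12) * ((var 9) * ((var 7) * ((var 7) * ((var 4) * ((var 4) * coA1))))))))
 + ((var 13) * ((var 13) * ((var 12) * ((var 9) * ((var 7) * ((var 7) * ((var 4) * ((var 4) * coA2))))))))))
 + (((var 14) * ((var 14) * ((var 12) * ((var 8) * ((var 7) * ((var 7) * ((var 4) * ((var 4) * coA3))))))))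
 + (((var 14) * ((var 14) * ((var 12) * ((var 9) * ((var 7) * ((var 6) * ((var 4) * ((var 4) * coA4))))))))
 + ((var 14) * ((var 14) * ((var 12) * ((var 9) * ((var 7) * ((var 5) * ((var 4) * ((var 4) * coA5)))))))))))
 + ((((var 14) * ((var 13) * ((var 12) * ((var 9) * ((var 7) * ((var 5) * ((var 4) * ((var 4) * coA6))))))))
 + (((var 14) * ((var 14) * ((var 12) * ((var 9) * ((var 5) * ((var 5) * ((var 4) * ((var 4) * coA7))))))))
 + ((var 14) * ((var 14) * ((var 12) * ((var 9) * ((var 7) * ((var 7) * ((var 4) * ((var 3) * coA8))))))))))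
 + ((((var 14) * ((var 13) * ((var 12) * ((var 9) * ((var 7) * ((var 7) * ((var 4) * ((var 3) * coA9))))))))
 + ((var 14) * ((var 14) * ((var 10) * ((var 9) * ((var 7) * ((var 7) * ((var 4) * ((var 3) * coA10)))))))))
 + (((var 14) * ((var 14) * ((var 12) * ((var 9) * ((var 7) * ((var 5) * ((var 4) * ((var 3) * coA11))))))))
 + ((var 14) * ((var 14) * ((var 12) * ((var 9) * ((var 7) * ((var 7) * ((var 3) * ((var 3) * coA12))))))))))))

/-- A coefficient. -/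
def coT0 : Ex := (((var 1)
 * (((var 2)
 * ((num (320))
 + ((var 2)
 * (num (240)))))
 + ((var 1)
 * (((var 2)
 * ((num (256))
 + ((var 2)
 * ((num (256))
 + ((var 2)
 * (num (224)))))))
 + ((var 1)
 * (((var 2)
 * ((num (-64))
 + ((var 2)
 * ((num (352))
 + ((var 2)
 * ((num (32))
 + ((var 2)
 * (num (52)))))))))
 + ((var 1)
 * (((var 2)
 * ((var 2)
 * ((num (-192))
 + ((var 2)
 * ((num (128))
 + ((var 2)
 * ((num (-16))
 + ((var 2)
 * (num (-12))))))))))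
 + ((var 1)
 * (((var 2)
 * ((var 2)
 * ((num (-16))
 + ((var 2)
 * ((num (-224))
 + ((var 2)
 * ((num (-8))
 + ((var 2)
 * (num (-16))))))))))
 + ((var 1)
 * (((var 2)
 * ((var 2)
 * ((var 2)
 * ((num (-32))
 + ((var 2)
 * ((num (-80))
 + ((var 2)
 * (num (8)))))))))
 + ((var 1)
 * (((var 2)
 * ((var 2)
 * ((var 2)
 * ((var 2)
 * ((num (-12))
 + ((var 2)
 * (num (16))))))))
 + ((var 1)
 * ((var 2)
 * ((var 2)
 * ((var 2)
 * ((var 2)
 * ((var 2)
 * (num (4))))))))))))))))))))))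
 + ((var 0)
 * (((var 1)
 * (((var 2)
 * ((num (256))
 + ((var 2)
 * ((num (-832))
 + ((var 2)
 * (num (-136)))))))
 + ((var 1)
 * (((var 2)
 * ((num (-128))
 + ((var 2)
 * ((num (768))
 + ((var 2)
 * ((num (-608))
 + ((var 2)
 * (num (-136)))))))))
 + ((var 1)
 * (((var 2)
 * ((var 2)
 * ((num (-512))
 + ((var 2)
 * ((num (624))
 + ((var 2)
 * ((var 2)
 * (num (-46)))))))))
 + ((var 1)
 * (((var 2)
 * ((var 2)
 * ((num (-128))
 + ((var 2)
 * ((num (-704))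
 + ((var 2)
 * ((num (176))
 + ((var 2)
 * (num (24))))))))))
 + ((var 1)
 * (((var 2)
 * ((var 2)
 * ((var 2)
 * ((num (-264))
 + ((var 2)
 * ((num (-288))
 + ((var 2)
 * (num (60)))))))))
 + ((var 1)
 * (((var 2)
 * ((var 2)
 * ((var 2)
 * ((var 2)
 * ((num (-136))
 + ((var 2)
 * (num (56))))))))
 + ((var 1)
 * ((var 2)
 * ((var 2)
 * ((var 2)
 * ((var 2)
 * ((var 2)
 * (num (2))))))))))))))))))))
 + ((var 0)
 * (((var 1)
 * (((var 2)
 * ((num (-64))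
 + ((var 2)
 * ((num (416))
 + ((var 2)
 * (num (464)))))))
 + ((var 1)
 * (((var 2)
 * ((var 2)
 * ((num (-448))
 + ((var 2)
 * ((num (320))
 + ((var 2)
 * (num (464))))))))
 + ((var 1)
 * (((var 2)
 * ((var 2)
 * ((num (-288))
 + ((var 2)
 * ((num (-784))
 + ((var 2)
 * ((num (8))
 + ((var 2)
 * (num (104))))))))))
 + ((var 1)
 * (((var 2)
 * ((var 2)
 * ((var 2)
 * ((num (-640))
 + ((var 2)
 * ((num (-384))
 + ((var 2)
 * (num (24)))))))))
 + ((var 1)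
 * (((var 2)
 * ((var 2)
 * ((var 2)
 * ((var 2)
 * ((num (-376))
 + ((var 2)
 * (num (72))))))))
 + ((var 1)
 * ((var 2)
 * ((var 2)
 * ((var 2)
 * ((var 2)
 * ((var 2)
 * (num (-24))))))))))))))))))
 + ((var 0)
 * (((var 1)
 * (((var 2)
 * ((var 2)
 * ((num (-128))
 + ((var 2)
 * (num (-176))))))
 + ((var 1)
 * (((var 2)
 * ((var 2)
 * ((num (-256))
 + ((var 2)
 * ((num (-352))
 + ((var 2)
 * (num (-176))))))))
 + ((var 1)
 * (((var 2)
 * ((var 2)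
 * ((var 2)
 * ((num (-656))
 + ((var 2)
 * ((num (-224))
 + ((var 2)
 * (num (-28)))))))))
 + ((var 1)
 * (((var 2)
 * ((var 2)
 * ((var 2)
 * ((var 2)
 * ((num (-432))
 + ((var 2)
 * (num (40))))))))
 + ((var 1)
 * ((var 2)
 * ((var 2)
 * ((var 2)
 * ((var 2)
 * ((var 2)
 * (num (-44))))))))))))))))
 + ((var 0)
 * (((var 1)
 * (((var 2)
 * ((var 2)
 * ((num (-80))
 + ((var 2)
 * (num (-48))))))
 + ((var 1)
 * (((var 2)
 * ((var 2)
 * ((var 2)
 * ((num (-288))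
 + ((var 2)
 * (num (-48)))))))
 + ((var 1)
 * (((var 2)
 * ((var 2)
 * ((var 2)
 * ((var 2)
 * ((num (-220))
 + ((var 2)
 * (num (8))))))))
 + ((var 1)
 * ((var 2)
 * ((var 2)
 * ((var 2)
 * ((var 2)
 * ((var 2)
 * (num (-28))))))))))))))
 + ((var 0)
 * ((var 1)
 * (((var 2)
 * ((var 2)
 * ((var 2)
 * (num (-40)))))
 + ((var 1)
 * (((var 2)
 * ((var 2)
 * ((var 2)
 * ((var 2)
 * (num (-40))))))
 + ((var 1)
 * ((var 2)
 * ((var 2)
 * ((var 2)
 * ((var 2)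
 * ((var 2)
 * (num (-6))))))))))))))))))))))

/-- A coefficient. -/
def coT1 : Ex := ((((num (-256))
 + ((var 2)
 * (num (64))))
 + ((var 1)
 * (((var 2)
 * ((num (-1024))
 + ((var 2)
 * (num (128)))))
 + ((var 1)
 * (((num (256))
 + ((var 2)
 * ((num (384))
 + ((var 2)
 * ((num (-1408))
 + ((var 2)
 * (num (128))))))))
 + ((var 1)
 * (((var 2)
 * ((num (512))
 + ((var 2)
 * ((num (768))
 + ((var 2)
 * ((num (-896))
 + ((var 2)
 * (num (64)))))))))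
 + ((var 1)
 * (((var 2)
 * ((num (64))
 + ((var 2)
 * ((num (384))
 + ((var 2)
 * ((num (576))
 + ((var 2)
 * ((num (-272))
 + ((var 2)
 * (num (12)))))))))))
 + ((var 1)
 * (((var 2)
 * ((var 2)
 * ((num (128))
 + ((var 2)
 * ((num (128))
 + ((var 2)
 * ((num (192))
 + ((var 2)
 * (num (-32))))))))))
 + ((var 1)
 * (((var 2)
 * ((var 2)
 * ((var 2)
 * ((num (64))
 + ((var 2)
 * ((num (16))
 + ((var 2)
 * (num (24)))))))))
 + ((var 1)
 * ((var 1)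
 * ((var 2)
 * ((var 2)
 * ((var 2)
 * ((var 2)
 * ((var 2)
 * (num (-4))))))))))))))))))))))
 + ((var 0)
 * ((((var 2)
 * (num (-640)))
 + ((var 1)
 * (((num (512))
 + ((var 2)
 * ((num (1536))
 + ((var 2)
 * (num (-1280))))))
 + ((var 1)
 * (((var 2)
 * ((num (128))
 + ((var 2)
 * ((num (3072))
 + ((var 2)
 * (num (-960)))))))
 + ((var 1)
 * (((var 2)
 * ((num (512))
 + ((var 2)
 * ((num (-1024))
 + ((var 2)
 * ((num (2304))
 + ((var 2)
 * (num (-320)))))))))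
 + ((var 1)
 * (((var 2)
 * ((var 2)
 * ((num (1024))
 + ((var 2)
 * ((num (-1088))
 + ((var 2)
 * ((num (768))
 + ((var 2)
 * (num (-40))))))))))
 + ((var 1)
 * (((var 2)
 * ((var 2)
 * ((var 2)
 * ((num (640))
 + ((var 2)
 * ((num (-416))
 + ((var 2)
 * (num (96)))))))))
 + ((var 1)
 * ((var 2)
 * ((var 2)
 * ((var 2)
 * ((var 2)
 * ((num (128))
 + ((var 2)
 * (num (-56))))))))))))))))))))
 + ((var 0)
 * ((((num (256))
 + ((var 2)
 * (num (1152))))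
 + ((var 1)
 * (((var 2)
 * ((num (-1280))
 + ((var 2)
 * (num (2304)))))
 + ((var 1)
 * (((var 2)
 * ((num (1152))
 + ((var 2)
 * ((num (-3200))
 + ((var 2)
 * (num (1728)))))))
 + ((var 1)
 * (((var 2)
 * ((var 2)
 * ((num (2304))
 + ((var 2)
 * ((num (-2560))
 + ((var 2)
 * (num (576))))))))
 + ((var 1)
 * (((var 2)
 * ((var 2)
 * ((var 2)
 * ((num (1536))
 + ((var 2)
 * ((num (-880))
 + ((var 2)
 * (num (72)))))))))
 + ((var 1)
 * (((var 2)
 * ((var 2)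
 * ((var 2)
 * ((var 2)
 * ((num (384))
 + ((var 2)
 * (num (-112))))))))
 + ((var 1)
 * ((var 2)
 * ((var 2)
 * ((var 2)
 * ((var 2)
 * ((var 2)
 * (num (24)))))))))))))))))))
 + ((var 0)
 * ((((var 2)
 * (num (-896)))
 + ((var 1)
 * (((var 2)
 * ((num (1024))
 + ((var 2)
 * (num (-1792)))))
 + ((var 1)
 * (((var 2)
 * ((var 2)
 * ((num (2048))
 + ((var 2)
 * (num (-1344))))))
 + ((var 1)
 * (((var 2)
 * ((var 2)
 * ((var 2)
 * ((num (1408))
 + ((var 2)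
 * (num (-448)))))))
 + ((var 1)
 * (((var 2)
 * ((var 2)
 * ((var 2)
 * ((var 2)
 * ((num (384))
 + ((var 2)
 * (num (-56))))))))
 + ((var 1)
 * ((var 2)
 * ((var 2)
 * ((var 2)
 * ((var 2)
 * ((var 2)
 * (num (32)))))))))))))))))
 + ((var 0)
 * (((var 2)
 * (num (320)))
 + ((var 1)
 * (((var 2)
 * ((var 2)
 * (num (640))))
 + ((var 1)
 * (((var 2)
 * ((var 2)
 * ((var 2)
 * (num (448)))))
 + ((var 1)
 * (((var 2)
 * ((var 2)
 * ((var 2)
 * ((var 2)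
 * (num (128))))))
 + ((var 1)
 * ((var 2)
 * ((var 2)
 * ((var 2)
 * ((var 2)
 * ((var 2)
 * (num (12)))))))))))))))))))))))

/-- A coefficient. -/
def coT2 : Ex := ((var 1)
 * (((var 2)
 * ((var 2)
 * ((var 2)
 * (num (512)))))
 + ((var 1)
 * (((var 2)
 * ((var 2)
 * ((var 2)
 * ((var 2)
 * (num (512))))))
 + ((var 1)
 * ((var 2)
 * ((var 2)
 * ((var 2)
 * ((var 2)
 * ((var 2)
 * (num (128))))))))))))

/-- A coefficient. -/
def coT3 : Ex := ((((var 2)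
 * ((num (-1280))
 + ((var 2)
 * (num (64)))))
 + ((var 1)
 * (((var 2)
 * ((num (256))
 + ((var 2)
 * ((num (-2240))
 + ((var 2)
 * (num (96)))))))
 + ((var 1)
 * (((var 2)
 * ((var 2)
 * ((num (576))
 + ((var 2)
 * ((num (-1248))
 + ((var 2)
 * (num (80))))))))
 + ((var 1)
 * (((var 2)
 * ((var 2)
 * ((num (64))
 + ((var 2)
 * ((num (544))
 + ((var 2)
 * ((num (-208))
 + ((var 2)
 * (num (24))))))))))
 + ((var 1)
 * (((var 2)
 * ((var 2)
 * ((var 2)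
 * ((num (96))
 + ((var 2)
 * ((num (112))
 + ((var 2)
 * (num (8)))))))))
 + ((var 1)
 * (((var 2)
 * ((var 2)
 * ((var 2)
 * ((var 2)
 * ((num (16))
 + ((var 2)
 * (num (-24))))))))
 + ((var 1)
 * ((var 2)
 * ((var 2)
 * ((var 2)
 * ((var 2)
 * ((var 2)
 * (num (-8)))))))))))))))))))
 + ((var 0)
 * ((((var 2)
 * ((num (256))
 + ((var 2)
 * (num (64)))))
 + ((var 1)
 * (((var 2)
 * ((var 2)
 * ((num (640))
 + ((var 2)
 * (num (96))))))
 + ((var 1)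
 * (((var 2)
 * ((var 2)
 * ((num (448))
 + ((var 2)
 * ((num (640))
 + ((var 2)
 * (num (48))))))))
 + ((var 1)
 * (((var 2)
 * ((var 2)
 * ((var 2)
 * ((num (672))
 + ((var 2)
 * ((num (32))
 + ((var 2)
 * (num (8)))))))))
 + ((var 1)
 * (((var 2)
 * ((var 2)
 * ((var 2)
 * ((var 2)
 * ((num (240))
 + ((var 2)
 * (num (-80))))))))
 + ((var 1)
 * ((var 2)
 * ((var 2)
 * ((var 2)
 * ((var 2)
 * ((var 2)
 * (num (8)))))))))))))))))
 + ((var 0)
 * ((((var 2)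
 * ((var 2)
 * (num (64))))
 + ((var 1)
 * (((var 2)
 * ((var 2)
 * ((num (704))
 + ((var 2)
 * (num (96))))))
 + ((var 1)
 * (((var 2)
 * ((var 2)
 * ((var 2)
 * ((num (1056))
 + ((var 2)
 * (num (-80)))))))
 + ((var 1)
 * (((var 2)
 * ((var 2)
 * ((var 2)
 * ((var 2)
 * ((num (432))
 + ((var 2)
 * (num (-56))))))))
 + ((var 1)
 * ((var 2)
 * ((var 2)
 * ((var 2)
 * ((var 2)
 * ((var 2)
 * (num (40)))))))))))))))
 + ((var 0)
 * (((var 2)
 * ((var 2)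
 * (num (320))))
 + ((var 1)
 * (((var 2)
 * ((var 2)
 * ((var 2)
 * (num (480)))))
 + ((var 1)
 * (((var 2)
 * ((var 2)
 * ((var 2)
 * ((var 2)
 * (num (208))))))
 + ((var 1)
 * ((var 2)
 * ((var 2)
 * ((var 2)
 * ((var 2)
 * ((var 2)
 * (num (24)))))))))))))))))))

/-- A coefficient. -/
def coT4 : Ex := (((var 1)
 * (((var 2)
 * ((num (32))
 + ((var 2)
 * (num (8)))))
 + ((var 1)
 * (((var 2)
 * ((num (32))
 + ((var 2)
 * ((num (-8))
 + ((var 2)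
 * (num (8)))))))
 + ((var 1)
 * (((var 2)
 * ((var 2)
 * ((num (56))
 + ((var 2)
 * ((num (-40))
 + ((var 2)
 * (num (6))))))))
 + ((var 1)
 * (((var 2)
 * ((var 2)
 * ((num (8))
 + ((var 2)
 * ((num (24))
 + ((var 2)
 * (num (2))))))))
 + ((var 1)
 * (((var 2)
 * ((var 2)
 * ((var 2)
 * ((num (8))
 + ((var 2)
 * (num (-6)))))))
 + ((var 1)
 * ((var 2)
 * ((var 2)
 * ((var 2)
 * ((var 2)
 * (num (-2)))))))))))))))))
 + ((var 0)
 * (((var 1)
 * (((var 2)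
 * ((num (32))
 + ((var 2)
 * (num (-88)))))
 + ((var 1)
 * (((var 2)
 * ((var 2)
 * ((num (64))
 + ((var 2)
 * (num (-88))))))
 + ((var 1)
 * (((var 2)
 * ((var 2)
 * ((num (56))
 + ((var 2)
 * ((num (32))
 + ((var 2)
 * (num (-6))))))))
 + ((var 1)
 * (((var 2)
 * ((var 2)
 * ((var 2)
 * ((num (56))
 + ((var 2)
 * (num (-12)))))))
 + ((var 1)
 * ((var 2)
 * ((var 2)
 * ((var 2)
 * ((var 2)
 * (num (2)))))))))))))))
 + ((var 0)
 * (((var 1)
 * (((var 2)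
 * ((var 2)
 * (num (8))))
 + ((var 1)
 * (((var 2)
 * ((var 2)
 * ((num (88))
 + ((var 2)
 * (num (8))))))
 + ((var 1)
 * (((var 2)
 * ((var 2)
 * ((var 2)
 * ((num (88))
 + ((var 2)
 * (num (-6)))))))
 + ((var 1)
 * ((var 2)
 * ((var 2)
 * ((var 2)
 * ((var 2)
 * (num (10)))))))))))))
 + ((var 0)
 * ((var 1)
 * (((var 2)
 * ((var 2)
 * (num (40))))
 + ((var 1)
 * (((var 2)
 * ((var 2)
 * ((var 2)
 * (num (40)))))
 + ((var 1)
 * ((var 2)
 * ((var 2)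
 * ((var 2)
 * ((var 2)
 * (num (6)))))))))))))))))

/-- A coefficient. -/
def coT5 : Ex := (((var 1)
 * (((var 2)
 * ((num (-64))
 + ((var 2)
 * (num (-28)))))
 + ((var 1)
 * (((var 2)
 * ((num (-64))
 + ((var 2)
 * ((num (40))
 + ((var 2)
 * (num (-28)))))))
 + ((var 1)
 * (((var 2)
 * ((var 2)
 * ((num (-48))
 + ((var 2)
 * ((num (128))
 + ((var 2)
 * (num (-25))))))))
 + ((var 1)
 * (((var 2)
 * ((var 2)
 * ((num (8))
 + ((var 2)
 * ((num (32))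
 + ((var 2)
 * (num (14))))))))
 + ((var 1)
 * (((var 2)
 * ((var 2)
 * (num (-4))))
 + ((var 1)
 * (((var 2)
 * ((var 2)
 * ((var 2)
 * ((num (-4))
 + ((var 2)
 * (num (-6)))))))
 + ((var 1)
 * ((var 2)
 * ((var 2)
 * ((var 2)
 * ((var 2)
 * (num (1)))))))))))))))))))
 + ((var 0)
 * (((var 1)
 * (((var 2)
 * ((num (-64))
 + ((var 2)
 * (num (248)))))
 + ((var 1)
 * (((var 2)
 * ((var 2)
 * ((num (-112))
 + ((var 2)
 * (num (248))))))
 + ((var 1)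
 * (((var 2)
 * ((var 2)
 * ((num (40))
 + ((var 2)
 * ((num (-32))
 + ((var 2)
 * (num (30))))))))
 + ((var 1)
 * (((var 2)
 * ((var 2)
 * ((num (-32))
 + ((var 2)
 * ((num (24))
 + ((var 2)
 * (num (-36))))))))
 + ((var 1)
 * ((var 2)
 * ((var 2)
 * ((var 2)
 * ((num (-32))
 + ((var 2)
 * (num (-10))))))))))))))))
 + ((var 0)
 * (((var 1)
 * (((var 2)
 * ((var 2)
 * (num (-64))))
 + ((var 1)
 * (((var 2)
 * ((var 2)
 * ((num (56))
 + ((var 2)
 * (num (-64))))))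
 + ((var 1)
 * (((var 2)
 * ((var 2)
 * ((num (-72))
 + ((var 2)
 * ((num (48))
 + ((var 2)
 * (num (-36))))))))
 + ((var 1)
 * (((var 2)
 * ((var 2)
 * ((var 2)
 * ((num (-72))
 + ((var 2)
 * (num (-2)))))))
 + ((var 1)
 * ((var 2)
 * ((var 2)
 * ((var 2)
 * ((var 2)
 * (num (-6)))))))))))))))
 + ((var 0)
 * (((var 1)
 * (((var 2)
 * ((var 2)
 * (num (24))))
 + ((var 1)
 * (((var 2)
 * ((var 2)
 * ((num (-64))
 + ((var 2)
 * (num (24))))))
 + ((var 1)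
 * (((var 2)
 * ((var 2)
 * ((var 2)
 * ((num (-64))
 + ((var 2)
 * (num (2)))))))
 + ((var 1)
 * ((var 2)
 * ((var 2)
 * ((var 2)
 * ((var 2)
 * (num (-8)))))))))))))
 + ((var 0)
 * ((var 1)
 * (((var 2)
 * ((var 2)
 * (num (-20))))
 + ((var 1)
 * (((var 2)
 * ((var 2)
 * ((var 2)
 * (num (-20)))))
 + ((var 1)
 * ((var 2)
 * ((var 2)
 * ((var 2)
 * ((var 2)
 * (num (-3)))))))))))))))))))

/-- A coefficient. -/
def coT6 : Ex := (((num (64))
 + ((var 1)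
 * (((var 2)
 * (num (128)))
 + ((var 1)
 * (((num (-64))
 + ((var 2)
 * ((var 2)
 * (num (64)))))
 + ((var 1)
 * (((var 2)
 * (num (-128)))
 + ((var 1)
 * (((var 2)
 * ((var 2)
 * ((num (-64))
 + ((var 2)
 * ((var 2)
 * (num (-4)))))))
 + ((var 1)
 * ((var 1)
 * ((var 2)
 * ((var 2)
 * ((var 2)
 * ((var 2)
 * (num (4)))))))))))))))))
 + ((var 0)
 * (((var 1)
 * ((num (-128))
 + ((var 1)
 * (((var 2)
 * (num (-256)))
 + ((var 1)
 * (((var 2)
 * ((var 2)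
 * (num (-128))))
 + ((var 1)
 * ((var 1)
 * ((var 2)
 * ((var 2)
 * ((var 2)
 * ((var 2)
 * (num (8))))))))))))))
 + ((var 0)
 * ((num (-64))
 + ((var 1)
 * (((var 2)
 * (num (-128)))
 + ((var 1)
 * (((var 2)
 * ((var 2)
 * (num (-64))))
 + ((var 1)
 * ((var 1)
 * ((var 2)
 * ((var 2)
 * ((var 2)
 * ((var 2)
 * (num (4)))))))))))))))))

/-- A coefficient. -/
def coT7 : Ex := ((((var 2)
 * (num (320)))
 + ((var 1)
 * (((var 2)
 * ((num (-64))
 + ((var 2)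
 * (num (480)))))
 + ((var 1)
 * (((var 2)
 * ((var 2)
 * ((num (-96))
 + ((var 2)
 * (num (128))))))
 + ((var 1)
 * (((var 2)
 * ((var 2)
 * ((var 2)
 * ((var 2)
 * (num (-16))))))
 + ((var 1)
 * ((var 2)
 * ((var 2)
 * ((var 2)
 * ((var 2)
 * (num (16))))))))))))))
 + ((var 0)
 * (((var 2)
 * (num (-64)))
 + ((var 1)
 * (((var 2)
 * ((var 2)
 * (num (-96))))
 + ((var 1)
 * ((var 1)
 * ((var 2)
 * ((var 2)
 * ((var 2)
 * ((var 2)
 * (num (16)))))))))))))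

/-- A coefficient. -/
def coT8 : Ex := (((var 1)
 * (((var 2)
 * (num (-8)))
 + ((var 1)
 * (((var 2)
 * ((num (-8))
 + ((var 2)
 * (num (-8)))))
 + ((var 1)
 * ((var 2)
 * ((var 2)
 * (num (-8)))))))))
 + ((var 0)
 * ((var 1)
 * (((var 2)
 * (num (-8)))
 + ((var 1)
 * ((var 2)
 * ((var 2)
 * (num (-8)))))))))

/-- A coefficient. -/
def coT9 : Ex := (((var 1)
 * (((var 2)
 * (num (-4)))
 + ((var 1)
 * (((var 2)
 * ((var 2)
 * (num (-4))))
 + ((var 1)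
 * (((var 2)
 * ((num (4))
 + ((var 2)
 * ((var 2)
 * (num (4))))))
 + ((var 1)
 * ((var 2)
 * ((var 2)
 * ((num (4))
 + ((var 2)
 * (num (4)))))))))))))
 + ((var 0)
 * (((var 1)
 * ((var 1)
 * (((var 2)
 * (num (8)))
 + ((var 1)
 * ((var 2)
 * ((var 2)
 * ((num (8))
 + ((var 2)
 * (num (4))))))))))
 + ((var 0)
 * ((var 1)
 * (((var 2)
 * (num (4)))
 + ((var 1)
 * ((var 2)
 * ((var 2)
 * (num (4)))))))))))

/-- The numerator of a form. -/
def tplT : Ex := (((((var 14) * ((var 12) * ((var 7) * ((var 4) * ((var 4) * coT0)))))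
 + ((var 13) * ((var 12) * ((var 7) * ((var 4) * ((var 4) * coT1))))))
 + (((var 14) * ((var 11) * ((var 7) * ((var 4) * ((var 4) * coT2)))))
 + (((var 14) * ((var 10) * ((var 7) * ((var 4) * ((var 4) * coT3)))))
 + ((var 14) * ((var 12) * ((var 5) * ((var 4) * ((var 4) * coT4))))))))
 + ((((var 14) * ((var 12) * ((var 7) * ((var 4) * ((var 3) * coT5)))))
 + ((var 13) * ((var 12) * ((var 7) * ((var 4) * ((var 3) * coT6))))))
 + (((var 14) * ((var 10) * ((var 7) * ((var 4) * ((var 3) * coT7)))))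
 + (((var 14) * ((var 12) * ((var 5) * ((var 4) * ((var 3) * coT8)))))
 + ((var 14) * ((var 12) * ((var 7) * ((var 3) * ((var 3) * coT9)))))))))

/-- A coefficient. -/
def coX0 : Ex := ((((var 2)
 * (num (16)))
 + ((var 1)
 * (((var 2)
 * ((num (16))
 + ((var 2)
 * (num (8)))))
 + ((var 1)
 * ((var 2)
 * ((var 2)
 * (num (8))))))))
 + ((var 0)
 * (((var 2)
 * (num (16)))
 + ((var 1)
 * ((var 2)
 * ((var 2)
 * (num (8))))))))

/-- A coefficient. -/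
def coX1 : Ex := (((var 2)
 * ((var 2)
 * (num (32))))
 + ((var 1)
 * ((var 2)
 * ((var 2)
 * ((var 2)
 * (num (16)))))))

/-- A coefficient. -/
def coX2 : Ex := (((num (-32))
 + ((var 2)
 * (num (16))))
 + ((var 1)
 * (((var 2)
 * (num (-48)))
 + ((var 1)
 * ((var 2)
 * ((var 2)
 * (num (-16))))))))

/-- A coefficient. -/
def coX3 : Ex := ((((var 2)
 * (num (36)))
 + ((var 1)
 * (((var 2)
 * ((num (-28))
 + ((var 2)
 * (num (44)))))
 + ((var 1)
 * (((var 2)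
 * ((num (-4))
 + ((var 2)
 * ((num (-20))
 + ((var 2)
 * (num (9)))))))
 + ((var 1)
 * (((var 2)
 * ((num (-4))
 + ((var 2)
 * ((num (-4))
 + ((var 2)
 * (num (-9)))))))
 + ((var 1)
 * (((var 2)
 * ((var 2)
 * ((num (-4))
 + ((var 2)
 * (num (-1))))))
 + ((var 1)
 * ((var 2)
 * ((var 2)
 * ((var 2)
 * (num (1)))))))))))))))
 + ((var 0)
 * ((((var 2)
 * (num (-76)))
 + ((var 1)
 * (((var 2)
 * ((num (56))
 + ((var 2)
 * (num (-68)))))
 + ((var 1)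
 * (((var 2)
 * ((num (-28))
 + ((var 2)
 * ((num (56))
 + ((var 2)
 * (num (-21)))))))
 + ((var 1)
 * (((var 2)
 * ((var 2)
 * ((num (-28))
 + ((var 2)
 * (num (14))))))
 + ((var 1)
 * ((var 2)
 * ((var 2)
 * ((var 2)
 * (num (-1)))))))))))))
 + ((var 0)
 * ((((var 2)
 * (num (60)))
 + ((var 1)
 * (((var 2)
 * ((num (-44))
 + ((var 2)
 * (num (60)))))
 + ((var 1)
 * (((var 2)
 * ((var 2)
 * ((num (-44))
 + ((var 2)
 * (num (15))))))
 + ((var 1)
 * ((var 2)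
 * ((var 2)
 * ((var 2)
 * (num (-5)))))))))))
 + ((var 0)
 * (((var 2)
 * (num (-20)))
 + ((var 1)
 * (((var 2)
 * ((var 2)
 * (num (-20))))
 + ((var 1)
 * ((var 2)
 * ((var 2)
 * ((var 2)
 * (num (-3)))))))))))))))

/-- A coefficient. -/
def coX4 : Ex := ((num (8))
 + ((var 1)
 * ((var 2)
 * (num (8)))))

/-- The numerator of a form. -/
def tplX : Ex := ((((var 8) * ((var 7) * ((var 4) * coX0)))
 + ((var 9) * ((var 6) * ((var 4) * coX1))))
 + (((var 9) * ((var 5) * ((var 4) * coX2)))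
 + (((var 9) * ((var 7) * ((var 3) * coX3)))
 + ((var 9) * ((var 5) * ((var 3) * coX4))))))

/-- A coefficient. -/
def coM0 : Ex := (num (-1))

/-- The numerator of a form. -/
def tplM : Ex := ((var 5) * ((var 3) * coM0))

end Vale.Agent.P100.Calib.StripMid
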