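import Vale.Agent.P100.Calib.SlabGenClosed
import Vale.Agent.P100.Calib.SlabStripHatExpr

/-!
# The blocks of the strip in scaled variables: the identities
-/

namespace Vale.Agent.P100.Calib.StripMid

open Pack ClosedGen

/-- The variables, all denominators one. -/
noncomputable def hatOne (a d v p e k w G G1 c : ℝ) : ℕ → ℝ
  | 0 => 2 * a | 1 => d | 2 => v | 3 => p | 4 => 1 | 5 => e | 6 => k | 7 => 1 | 8 => w | 9 => 1
  | 10 => G | 11 => G1 | 12 => 1 | 13 => c | _ => 1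

/-- The numbers from scaled variables. -/
noncomputable def hatNum (a d E K G G1 c : ℝ) : ClosedGen.Num :=
  ⟨a * (a + d), -(1 - 2 * a - (1 - 2 * a - d) / 4) * (1 - 2 * a - d) / 2, E, K,
    G * (a * (a + d)) / d ^ 2, G1 * (a * (a + d)) / d ^ 2, c / d⟩

/-- The scaled variables at a point. -/
noncomputable def hatAt (a d v g W W1 E K G G1 c : ℝ) : ℕ → ℝ :=
  hatOne a d v ((a + d) * (g * W)) (g * E * (1 - 2 * a - d) / (a + d))
    (g * K * (1 - 2 * a - d) / (a + d)) (g * W1 * (a + d) ^ 2) G G1 c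

variable {a d v g W W1 R E K G G1 c : ℝ}

set_option maxRecDepth 8000 in
set_option maxHeartbeats 4000000 in
theorem hatM_eq (ha : a ≠ 0) (hb : a + d ≠ 0) (hd : d ≠ 0) (hM : 1 - 2 * a - d ≠ 0) :
    1 * (g ^ 2 * TMMS a d v g W W1 R (hatNum a d E K G G1 c)) =
      (1 + d * v) * (tplM).eval (hatAt a d v g W W1 E K G G1 c) := by
  simp only [tplM, coM0,
    Ex.eval, hatAt, hatOne, hatNum, TMMS, TMM_w]
  push_cast
  field_simp
  ring

set_option maxRecDepth 8000 in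
set_option maxHeartbeats 4000000 in
theorem hatX_eq (ha : a ≠ 0) (hb : a + d ≠ 0) (hd : d ≠ 0) (hM : 1 - 2 * a - d ≠ 0) :
    8 * (g * TMES a d v g W W1 R (hatNum a d E K G G1 c)) =
      (a * (a + d)) * (tplX).eval (hatAt a d v g W W1 E K G G1 c) := by
  simp only [tplX, coX0, coX1, coX2, coX3, coX4,
    Ex.eval, hatAt, hatOne, hatNum, TMES, TME_c, TME_v, TME_w]
  push_cast
  field_simp
  ring

set_option maxRecDepth 8000 in
set_option maxHeartbeats 4000000 in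
theorem hatT_eq (ha : a ≠ 0) (hb : a + d ≠ 0) (hd : d ≠ 0) (hM : 1 - 2 * a - d ≠ 0) :
    4 * (d * TEGS a d v g W W1 R (hatNum a d E K G G1 c)) =
      (a ^ 3 * (a + d) ^ 3) * (tplT).eval (hatAt a d v g W W1 E K G G1 c) := by
  simp only [tplT, coT0, coT1, coT2, coT3, coT4, coT5, coT6, coT7, coT8, coT9,
    Ex.eval, hatAt, hatOne, hatNum, Closed.LEE, Closed.LEE1, Closed.LEEc, Closed.LEEc_000000_0, Closed.LEEc_000000_1, Closed.LEEc_110000_0, Closed.LEEc_110000_1, Closed.LEEv, Closed.LEEw, Closed.LEG, Closed.LEG1, Closed.LEG1_000000_0, Closed.LEGc, Closed.LEGv, Closed.LEGw, Closed.LGG, Closed.LGGc, Closed.LGGv, Closed.j1, EG_g, EG_g0, EG_k1, EG_kv, LEGS, TEGS, gES, gE_1, gE_c, gE_k1, gE_w, gGS, gG_1, gG_c, gG_v, hES, hE_c, hE_v, hGS, hG_c, hG_g, hG_kc]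
  push_cast
  field_simp
  ring

set_option maxRecDepth 8000 in
set_option maxHeartbeats 4000000 in
theorem hatG_eq (ha : a ≠ 0) (hb : a + d ≠ 0) (hd : d ≠ 0) (hM : 1 - 2 * a - d ≠ 0) :
    32 * (TGGS a d v g W W1 R (hatNum a d E K G G1 c)) =
      (a ^ 3 * (a + d) ^ 3) * (tplG).eval (hatAt a d v g W W1 E K G G1 c) := by
  simp only [tplG, coG0, coG1, coG2, coG3, coG4, coG5, coG6, coG7, coG8, coG9, coG10,
    Ex.eval, hatAt, hatOne, hatNum, Closed.LEE, Closed.LEE1, Closed.LEEc, Closed.LEEc_000000_0, Closed.LEEc_000000_1, Closed.LEEc_110000_0, Closed.LEEc_110000_1, Closed.LEEv, Closed.LEEw, Closed.LGG, Closed.LGGc, Closed.LGGv, Closed.j1, GG_g, GG_g0, GG_kg, LGGS, TGGS, gGS, gG_1, gG_c, gG_v, hGS, hG_c, hG_g, hG_kc]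
  push_cast
  field_simp
  ring

set_option maxRecDepth 8000 in
set_option maxHeartbeats 4000000 in
theorem hatMG_eq (ha : a ≠ 0) (hb : a + d ≠ 0) (hd : d ≠ 0) (hM : 1 - 2 * a - d ≠ 0) :
    8 * (TMGS a d v g W W1 R (hatNum a d E K G G1 c)) =
      (a ^ 3 * (a + d) ^ 3) * (tplMG).eval (hatAt a d v g W W1 E K G G1 c) := by
  simp only [tplMG, coMG0, coMG1, coMG2, coMG3, coMG4, coMG5, coMG6, coMG7, coMG8, coMG9, coMG10, coMG11, coMG12,
    Ex.eval, hatAt, hatOne, hatNum, Closed.LLG, Closed.LLGc, Closed.LLGv, Closed.LLGw, Closed.LMG, Closed.LMG1, Closed.LMG1_000000_0, Closed.LMG1_000000_1, Closed.LMGc, Closed.LMGc_000000_0, Closed.LMGc_000000_1, Closed.LMGv, Closed.LMGw, Closed.j1, LMGS, MG_g, MG_k1, MG_kc, MG_kw, TMGS, gES, gE_1, gE_c, gE_k1, gE_w, gGS, gG_1, gG_c, gG_v, gMS, gM_1, hES, hE_c, hE_v, hGS, hG_c, hG_g, hG_kc, hMS, hM_c]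
  push_cast
  field_simp
  ring

set_option maxRecDepth 8000 in
set_option maxHeartbeats 4000000 in
theorem hatA_eq (ha : a ≠ 0) (hb : a + d ≠ 0) (hd : d ≠ 0) (hM : 1 - 2 * a - d ≠ 0) :
    8 * (TAS a d v g W W1 R (hatNum a d E K G G1 c)) =
      (a ^ 3 * (a + d) ^ 3) * (tplA).eval (hatAt a d v g W W1 E K G G1 c) := by
  simp only [tplA, coA0, coA1, coA2, coA3, coA4, coA5, coA6, coA7, coA8, coA9, coA10, coA11, coA12,
    Ex.eval, hatAt, hatOne, hatNum, Closed.LEE, Closed.LEE1, Closed.LEEc, Closed.LEEc_000000_0, Closed.LEEc_000000_1, Closed.LEEc_110000_0, Closed.LEEc_110000_1, Closed.LEEv, Closed.LEEw, Closed.LLG, Closed.LLGc, Closed.LLGv, Closed.LLGw, Closed.LMG, Closed.LMG1, Closed.LMG1_000000_0, Closed.LMG1_000000_1, Closed.LMGc, Closed.LMGc_000000_0, Closed.LMGc_000000_1, Closed.LMGv, Closed.LMGw, Closed.j1, EE_g, EE_k1, EE_kc, LEES, LMGS, MG_g, MG_k1, MG_kc, MG_kw, TAS, TEES, TMGS, gES, gE_1,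 gE_c, gE_k1, gE_w, gGS, gG_1, gG_c, gG_v, gMS, gM_1, hES, hE_c, hE_v, hGS, hG_c, hG_g, hG_kc, hMS, hM_c]
  push_cast
  field_simp
  ring

end Vale.Agent.P100.Calib.StripMid
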