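import Vale.Agent.P100.Calib.SlabStripFlow

/-!
# The quantities of the left exit band of the strip

Polynomials in the variables of `StripAtoms`, and in the point `s` of the window.
-/

namespace Vale.Agent.P100.Calib.Band.StripAtoms

variable (p : StripAtoms)

/-- `9/20 - u`. -/
noncomputable def lfT : ℝ := (45 - 100 * p.u) / 100

/-- The centre of the window over `2 I`. -/
noncomputable def lfC : ℝ := (11 + 2 * p.u + 24 * (p.u * p.u)) / 10

/-- Its derivative in `u`. -/
noncomputable def lfCd : ℝ := (1 + 24 * p.u) / 5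

/-- `11/10 I allDen - allFlow` on a mean of the bands, cleared. -/
def flTop : ℝ := 11 * (p.I * (p.D0 * (100 * (p.P * p.upW)) - p.ud * p.flMix)) - 10 * (p.f0 *
    p.flMix - p.N * (100 * (p.P * p.upW)))

/-- `11/10 I allDen - allFlow` on another mean, cleared. -/
def flTopC : ℝ := 11 * (p.I * (p.D0 * (200 * (p.P * p.upW)) - p.ud * p.flMixC)) - 10 * (p.f0 *
    p.flMixC - p.N * (200 * (p.P * p.upW)))

/-- Minus the flow on `stripTop`, cleared. -/
def lfTopFlow : ℝ := 20 * (p.N * p.P) - p.f0 * p.upM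

/-- Minus the flow on `stripUp`, cleared. -/
def lfLow : ℝ := p.N * p.upW - p.f0 * p.upN

/-- The coefficient of `K IT` in the left exit band. -/
def lfg : ℝ := 12 - 8 * p.u + 41 * (p.u * p.u)

/-- Twenty times the coefficient of the left exit band. -/
def lfG : ℝ := 20 * (p.S * (p.v * p.q)) - p.lfg * p.upKI

/-- Twice its derivative in `v`. -/
def lfGv : ℝ := 40 * (p.S * (1 + 2 * p.dv)) + p.lfg * (2 * (p.a * p.IT) + p.K * (p.S * p.d))

/-- Twenty times its numerator. -/
def lfM : ℝ := 20 * p.K - p.w * p.lfG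

/-- Its derivative in `u`. -/
def lfMu : ℝ := p.lfG + p.w * ((82 * p.u - 8) * p.upKI)

/-- The numerator of `H` on the left exit band. -/
noncomputable def lfN : ℝ := p.u * p.lfM + 22 * (p.lfT * (2 * (p.I * p.lfC) - p.v))

/-- The left exit band above `stripUp`, cleared. -/
noncomputable def lfGap : ℝ := p.lfN * p.upW - 20 * (p.u * (p.P * p.upN))

/-- Minus the flow on the left exit band, cleared. -/
noncomputable def lfFlow : ℝ := 20 * (p.u * (p.N * p.P)) - p.f0 * p.lfN

/-- A mean of the left exit band and `stripUp`, cleared. -/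
noncomputable def lfMix : ℝ := 10 * (p.lfN * p.upW) + (9 - 10 * p.u) * (20 * (p.P * p.upN))

/-- `I allDen / 2 - allFlow` on this mean, cleared. -/
noncomputable def lfHalf : ℝ := p.I * (p.D0 * (180 * (p.P * p.upW)) - p.ud * p.lfMix) - 2 * (p.f0
    * p.lfMix - p.N * (180 * (p.P * p.upW)))

/-- The value of `H` on the band at the point `s` of the window, cleared. -/
noncomputable def lfH (s : ℝ) : ℝ := p.lfM - 44 * (p.I * (p.lfT * s))

/-- The derivative in `u`, cleared. -/
noncomputable def lfFu (s : ℝ) : ℝ := (44 * (p.I * (p.lfT * s + p.u * s + p.lfT * p.lfCd)) + p.u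
    * p.lfMu) * (20 * p.P) + 20 * (p.a * (p.qu * (p.lfH s)))

/-- Twice the derivative in `v`, cleared. -/
noncomputable def lfFv (s : ℝ) : ℝ := 40 * (p.a * (p.u * (p.ud * (p.lfH s)))) - (40 * (p.a * p.u)
    + p.u * (p.w * p.lfGv) + 44 * p.lfT) * (20 * p.P)

/-- `allEn`, cleared. -/
noncomputable def lfEn (s : ℝ) : ℝ := p.E0 * (20 * p.P) - p.e1 * (p.lfH s)

/-- `allFlow`, cleared. -/
noncomputable def lfFl (s : ℝ) : ℝ := p.f0 * (p.lfH s) - p.N * (20 * p.P)

/-- `allFh`, cleared. -/
noncomputable def lfFh (s : ℝ) : ℝ := p.A0 * (20 * p.P * (20 * p.P)) - (p.A1 + p.ud * p.A0 +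
    p.E0) * ((p.lfH s) * (20 * p.P)) + (p.ud * p.A1 + p.e1) * ((p.lfH s) * (p.lfH s))

/-- Minus the flow through the band less a multiple of the gap. -/
noncomputable def lfMain (s : ℝ) : ℝ := 2 * (20 * p.P * (p.lfFh s)) - 2 * ((p.lfFu s) * (p.lfEn
    s)) - p.q * ((p.lfFv s) * (p.lfFl s)) - 2 * (p.P * p.P * (p.upN * (20 * p.P) - (p.lfH s) *
    p.upW))

end Vale.Agent.P100.Calib.Band.StripAtoms
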