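import Vale.Agent.P100.Calib.SlabStripLeftExpr

/-!
# The checks of the left exit band of the strip

Each check is a definition, so that they are compiled one after another.
-/

set_option linter.defProp false

namespace Vale.Agent.P100.Calib.Band.AllLow

open Pack

local instance stripLeftCheckAdd : Add Pack.Ex := ⟨Ex.add⟩
local instance stripLeftCheckSub : Sub Pack.Ex := ⟨Ex.sub⟩
local instance stripLeftCheckMul : Mul Pack.Ex := ⟨Ex.mul⟩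

/-- A part of a chart. -/
def eLfTwo : Pack.Ex := (eN 2 * Ex.var 2)

/-- A part of a chart. -/
def eLfCen : Pack.Ex := (eN 10) * ((eN 11) + (((eN 2) * (Ex.var 0)) + ((eN 24) * ((Ex.var 0) *
    (Ex.var 0)))))

/-- A part of a chart. -/
def eLfLo : Pack.Ex := (eN (-9)) - ((eN 230) * ((Ex.var 0) * (Ex.var 0)))

/-- A part of a chart. -/
def eLfHi : Pack.Ex := (eN 53) + (((eN 50) * (Ex.var 0)) + ((eN 270) * ((Ex.var 0) * (Ex.var 0))))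

/-- A part of a chart. -/
def eLfDen : Pack.Ex := (eN 50) - ((((eN 50) - ((eN 100) * (Ex.var 2))) - ((Ex.var 3) * ((eN 19)
    - ((eN 100) * (Ex.var 2))))) * (Ex.var 0))

/-- A part of a chart. -/
def eLfA : Pack.Ex := ((eN 50) - ((eN 100) * (Ex.var 2))) - ((Ex.var 3) * ((eN 19) - ((eN 100) *
    (Ex.var 2))))

/-- A part of a chart. -/
def eLfPoint : Pack.Ex := eLfLo + Ex.var 1 * (eLfHi - eLfLo)

/-- A part of a chart. -/
def eLfWinV : Pack.Ex := eLfTwo * (eLfCen + Ex.var 0 * eLfPoint)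

/-- A part of a chart. -/
def eLfLeftV : Pack.Ex := Ex.var 1 * (eLfTwo * (eLfCen + Ex.var 0 * eLfLo))

/-- A part of a chart. -/
def eLfEdge : Pack.Ex := eLfTwo * (eLfCen + Ex.var 0 * eLfHi)

/-- A part of a chart. -/
def eLfRightV : Pack.Ex := eLfEdge + Ex.var 1 * (eN 323 - eLfEdge)

/-- A part of a chart. -/
def eLfInV : Pack.Ex := Ex.var 1 * eLfEdge

/-- The numerator of the curve `v (1 - 2 a u) = 2 I (1 - 2 a u + 2 a u p / 100)`. -/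
def eLfCurve (p : ℤ) : Pack.Ex := eLfTwo * (eN 100 * eLfDen + eN p * (eLfA * Ex.var 0))

/-- Below the curve. -/
def eLfBelowV (p : ℤ) : Pack.Ex := Ex.var 1 * eLfCurve p

/-- Above the curve. -/
def eLfAboveV (p : ℤ) : Pack.Ex := eLfCurve p + Ex.var 1 * (eN 323 * eLfDen - eLfCurve p)

/-- A box. -/
def stripLeftWinLfMainBox : ℕ → Chart
  | 0 => ⟨9, 0, 20, 20⟩ | 1 => ⟨0, 1, 1, 1⟩ | 2 => ⟨1, 0, 20, 20⟩ | _ => ⟨0, 1, 1, 1⟩

/-- The check of this box. -/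
def stripLeftWinLfMain_ok : checkFour stripLeftWinLfMainBox 390 27 6 18 9 (eLf_lfMain eLfWinV (eN
    1) eLfPoint) = true := by
  decide +kernel

/-- A box. -/
def stripLeftLeftLfGapBox : ℕ → Chart
  | 0 => ⟨9, 0, 20, 20⟩ | 1 => ⟨1, 0, 1, 1⟩ | 2 => ⟨1, 0, 20, 20⟩ | _ => ⟨0, 1, 1, 1⟩

/-- The check of this box. -/
def stripLeftLeftLfGap_ok : checkFour stripLeftLeftLfGapBox 160 11 2 7 4 (eLf_lfGap eLfLeftV (eN
    1)) = true := by
  decide +kernel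

/-- A box. -/
def stripLeftRightLfFlowBox : ℕ → Chart
  | 0 => ⟨9, 0, 20, 20⟩ | 1 => ⟨0, 1, 1, 1⟩ | 2 => ⟨1, 0, 20, 20⟩ | _ => ⟨0, 1, 1, 1⟩

/-- The check of this box. -/
def stripLeftRightLfFlow_ok : checkFour stripLeftRightLfFlowBox 200 14 3 9 4 (eLf_lfFlow
    eLfRightV (eN 1)) = true := by
  decide +kernel

/-- A box. -/
def stripLeftInLfHalfBox : ℕ → Chart
  | 0 => ⟨9, 0, 20, 20⟩ | 1 => ⟨1, 0, 1, 1⟩ | 2 => ⟨1, 0, 20, 20⟩ | _ => ⟨0, 1, 1, 1⟩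

/-- The check of this box. -/
def stripLeftInLfHalf_ok : checkFour stripLeftInLfHalfBox 230 15 3 11 6 (eLf_lfHalf eLfInV (eN
    1)) = true := by
  decide +kernel

/-- A box. -/
def stripLeftBelowLfLowABox : ℕ → Chart
  | 0 => ⟨2, 1, 10, 10⟩ | 1 => ⟨1, 0, 1, 1⟩ | 2 => ⟨1, 0, 20, 20⟩ | _ => ⟨0, 1, 1, 1⟩

/-- The check of this box. -/
def stripLeftBelowLfLowA_ok : checkFour stripLeftBelowLfLowABox 160 7 2 10 6 (eLf_lfLow
    (eLfBelowV 13) eLfDen) = true := by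
  decide +kernel

/-- A box. -/
def stripLeftBelowLfLowBBox : ℕ → Chart
  | 0 => ⟨3, 2, 10, 10⟩ | 1 => ⟨1, 0, 1, 1⟩ | 2 => ⟨1, 0, 20, 20⟩ | _ => ⟨0, 1, 1, 1⟩

/-- The check of this box. -/
def stripLeftBelowLfLowB_ok : checkFour stripLeftBelowLfLowBBox 160 7 2 10 6 (eLf_lfLow
    (eLfBelowV 50) eLfDen) = true := by
  decide +kernel

/-- A box. -/
def stripLeftBelowLfLowCBox : ℕ → Chart
  | 0 => ⟨28, 15, 50, 50⟩ | 1 => ⟨1, 0, 1, 1⟩ | 2 => ⟨1, 0, 20, 20⟩ | _ => ⟨0, 1, 1, 1⟩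

/-- The check of this box. -/
def stripLeftBelowLfLowC_ok : checkFour stripLeftBelowLfLowCBox 170 7 2 10 6 (eLf_lfLow
    (eLfBelowV 65) eLfDen) = true := by
  decide +kernel

/-- A box. -/
def stripLeftBelowLfLowDBox : ℕ → Chart
  | 0 => ⟨18, 14, 25, 25⟩ | 1 => ⟨1, 0, 1, 1⟩ | 2 => ⟨1, 0, 20, 20⟩ | _ => ⟨0, 1, 1, 1⟩

/-- The check of this box. -/
def stripLeftBelowLfLowD_ok : checkFour stripLeftBelowLfLowDBox 170 7 2 10 6 (eLf_lfLow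
    (eLfBelowV 53) eLfDen) = true := by
  decide +kernel

/-- A box. -/
def stripLeftBelowLfLowEBox : ℕ → Chart
  | 0 => ⟨20, 18, 25, 25⟩ | 1 => ⟨1, 0, 1, 1⟩ | 2 => ⟨1, 0, 20, 20⟩ | _ => ⟨0, 1, 1, 1⟩

/-- The check of this box. -/
def stripLeftBelowLfLowE_ok : checkFour stripLeftBelowLfLowEBox 170 7 2 10 6 (eLf_lfLow
    (eLfBelowV 39) eLfDen) = true := by
  decide +kernel

/-- A box. -/
def stripLeftBelowLfLowFBox : ℕ → Chart
  | 0 => ⟨83, 80, 100, 100⟩ | 1 => ⟨1, 0, 1, 1⟩ | 2 => ⟨1, 0, 20, 20⟩ | _ => ⟨0, 1, 1, 1⟩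

/-- The check of this box. -/
def stripLeftBelowLfLowF_ok : checkFour stripLeftBelowLfLowFBox 180 7 2 10 6 (eLf_lfLow
    (eLfBelowV 34) eLfDen) = true := by
  decide +kernel

/-- A box. -/
def stripLeftAboveLfFlowABox : ℕ → Chart
  | 0 => ⟨2, 1, 10, 10⟩ | 1 => ⟨0, 1, 1, 1⟩ | 2 => ⟨1, 0, 20, 20⟩ | _ => ⟨0, 1, 1, 1⟩

/-- The check of this box. -/
def stripLeftAboveLfFlowA_ok : checkFour stripLeftAboveLfFlowABox 190 8 3 12 7 (eLf_lfFlow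
    (eLfAboveV 300) eLfDen) = true := by
  decide +kernel

/-- A box. -/
def stripLeftAboveLfFlowBBox : ℕ → Chart
  | 0 => ⟨3, 2, 10, 10⟩ | 1 => ⟨0, 1, 1, 1⟩ | 2 => ⟨1, 0, 20, 20⟩ | _ => ⟨0, 1, 1, 1⟩

/-- The check of this box. -/
def stripLeftAboveLfFlowB_ok : checkFour stripLeftAboveLfFlowBBox 190 8 3 12 7 (eLf_lfFlow
    (eLfAboveV 240) eLfDen) = true := by
  decide +kernel

/-- A box. -/
def stripLeftAboveLfFlowCBox : ℕ → Chart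
  | 0 => ⟨9, 6, 20, 20⟩ | 1 => ⟨0, 1, 1, 1⟩ | 2 => ⟨1, 0, 20, 20⟩ | _ => ⟨0, 1, 1, 1⟩

/-- The check of this box. -/
def stripLeftAboveLfFlowC_ok : checkFour stripLeftAboveLfFlowCBox 200 8 3 12 7 (eLf_lfFlow
    (eLfAboveV 205) eLfDen) = true := by
  decide +kernel

/-- A box. -/
def stripLeftAboveLfTopFlowDBox : ℕ → Chart
  | 0 => ⟨56, 45, 100, 100⟩ | 1 => ⟨0, 1, 1, 1⟩ | 2 => ⟨1, 0, 20, 20⟩ | _ => ⟨0, 1, 1, 1⟩

/-- The check of this box. -/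
def stripLeftAboveLfTopFlowD_ok : checkFour stripLeftAboveLfTopFlowDBox 200 6 3 12 7
    (eLf_lfTopFlow (eLfAboveV 190) eLfDen) = true := by
  decide +kernel

/-- A box. -/
def stripLeftAboveLfTopFlowEBox : ℕ → Chart
  | 0 => ⟨20, 14, 25, 25⟩ | 1 => ⟨0, 1, 1, 1⟩ | 2 => ⟨1, 0, 20, 20⟩ | _ => ⟨0, 1, 1, 1⟩

/-- The check of this box. -/
def stripLeftAboveLfTopFlowE_ok : checkFour stripLeftAboveLfTopFlowEBox 190 6 3 12 7
    (eLf_lfTopFlow (eLfAboveV 175) eLfDen) = true := by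
  decide +kernel

/-- A box. -/
def stripLeftAboveLfTopFlowFBox : ℕ → Chart
  | 0 => ⟨83, 80, 100, 100⟩ | 1 => ⟨0, 1, 1, 1⟩ | 2 => ⟨1, 0, 20, 20⟩ | _ => ⟨0, 1, 1, 1⟩

/-- The check of this box. -/
def stripLeftAboveLfTopFlowF_ok : checkFour stripLeftAboveLfTopFlowFBox 200 6 3 12 7
    (eLf_lfTopFlow (eLfAboveV 165) eLfDen) = true := by
  decide +kernel

/-- A box. -/
def stripLeftBelowFlMidCMBox : ℕ → Chart
  | 0 => ⟨81, 75, 100, 100⟩ | 1 => ⟨2, 0, 5, 5⟩ | 2 => ⟨1, 0, 20, 20⟩ | _ => ⟨0, 1, 1, 1⟩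

/-- The check of this box. -/
def stripLeftBelowFlMidCM_ok : checkFour stripLeftBelowFlMidCMBox 260 9 3 14 9 (eLf_flMidC
    (eLfBelowV 175) eLfDen) = true := by
  decide +kernel

/-- A box. -/
def stripLeftBelowFlMidNBox : ℕ → Chart
  | 0 => ⟨81, 75, 100, 100⟩ | 1 => ⟨5, 2, 5, 5⟩ | 2 => ⟨1, 0, 20, 20⟩ | _ => ⟨0, 1, 1, 1⟩

/-- The check of this box. -/
def stripLeftBelowFlMidN_ok : checkFour stripLeftBelowFlMidNBox 260 9 3 14 9 (eLf_flMid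
    (eLfBelowV 175) eLfDen) = true := by
  decide +kernel

/-- A box. -/
def stripLeftBelowFlTopCPBox : ℕ → Chart
  | 0 => ⟨83, 81, 100, 100⟩ | 1 => ⟨2, 0, 5, 5⟩ | 2 => ⟨1, 0, 20, 20⟩ | _ => ⟨0, 1, 1, 1⟩

/-- The check of this box. -/
def stripLeftBelowFlTopCP_ok : checkFour stripLeftBelowFlTopCPBox 270 9 3 14 9 (eLf_flTopC
    (eLfBelowV 175) eLfDen) = true := by
  decide +kernel

/-- A box. -/
def stripLeftBelowFlTopQBox : ℕ → Chart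
  | 0 => ⟨83, 81, 100, 100⟩ | 1 => ⟨5, 2, 5, 5⟩ | 2 => ⟨1, 0, 20, 20⟩ | _ => ⟨0, 1, 1, 1⟩

/-- The check of this box. -/
def stripLeftBelowFlTopQ_ok : checkFour stripLeftBelowFlTopQBox 270 9 3 14 9 (eLf_flTop
    (eLfBelowV 175) eLfDen) = true := by
  decide +kernel

end Vale.Agent.P100.Calib.Band.AllLow
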