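import Vale.Agent.P100.Calib.SlabAllLowExpr

/-!
# The packed numerators of the left exit band of the strip

The variables are `(u, sigma, I, theta)`, `d = theta (19/50 - 2 I)`; `V` is the numerator of `v`
over `100 K2`, `Sx` that of the point of the window over `100`.
-/

namespace Vale.Agent.P100.Calib.Band.AllLow

open Pack

local instance stripLeftAdd : Add Pack.Ex := ⟨Ex.add⟩
local instance stripLeftSub : Sub Pack.Ex := ⟨Ex.sub⟩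
local instance stripLeftMul : Mul Pack.Ex := ⟨Ex.mul⟩

/-- A packed quantity. -/
def eLf_w (_V _K2 : Pack.Ex) : Pack.Ex := (eN 1) - (Ex.var 0)

/-- A packed quantity. -/
def eLf_v (V _K2 : Pack.Ex) : Pack.Ex := (eN 1) * V

/-- A packed quantity. -/
def eLf_I (_V _K2 : Pack.Ex) : Pack.Ex := (eN 1) * (Ex.var 2)

/-- A packed quantity. -/
def eLf_S (_V _K2 : Pack.Ex) : Pack.Ex := (eN 1) - ((eN 2) * (Ex.var 2))

/-- A packed quantity. -/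
def eLf_d (_V _K2 : Pack.Ex) : Pack.Ex := (eN 2) * ((Ex.var 3) * ((eN 19) - ((eN 100) * (Ex.var
    2))))

/-- A packed quantity. -/
def eLf_a (_V _K2 : Pack.Ex) : Pack.Ex := ((eN 50) - ((eN 100) * (Ex.var 2))) - ((Ex.var 3) *
    ((eN 19) - ((eN 100) * (Ex.var 2))))

/-- A packed quantity. -/
def eLf_b (_V _K2 : Pack.Ex) : Pack.Ex := ((eN 50) - ((eN 100) * (Ex.var 2))) + ((Ex.var 3) *
    ((eN 19) - ((eN 100) * (Ex.var 2))))

/-- A packed quantity. -/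
def eLf_K (V K2 : Pack.Ex) : Pack.Ex := ((Ex.pow (eN 100) 2) * K2) - ((eLf_a V K2) * (eLf_v V K2))

/-- A packed quantity. -/
def eLf_dv (V K2 : Pack.Ex) : Pack.Ex := (eLf_d V K2) * (eLf_v V K2)

/-- A packed quantity. -/
def eLf_IT (V K2 : Pack.Ex) : Pack.Ex := (((eLf_I V K2) * (Ex.pow (eN 100) 2)) * K2) - ((eLf_S V
    K2) * (((Ex.var 3) * ((eN 19) - ((eN 100) * (Ex.var 2)))) * (eLf_v V K2)))

/-- A packed quantity. -/
def eLf_lfT (_V _K2 : Pack.Ex) : Pack.Ex := (eN 45) - ((eN 100) * (Ex.var 0))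

/-- A packed quantity. -/
def eLf_lfC (_V _K2 : Pack.Ex) : Pack.Ex := (eN 10) * ((eN 11) + (((eN 2) * (Ex.var 0)) + ((eN
    24) * ((Ex.var 0) * (Ex.var 0)))))

/-- A packed quantity. -/
def eLf_lfCd (_V _K2 : Pack.Ex) : Pack.Ex := (eN 20) + ((eN 480) * (Ex.var 0))

/-- A packed quantity. -/
def eLf_q (V K2 : Pack.Ex) : Pack.Ex := ((Ex.pow (eN 100) 2) * K2) + (eLf_dv V K2)

/-- A packed quantity. -/
def eLf_D0 (V K2 : Pack.Ex) : Pack.Ex := (((eN 2) * (Ex.pow (eN 100) 2)) * K2) + (eLf_dv V K2)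

/-- A packed quantity. -/
def eLf_u (V K2 : Pack.Ex) : Pack.Ex := (eN 1) - (eLf_w V K2)

/-- A packed quantity. -/
def eLf_qu (V K2 : Pack.Ex) : Pack.Ex := (eLf_q V K2) * (eLf_u V K2)

/-- A packed quantity. -/
def eLf_P (V K2 : Pack.Ex) : Pack.Ex := (((eLf_b V K2) * (Ex.pow (eN 100) 2)) * K2) - ((eLf_a V
    K2) * (eLf_qu V K2))

/-- A packed quantity. -/
def eLf_qn (V K2 : Pack.Ex) : Pack.Ex := ((eLf_b V K2) * (eLf_D0 V K2)) - (((eLf_S V K2) *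
    (eLf_qu V K2)) * (eN 100))

/-- A packed quantity. -/
def eLf_ud (V K2 : Pack.Ex) : Pack.Ex := (eLf_u V K2) * (eLf_d V K2)

/-- A packed quantity. -/
def eLf_e1 (V K2 : Pack.Ex) : Pack.Ex := (eLf_ud V K2) * ((eLf_qn V K2) - ((((eLf_S V K2) *
    ((eLf_w V K2) * (eLf_b V K2))) * (Ex.pow (eN 100) 2)) * K2))

/-- A packed quantity. -/
def eLf_E0 (V K2 : Pack.Ex) : Pack.Ex := (eLf_qn V K2) - ((eLf_S V K2) * ((eLf_w V K2) * ((eLf_b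
    V K2) * (eLf_D0 V K2))))

/-- A packed quantity. -/
def eLf_f0 (V K2 : Pack.Ex) : Pack.Ex := (eLf_qn V K2) + ((eLf_S V K2) * ((eLf_K V K2) * (eLf_ud
    V K2)))

/-- A packed quantity. -/
def eLf_N (V K2 : Pack.Ex) : Pack.Ex := (eLf_S V K2) * ((eLf_K V K2) * (eLf_D0 V K2))

/-- A packed quantity. -/
def eLf_A0 (V K2 : Pack.Ex) : Pack.Ex := (eLf_N V K2) + (((eLf_S V K2) * ((eLf_v V K2) * (eLf_D0
    V K2))) * (eN 100))

/-- A packed quantity. -/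
def eLf_A1 (V K2 : Pack.Ex) : Pack.Ex := (eLf_f0 V K2) + (((eLf_S V K2) * ((eLf_v V K2) * (eLf_ud
    V K2))) * (eN 100))

/-- A packed quantity. -/
def eLf_upK (V K2 : Pack.Ex) : Pack.Ex := ((eN 100) * (eLf_b V K2)) - ((eLf_a V K2) * ((eLf_u V
    K2) * ((eN 155) - ((eN 105) * (eLf_u V K2)))))

/-- A packed quantity. -/
def eLf_upP0 (V K2 : Pack.Ex) : Pack.Ex := (((((eN 653) * (eLf_I V K2)) * (eN 100)) + ((eN 189) *
    ((eLf_a V K2) * (eLf_I V K2)))) - (((eN 828) * ((eLf_I V K2) * (eLf_I V K2))) * (eN 100))) -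
    ((eN 398) * (eN 100))

/-- A packed quantity. -/
def eLf_upP1 (V K2 : Pack.Ex) : Pack.Ex := (((((eN 464) * (eN 100)) - ((eN 1676) * (eLf_a V K2)))
    * (eN 100)) + ((eN 1565) * ((eLf_a V K2) * (eLf_a V K2)))) + ((eLf_I V K2) * (((((eN 5790) *
    (eLf_a V K2)) * (eN 100)) + ((eN 1661) * ((eLf_a V K2) * (eLf_a V K2)))) - ((eN 2620) *
    (Ex.pow (eN 100) 2))))

/-- A packed quantity. -/
def eLf_upP2 (V K2 : Pack.Ex) : Pack.Ex := (((((eN 8980) * (eLf_a V K2)) - ((eN 1503) * (eN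
    100))) * (eN 100)) - ((eN 13330) * ((eLf_a V K2) * (eLf_a V K2)))) + ((eLf_I V K2) * (((((eN
    4840) * (eN 100)) - ((eN 15870) * (eLf_a V K2))) * (eN 100)) + ((eN 1947) * ((eLf_a V K2) *
    (eLf_a V K2)))))

/-- A packed quantity. -/
def eLf_upPsi (V K2 : Pack.Ex) : Pack.Ex := ((eLf_upP0 V K2) * (eN 100)) + ((eLf_u V K2) *
    ((eLf_upP1 V K2) + ((eLf_u V K2) * ((eLf_upP2 V K2) + (((eN 60) * ((eLf_u V K2) * (eLf_u V
    K2))) * (Ex.pow (eN 100) 2))))))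

/-- A packed quantity. -/
def eLf_upN (V K2 : Pack.Ex) : Pack.Ex := ((((eN 100) * (Ex.pow (eN 100) 2)) * K2) + ((eLf_upK V
    K2) * (eLf_v V K2))) + (((eLf_I V K2) * (eLf_upPsi V K2)) * K2)

/-- A packed quantity. -/
def eLf_upW (V K2 : Pack.Ex) : Pack.Ex := (eN 100) * ((eLf_b V K2) - ((eLf_u V K2) * (eLf_a V
    K2)))

/-- A packed quantity. -/
def eLf_upKI (V K2 : Pack.Ex) : Pack.Ex := (eLf_K V K2) * (eLf_IT V K2)

/-- A packed quantity. -/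
def eLf_upG (V K2 : Pack.Ex) : Pack.Ex := (((eN 20) * ((eLf_S V K2) * ((eLf_v V K2) * (eLf_q V
    K2)))) * (eN 100)) - (((eN 14) + ((eN 6) * (eLf_u V K2))) * (eLf_upKI V K2))

/-- A packed quantity. -/
def eLf_upM (V K2 : Pack.Ex) : Pack.Ex := ((((eN 20) * (eLf_K V K2)) * (Ex.pow (eN 100) 2)) * K2)
    - ((eLf_w V K2) * (eLf_upG V K2))

/-- A packed quantity. -/
def eLf_flMix (V K2 : Pack.Ex) : Pack.Ex := ((eN 4) * ((eLf_upM V K2) * (eLf_upW V K2))) +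
    ((eLf_upN V K2) * ((eN 20) * (eLf_P V K2)))

/-- A packed quantity. -/
def eLf_flMixC (V K2 : Pack.Ex) : Pack.Ex := ((eN 7) * ((eLf_upM V K2) * (eLf_upW V K2))) + ((eN
    3) * ((eLf_upN V K2) * ((eN 20) * (eLf_P V K2))))

/-- A packed quantity. -/
def eLf_flMid (V K2 : Pack.Ex) : Pack.Ex := ((((eLf_I V K2) * (((eLf_D0 V K2) * ((eN 100) *
    ((eLf_P V K2) * (eLf_upW V K2)))) - ((eLf_ud V K2) * (eLf_flMix V K2)))) * (Ex.pow (eN 100)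
    2)) * K2) - (((eLf_f0 V K2) * (eLf_flMix V K2)) - ((eLf_N V K2) * ((eN 100) * ((eLf_P V K2) *
    (eLf_upW V K2)))))

/-- A packed quantity. -/
def eLf_flMidC (V K2 : Pack.Ex) : Pack.Ex := ((((eLf_I V K2) * (((eLf_D0 V K2) * ((eN 200) *
    ((eLf_P V K2) * (eLf_upW V K2)))) - ((eLf_ud V K2) * (eLf_flMixC V K2)))) * (Ex.pow (eN 100)
    2)) * K2) - (((eLf_f0 V K2) * (eLf_flMixC V K2)) - ((eLf_N V K2) * ((eN 200) * ((eLf_P V K2)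
    * (eLf_upW V K2)))))

/-- A packed quantity. -/
def eLf_flTop (V K2 : Pack.Ex) : Pack.Ex := ((((eN 11) * ((eLf_I V K2) * (((eLf_D0 V K2) * ((eN
    100) * ((eLf_P V K2) * (eLf_upW V K2)))) - ((eLf_ud V K2) * (eLf_flMix V K2))))) * (Ex.pow
    (eN 100) 2)) * K2) - ((eN 10) * (((eLf_f0 V K2) * (eLf_flMix V K2)) - ((eLf_N V K2) * ((eN
    100) * ((eLf_P V K2) * (eLf_upW V K2))))))

/-- A packed quantity. -/
def eLf_flTopC (V K2 : Pack.Ex) : Pack.Ex := ((((eN 11) * ((eLf_I V K2) * (((eLf_D0 V K2) * ((eN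
    200) * ((eLf_P V K2) * (eLf_upW V K2)))) - ((eLf_ud V K2) * (eLf_flMixC V K2))))) * (Ex.pow
    (eN 100) 2)) * K2) - ((eN 10) * (((eLf_f0 V K2) * (eLf_flMixC V K2)) - ((eLf_N V K2) * ((eN
    200) * ((eLf_P V K2) * (eLf_upW V K2))))))

/-- A packed quantity. -/
def eLf_lfTopFlow (V K2 : Pack.Ex) : Pack.Ex := ((eN 20) * ((eLf_N V K2) * (eLf_P V K2))) -
    ((eLf_f0 V K2) * (eLf_upM V K2))

/-- A packed quantity. -/
def eLf_lfLow (V K2 : Pack.Ex) : Pack.Ex := ((eLf_N V K2) * (eLf_upW V K2)) - ((eLf_f0 V K2) *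
    (eLf_upN V K2))

/-- A packed quantity. -/
def eLf_lfg (V K2 : Pack.Ex) : Pack.Ex := ((eN 12) - ((eN 8) * (eLf_u V K2))) + ((eN 41) *
    ((eLf_u V K2) * (eLf_u V K2)))

/-- A packed quantity. -/
def eLf_lfG (V K2 : Pack.Ex) : Pack.Ex := (((eN 20) * ((eLf_S V K2) * ((eLf_v V K2) * (eLf_q V
    K2)))) * (eN 100)) - ((eLf_lfg V K2) * (eLf_upKI V K2))

/-- A packed quantity. -/
def eLf_lfGv (V K2 : Pack.Ex) : Pack.Ex := (((eN 40) * ((eLf_S V K2) * (((Ex.pow (eN 100) 2) *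
    K2) + ((eN 2) * (eLf_dv V K2))))) * (eN 100)) + ((eLf_lfg V K2) * (((eN 2) * ((eLf_a V K2) *
    (eLf_IT V K2))) + ((eLf_K V K2) * ((eLf_S V K2) * (eLf_d V K2)))))

/-- A packed quantity. -/
def eLf_lfM (V K2 : Pack.Ex) : Pack.Ex := ((((eN 20) * (eLf_K V K2)) * (Ex.pow (eN 100) 2)) * K2)
    - ((eLf_w V K2) * (eLf_lfG V K2))

/-- A packed quantity. -/
def eLf_lfMu (V K2 : Pack.Ex) : Pack.Ex := (eLf_lfG V K2) + ((eLf_w V K2) * ((((eN 82) * (eLf_u V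
    K2)) - (eN 8)) * (eLf_upKI V K2)))

/-- A packed quantity. -/
def eLf_lfN (V K2 : Pack.Ex) : Pack.Ex := ((eLf_u V K2) * (eLf_lfM V K2)) + ((((eN 22) *
    ((eLf_lfT V K2) * ((((eN 2) * ((eLf_I V K2) * (eLf_lfC V K2))) * K2) - (eLf_v V K2)))) *
    (Ex.pow (eN 100) 2)) * K2)

/-- A packed quantity. -/
def eLf_lfGap (V K2 : Pack.Ex) : Pack.Ex := ((eLf_lfN V K2) * (eLf_upW V K2)) - ((eN 20) *
    ((eLf_u V K2) * ((eLf_P V K2) * (eLf_upN V K2))))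

/-- A packed quantity. -/
def eLf_lfFlow (V K2 : Pack.Ex) : Pack.Ex := ((eN 20) * ((eLf_u V K2) * ((eLf_N V K2) * (eLf_P V
    K2)))) - ((eLf_f0 V K2) * (eLf_lfN V K2))

/-- A packed quantity. -/
def eLf_lfMix (V K2 : Pack.Ex) : Pack.Ex := ((eN 10) * ((eLf_lfN V K2) * (eLf_upW V K2))) + (((eN
    9) - ((eN 10) * (eLf_u V K2))) * ((eN 20) * ((eLf_P V K2) * (eLf_upN V K2))))

/-- A packed quantity. -/
def eLf_lfHalf (V K2 : Pack.Ex) : Pack.Ex := ((((eLf_I V K2) * (((eLf_D0 V K2) * ((eN 180) *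
    ((eLf_P V K2) * (eLf_upW V K2)))) - ((eLf_ud V K2) * (eLf_lfMix V K2)))) * (Ex.pow (eN 100)
    2)) * K2) - ((eN 2) * (((eLf_f0 V K2) * (eLf_lfMix V K2)) - ((eLf_N V K2) * ((eN 180) *
    ((eLf_P V K2) * (eLf_upW V K2))))))

/-- A packed quantity. -/
def eLf_lfH (V K2 Sx : Pack.Ex) : Pack.Ex := (eLf_lfM V K2) - ((((eN 44) * ((eLf_I V K2) *
    ((eLf_lfT V K2) * Sx))) * (Ex.pow (eN 100) 2)) * (Ex.pow K2 2))

/-- A packed quantity. -/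
def eLf_lfFu (V K2 Sx : Pack.Ex) : Pack.Ex := ((((((eN 44) * ((eLf_I V K2) * ((((eLf_lfT V K2) *
    Sx) + (((eLf_u V K2) * Sx) * (eN 100))) + ((eLf_lfT V K2) * (eLf_lfCd V K2))))) * (Ex.pow (eN
    100) 2)) * (Ex.pow K2 2)) + ((eLf_u V K2) * (eLf_lfMu V K2))) * ((eN 20) * (eLf_P V K2))) +
    ((eN 20) * ((eLf_a V K2) * ((eLf_qu V K2) * (eLf_lfH V K2 Sx))))

/-- A packed quantity. -/
def eLf_lfFv (V K2 Sx : Pack.Ex) : Pack.Ex := ((eN 40) * ((eLf_a V K2) * ((eLf_u V K2) * ((eLf_ud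
    V K2) * (eLf_lfH V K2 Sx))))) - (((((((eN 40) * ((eLf_a V K2) * (eLf_u V K2))) * (Ex.pow (eN
    100) 2)) * K2) + ((eLf_u V K2) * ((eLf_w V K2) * (eLf_lfGv V K2)))) + ((((eN 44) * (eLf_lfT V
    K2)) * (Ex.pow (eN 100) 2)) * K2)) * ((eN 20) * (eLf_P V K2)))

/-- A packed quantity. -/
def eLf_lfEn (V K2 Sx : Pack.Ex) : Pack.Ex := ((((eLf_E0 V K2) * ((eN 20) * (eLf_P V K2))) *
    (Ex.pow (eN 100) 2)) * K2) - ((eLf_e1 V K2) * (eLf_lfH V K2 Sx))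

/-- A packed quantity. -/
def eLf_lfFl (V K2 Sx : Pack.Ex) : Pack.Ex := ((eLf_f0 V K2) * (eLf_lfH V K2 Sx)) - ((eLf_N V K2)
    * ((eN 20) * (eLf_P V K2)))

/-- A packed quantity. -/
def eLf_lfFh (V K2 Sx : Pack.Ex) : Pack.Ex := (((((eLf_A0 V K2) * (((eN 20) * (eLf_P V K2)) *
    ((eN 20) * (eLf_P V K2)))) * (Ex.pow (eN 100) 2)) * K2) - ((((((eLf_A1 V K2) * (Ex.pow (eN
    100) 2)) * K2) + ((eLf_ud V K2) * (eLf_A0 V K2))) + (((eLf_E0 V K2) * (Ex.pow (eN 100) 2)) *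
    K2)) * ((eLf_lfH V K2 Sx) * ((eN 20) * (eLf_P V K2))))) + ((((eLf_ud V K2) * (eLf_A1 V K2)) +
    (eLf_e1 V K2)) * ((eLf_lfH V K2 Sx) * (eLf_lfH V K2 Sx)))

/-- A packed quantity. -/
def eLf_lfMain (V K2 Sx : Pack.Ex) : Pack.Ex := ((((eN 2) * (((eN 20) * (eLf_P V K2)) * (eLf_lfFh
    V K2 Sx))) - ((eN 2) * ((eLf_lfFu V K2 Sx) * (eLf_lfEn V K2 Sx)))) - ((eLf_q V K2) *
    ((eLf_lfFv V K2 Sx) * (eLf_lfFl V K2 Sx)))) - ((((eN 2) * (((eLf_P V K2) * (eLf_P V K2)) *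
    (((eLf_upN V K2) * ((eN 20) * (eLf_P V K2))) - ((eLf_lfH V K2 Sx) * (eLf_upW V K2))))) *
    (Ex.pow (eN 100) 4)) * (Ex.pow K2 2))

end Vale.Agent.P100.Calib.Band.AllLow
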