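import Vale.Agent.P100.Calib.SlabStripLeftAtoms
import Vale.Agent.P100.Calib.SlabStripLeftExpr

/-!
# The values of the packed numerators of the left exit band

`StripLeftPoint` relates a point to the variables.
-/

namespace Vale.Agent.P100.Calib.Band.AllLow

open Pack

local instance stripLeftEvalAdd : Add Pack.Ex := ⟨Ex.add⟩
local instance stripLeftEvalSub : Sub Pack.Ex := ⟨Ex.sub⟩
local instance stripLeftEvalMul : Mul Pack.Ex := ⟨Ex.mul⟩

/-- The values of the variables. -/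
structure StripLeftPoint (x : ℕ → ℝ) (p : StripAtoms) (V K2 : Pack.Ex) (k₂ : ℝ) : Prop where
  hu : x 0 = p.u
  hk2 : K2.eval x = k₂
  h_w : (eLf_w V K2).eval x = p.w
  h_v : (eLf_v V K2).eval x = p.v * ((100 : ℝ) * k₂)
  h_I : (eLf_I V K2).eval x = p.I
  h_S : (eLf_S V K2).eval x = p.S
  h_d : (eLf_d V K2).eval x = p.d * ((100 : ℝ))
  h_a : (eLf_a V K2).eval x = p.a * ((100 : ℝ))
  h_b : (eLf_b V K2).eval x = p.b * ((100 : ℝ))
  h_K : (eLf_K V K2).eval x = p.K * ((100 : ℝ) ^ 2 * k₂)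
  h_IT : (eLf_IT V K2).eval x = p.IT * ((100 : ℝ) ^ 2 * k₂)
  h_dv : (eLf_dv V K2).eval x = p.dv * ((100 : ℝ) ^ 2 * k₂)
  h_lfT : (eLf_lfT V K2).eval x = p.lfT * ((100 : ℝ))
  h_lfC : (eLf_lfC V K2).eval x = p.lfC * ((100 : ℝ))
  h_lfCd : (eLf_lfCd V K2).eval x = p.lfCd * ((100 : ℝ))

variable {x : ℕ → ℝ} {p : StripAtoms} {V K2 Sx : Pack.Ex} {k₂ s : ℝ}

theorem evalLf_q (h : StripLeftPoint x p V K2 k₂) :
    (eLf_q V K2).eval x = p.q * ((100 : ℝ) ^ 2 * k₂) := by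
  simp only [eLf_q, StripAtoms.q, eval_add', eval_num', Ex.eval, h.h_dv, h.hk2]
  push_cast
  ring

theorem evalLf_D0 (h : StripLeftPoint x p V K2 k₂) :
    (eLf_D0 V K2).eval x = p.D0 * ((100 : ℝ) ^ 2 * k₂) := by
  simp only [eLf_D0, StripAtoms.D0, eval_add', eval_num', Ex.eval, h.h_dv, h.hk2]
  push_cast
  ring

theorem evalLf_u (h : StripLeftPoint x p V K2 k₂) :
    (eLf_u V K2).eval x = p.u := by
  simp only [eLf_u, StripAtoms.u, eval_sub', eval_num', h.h_w]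
  push_cast
  ring

theorem evalLf_qu (h : StripLeftPoint x p V K2 k₂) :
    (eLf_qu V K2).eval x = p.qu * ((100 : ℝ) ^ 2 * k₂) := by
  simp only [eLf_qu, StripAtoms.qu, eval_mul', evalLf_q h, evalLf_u h]
  ring

theorem evalLf_P (h : StripLeftPoint x p V K2 k₂) :
    (eLf_P V K2).eval x = p.P * ((100 : ℝ) ^ 3 * k₂) := by
  simp only [eLf_P, StripAtoms.P, eval_sub', eval_num', Ex.eval, h.h_b, h.h_a, evalLf_qu h, h.hk2]
  push_cast
  ring

theorem evalLf_qn (h : StripLeftPoint x p V K2 k₂) :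
    (eLf_qn V K2).eval x = p.qn * ((100 : ℝ) ^ 3 * k₂) := by
  simp only [eLf_qn, StripAtoms.qn, eval_sub', eval_mul', eval_num', h.h_b, evalLf_D0 h, h.h_S,
    evalLf_qu h]
  push_cast
  ring

theorem evalLf_ud (h : StripLeftPoint x p V K2 k₂) :
    (eLf_ud V K2).eval x = p.ud * ((100 : ℝ)) := by
  simp only [eLf_ud, StripAtoms.ud, eval_mul', evalLf_u h, h.h_d]
  ring

theorem evalLf_e1 (h : StripLeftPoint x p V K2 k₂) :
    (eLf_e1 V K2).eval x = p.e1 * ((100 : ℝ) ^ 4 * k₂) := by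
  simp only [eLf_e1, StripAtoms.e1, eval_sub', eval_mul', eval_num', Ex.eval, evalLf_ud h,
    evalLf_qn h, h.h_S, h.h_w, h.h_b, h.hk2]
  push_cast
  ring

theorem evalLf_E0 (h : StripLeftPoint x p V K2 k₂) :
    (eLf_E0 V K2).eval x = p.E0 * ((100 : ℝ) ^ 3 * k₂) := by
  simp only [eLf_E0, StripAtoms.E0, eval_sub', eval_mul', evalLf_qn h, h.h_S, h.h_w, h.h_b,
    evalLf_D0 h]
  ring

theorem evalLf_f0 (h : StripLeftPoint x p V K2 k₂) :
    (eLf_f0 V K2).eval x = p.f0 * ((100 : ℝ) ^ 3 * k₂) := by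
  simp only [eLf_f0, StripAtoms.f0, eval_add', eval_mul', evalLf_qn h, h.h_S, h.h_K, evalLf_ud h]
  ring

theorem evalLf_N (h : StripLeftPoint x p V K2 k₂) :
    (eLf_N V K2).eval x = p.N * ((100 : ℝ) ^ 4 * k₂ ^ 2) := by
  simp only [eLf_N, StripAtoms.N, eval_mul', h.h_S, h.h_K, evalLf_D0 h]
  ring

theorem evalLf_A0 (h : StripLeftPoint x p V K2 k₂) :
    (eLf_A0 V K2).eval x = p.A0 * ((100 : ℝ) ^ 4 * k₂ ^ 2) := by
  simp only [eLf_A0, StripAtoms.A0, eval_add', eval_mul', eval_num', evalLf_N h, h.h_S, h.h_v,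
    evalLf_D0 h]
  push_cast
  ring

theorem evalLf_A1 (h : StripLeftPoint x p V K2 k₂) :
    (eLf_A1 V K2).eval x = p.A1 * ((100 : ℝ) ^ 3 * k₂) := by
  simp only [eLf_A1, StripAtoms.A1, eval_add', eval_mul', eval_num', evalLf_f0 h, h.h_S, h.h_v,
    evalLf_ud h]
  push_cast
  ring

theorem evalLf_upK (h : StripLeftPoint x p V K2 k₂) :
    (eLf_upK V K2).eval x = p.upK * ((100 : ℝ)) := by
  simp only [eLf_upK, StripAtoms.upK, eval_sub', eval_mul', eval_num', h.h_b, h.h_a, evalLf_u h]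
  push_cast
  ring

theorem evalLf_upP0 (h : StripLeftPoint x p V K2 k₂) :
    (eLf_upP0 V K2).eval x = p.upP0 * ((100 : ℝ)) := by
  simp only [eLf_upP0, StripAtoms.upP0, eval_add', eval_sub', eval_mul', eval_num', h.h_I, h.h_a]
  push_cast
  ring

theorem evalLf_upP1 (h : StripLeftPoint x p V K2 k₂) :
    (eLf_upP1 V K2).eval x = p.upP1 * ((100 : ℝ) ^ 2) := by
  simp only [eLf_upP1, StripAtoms.upP1, eval_add', eval_sub', eval_num', Ex.eval, h.h_a, h.h_I]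
  push_cast
  ring

theorem evalLf_upP2 (h : StripLeftPoint x p V K2 k₂) :
    (eLf_upP2 V K2).eval x = p.upP2 * ((100 : ℝ) ^ 2) := by
  simp only [eLf_upP2, StripAtoms.upP2, eval_add', eval_sub', eval_mul', eval_num', h.h_a, h.h_I]
  push_cast
  ring

theorem evalLf_upPsi (h : StripLeftPoint x p V K2 k₂) :
    (eLf_upPsi V K2).eval x = p.upPsi * ((100 : ℝ) ^ 2) := by
  simp only [eLf_upPsi, StripAtoms.upPsi, eval_add', eval_num', Ex.eval, evalLf_upP0 h,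
    evalLf_u h, evalLf_upP1 h, evalLf_upP2 h]
  push_cast
  ring

theorem evalLf_upN (h : StripLeftPoint x p V K2 k₂) :
    (eLf_upN V K2).eval x = p.upN * ((100 : ℝ) ^ 2 * k₂) := by
  simp only [eLf_upN, StripAtoms.upN, eval_add', eval_num', Ex.eval, evalLf_upK h, h.h_v, h.h_I,
    evalLf_upPsi h, h.hk2]
  push_cast
  ring

theorem evalLf_upW (h : StripLeftPoint x p V K2 k₂) :
    (eLf_upW V K2).eval x = p.upW * ((100 : ℝ)) := by
  simp only [eLf_upW, StripAtoms.upW, eval_sub', eval_mul', eval_num', h.h_b, evalLf_u h, h.h_a]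
  push_cast
  ring

theorem evalLf_upKI (h : StripLeftPoint x p V K2 k₂) :
    (eLf_upKI V K2).eval x = p.upKI * ((100 : ℝ) ^ 4 * k₂ ^ 2) := by
  simp only [eLf_upKI, StripAtoms.upKI, eval_mul', h.h_K, h.h_IT]
  ring

theorem evalLf_upG (h : StripLeftPoint x p V K2 k₂) :
    (eLf_upG V K2).eval x = p.upG * ((100 : ℝ) ^ 4 * k₂ ^ 2) := by
  simp only [eLf_upG, StripAtoms.upG, eval_add', eval_sub', eval_mul', eval_num', h.h_S, h.h_v,
    evalLf_q h, evalLf_u h, evalLf_upKI h]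
  push_cast
  ring

theorem evalLf_upM (h : StripLeftPoint x p V K2 k₂) :
    (eLf_upM V K2).eval x = p.upM * ((100 : ℝ) ^ 4 * k₂ ^ 2) := by
  simp only [eLf_upM, StripAtoms.upM, eval_sub', eval_num', Ex.eval, h.h_K, h.h_w, evalLf_upG h,
    h.hk2]
  push_cast
  ring

theorem evalLf_flMix (h : StripLeftPoint x p V K2 k₂) :
    (eLf_flMix V K2).eval x = p.flMix * ((100 : ℝ) ^ 5 * k₂ ^ 2) := by
  simp only [eLf_flMix, StripAtoms.flMix, eval_add', eval_mul', eval_num', evalLf_upM h,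
    evalLf_upW h, evalLf_upN h, evalLf_P h]
  push_cast
  ring

theorem evalLf_flMixC (h : StripLeftPoint x p V K2 k₂) :
    (eLf_flMixC V K2).eval x = p.flMixC * ((100 : ℝ) ^ 5 * k₂ ^ 2) := by
  simp only [eLf_flMixC, StripAtoms.flMixC, eval_add', eval_mul', eval_num', evalLf_upM h,
    evalLf_upW h, evalLf_upN h, evalLf_P h]
  push_cast
  ring

theorem evalLf_flMid (h : StripLeftPoint x p V K2 k₂) :
    (eLf_flMid V K2).eval x = p.flMid * ((100 : ℝ) ^ 8 * k₂ ^ 3) := by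
  simp only [eLf_flMid, StripAtoms.flMid, eval_sub', eval_num', Ex.eval, h.h_I, evalLf_D0 h,
    evalLf_P h, evalLf_upW h, evalLf_ud h, evalLf_flMix h, evalLf_f0 h, evalLf_N h, h.hk2]
  push_cast
  ring

theorem evalLf_flMidC (h : StripLeftPoint x p V K2 k₂) :
    (eLf_flMidC V K2).eval x = p.flMidC * ((100 : ℝ) ^ 8 * k₂ ^ 3) := by
  simp only [eLf_flMidC, StripAtoms.flMidC, eval_sub', eval_num', Ex.eval, h.h_I, evalLf_D0 h,
    evalLf_P h, evalLf_upW h, evalLf_ud h, evalLf_flMixC h, evalLf_f0 h, evalLf_N h, h.hk2]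
  push_cast
  ring

theorem evalLf_flTop (h : StripLeftPoint x p V K2 k₂) :
    (eLf_flTop V K2).eval x = p.flTop * ((100 : ℝ) ^ 8 * k₂ ^ 3) := by
  simp only [eLf_flTop, StripAtoms.flTop, eval_sub', eval_num', Ex.eval, h.h_I, evalLf_D0 h,
    evalLf_P h, evalLf_upW h, evalLf_ud h, evalLf_flMix h, evalLf_f0 h, evalLf_N h, h.hk2]
  push_cast
  ring

theorem evalLf_flTopC (h : StripLeftPoint x p V K2 k₂) :
    (eLf_flTopC V K2).eval x = p.flTopC * ((100 : ℝ) ^ 8 * k₂ ^ 3) := by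
  simp only [eLf_flTopC, StripAtoms.flTopC, eval_sub', eval_num', Ex.eval, h.h_I, evalLf_D0 h,
    evalLf_P h, evalLf_upW h, evalLf_ud h, evalLf_flMixC h, evalLf_f0 h, evalLf_N h, h.hk2]
  push_cast
  ring

theorem evalLf_lfTopFlow (h : StripLeftPoint x p V K2 k₂) :
    (eLf_lfTopFlow V K2).eval x = p.lfTopFlow * ((100 : ℝ) ^ 7 * k₂ ^ 3) := by
  simp only [eLf_lfTopFlow, StripAtoms.lfTopFlow, eval_sub', eval_mul', eval_num', evalLf_N h,
    evalLf_P h, evalLf_f0 h, evalLf_upM h]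
  push_cast
  ring

theorem evalLf_lfLow (h : StripLeftPoint x p V K2 k₂) :
    (eLf_lfLow V K2).eval x = p.lfLow * ((100 : ℝ) ^ 5 * k₂ ^ 2) := by
  simp only [eLf_lfLow, StripAtoms.lfLow, eval_sub', eval_mul', evalLf_N h, evalLf_upW h,
    evalLf_f0 h, evalLf_upN h]
  ring

theorem evalLf_lfg (h : StripLeftPoint x p V K2 k₂) :
    (eLf_lfg V K2).eval x = p.lfg := by
  simp only [eLf_lfg, StripAtoms.lfg, eval_add', eval_sub', eval_mul', eval_num', evalLf_u h]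
  push_cast
  ring

theorem evalLf_lfG (h : StripLeftPoint x p V K2 k₂) :
    (eLf_lfG V K2).eval x = p.lfG * ((100 : ℝ) ^ 4 * k₂ ^ 2) := by
  simp only [eLf_lfG, StripAtoms.lfG, eval_sub', eval_mul', eval_num', h.h_S, h.h_v, evalLf_q h,
    evalLf_lfg h, evalLf_upKI h]
  push_cast
  ring

theorem evalLf_lfGv (h : StripLeftPoint x p V K2 k₂) :
    (eLf_lfGv V K2).eval x = p.lfGv * ((100 : ℝ) ^ 3 * k₂) := by
  simp only [eLf_lfGv, StripAtoms.lfGv, eval_add', eval_num', Ex.eval, h.h_S, h.h_dv,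
    evalLf_lfg h, h.h_a, h.h_IT, h.h_K, h.h_d, h.hk2]
  push_cast
  ring

theorem evalLf_lfM (h : StripLeftPoint x p V K2 k₂) :
    (eLf_lfM V K2).eval x = p.lfM * ((100 : ℝ) ^ 4 * k₂ ^ 2) := by
  simp only [eLf_lfM, StripAtoms.lfM, eval_sub', eval_num', Ex.eval, h.h_K, h.h_w, evalLf_lfG h,
    h.hk2]
  push_cast
  ring

theorem evalLf_lfMu (h : StripLeftPoint x p V K2 k₂) :
    (eLf_lfMu V K2).eval x = p.lfMu * ((100 : ℝ) ^ 4 * k₂ ^ 2) := by
  simp only [eLf_lfMu, StripAtoms.lfMu, eval_add', eval_sub', eval_mul', eval_num', evalLf_lfG h,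
    h.h_w, evalLf_u h, evalLf_upKI h]
  push_cast
  ring

theorem evalLf_lfN (h : StripLeftPoint x p V K2 k₂) :
    (eLf_lfN V K2).eval x = p.lfN * ((100 : ℝ) ^ 4 * k₂ ^ 2) := by
  simp only [eLf_lfN, StripAtoms.lfN, eval_add', eval_sub', eval_num', Ex.eval, evalLf_u h,
    evalLf_lfM h, h.h_lfT, h.h_I, h.h_lfC, h.h_v, h.hk2]
  push_cast
  ring

theorem evalLf_lfGap (h : StripLeftPoint x p V K2 k₂) :
    (eLf_lfGap V K2).eval x = p.lfGap * ((100 : ℝ) ^ 5 * k₂ ^ 2) := by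
  simp only [eLf_lfGap, StripAtoms.lfGap, eval_sub', eval_mul', eval_num', evalLf_lfN h,
    evalLf_upW h, evalLf_u h, evalLf_P h, evalLf_upN h]
  push_cast
  ring

theorem evalLf_lfFlow (h : StripLeftPoint x p V K2 k₂) :
    (eLf_lfFlow V K2).eval x = p.lfFlow * ((100 : ℝ) ^ 7 * k₂ ^ 3) := by
  simp only [eLf_lfFlow, StripAtoms.lfFlow, eval_sub', eval_mul', eval_num', evalLf_u h,
    evalLf_N h, evalLf_P h, evalLf_f0 h, evalLf_lfN h]
  push_cast
  ring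

theorem evalLf_lfMix (h : StripLeftPoint x p V K2 k₂) :
    (eLf_lfMix V K2).eval x = p.lfMix * ((100 : ℝ) ^ 5 * k₂ ^ 2) := by
  simp only [eLf_lfMix, StripAtoms.lfMix, eval_add', eval_sub', eval_mul', eval_num',
    evalLf_lfN h, evalLf_upW h, evalLf_u h, evalLf_P h, evalLf_upN h]
  push_cast
  ring

theorem evalLf_lfHalf (h : StripLeftPoint x p V K2 k₂) :
    (eLf_lfHalf V K2).eval x = p.lfHalf * ((100 : ℝ) ^ 8 * k₂ ^ 3) := by
  simp only [eLf_lfHalf, StripAtoms.lfHalf, eval_sub', eval_num', Ex.eval, h.h_I, evalLf_D0 h,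
    evalLf_P h, evalLf_upW h, evalLf_ud h, evalLf_lfMix h, evalLf_f0 h, evalLf_N h, h.hk2]
  push_cast
  ring

theorem evalLf_lfH (h : StripLeftPoint x p V K2 k₂) (hs : Sx.eval x = s * 100) :
    (eLf_lfH V K2 Sx).eval x = (p.lfH s) * ((100 : ℝ) ^ 4 * k₂ ^ 2) := by
  simp only [eLf_lfH, StripAtoms.lfH, eval_sub', eval_num', Ex.eval, evalLf_lfM h, h.h_I,
    h.h_lfT, h.hk2, hs]
  push_cast
  ring

theorem evalLf_lfFu (h : StripLeftPoint x p V K2 k₂) (hs : Sx.eval x = s * 100) :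
    (eLf_lfFu V K2 Sx).eval x = (p.lfFu s) * ((100 : ℝ) ^ 7 * k₂ ^ 3) := by
  simp only [eLf_lfFu, StripAtoms.lfFu, eval_add', eval_num', Ex.eval, h.h_I, h.h_lfT,
    evalLf_u h, h.h_lfCd, evalLf_lfMu h, evalLf_P h, h.h_a, evalLf_qu h, evalLf_lfH h hs, h.hk2,
    hs]
  push_cast
  ring

theorem evalLf_lfFv (h : StripLeftPoint x p V K2 k₂) (hs : Sx.eval x = s * 100) :
    (eLf_lfFv V K2 Sx).eval x = (p.lfFv s) * ((100 : ℝ) ^ 6 * k₂ ^ 2) := by
  simp only [eLf_lfFv, StripAtoms.lfFv, eval_sub', eval_num', Ex.eval, h.h_a, evalLf_u h,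
    evalLf_ud h, evalLf_lfH h hs, h.h_w, evalLf_lfGv h, h.h_lfT, evalLf_P h, h.hk2]
  push_cast
  ring

theorem evalLf_lfEn (h : StripLeftPoint x p V K2 k₂) (hs : Sx.eval x = s * 100) :
    (eLf_lfEn V K2 Sx).eval x = (p.lfEn s) * ((100 : ℝ) ^ 8 * k₂ ^ 3) := by
  simp only [eLf_lfEn, StripAtoms.lfEn, eval_sub', eval_num', Ex.eval, evalLf_E0 h, evalLf_P h,
    evalLf_e1 h, evalLf_lfH h hs, h.hk2]
  push_cast
  ring

theorem evalLf_lfFl (h : StripLeftPoint x p V K2 k₂) (hs : Sx.eval x = s * 100) :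
    (eLf_lfFl V K2 Sx).eval x = (p.lfFl s) * ((100 : ℝ) ^ 7 * k₂ ^ 3) := by
  simp only [eLf_lfFl, StripAtoms.lfFl, eval_sub', eval_mul', eval_num', evalLf_f0 h,
    evalLf_lfH h hs, evalLf_N h, evalLf_P h]
  push_cast
  ring

theorem evalLf_lfFh (h : StripLeftPoint x p V K2 k₂) (hs : Sx.eval x = s * 100) :
    (eLf_lfFh V K2 Sx).eval x = (p.lfFh s) * ((100 : ℝ) ^ 12 * k₂ ^ 5) := by
  simp only [eLf_lfFh, StripAtoms.lfFh, eval_add', eval_sub', eval_num', Ex.eval, evalLf_A0 h,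
    evalLf_P h, evalLf_A1 h, evalLf_ud h, evalLf_E0 h, evalLf_lfH h hs, evalLf_e1 h, h.hk2]
  push_cast
  ring

theorem evalLf_lfMain (h : StripLeftPoint x p V K2 k₂) (hs : Sx.eval x = s * 100) :
    (eLf_lfMain V K2 Sx).eval x = (p.lfMain s) * ((100 : ℝ) ^ 15 * k₂ ^ 6) := by
  simp only [eLf_lfMain, StripAtoms.lfMain, eval_sub', eval_num', Ex.eval, evalLf_P h,
    evalLf_lfFh h hs, evalLf_lfFu h hs, evalLf_lfEn h hs, evalLf_q h, evalLf_lfFv h hs,
    evalLf_lfFl h hs, evalLf_upN h, evalLf_lfH h hs, evalLf_upW h, h.hk2]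
  push_cast
  ring

end Vale.Agent.P100.Calib.Band.AllLow
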