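import Vale.Agent.P100.Calib.SlabStripLeftSigns

/-!
# The left exit band of the strip

`u (1 - a v - H (b - a u (1 + d v)) - (1 - u) G / 20) + (11/10) (9/20 - u) (2 I C - v) > 0` for
`u <= 9/20`, `G = 20 S v (1 + d v) - (12 - 8 u + 41 u ^ 2) (1 - a v) (I - S d v / 2)`,
`C = (11 + 2 u + 24 u ^ 2) / 10`, on orbits, for real `N >= 20` and `31/100 < a`. It is an exit
barrier up to `u = 9/20`, where `stripTop` takes over.
-/

open Set Filter Topology

namespace Vale.Agent.P100.Calib.Band

open Vale.Agent.P100.Bubble Chart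

/-- `(1 - a v) (I - S d v / 2)`. -/
noncomputable def stripLeftKI (a b v : ℝ) : ℝ :=
  (1 - a * v) * (allStabI a b - (a + b) * ((b - a) * v) / 2)

/-- Twenty times the coefficient of the band. -/
noncomputable def stripLeftG (a b u v : ℝ) : ℝ :=
  20 * ((a + b) * (v * (1 + (b - a) * v))) - (12 - 8 * u + 41 * (u * u)) * stripLeftKI a b v

/-- Its derivative in `v`. -/
noncomputable def stripLeftGv (a b u v : ℝ) : ℝ :=
  20 * ((a + b) * (1 + 2 * ((b - a) * v))) + (12 - 8 * u + 41 * (u * u)) *
    (a * (allStabI a b - (a + b) * ((b - a) * v) / 2) + (1 - a * v) * ((a + b) * (b - a)) / 2)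

/-- The part of the band that takes over from `stripTop`. -/
noncomputable def stripLeftX (a b u v H : ℝ) : ℝ :=
  1 - a * v - H * (b - a * ((1 + (b - a) * v) * u)) - (1 - u) * stripLeftG a b u v / 20

/-- **The band function.** -/
noncomputable def stripLeft (a b u v H : ℝ) : ℝ :=
  u * stripLeftX a b u v H + 11 / 10 * ((9 / 20 - u) * (2 * (allStabI a b * stripLeftC u) - v))

/-- Its derivative in `u`. -/
noncomputable def stripLeftFu (a b u v H : ℝ) : ℝ :=
  stripLeftX a b u v H + u * (a * (1 + (b - a) * v) * H +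
    (stripLeftG a b u v + (1 - u) * ((82 * u - 8) * stripLeftKI a b v)) / 20) +
    11 / 10 * ((9 / 20 - u) * (2 * (allStabI a b * ((1 + 24 * u) / 5))) -
      (2 * (allStabI a b * stripLeftC u) - v))

/-- Its derivative in `v`. -/
noncomputable def stripLeftFv (a b u v H : ℝ) : ℝ :=
  u * (a * u * (b - a) * H - a - (1 - u) * stripLeftGv a b u v / 20) - 11 / 10 * (9 / 20 - u)

theorem hasGrad_stripLeft (a b : ℝ) :
    HasGrad (fun u v H => stripLeft a b u v H) (stripLeftFu a b) (stripLeftFv a b)
      (fun u v _ => -(u * (b - a * ((1 + (b - a) * v) * u)))) := by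
  intro u v H du dv dh t hu hv hh
  have h1 := ((((hv.const_mul (b - a)).const_add 1).fun_mul hu).const_mul a).const_sub b
  have hKI : HasDerivAt (fun s => stripLeftKI a b (v s))
      (-((a * (allStabI a b - (a + b) * ((b - a) * v t) / 2) +
        (1 - a * v t) * ((a + b) * (b - a)) / 2) * dv)) t := by
    refine (((hv.const_mul a).const_sub 1).fun_mul
      ((((hv.const_mul (b - a)).const_mul (a + b)).div_const 2).const_sub
        (allStabI a b))).congr_deriv ?_
    ring
  have h2 : HasDerivAt (fun s => stripLeftG a b (u s) (v s))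
      (-((82 * u t - 8) * stripLeftKI a b (v t)) * du + stripLeftGv a b (u t) (v t) * dv) t := by
    refine (((hv.fun_mul ((hv.const_mul (b - a)).const_add 1)).const_mul (a + b)).const_mul
      20 |>.fun_sub ((((hu.const_mul 8).const_sub 12).fun_add
        ((hu.fun_mul hu).const_mul 41)).fun_mul hKI)).congr_deriv ?_
    simp only [stripLeftGv, stripLeftKI]
    ring
  have hX : HasDerivAt (fun s => stripLeftX a b (u s) (v s) (H s))
      ((a * (1 + (b - a) * v t) * H t + (stripLeftG a b (u t) (v t) +
        (1 - u t) * ((82 * u t - 8) * stripLeftKI a b (v t))) / 20) * du +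
      (a * u t * (b - a) * H t - a - (1 - u t) * stripLeftGv a b (u t) (v t) / 20) * dv +
      -(b - a * ((1 + (b - a) * v t) * u t)) * dh) t := by
    refine ((((hv.const_mul a).const_sub 1).fun_sub (hh.fun_mul h1)).fun_sub
      (((hu.const_sub 1).fun_mul h2).div_const 20)).congr_deriv ?_
    ring
  have hC : HasDerivAt (fun s => stripLeftC (u s)) ((1 + 24 * u t) / 5 * du) t := by
    refine ((((hu.const_mul 2).const_add 11).fun_add
      ((hu.fun_mul hu).const_mul 24)).div_const 10).congr_deriv ?_
    ring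
  refine ((hu.fun_mul hX).fun_add (((hu.const_sub (9 / 20)).fun_mul
    (((hC.const_mul (allStabI a b)).const_mul 2).fun_sub hv)).const_mul (11 / 10))).congr_deriv ?_
  simp only [stripLeftFu, stripLeftFv]
  ring

/-- The band in the variables of `StripAtoms`. -/
theorem stripLeft_eq (a b u v H : ℝ) :
    20 * stripLeft a b u v H =
      (stripAt a b u v).lfN - 20 * (u * ((stripAt a b u v).P * H)) := by
  simp only [stripAt, StripAtoms.lfN, StripAtoms.lfM, StripAtoms.lfG, StripAtoms.lfg,
    StripAtoms.lfT, StripAtoms.lfC, StripAtoms.upKI, StripAtoms.P, StripAtoms.qu, StripAtoms.q,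
    StripAtoms.u, stripLeft, stripLeftX, stripLeftG, stripLeftKI, stripLeftC]
  ring

/-- The signs at a point of the strip. -/
theorem strip_pos {a b u v : ℝ} (hP : StripPlace a b u v) :
    0 < (stripAt a b u v).P ∧ 0 < (stripAt a b u v).upW ∧ 0 < (stripAt a b u v).f0 := by
  obtain ⟨hI0, hI20, ha, hd, hu, hu1, hv, hav, hlo, hhi⟩ := hP
  have hw : 0 < 1 - u := by linarith
  have hK : 0 < 1 - a * v := by linarith
  have hb : 0 < b := by linarith
  have hS : 0 < a + b := by linarith
  have h2 : 0 < 2 - (a + b) := by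
    simp only [allStabI] at hI0
    linarith
  refine ⟨?_, ?_, ?_⟩
  · have e : (stripAt a b u v).P = (1 - u) * b + u * ((b - a) * (1 - a * v)) := by
      simp only [stripAt, StripAtoms.P, StripAtoms.qu, StripAtoms.q, StripAtoms.u]
      ring
    rw [e]
    exact add_pos (mul_pos hw hb) (by positivity)
  · simp only [stripAt, StripAtoms.upW, StripAtoms.u]
    linarith [mul_le_mul_of_nonneg_right hu1.le (show 0 ≤ a by linarith)]
  · have e : (stripAt a b u v).f0 = (1 - u) * ((2 - (a + b)) * b + b * ((b - a) * v)) +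
        u * ((b - a) * (1 - a * v)) + (a + b) * ((1 - u) * b) +
        (a + b) * ((1 - a * v) * (u * (b - a))) := by
      simp only [stripAt, StripAtoms.f0, StripAtoms.qn, StripAtoms.D0, StripAtoms.qu,
        StripAtoms.q, StripAtoms.ud, StripAtoms.u]
      ring
    rw [e]
    positivity

/-- The sign of the exit condition. -/
theorem strip_left_sign {a b u v H : ℝ} (hP : StripPlace a b u v) (hu9 : u ≤ 9 / 20)
    (hfl : 0 < allFlow a b u v H) (hup : H < stripUp a b u v) (hF : stripLeft a b u v H = 0) :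
    allDot a b u v H (stripLeftFu a b u v H) (stripLeftFv a b u v H)
      (-(u * (b - a * ((1 + (b - a) * v) * u)))) < 0 := by
  obtain ⟨e1, -, -⟩ := stripUp_eq (a := a) (b := b) (v := v) hP.u_lt.le
  obtain ⟨hPp, hW, hf0⟩ := strip_pos hP
  rw [e1, lt_div_iff₀ hW] at hup
  have eF := stripLeft_eq a b u v H
  rw [hF] at eF
  obtain ⟨p, hp⟩ : ∃ p, p = stripAt a b u v := ⟨_, rfl⟩
  have hu := hP.u_pos
  have eflow : allFlow a b u v H = p.f0 * H - p.N := by
    simp only [hp, stripAt, StripAtoms.f0, StripAtoms.N, StripAtoms.qn, StripAtoms.D0,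
      StripAtoms.qu, StripAtoms.q, StripAtoms.ud, StripAtoms.u, allFlow, allQn, allDen]
    ring
  rw [← hp] at eF hPp hW hf0 hup
  have hv0 : 2 * allStabI a b * (stripLeftC u + u * stripLeftLo u) < v := by
    by_contra hc
    have h := AllLow.strip_left_gap hP hu9 (not_lt.1 hc)
    simp only [← hp, StripAtoms.lfGap, show p.u = u by simp [hp, stripAt, StripAtoms.u]] at h
    have h1 := mul_lt_mul_of_pos_left hup (show 0 < 20 * (u * p.P) by positivity)
    have h2 : p.lfN * p.upW = 20 * (u * (p.P * H)) * p.upW := by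
      rw [show p.lfN = 20 * (u * (p.P * H)) by linarith]
    linarith
  have hv1 : v < 2 * allStabI a b * (stripLeftC u + u * stripLeftHi u) := by
    by_contra hc
    have h := AllLow.strip_left_low hP hu9 (not_lt.1 hc)
    simp only [← hp, StripAtoms.lfFlow, show p.u = u by simp [hp, stripAt, StripAtoms.u]] at h
    rw [eflow] at hfl
    have h1 := mul_pos (show 0 < 20 * (u * p.P) by positivity) hfl
    have h2 : p.f0 * p.lfN = p.f0 * (20 * (u * (p.P * H))) := by
      rw [show p.lfN = 20 * (u * (p.P * H)) by linarith]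
    linarith
  have hI0 := hP.I_pos
  obtain ⟨s, hs⟩ : ∃ s, s = (v / (2 * allStabI a b) - stripLeftC u) / u := ⟨_, rfl⟩
  have hv : v = 2 * allStabI a b * (stripLeftC u + u * s) := by
    rw [hs]
    field_simp
    ring
  have hs0 : stripLeftLo u ≤ s := by
    rw [hv] at hv0
    have := lt_of_mul_lt_mul_left hv0 (by positivity)
    exact le_of_mul_le_mul_left (by linarith) hu
  have hs1 : s < stripLeftHi u := by
    rw [hv] at hv1
    have := lt_of_mul_lt_mul_left hv1 (by positivity)
    exact lt_of_mul_lt_mul_left (by linarith) hu.le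
  have hm := AllLow.strip_left_main hP hu9 hs0 hs1 hv
  rw [← hp] at hm
  have eC : stripLeftC u = p.lfC := by
    simp only [hp, stripAt, StripAtoms.lfC, StripAtoms.u, stripLeftC]
    ring
  have eT : 9 / 20 - u = p.lfT := by
    simp only [hp, stripAt, StripAtoms.lfT, StripAtoms.u]
    ring
  have eN : p.lfN = u * p.lfH s := by
    simp only [StripAtoms.lfH, StripAtoms.lfN, show p.u = u by simp [hp, stripAt, StripAtoms.u],
      show p.I = allStabI a b by simp [hp, stripAt],
      show p.v = v by simp [hp, stripAt], ← eC]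
    linear_combination (-22 * p.lfT) * hv
  have eH : p.lfH s = 20 * (p.P * H) := by
    refine mul_left_cancel₀ hu.ne' ?_
    linarith
  have eX : stripLeftX a b u v H = 22 / 10 * (allStabI a b * (p.lfT * s)) := by
    have : 20 * (stripLeftX a b u v H - 22 / 10 * (allStabI a b * (p.lfT * s))) =
        p.lfH s - 20 * (p.P * H) := by
      simp only [hp, stripAt, StripAtoms.lfH, StripAtoms.lfM, StripAtoms.lfG, StripAtoms.lfg,
        StripAtoms.upKI, StripAtoms.P, StripAtoms.qu, StripAtoms.q, StripAtoms.u, stripLeftX,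
        stripLeftG, stripLeftKI]
      ring
    linarith
  have eFu : 400 * (p.P * stripLeftFu a b u v H) = p.lfFu s := by
    rw [stripLeftFu, eX, eC, eT]
    simp only [StripAtoms.lfFu, eH]
    simp only [hp, stripAt, StripAtoms.lfMu, StripAtoms.lfG, StripAtoms.lfg, StripAtoms.lfT,
      StripAtoms.lfCd, StripAtoms.lfC, StripAtoms.upKI, StripAtoms.P, StripAtoms.qu, StripAtoms.q,
      StripAtoms.u, stripLeftG, stripLeftKI]
    simp only [stripLeftC] at hv
    linear_combination (440 * (b - a * ((1 + (b - a) * v) * u))) * hv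
  have eFv : 800 * (p.P * stripLeftFv a b u v H) = p.lfFv s := by
    simp only [StripAtoms.lfFv, eH]
    simp only [hp, stripAt, StripAtoms.lfGv, StripAtoms.lfg, StripAtoms.lfT, StripAtoms.P,
      StripAtoms.qu, StripAtoms.q, StripAtoms.ud, StripAtoms.u, stripLeftFv, stripLeftGv]
    ring
  have eEn : 20 * (p.P * allEn a b u v H) = p.lfEn s := by
    simp only [StripAtoms.lfEn, eH]
    simp only [hp, stripAt, StripAtoms.E0, StripAtoms.e1, StripAtoms.qn, StripAtoms.P,
      StripAtoms.D0, StripAtoms.qu, StripAtoms.q, StripAtoms.ud, StripAtoms.u, allEn, allQn,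
      allDen]
    ring
  have eFl : 20 * (p.P * allFlow a b u v H) = p.lfFl s := by
    simp only [StripAtoms.lfFl, eH, eflow]
    ring
  have eFh : 400 * (p.P * p.P * allFh a b u v H) = p.lfFh s := by
    simp only [StripAtoms.lfFh, eH]
    simp only [hp, stripAt, StripAtoms.A0, StripAtoms.A1, StripAtoms.E0, StripAtoms.e1,
      StripAtoms.f0, StripAtoms.N, StripAtoms.qn, StripAtoms.P, StripAtoms.D0, StripAtoms.qu,
      StripAtoms.q, StripAtoms.ud, StripAtoms.u, allFh, allFlow, allEn, allQn, allDen]
    ring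
  have e : u * p.lfMain s = -16000 * (p.P * p.P) *
      allDot a b u v H (stripLeftFu a b u v H) (stripLeftFv a b u v H)
        (-(u * (b - a * ((1 + (b - a) * v) * u)))) -
      40 * (u * (p.P * p.P * p.P * (p.upN - H * p.upW))) := by
    simp only [StripAtoms.lfMain, ← eFu, ← eFv, ← eEn, ← eFl, ← eFh, eH, allDot,
      show p.q = 1 + (b - a) * v by simp [hp, stripAt, StripAtoms.q],
      show b - a * ((1 + (b - a) * v) * u) = p.P by
        simp [hp, stripAt, StripAtoms.P, StripAtoms.qu, StripAtoms.q, StripAtoms.u]]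
    ring
  have h1 : 0 < u * (p.P * p.P * p.P * (p.upN - H * p.upW)) := by
    have : 0 < p.upN - H * p.upW := by linarith
    positivity
  have h2 := mul_nonneg hu.le hm
  by_contra hc
  have h3 := mul_nonneg (mul_self_nonneg p.P) (not_lt.1 hc)
  linarith

variable {N p q : ℝ} {S : Set ℝ} {R x y s dx dy : ℝ → ℝ}

/-- **The left exit band of the strip** for real `N ≥ 20` and `31/100 < 1/(p+1)`. -/
theorem orbit_strip_left (hf : IsOrbitFns N p q S R x y s dx dy)
    (hb : SlabBoxAll N (1 / (p + 1)) (1 / (q + 1))) (h20 : 20 ≤ N) (ha : 31 / 100 < 1 / (p + 1))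
    {w : ℝ} (hw : w ∈ S) (hw0 : 0 < R w) (hwu : uOf N (R w) (x w) ≤ 9 / 20) :
    0 < stripLeft (1 / (p + 1)) (1 / (q + 1)) (uOf N (R w) (x w))
      (vOf (1 / (p + 1)) (1 / (q + 1)) (y w / x w))
      (hOf N (R w) (x w) (y w) w / (1 / (q + 1) - 1 / (p + 1))) := by
  refine exit_step_all hf hb (u₁ := 9 / 20) (by norm_num) (hasGrad_stripLeft _ _)
    (fun u v H => H < stripUp (1 / (p + 1)) (1 / (q + 1)) u v ∧
      (9 / 20 ≤ u → 0 ≤ stripTop (1 / (p + 1)) (1 / (q + 1)) u v H))
    (fun z hz hz0 hzu => ⟨orbit_strip_up_all hf hb h20 ha hz hz0 (by linarith),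
      fun h => orbit_strip_top_all hf hb h20 ha hz hz0 h⟩)
    (fun v H hP _ hE => ?_)
    (fun u v H hP _ hu hE hF => ?_) hw hw0 hwu
  · have h := hE.2 le_rfl
    obtain ⟨hI0, -, ha', hd, -, -, hv, hav, -, hhi⟩ :=
      stripPlace_of hb h20 ha hP.u_pos hP.u_lt hP.toVRange
    generalize 1 / (p + 1) = a at *
    generalize 1 / (q + 1) = b at *
    have hKI : 0 < stripLeftKI a b v := by
      simp only [stripLeftKI]
      exact mul_pos (by linarith) (by linarith)
    have e : stripLeft a b (9 / 20) v H =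
        9 / 20 * (stripTop a b (9 / 20) v H + 11 / 160000 * stripLeftKI a b v) := by
      simp only [stripLeft, stripLeftX, stripLeftG, stripTop, stripTopG, stripLeftKI]
      ring
    rw [e]
    positivity
  · exact strip_left_sign (stripPlace_of hb h20 ha hP.u_pos hP.u_lt hP.toVRange) hu
      hP.flow_pos hE.1 hF

end Vale.Agent.P100.Calib.Band
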