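import Vale.Agent.P100.Calib.SlabStripLeftCheck
import Vale.Agent.P100.Calib.SlabStripLeftEval

/-!
# The closed conditions of the left exit band of the strip

The chart is `(u, sigma, I, theta)` with `d = theta (19/50 - 2 I)`. The window of `v` is
`2 I (C + u s)`, `C = (11 + 2 u + 24 u ^ 2) / 10`, `s` between `stripLeftLo` and `stripLeftHi`.
-/

namespace Vale.Agent.P100.Calib.Band

open Vale.Agent.P100.Bubble Chart

/-- The centre of the window over `2 I`. -/
noncomputable def stripLeftC (u : ℝ) : ℝ := (11 + 2 * u + 24 * (u * u)) / 10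

/-- The lower end of the window. -/
noncomputable def stripLeftLo (u : ℝ) : ℝ := -(9 + 230 * (u * u)) / 100

/-- The upper end of the window. -/
noncomputable def stripLeftHi (u : ℝ) : ℝ := (53 + 50 * u + 270 * (u * u)) / 100

/-- The curve `v (1 - 2 a u) = 2 I (1 - 2 a u + 2 a u c / 100)`. -/
noncomputable def stripLeftCurve (a b u c : ℝ) : ℝ :=
  2 * allStabI a b * (100 * (1 - 2 * a * u) + c * (2 * a * u)) / 100

namespace AllLow

open Pack

local instance stripLeftSignsAdd : Add Pack.Ex := ⟨Ex.add⟩
local instance stripLeftSignsSub : Sub Pack.Ex := ⟨Ex.sub⟩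
local instance stripLeftSignsMul : Mul Pack.Ex := ⟨Ex.mul⟩

/-- The chart at a point. -/
theorem stripLeftPoint_of {a b u v σ θ k₂ : ℝ} {V K2 : Pack.Ex}
    (hθ : θ * (19 / 50 - 2 * allStabI a b) = b - a)
    (hk : K2.eval (stabPt u σ (allStabI a b) θ) = k₂)
    (hV : V.eval (stabPt u σ (allStabI a b) θ) = v * (100 * k₂)) :
    StripLeftPoint (stabPt u σ (allStabI a b) θ) (stripAt a b u v) V K2 k₂ := by
  have hS : a + b = 1 - 2 * allStabI a b := by simp only [allStabI]; ring
  obtain ⟨I, hI⟩ : ∃ I, I = allStabI a b := ⟨_, rfl⟩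
  rw [← hI] at hθ hk hV hS ⊢
  obtain rfl : b = 1 - 2 * I - a := by linarith
  obtain rfl : a = (1 - 2 * I - θ * (19 / 50 - 2 * I)) / 2 := by linarith
  constructor <;>
    simp only [eLf_w, eLf_v, eLf_I, eLf_S, eLf_d, eLf_a, eLf_b, eLf_K, eLf_IT, eLf_dv, eLf_lfT,
      eLf_lfC, eLf_lfCd, StripAtoms.lfT, StripAtoms.lfC, StripAtoms.lfCd, StripAtoms.u, stripAt,
      ← hI, Ex.eval, eval_add', eval_sub', eval_mul', eval_num', hk, hV, stabPt] <;>
    push_cast <;> ring

/-- The last variable of the chart. -/
theorem strip_left_theta {a b u v : ℝ} (h : StripPlace a b u v) :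
    ∃ θ, 0 < θ ∧ θ < 1 ∧ θ * (19 / 50 - 2 * allStabI a b) = b - a := by
  obtain ⟨hI0, hI20, ha, hd, -⟩ := h
  have hD : 0 < 19 / 50 - 2 * allStabI a b := by linarith
  refine ⟨(b - a) / (19 / 50 - 2 * allStabI a b), div_pos hd hD, ?_, ?_⟩
  · rw [div_lt_one hD]
    simp only [allStabI]
    linarith
  · rw [div_mul_cancel₀ _ hD.ne']

theorem strip_left_den {a b u v : ℝ} (h : StripPlace a b u v) : 0 < 1 - 2 * a * u := by
  obtain ⟨hI0, hI20, ha, hd, hu, hu1, -⟩ := h
  have h1 : a < 1 / 2 := by
    simp only [allStabI] at hI0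
    linarith
  have h2 := mul_le_mul_of_nonneg_right h1.le hu.le
  linarith

theorem strip_left_v_lt {a b u v : ℝ} (h : StripPlace a b u v) : v < 323 / 100 := by
  obtain ⟨-, -, ha, -, -, -, hv, hav, -⟩ := h
  have := mul_lt_mul_of_pos_right ha hv
  linarith

theorem strip_left_window_facts {u : ℝ} (hu : 0 < u) (hu9 : u ≤ 9 / 20) :
    0 < stripLeftC u + u * stripLeftLo u ∧ stripLeftLo u < stripLeftHi u ∧
      stripLeftC u + u * stripLeftHi u < 4 := by
  have h1 : u * u ≤ 81 / 400 := by
    have := mul_le_mul hu9 hu9 hu.le (by norm_num)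
    linarith
  have h0 : 0 ≤ u * u := mul_self_nonneg u
  simp only [stripLeftC, stripLeftLo, stripLeftHi]
  refine ⟨?_, by linarith, ?_⟩
  · have h2 := mul_le_mul_of_nonneg_left (show 9 + 230 * (u * u) ≤ 56 by linarith) hu.le
    linarith
  · have h2 := mul_le_mul_of_nonneg_left (show 53 + 50 * u + 270 * (u * u) ≤ 131 by linarith) hu.le
    linarith

/-- Below the window the band lies over `stripUp`. -/
theorem strip_left_gap {a b u v : ℝ} (h : StripPlace a b u v) (hu9 : u ≤ 9 / 20)
    (hv : v ≤ 2 * allStabI a b * (stripLeftC u + u * stripLeftLo u)) :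
    0 ≤ (stripAt a b u v).lfGap := by
  obtain ⟨θ, hθ0, hθ1, hθ⟩ := strip_left_theta h
  obtain ⟨hI0, hI20, -, -, hu, -, hv0, -⟩ := h
  obtain ⟨hL, -, -⟩ := strip_left_window_facts hu hu9
  set E := 2 * allStabI a b * (stripLeftC u + u * stripLeftLo u) with hE
  have hE0 : 0 < E := by positivity
  have hC := stripLeftPoint_of (u := u) (v := v) (σ := v / E) (k₂ := 1) (V := eLfLeftV) (K2 := eN 1)
    hθ
    (by simp only [eval_num']; norm_num)
    (by
      have e := div_mul_cancel₀ v hE0.ne'
      simp only [eLfLeftV, eLfTwo, eLfCen, eLfLo, Ex.eval, eval_sub', eval_mul',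
        eval_num', stabPt]
      simp only [hE, stripLeftC, stripLeftLo] at e ⊢
      push_cast
      linear_combination 100 * e)
  have hs : v / E ≤ 1 := (div_le_one hE0).2 hv
  have hs0 : 0 < v / E := div_pos hv0 hE0
  have hb : 0 ≤ (eLf_lfGap eLfLeftV (eN 1)).eval (stabPt u (v / E) (allStabI a b) θ) :=
    nonneg_of_checkFour stripLeftLeftLfGap_ok (strip_point
      (by simp only [stripLeftLeftLfGapBox]
          exact strip_back (den := 20) (by norm_num) (by push_cast; linarith)
            (by push_cast; linarith))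
      (by simp only [stripLeftLeftLfGapBox]
          exact strip_back (den := 1) (by norm_num) (by push_cast; linarith)
            (by push_cast; linarith))
      (by simp only [stripLeftLeftLfGapBox]
          exact strip_back (den := 20) (by norm_num) (by push_cast; linarith)
            (by push_cast; linarith))
      (by simp only [stripLeftLeftLfGapBox]
          exact side_point (den := 1) (by norm_num) (by push_cast; linarith)
            (by push_cast; linarith)))
  rw [evalLf_lfGap hC] at hb
  exact nonneg_of_mul_nonneg_left hb (by positivity)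

/-- Above the window the band lies under the flow line. -/
theorem strip_left_low {a b u v : ℝ} (h : StripPlace a b u v) (hu9 : u ≤ 9 / 20)
    (hv : 2 * allStabI a b * (stripLeftC u + u * stripLeftHi u) ≤ v) :
    0 ≤ (stripAt a b u v).lfFlow := by
  obtain ⟨θ, hθ0, hθ1, hθ⟩ := strip_left_theta h
  have hv3 := strip_left_v_lt h
  obtain ⟨hI0, hI20, -, -, hu, -, hv0, -⟩ := h
  set E := 2 * allStabI a b * (stripLeftC u + u * stripLeftHi u) with hE
  have hD : 0 < 323 / 100 - E := by linarith
  obtain ⟨σ, hσ⟩ : ∃ σ, σ = (v - E) / (323 / 100 - E) := ⟨_, rfl⟩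
  have hσ0 : 0 ≤ σ := hσ ▸ div_nonneg (by linarith) hD.le
  have hσ1 : σ < 1 := by rw [hσ, div_lt_one hD]; linarith
  have hσe : σ * (323 / 100 - E) = v - E := by rw [hσ, div_mul_cancel₀ _ hD.ne']
  have hC := stripLeftPoint_of (u := u) (v := v) (σ := σ) (k₂ := 1) (V := eLfRightV) (K2 := eN 1) hθ
    (by simp only [eval_num']; norm_num)
    (by
      simp only [eLfRightV, eLfEdge, eLfTwo, eLfCen, eLfHi, Ex.eval, eval_add', eval_sub',
        eval_num', stabPt]
      simp only [hE, stripLeftC, stripLeftHi] at hσe ⊢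
      push_cast
      linear_combination 100 * hσe)
  have hb : 0 ≤ (eLf_lfFlow eLfRightV (eN 1)).eval (stabPt u σ (allStabI a b) θ) :=
    nonneg_of_checkFour stripLeftRightLfFlow_ok (strip_point
      (by simp only [stripLeftRightLfFlowBox]
          exact strip_back (den := 20) (by norm_num) (by push_cast; linarith)
            (by push_cast; linarith))
      (by simp only [stripLeftRightLfFlowBox]
          exact side_point (den := 1) (by norm_num) (by push_cast; linarith)
            (by push_cast; linarith))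
      (by simp only [stripLeftRightLfFlowBox]
          exact strip_back (den := 20) (by norm_num) (by push_cast; linarith)
            (by push_cast; linarith))
      (by simp only [stripLeftRightLfFlowBox]
          exact side_point (den := 1) (by norm_num) (by push_cast; linarith)
            (by push_cast; linarith)))
  rw [evalLf_lfFlow hC] at hb
  exact nonneg_of_mul_nonneg_left hb (by positivity)

/-- The condition of the radial speed left of the window's upper end. -/
theorem strip_left_half {a b u v : ℝ} (h : StripPlace a b u v) (hu9 : u ≤ 9 / 20)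
    (hv : v ≤ 2 * allStabI a b * (stripLeftC u + u * stripLeftHi u)) :
    0 ≤ (stripAt a b u v).lfHalf := by
  obtain ⟨θ, hθ0, hθ1, hθ⟩ := strip_left_theta h
  obtain ⟨hI0, hI20, -, -, hu, -, hv0, -⟩ := h
  set E := 2 * allStabI a b * (stripLeftC u + u * stripLeftHi u) with hE
  have hE0 : 0 < E := by linarith
  have hC := stripLeftPoint_of (u := u) (v := v) (σ := v / E) (k₂ := 1) (V := eLfInV) (K2 := eN 1)
    hθ
    (by simp only [eval_num']; norm_num)
    (by
      have e := div_mul_cancel₀ v hE0.ne'
      simp only [eLfInV, eLfEdge, eLfTwo, eLfCen, eLfHi, Ex.eval, eval_mul',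
        eval_num', stabPt]
      simp only [hE, stripLeftC, stripLeftHi] at e ⊢
      push_cast
      linear_combination 100 * e)
  have hs : v / E ≤ 1 := (div_le_one hE0).2 hv
  have hs0 : 0 < v / E := div_pos hv0 hE0
  have hb : 0 ≤ (eLf_lfHalf eLfInV (eN 1)).eval (stabPt u (v / E) (allStabI a b) θ) :=
    nonneg_of_checkFour stripLeftInLfHalf_ok (strip_point
      (by simp only [stripLeftInLfHalfBox]
          exact strip_back (den := 20) (by norm_num) (by push_cast; linarith)
            (by push_cast; linarith))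
      (by simp only [stripLeftInLfHalfBox]
          exact strip_back (den := 1) (by norm_num) (by push_cast; linarith)
            (by push_cast; linarith))
      (by simp only [stripLeftInLfHalfBox]
          exact strip_back (den := 20) (by norm_num) (by push_cast; linarith)
            (by push_cast; linarith))
      (by simp only [stripLeftInLfHalfBox]
          exact side_point (den := 1) (by norm_num) (by push_cast; linarith)
            (by push_cast; linarith)))
  rw [evalLf_lfHalf hC] at hb
  exact nonneg_of_mul_nonneg_left hb (by positivity)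

/-- The exit condition in the window. -/
theorem strip_left_main {a b u v s : ℝ} (h : StripPlace a b u v) (hu9 : u ≤ 9 / 20)
    (hs0 : stripLeftLo u ≤ s) (hs1 : s < stripLeftHi u)
    (hv : v = 2 * allStabI a b * (stripLeftC u + u * s)) :
    0 ≤ (stripAt a b u v).lfMain s := by
  obtain ⟨θ, hθ0, hθ1, hθ⟩ := strip_left_theta h
  obtain ⟨hI0, hI20, -, -, hu, -, hv0, -⟩ := h
  have hD : 0 < stripLeftHi u - stripLeftLo u := by linarith [(strip_left_window_facts hu hu9).2.1]
  obtain ⟨σ, hσ⟩ : ∃ σ, σ = (s - stripLeftLo u) / (stripLeftHi u - stripLeftLo u) := ⟨_, rfl⟩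
  have hσ0 : 0 ≤ σ := hσ ▸ div_nonneg (by linarith) hD.le
  have hσ1 : σ < 1 := by rw [hσ, div_lt_one hD]; linarith
  have hσe : σ * (stripLeftHi u - stripLeftLo u) = s - stripLeftLo u := by
    rw [hσ, div_mul_cancel₀ _ hD.ne']
  simp only [stripLeftHi, stripLeftLo] at hσe
  simp only [stripLeftC] at hv
  have hS : eLfPoint.eval (stabPt u σ (allStabI a b) θ) = s * 100 := by
    simp only [eLfPoint, eLfLo, eLfHi, Ex.eval, eval_add', eval_sub', eval_num', stabPt]
    push_cast
    linear_combination 100 * hσe
  have hC := stripLeftPoint_of (u := u) (v := v) (σ := σ) (k₂ := 1) (V := eLfWinV) (K2 := eN 1) hθ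
    (by simp only [eval_num']; norm_num)
    (by
      simp only [eLfWinV, eLfTwo, eLfCen, Ex.eval, eval_mul', eval_num', hS, stabPt]
      push_cast
      linear_combination -100 * hv)
  have hb : 0 ≤ (eLf_lfMain eLfWinV (eN 1) eLfPoint).eval (stabPt u σ (allStabI a b) θ) :=
    nonneg_of_checkFour stripLeftWinLfMain_ok (strip_point
      (by simp only [stripLeftWinLfMainBox]
          exact strip_back (den := 20) (by norm_num) (by push_cast; linarith)
            (by push_cast; linarith))
      (by simp only [stripLeftWinLfMainBox]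
          exact side_point (den := 1) (by norm_num) (by push_cast; linarith)
            (by push_cast; linarith))
      (by simp only [stripLeftWinLfMainBox]
          exact strip_back (den := 20) (by norm_num) (by push_cast; linarith)
            (by push_cast; linarith))
      (by simp only [stripLeftWinLfMainBox]
          exact side_point (den := 1) (by norm_num) (by push_cast; linarith)
            (by push_cast; linarith)))
  rw [evalLf_lfMain hC hS] at hb
  exact nonneg_of_mul_nonneg_left hb (by positivity)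

/-- The parts of the charts of the curves. -/
theorem strip_left_evals {a b u σ θ : ℝ} (hθ : θ * (19 / 50 - 2 * allStabI a b) = b - a) :
    eLfA.eval (stabPt u σ (allStabI a b) θ) = 100 * a ∧
      eLfDen.eval (stabPt u σ (allStabI a b) θ) = 50 * (1 - 2 * a * u) := by
  have hA : 2 * a = 1 - 2 * allStabI a b - (b - a) := by simp only [allStabI]; ring
  simp only [eLfA, eLfDen, Ex.eval, eval_sub', eval_num', stabPt]
  push_cast
  exact ⟨by linear_combination -50 * hθ - 50 * hA, by linear_combination 50 * u * hθ + 50 * u * hA⟩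

/-- A point below a curve. -/
theorem strip_left_below {a b u v : ℝ} {p : ℤ} (h : StripPlace a b u v)
    (hv : v * (1 - 2 * a * u) ≤ stripLeftCurve a b u p) :
    ∃ σ θ : ℝ, 0 < σ ∧ σ ≤ 1 ∧ 0 < θ ∧ θ < 1 ∧
      StripLeftPoint (stabPt u σ (allStabI a b) θ) (stripAt a b u v) (eLfBelowV p) eLfDen
        (50 * (1 - 2 * a * u)) := by
  obtain ⟨θ, hθ0, hθ1, hθ⟩ := strip_left_theta h
  have hk := strip_left_den h
  obtain ⟨hI0, hI20, ha, -, hu, -, hv0, -⟩ := h
  have hR : 0 < stripLeftCurve a b u p := lt_of_lt_of_le (mul_pos hv0 hk) hv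
  have e := div_mul_cancel₀ (v * (1 - 2 * a * u)) hR.ne'
  refine ⟨v * (1 - 2 * a * u) / stripLeftCurve a b u p, θ, div_pos (mul_pos hv0 hk) hR,
    (div_le_one hR).2 hv, hθ0, hθ1, stripLeftPoint_of hθ ?_ ?_⟩
  · exact (strip_left_evals hθ).2
  · obtain ⟨eA, eD⟩ := strip_left_evals (u := u)
      (σ := v * (1 - 2 * a * u) / stripLeftCurve a b u p) hθ
    simp only [eLfBelowV, eLfCurve, eLfTwo, Ex.eval, eval_mul', eval_num', eA, eD,
      stabPt]
    generalize v * (1 - 2 * a * u) / stripLeftCurve a b u p = σ at e ⊢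
    simp only [stripLeftCurve] at e
    push_cast
    linear_combination 5000 * e

/-- A point above a curve. -/
theorem strip_left_above {a b u v : ℝ} {p : ℤ} (h : StripPlace a b u v)
    (hv : stripLeftCurve a b u p ≤ v * (1 - 2 * a * u)) :
    ∃ σ θ : ℝ, 0 ≤ σ ∧ σ < 1 ∧ 0 < θ ∧ θ < 1 ∧
      StripLeftPoint (stabPt u σ (allStabI a b) θ) (stripAt a b u v) (eLfAboveV p) eLfDen
        (50 * (1 - 2 * a * u)) := by
  obtain ⟨θ, hθ0, hθ1, hθ⟩ := strip_left_theta h
  have hk := strip_left_den h
  have hv3 := mul_lt_mul_of_pos_right (strip_left_v_lt h) hk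
  have hD : 0 < 323 / 100 * (1 - 2 * a * u) - stripLeftCurve a b u p := by linarith
  have e := div_mul_cancel₀ (v * (1 - 2 * a * u) - stripLeftCurve a b u p) hD.ne'
  refine ⟨(v * (1 - 2 * a * u) - stripLeftCurve a b u p) /
      (323 / 100 * (1 - 2 * a * u) - stripLeftCurve a b u p), θ,
    div_nonneg (by linarith) hD.le, (div_lt_one hD).2 (by linarith), hθ0, hθ1,
    stripLeftPoint_of hθ ?_ ?_⟩
  · exact (strip_left_evals hθ).2
  · obtain ⟨eA, eD⟩ := strip_left_evals (u := u)
      (σ := (v * (1 - 2 * a * u) - stripLeftCurve a b u p) /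
        (323 / 100 * (1 - 2 * a * u) - stripLeftCurve a b u p)) hθ
    simp only [eLfAboveV, eLfCurve, eLfTwo, Ex.eval, eval_add', eval_sub', eval_num',
      eA, eD, stabPt]
    generalize (v * (1 - 2 * a * u) - stripLeftCurve a b u p) /
      (323 / 100 * (1 - 2 * a * u) - stripLeftCurve a b u p) = σ at e ⊢
    simp only [stripLeftCurve] at e
    push_cast
    linear_combination 5000 * e

end AllLow

end Vale.Agent.P100.Calib.Band
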