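import Vale.Agent.P100.Calib.SlabStripMidExpr
import Vale.Agent.P100.Calib.SlabStripLLGExpr

/-!
# The bounds and the ray gap of a piece below 153/200: numerators

Here `x₂` is the constant `c` in `v = 2 I (1 + c 2 a u/(1 - 2 a u))` and `x₃` is `u`; `e` stands for
`1 - 2 a u`, and the Flow is an end of its window.
-/

namespace Vale.Agent.P100.Calib.StripMid

open Pack Pack.Ex

local instance boundExprAdd : Add Ex := ⟨Ex.add⟩
local instance boundExprSub : Sub Ex := ⟨Ex.sub⟩
local instance boundExprMul : Mul Ex := ⟨Ex.mul⟩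

/-- `e`. -/
def uE (K : Kind) : Ex := num 1 - kA K * var 3

/-- `v e`. -/
def uV (K : Kind) : Ex := num 2 * kI K * (uE K + var 2 * (kA K * var 3))

/-- `(1 + d v) e`. -/
def uQ (K : Kind) : Ex := uE K + kD K * uV K

/-- `(2 + d v) e`. -/
def uP (K : Kind) : Ex := num 2 * uE K + kD K * uV K

/-- `2 C e` times the denominator of the window. -/
def uC (P : Piece) (ze : Bool) : Ex :=
  num P.z.2 * kS P.kind * (num 2 * uE P.kind - kA P.kind * uV P.kind) +
    cond ze (num (2 * P.z.1) * kI P.kind * uE P.kind) (num 0)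

/-- `2 D1 e` times the denominator of the window. -/
def uD (P : Piece) (ze : Bool) : Ex :=
  num P.z.2 * (kB P.kind * uP P.kind - num 2 * kS P.kind * var 3 * uQ P.kind) +
    var 3 * kD P.kind * uC P ze

/-- `2 u C (2 + d v) e²` times the denominator of the window. -/
def uN (P : Piece) (ze : Bool) : Ex := var 3 * uC P ze * uP P.kind

/-- `80 b² (A + kB)`. -/
def uAK (K : Kind) : Ex := kAb K + kBb K

/-- `80 b² K (d + 3 I²)`. -/
def uKn (K : Kind) : Ex := kAb K * kD K - num 3 * pow (kI K) 2 * kBb K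

/-- The numerator of `- g E`. -/
def uL (P : Piece) (ze : Bool) : Ex :=
  uD P ze * (kBb P.kind * uV P.kind * kDk P.kind + uAK P.kind * uE P.kind) -
    uKn P.kind * uN P ze

/-- `D1 e - d u C P`. -/
def uR (P : Piece) (ze : Bool) : Ex := uD P ze * uE P.kind - kD P.kind * uN P ze

/-- The numerator of `g W1`. -/
def uW (P : Piece) (ze : Bool) : Ex :=
  let K := P.kind
  var 3 * kS K * uP K * uC P ze * (kA K * uE K - (num 2 - kA K) * kD K * uV K) -
    (num 2 - kS K) * kB K * uC P ze * uP K * uE K +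
    uD P ze * kS K * (num 2 * uE K + (num 2 - kA K) * uV K) * uE K

/-- `b² S² u P I e²`, scaled. -/
def uWd (P : Piece) : Ex :=
  num P.z.2 * pow (kB P.kind) 2 * pow (kS P.kind) 2 * var 3 * uP P.kind * kI P.kind *
    pow (uE P.kind) 2

/-- The nine bounds. -/
inductive Bd where
  | l0 | l1 | r | g0 | g1 | t0 | t1 | w0 | w1

/-- A bound, as a nonnegative numerator. -/
def bound (P : Piece) (ze : Bool) : Bd → Ex
  | .l0 => num (2 * P.l₀.2) * uL P ze -
      num (P.l₀.1 * P.z.2) * kB P.kind * uP P.kind * uAK P.kind * uE P.kind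
  | .l1 => num (P.l₁.1 * P.z.2) * kB P.kind * uP P.kind * uAK P.kind * uE P.kind -
      num (2 * P.l₁.2) * uL P ze
  | .r => num P.r.2 * uR P ze * uAK P.kind - num P.r.1 * uL P ze
  | .g0 => num (2 * P.g₀.2) * uD P ze - num (P.g₀.1 * P.z.2) * kB P.kind * uP P.kind
  | .g1 => num (P.g₁.1 * P.z.2) * kB P.kind * uP P.kind - num (2 * P.g₁.2) * uD P ze
  | .t0 => num P.t₀.2.2 * uR P ze -
      (num P.t₀.1 + num P.t₀.2.1 * kD P.kind) * uQ P.kind * uD P ze
  | .t1 => (num P.t₁.1 + num P.t₁.2.1 * kD P.kind) * uQ P.kind * uD P ze -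
      num P.t₁.2.2 * uR P ze
  | .w0 => num 4 * uW P ze + num P.w₀ * uWd P
  | .w1 => (num P.w.1 + num P.w.2.1 * kI P.kind - num P.w.2.2.1 * kD P.kind) * uWd P -
      num (4 * P.w.2.2.2) * uW P ze

/-- The numerators of the ray gap at an end; `rect` keeps `x₂` as `Y`. -/
def gapSub (P : Piece) (rect ze t : Bool) : ℕ → Ex :=
  let K := P.kind
  let T := cond t P.t₁ P.t₀
  let e := cond rect (num 1) (uE K)
  let v := cond rect (kV K) (uV K)
  let p := num 2 * e + kD K * v
  let C := num P.z.2 * kS K * (num 2 * e - kA K * v) +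
    cond ze (num (2 * P.z.1) * kI K * e) (num 0)
  let D := num P.z.2 * (kB K * p - num 2 * kS K * var 3 * (e + kD K * v)) + var 3 * kD K * C
  let N := var 3 * C * p
  fun i => match i with
  | 0 => kA K
  | 1 => kD K
  | 2 => v
  | 3 => e
  | 4 => D * e
  | 5 => N
  | 6 => num (-1) * (D * (kBb K * v * kDk K + uAK K * e) - uKn K * N)
  | 7 => num (-1) * uKn K * (D * e - kD K * N)
  | 8 => num 20 * pow (kB K) 2 * kDk K
  | 9 => kS K * var 3
  | 10 => num 2 * kI K
  | 11 => num (-5 * T.2.2) * (num 2 - num 3 * kA K - num 2 * kI K) * kI K * kB K -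
      num 2 * (num T.1 + num T.2.1 * kD K)
  | 12 => num (5 * T.2.2) * pow (kB K) 2
  | 13 => match K with
    | .A => num 0
    | .B => num 1 - kI K - kS K * var 1
    | .D => (num 1 - kI K) * kD K - kS K * kI K
  | _ => match K with
    | .A => num 1
    | .B => pow (kS K) 2
    | .D => kD K * pow (kS K) 2

end Vale.Agent.P100.Calib.StripMid
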