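import Vale.Agent.P100.Calib.SlabStripMidChart

/-!
# The checks of piece 0 below 153/200
-/

set_option linter.defProp false

namespace Vale.Agent.P100.Calib.StripMid

open Pack

/-- The numbers of piece 0. -/
def pc0 : Piece := ⟨.A, (1, 10), (9, 20), (1, 2), (13, 100), (3, 1), (219, 200), (907, 500), (493, 500), (989, -1650, 1000), (503, -150, 500), 85, (167,2100,916,10), (219, 200), (457, 250), (3, 4), (1, 1), (7, 4)⟩

/-- The ranges of piece 0. -/
def box0 : Box := ⟨(0, 1, 20), (0, 19, 18), (1, 246, 100), (13, 300, 100), (2, 9, 20)⟩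

def chk0_0 : Chk (box0.cC) (bound pc0 false .l0) :=
  ⟨173, 14, 9, 2, 3, by decide +kernel⟩
def chk0_1 : Chk (box0.cC) (bound pc0 false .l1) :=
  ⟨174, 14, 9, 2, 3, by decide +kernel⟩
def chk0_2 : Chk (box0.cC) (bound pc0 false .r) :=
  ⟨174, 14, 9, 2, 3, by decide +kernel⟩
def chk0_3 : Chk (box0.cC) (bound pc0 false .g0) :=
  ⟨74, 5, 3, 1, 2, by decide +kernel⟩
def chk0_4 : Chk (box0.cC) (bound pc0 false .g1) :=
  ⟨74, 5, 3, 1, 2, by decide +kernel⟩
def chk0_5 : Chk (box0.cC) (bound pc0 false .t0) :=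
  ⟨126, 9, 6, 2, 3, by decide +kernel⟩
def chk0_6 : Chk (box0.cC) (bound pc0 false .t1) :=
  ⟨125, 9, 6, 2, 3, by decide +kernel⟩
def chk0_7 : Chk (box0.cC) (bound pc0 false .w0) :=
  ⟨154, 12, 7, 3, 4, by decide +kernel⟩
def chk0_8 : Chk (box0.cC) (bound pc0 false .w1) :=
  ⟨158, 12, 7, 3, 4, by decide +kernel⟩
def chk0_9 : Chk (box0.cC) (bound pc0 true .l0) :=
  ⟨173, 14, 9, 2, 3, by decide +kernel⟩
def chk0_10 : Chk (box0.cC) (bound pc0 true .l1) :=
  ⟨174, 14, 9, 2, 3, by decide +kernel⟩
def chk0_11 : Chk (box0.cC) (bound pc0 true .r) :=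
  ⟨174, 14, 9, 2, 3, by decide +kernel⟩
def chk0_12 : Chk (box0.cC) (bound pc0 true .g0) :=
  ⟨74, 5, 3, 1, 2, by decide +kernel⟩
def chk0_13 : Chk (box0.cC) (bound pc0 true .g1) :=
  ⟨74, 5, 3, 1, 2, by decide +kernel⟩
def chk0_14 : Chk (box0.cC) (bound pc0 true .t0) :=
  ⟨126, 9, 6, 2, 3, by decide +kernel⟩
def chk0_15 : Chk (box0.cC) (bound pc0 true .t1) :=
  ⟨125, 9, 6, 2, 3, by decide +kernel⟩
def chk0_16 : Chk (box0.cC) (bound pc0 true .w0) :=
  ⟨154, 12, 7, 3, 4, by decide +kernel⟩
def chk0_17 : Chk (box0.cC) (bound pc0 true .w1) :=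
  ⟨158, 12, 7, 3, 4, by decide +kernel⟩
def chk0_18 : Chk (box0.vC) (subst (sub pc0 ⟨false, false, true, true, false⟩) (condX)) :=
  ⟨203, 15, 10, 4, 0, by decide +kernel⟩
def chk0_19 : Chk (box0.vC) (subst (sub pc0 ⟨false, true, true, true, false⟩) (condX)) :=
  ⟨205, 15, 10, 4, 0, by decide +kernel⟩
def chk0_20 : Chk (box0.vC) (subst (sub pc0 ⟨true, false, true, true, false⟩) (condX)) :=
  ⟨203, 15, 10, 4, 0, by decide +kernel⟩
def chk0_21 : Chk (box0.vC) (subst (sub pc0 ⟨true, true, true, true, false⟩) (condX)) :=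
  ⟨205, 15, 10, 4, 0, by decide +kernel⟩
def chk0_22 : Chk (box0.vC) (subst (sub pc0 ⟨false, false, true, false, false⟩) (tplMG)) :=
  ⟨347, 26, 18, 6, 0, by decide +kernel⟩
def chk0_23 : Chk (box0.vC) (subst (sub pc0 ⟨false, true, true, false, false⟩) (tplMG)) :=
  ⟨351, 26, 18, 6, 0, by decide +kernel⟩
def chk0_24 : Chk (box0.vC) (subst (sub pc0 ⟨true, false, true, false, false⟩) (tplMG)) :=
  ⟨347, 26, 18, 6, 0, by decide +kernel⟩
def chk0_25 : Chk (box0.vC) (subst (sub pc0 ⟨true, true, true, false, false⟩) (tplMG)) :=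
  ⟨351, 26, 18, 6, 0, by decide +kernel⟩
def chk0_26 : Chk (box0.vC) (subst (sub pc0 ⟨false, false, false, false, false⟩) (pc0.m1)) :=
  ⟨257, 19, 14, 4, 0, by decide +kernel⟩
def chk0_27 : Chk (box0.vC) (subst (sub pc0 ⟨false, true, false, false, false⟩) (pc0.m1)) :=
  ⟨259, 19, 14, 4, 0, by decide +kernel⟩
def chk0_28 : Chk (box0.vC) (subst (sub pc0 ⟨true, false, false, false, false⟩) (pc0.m1)) :=
  ⟨257, 19, 14, 4, 0, by decide +kernel⟩
def chk0_29 : Chk (box0.vC) (subst (sub pc0 ⟨true, true, false, false, false⟩) (pc0.m1)) :=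
  ⟨259, 19, 14, 4, 0, by decide +kernel⟩
def chk0_30 : Chk (box0.vC) (subst (sub pc0 ⟨false, false, true, false, false⟩) (strict (pc0.m2 false))) :=
  ⟨390, 24, 17, 6, 0, by decide +kernel⟩
def chk0_31 : Chk (box0.vC) (subst (sub pc0 ⟨false, false, true, false, true⟩) (strict (pc0.m2 false))) :=
  ⟨388, 24, 17, 6, 0, by decide +kernel⟩
def chk0_32 : Chk (box0.vC) (subst (sub pc0 ⟨true, false, true, false, false⟩) (strict (pc0.m2 false))) :=
  ⟨390, 24, 17, 6, 0, by decide +kernel⟩
def chk0_33 : Chk (box0.vC) (subst (sub pc0 ⟨true, false, true, false, true⟩) (strict (pc0.m2 false))) :=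
  ⟨388, 24, 17, 6, 0, by decide +kernel⟩
def chk0_34 : Chk (box0.vC) (subst (sub pc0 ⟨false, true, true, false, false⟩) (strict (pc0.m2 true))) :=
  ⟨389, 24, 17, 6, 0, by decide +kernel⟩
def chk0_35 : Chk (box0.vC) (subst (sub pc0 ⟨false, true, true, false, true⟩) (strict (pc0.m2 true))) :=
  ⟨387, 24, 17, 6, 0, by decide +kernel⟩
def chk0_36 : Chk (box0.vC) (subst (sub pc0 ⟨true, true, true, false, false⟩) (strict (pc0.m2 true))) :=
  ⟨389, 24, 17, 6, 0, by decide +kernel⟩
def chk0_37 : Chk (box0.vC) (subst (sub pc0 ⟨true, true, true, false, true⟩) (strict (pc0.m2 true))) :=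
  ⟨387, 24, 17, 6, 0, by decide +kernel⟩
def chk0_38 : Chk (box0.vC) (subst (sub pc0 ⟨false, false, true, true, false⟩) (strict (pc0.m3 false))) :=
  ⟨480, 31, 23, 6, 0, by decide +kernel⟩
def chk0_39 : Chk (box0.vC) (subst (sub pc0 ⟨false, false, true, true, true⟩) (strict (pc0.m3 false))) :=
  ⟨479, 31, 23, 6, 0, by decide +kernel⟩
def chk0_40 : Chk (box0.vC) (subst (sub pc0 ⟨false, true, true, true, false⟩) (strict (pc0.m3 false))) :=
  ⟨483, 31, 23, 6, 0, by decide +kernel⟩
def chk0_41 : Chk (box0.vC) (subst (sub pc0 ⟨false, true, true, true, true⟩) (strict (pc0.m3 false))) :=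
  ⟨482, 31, 23, 6, 0, by decide +kernel⟩
def chk0_42 : Chk (box0.vC) (subst (sub pc0 ⟨true, false, true, true, false⟩) (strict (pc0.m3 false))) :=
  ⟨480, 31, 23, 6, 0, by decide +kernel⟩
def chk0_43 : Chk (box0.vC) (subst (sub pc0 ⟨true, false, true, true, true⟩) (strict (pc0.m3 false))) :=
  ⟨479, 31, 23, 6, 0, by decide +kernel⟩
def chk0_44 : Chk (box0.vC) (subst (sub pc0 ⟨true, true, true, true, false⟩) (strict (pc0.m3 false))) :=
  ⟨483, 31, 23, 6, 0, by decide +kernel⟩
def chk0_45 : Chk (box0.vC) (subst (sub pc0 ⟨true, true, true, true, true⟩) (strict (pc0.m3 false))) :=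
  ⟨482, 31, 23, 6, 0, by decide +kernel⟩
def chk0_46 : Chk (box0.vC) (subst (sub pc0 ⟨false, false, true, true, false⟩) (strict (pc0.m3 true))) :=
  ⟨478, 31, 23, 6, 0, by decide +kernel⟩
def chk0_47 : Chk (box0.vC) (subst (sub pc0 ⟨false, false, true, true, true⟩) (strict (pc0.m3 true))) :=
  ⟨477, 31, 23, 6, 0, by decide +kernel⟩
def chk0_48 : Chk (box0.vC) (subst (sub pc0 ⟨false, true, true, true, false⟩) (strict (pc0.m3 true))) :=
  ⟨481, 31, 23, 6, 0, by decide +kernel⟩
def chk0_49 : Chk (box0.vC) (subst (sub pc0 ⟨false, true, true, true, true⟩) (strict (pc0.m3 true))) :=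
  ⟨480, 31, 23, 6, 0, by decide +kernel⟩
def chk0_50 : Chk (box0.vC) (subst (sub pc0 ⟨true, false, true, true, false⟩) (strict (pc0.m3 true))) :=
  ⟨478, 31, 23, 6, 0, by decide +kernel⟩
def chk0_51 : Chk (box0.vC) (subst (sub pc0 ⟨true, false, true, true, true⟩) (strict (pc0.m3 true))) :=
  ⟨477, 31, 23, 6, 0, by decide +kernel⟩
def chk0_52 : Chk (box0.vC) (subst (sub pc0 ⟨true, true, true, true, false⟩) (strict (pc0.m3 true))) :=
  ⟨481, 31, 23, 6, 0, by decide +kernel⟩
def chk0_53 : Chk (box0.vC) (subst (sub pc0 ⟨true, true, true, true, true⟩) (strict (pc0.m3 true))) :=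
  ⟨480, 31, 23, 6, 0, by decide +kernel⟩
def chk0_54 : Chk (box0.vC) (subst (sub pc0 ⟨false, false, true, true, false⟩) (negEx coMG12)) :=
  ⟨105, 8, 5, 4, 0, by decide +kernel⟩
def chk0_55 : Chk (box0.vC) (subst (sub pc0 ⟨false, false, true, true, false⟩) (negEx (pc0.curve2 false))) :=
  ⟨116, 9, 5, 4, 0, by decide +kernel⟩
def chk0_56 : Chk (box0.vC) (subst (sub pc0 ⟨false, false, true, true, false⟩) (negEx (pc0.curve2 true))) :=
  ⟨113, 9, 5, 4, 0, by decide +kernel⟩
def chk0_57 : Chk (box0.vC) (subst (sub pc0 ⟨false, false, true, true, false⟩) (negEx (pc0.curve3 false))) :=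
  ⟨118, 9, 6, 4, 0, by decide +kernel⟩
def chk0_58 : Chk (box0.vC) (subst (sub pc0 ⟨false, false, true, true, false⟩) (negEx (pc0.curve3 true))) :=
  ⟨116, 9, 6, 4, 0, by decide +kernel⟩
def chk0_59 : Chk (box0.vC) (subst (sub pc0 ⟨false, false, true, true, false⟩) (slopeT)) :=
  ⟨118, 10, 6, 4, 0, by decide +kernel⟩
def chk0_60 : Chk (box0.vC) (subst (sub pc0 ⟨true, false, true, true, false⟩) (slopeT)) :=
  ⟨118, 10, 6, 4, 0, by decide +kernel⟩
def chk0_61 : Chk (box0.gC true) (subst (gapSub pc0 true false false) tplL) :=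
  ⟨295, 25, 16, 5, 2, by decide +kernel⟩
def chk0_62 : Chk (box0.gC true) (subst (gapSub pc0 true false true) tplL) :=
  ⟨294, 25, 16, 5, 2, by decide +kernel⟩
def chk0_63 : Chk (box0.gC true) (subst (gapSub pc0 true true false) tplL) :=
  ⟨295, 25, 16, 5, 2, by decide +kernel⟩
def chk0_64 : Chk (box0.gC true) (subst (gapSub pc0 true true true) tplL) :=
  ⟨294, 25, 16, 5, 2, by decide +kernel⟩

/-- Piece 0 passes. -/
theorem cert0 : Cert pc0 box0 true where
  pos := by
    refine ⟨⟨⟨?_, ?_, ?_, ?_, ?_, ?_, ?_⟩, ?_, ?_, ?_, ?_, ?_, ?_, ?_, ?_, ?_, ?_, ?_⟩, ?_, ?_⟩ <;>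
      norm_num [fr, pc0]
  gX := fun p l => match p, l with
    | false, false => chk0_18
    | false, true => chk0_19
    | true, false => chk0_20
    | true, true => chk0_21
  gMG := fun p l => match p, l with
    | false, false => chk0_22
    | false, true => chk0_23
    | true, false => chk0_24
    | true, true => chk0_25
  g1 := fun p l => match p, l with
    | false, false => chk0_26
    | false, true => chk0_27
    | true, false => chk0_28
    | true, true => chk0_29
  g2 := fun s p t => match s, p, t with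
    | false, false, false => chk0_30
    | false, false, true => chk0_31
    | false, true, false => chk0_32
    | false, true, true => chk0_33
    | true, false, false => chk0_34
    | true, false, true => chk0_35
    | true, true, false => chk0_36
    | true, true, true => chk0_37
  g3 := fun s p l t => match s, p, l, t with
    | false, false, false, false => chk0_38
    | false, false, false, true => chk0_39
    | false, false, true, false => chk0_40
    | false, false, true, true => chk0_41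
    | false, true, false, false => chk0_42
    | false, true, false, true => chk0_43
    | false, true, true, false => chk0_44
    | false, true, true, true => chk0_45
    | true, false, false, false => chk0_46
    | true, false, false, true => chk0_47
    | true, false, true, false => chk0_48
    | true, false, true, true => chk0_49
    | true, true, false, false => chk0_50
    | true, true, false, true => chk0_51
    | true, true, true, false => chk0_52
    | true, true, true, true => chk0_53
  cMG := chk0_54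
  c2 := fun s => match s with
    | false => chk0_55
    | true => chk0_56
  c3 := fun s => match s with
    | false => chk0_57
    | true => chk0_58
  sT := fun p => match p with
    | false => chk0_59
    | true => chk0_60
  bnd := fun ze b => match ze, b with
    | false, .l0 => chk0_0
    | false, .l1 => chk0_1
    | false, .r => chk0_2
    | false, .g0 => chk0_3
    | false, .g1 => chk0_4
    | false, .t0 => chk0_5
    | false, .t1 => chk0_6
    | false, .w0 => chk0_7
    | false, .w1 => chk0_8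
    | true, .l0 => chk0_9
    | true, .l1 => chk0_10
    | true, .r => chk0_11
    | true, .g0 => chk0_12
    | true, .g1 => chk0_13
    | true, .t0 => chk0_14
    | true, .t1 => chk0_15
    | true, .w0 => chk0_16
    | true, .w1 => chk0_17
  gap := fun ze t => match ze, t with
    | false, false => chk0_61
    | false, true => chk0_62
    | true, false => chk0_63
    | true, true => chk0_64

end Vale.Agent.P100.Calib.StripMid
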