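import Vale.Agent.P100.Calib.SlabStripMidChart

/-!
# The checks of piece 10 below 153/200
-/

set_option linter.defProp false

namespace Vale.Agent.P100.Calib.StripMid

open Pack

/-- The numbers of piece 10. -/
def pc10 : Piece := ⟨.D, (33, 100), (13, 25), (1, 1), (13, 20), (41, 20), (239, 250), (1371, 1000), (973, 1000), (424, -375, 500), (191, -88, 200), 47, (1,-100,259,10), (313, 250), (329, 200), (13, 20), (1, 1), (23, 10)⟩

/-- The ranges of piece 10. -/
def box10 : Box := ⟨(0, 1, 20), (18, 29, 100), (16, 153, 100), (13, 41, 20), (33, 52, 100)⟩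

def chk10_0 : Chk (box10.cC) (bound pc10 false .l0) :=
  ⟨193, 13, 9, 2, 3, by decide +kernel⟩
def chk10_1 : Chk (box10.cC) (bound pc10 false .l1) :=
  ⟨195, 13, 9, 2, 3, by decide +kernel⟩
def chk10_2 : Chk (box10.cC) (bound pc10 false .r) :=
  ⟨195, 13, 9, 2, 3, by decide +kernel⟩
def chk10_3 : Chk (box10.cC) (bound pc10 false .g0) :=
  ⟨78, 4, 3, 1, 2, by decide +kernel⟩
def chk10_4 : Chk (box10.cC) (bound pc10 false .g1) :=
  ⟨78, 4, 3, 1, 2, by decide +kernel⟩
def chk10_5 : Chk (box10.cC) (bound pc10 false .t0) :=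
  ⟨126, 6, 6, 2, 3, by decide +kernel⟩
def chk10_6 : Chk (box10.cC) (bound pc10 false .t1) :=
  ⟨125, 6, 6, 2, 3, by decide +kernel⟩
def chk10_7 : Chk (box10.cC) (bound pc10 false .w0) :=
  ⟨164, 10, 7, 3, 4, by decide +kernel⟩
def chk10_8 : Chk (box10.cC) (bound pc10 false .w1) :=
  ⟨167, 10, 7, 3, 4, by decide +kernel⟩
def chk10_9 : Chk (box10.cC) (bound pc10 true .l0) :=
  ⟨193, 13, 9, 2, 3, by decide +kernel⟩
def chk10_10 : Chk (box10.cC) (bound pc10 true .l1) :=
  ⟨195, 13, 9, 2, 3, by decide +kernel⟩
def chk10_11 : Chk (box10.cC) (bound pc10 true .r) :=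
  ⟨195, 13, 9, 2, 3, by decide +kernel⟩
def chk10_12 : Chk (box10.cC) (bound pc10 true .g0) :=
  ⟨78, 4, 3, 1, 2, by decide +kernel⟩
def chk10_13 : Chk (box10.cC) (bound pc10 true .g1) :=
  ⟨78, 4, 3, 1, 2, by decide +kernel⟩
def chk10_14 : Chk (box10.cC) (bound pc10 true .t0) :=
  ⟨126, 6, 6, 2, 3, by decide +kernel⟩
def chk10_15 : Chk (box10.cC) (bound pc10 true .t1) :=
  ⟨125, 6, 6, 2, 3, by decide +kernel⟩
def chk10_16 : Chk (box10.cC) (bound pc10 true .w0) :=
  ⟨164, 10, 7, 3, 4, by decide +kernel⟩
def chk10_17 : Chk (box10.cC) (bound pc10 true .w1) :=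
  ⟨167, 10, 7, 3, 4, by decide +kernel⟩
def chk10_18 : Chk (box10.vC) (subst (sub pc10 ⟨false, false, true, true, false⟩) (condX)) :=
  ⟨218, 13, 10, 4, 0, by decide +kernel⟩
def chk10_19 : Chk (box10.vC) (subst (sub pc10 ⟨false, true, true, true, false⟩) (condX)) :=
  ⟨220, 13, 10, 4, 0, by decide +kernel⟩
def chk10_20 : Chk (box10.vC) (subst (sub pc10 ⟨true, false, true, true, false⟩) (condX)) :=
  ⟨218, 13, 10, 4, 0, by decide +kernel⟩
def chk10_21 : Chk (box10.vC) (subst (sub pc10 ⟨true, true, true, true, false⟩) (condX)) :=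
  ⟨220, 13, 10, 4, 0, by decide +kernel⟩
def chk10_22 : Chk (box10.vC) (subst (sub pc10 ⟨false, false, true, false, false⟩) (tplMG)) :=
  ⟨410, 26, 20, 6, 0, by decide +kernel⟩
def chk10_23 : Chk (box10.vC) (subst (sub pc10 ⟨false, true, true, false, false⟩) (tplMG)) :=
  ⟨414, 26, 20, 6, 0, by decide +kernel⟩
def chk10_24 : Chk (box10.vC) (subst (sub pc10 ⟨true, false, true, false, false⟩) (tplMG)) :=
  ⟨410, 26, 20, 6, 0, by decide +kernel⟩
def chk10_25 : Chk (box10.vC) (subst (sub pc10 ⟨true, true, true, false, false⟩) (tplMG)) :=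
  ⟨414, 26, 20, 6, 0, by decide +kernel⟩
def chk10_26 : Chk (box10.vC) (subst (sub pc10 ⟨false, false, false, false, false⟩) (pc10.m1)) :=
  ⟨285, 17, 14, 4, 0, by decide +kernel⟩
def chk10_27 : Chk (box10.vC) (subst (sub pc10 ⟨false, true, false, false, false⟩) (pc10.m1)) :=
  ⟨287, 17, 14, 4, 0, by decide +kernel⟩
def chk10_28 : Chk (box10.vC) (subst (sub pc10 ⟨true, false, false, false, false⟩) (pc10.m1)) :=
  ⟨285, 17, 14, 4, 0, by decide +kernel⟩
def chk10_29 : Chk (box10.vC) (subst (sub pc10 ⟨true, true, false, false, false⟩) (pc10.m1)) :=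
  ⟨287, 17, 14, 4, 0, by decide +kernel⟩
def chk10_30 : Chk (box10.vC) (subst (sub pc10 ⟨false, false, true, false, false⟩) (strict (pc10.m2 false))) :=
  ⟨450, 24, 19, 6, 0, by decide +kernel⟩
def chk10_31 : Chk (box10.vC) (subst (sub pc10 ⟨false, false, true, false, true⟩) (strict (pc10.m2 false))) :=
  ⟨447, 24, 19, 6, 0, by decide +kernel⟩
def chk10_32 : Chk (box10.vC) (subst (sub pc10 ⟨true, false, true, false, false⟩) (strict (pc10.m2 false))) :=
  ⟨450, 24, 19, 6, 0, by decide +kernel⟩
def chk10_33 : Chk (box10.vC) (subst (sub pc10 ⟨true, false, true, false, true⟩) (strict (pc10.m2 false))) :=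
  ⟨447, 24, 19, 6, 0, by decide +kernel⟩
def chk10_34 : Chk (box10.vC) (subst (sub pc10 ⟨false, true, true, false, false⟩) (strict (pc10.m2 true))) :=
  ⟨448, 24, 19, 6, 0, by decide +kernel⟩
def chk10_35 : Chk (box10.vC) (subst (sub pc10 ⟨false, true, true, false, true⟩) (strict (pc10.m2 true))) :=
  ⟨445, 24, 19, 6, 0, by decide +kernel⟩
def chk10_36 : Chk (box10.vC) (subst (sub pc10 ⟨true, true, true, false, false⟩) (strict (pc10.m2 true))) :=
  ⟨448, 24, 19, 6, 0, by decide +kernel⟩
def chk10_37 : Chk (box10.vC) (subst (sub pc10 ⟨true, true, true, false, true⟩) (strict (pc10.m2 true))) :=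
  ⟨445, 24, 19, 6, 0, by decide +kernel⟩
def chk10_38 : Chk (box10.vC) (subst (sub pc10 ⟨false, false, true, true, false⟩) (strict (pc10.m3 false))) :=
  ⟨559, 31, 25, 6, 0, by decide +kernel⟩
def chk10_39 : Chk (box10.vC) (subst (sub pc10 ⟨false, false, true, true, true⟩) (strict (pc10.m3 false))) :=
  ⟨558, 31, 25, 6, 0, by decide +kernel⟩
def chk10_40 : Chk (box10.vC) (subst (sub pc10 ⟨false, true, true, true, false⟩) (strict (pc10.m3 false))) :=
  ⟨563, 31, 25, 6, 0, by decide +kernel⟩
def chk10_41 : Chk (box10.vC) (subst (sub pc10 ⟨false, true, true, true, true⟩) (strict (pc10.m3 false))) :=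
  ⟨562, 31, 25, 6, 0, by decide +kernel⟩
def chk10_42 : Chk (box10.vC) (subst (sub pc10 ⟨true, false, true, true, false⟩) (strict (pc10.m3 false))) :=
  ⟨559, 31, 25, 6, 0, by decide +kernel⟩
def chk10_43 : Chk (box10.vC) (subst (sub pc10 ⟨true, false, true, true, true⟩) (strict (pc10.m3 false))) :=
  ⟨558, 31, 25, 6, 0, by decide +kernel⟩
def chk10_44 : Chk (box10.vC) (subst (sub pc10 ⟨true, true, true, true, false⟩) (strict (pc10.m3 false))) :=
  ⟨563, 31, 25, 6, 0, by decide +kernel⟩
def chk10_45 : Chk (box10.vC) (subst (sub pc10 ⟨true, true, true, true, true⟩) (strict (pc10.m3 false))) :=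
  ⟨562, 31, 25, 6, 0, by decide +kernel⟩
def chk10_46 : Chk (box10.vC) (subst (sub pc10 ⟨false, false, true, true, false⟩) (strict (pc10.m3 true))) :=
  ⟨556, 31, 25, 6, 0, by decide +kernel⟩
def chk10_47 : Chk (box10.vC) (subst (sub pc10 ⟨false, false, true, true, true⟩) (strict (pc10.m3 true))) :=
  ⟨554, 31, 25, 6, 0, by decide +kernel⟩
def chk10_48 : Chk (box10.vC) (subst (sub pc10 ⟨false, true, true, true, false⟩) (strict (pc10.m3 true))) :=
  ⟨560, 31, 25, 6, 0, by decide +kernel⟩
def chk10_49 : Chk (box10.vC) (subst (sub pc10 ⟨false, true, true, true, true⟩) (strict (pc10.m3 true))) :=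
  ⟨558, 31, 25, 6, 0, by decide +kernel⟩
def chk10_50 : Chk (box10.vC) (subst (sub pc10 ⟨true, false, true, true, false⟩) (strict (pc10.m3 true))) :=
  ⟨556, 31, 25, 6, 0, by decide +kernel⟩
def chk10_51 : Chk (box10.vC) (subst (sub pc10 ⟨true, false, true, true, true⟩) (strict (pc10.m3 true))) :=
  ⟨554, 31, 25, 6, 0, by decide +kernel⟩
def chk10_52 : Chk (box10.vC) (subst (sub pc10 ⟨true, true, true, true, false⟩) (strict (pc10.m3 true))) :=
  ⟨560, 31, 25, 6, 0, by decide +kernel⟩
def chk10_53 : Chk (box10.vC) (subst (sub pc10 ⟨true, true, true, true, true⟩) (strict (pc10.m3 true))) :=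
  ⟨558, 31, 25, 6, 0, by decide +kernel⟩
def chk10_54 : Chk (box10.vC) (subst (sub pc10 ⟨false, false, true, true, false⟩) (negEx coMG12)) :=
  ⟨101, 5, 5, 4, 0, by decide +kernel⟩
def chk10_55 : Chk (box10.vC) (subst (sub pc10 ⟨false, false, true, true, false⟩) (negEx (pc10.curve2 false))) :=
  ⟨109, 5, 5, 4, 0, by decide +kernel⟩
def chk10_56 : Chk (box10.vC) (subst (sub pc10 ⟨false, false, true, true, false⟩) (negEx (pc10.curve2 true))) :=
  ⟨104, 5, 5, 4, 0, by decide +kernel⟩
def chk10_57 : Chk (box10.vC) (subst (sub pc10 ⟨false, false, true, true, false⟩) (negEx (pc10.curve3 false))) :=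
  ⟨119, 6, 6, 4, 0, by decide +kernel⟩
def chk10_58 : Chk (box10.vC) (subst (sub pc10 ⟨false, false, true, true, false⟩) (negEx (pc10.curve3 true))) :=
  ⟨115, 6, 6, 4, 0, by decide +kernel⟩
def chk10_59 : Chk (box10.vC) (subst (sub pc10 ⟨false, false, true, true, false⟩) (slopeT)) :=
  ⟨120, 7, 6, 4, 0, by decide +kernel⟩
def chk10_60 : Chk (box10.vC) (subst (sub pc10 ⟨true, false, true, true, false⟩) (slopeT)) :=
  ⟨120, 7, 6, 4, 0, by decide +kernel⟩
def chk10_61 : Chk (box10.gC true) (subst (gapSub pc10 true false false) tplL) :=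
  ⟨331, 22, 17, 5, 2, by decide +kernel⟩
def chk10_62 : Chk (box10.gC true) (subst (gapSub pc10 true false true) tplL) :=
  ⟨329, 22, 17, 5, 2, by decide +kernel⟩
def chk10_63 : Chk (box10.gC true) (subst (gapSub pc10 true true false) tplL) :=
  ⟨331, 22, 17, 5, 2, by decide +kernel⟩
def chk10_64 : Chk (box10.gC true) (subst (gapSub pc10 true true true) tplL) :=
  ⟨329, 22, 17, 5, 2, by decide +kernel⟩

/-- Piece 10 passes. -/
theorem cert10 : Cert pc10 box10 true where
  pos := by
    refine ⟨⟨⟨?_, ?_, ?_, ?_, ?_, ?_, ?_⟩, ?_, ?_, ?_, ?_, ?_, ?_, ?_, ?_, ?_, ?_, ?_⟩, ?_, ?_⟩ <;>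
      norm_num [fr, pc10]
  gX := fun p l => match p, l with
    | false, false => chk10_18
    | false, true => chk10_19
    | true, false => chk10_20
    | true, true => chk10_21
  gMG := fun p l => match p, l with
    | false, false => chk10_22
    | false, true => chk10_23
    | true, false => chk10_24
    | true, true => chk10_25
  g1 := fun p l => match p, l with
    | false, false => chk10_26
    | false, true => chk10_27
    | true, false => chk10_28
    | true, true => chk10_29
  g2 := fun s p t => match s, p, t with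
    | false, false, false => chk10_30
    | false, false, true => chk10_31
    | false, true, false => chk10_32
    | false, true, true => chk10_33
    | true, false, false => chk10_34
    | true, false, true => chk10_35
    | true, true, false => chk10_36
    | true, true, true => chk10_37
  g3 := fun s p l t => match s, p, l, t with
    | false, false, false, false => chk10_38
    | false, false, false, true => chk10_39
    | false, false, true, false => chk10_40
    | false, false, true, true => chk10_41
    | false, true, false, false => chk10_42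
    | false, true, false, true => chk10_43
    | false, true, true, false => chk10_44
    | false, true, true, true => chk10_45
    | true, false, false, false => chk10_46
    | true, false, false, true => chk10_47
    | true, false, true, false => chk10_48
    | true, false, true, true => chk10_49
    | true, true, false, false => chk10_50
    | true, true, false, true => chk10_51
    | true, true, true, false => chk10_52
    | true, true, true, true => chk10_53
  cMG := chk10_54
  c2 := fun s => match s with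
    | false => chk10_55
    | true => chk10_56
  c3 := fun s => match s with
    | false => chk10_57
    | true => chk10_58
  sT := fun p => match p with
    | false => chk10_59
    | true => chk10_60
  bnd := fun ze b => match ze, b with
    | false, .l0 => chk10_0
    | false, .l1 => chk10_1
    | false, .r => chk10_2
    | false, .g0 => chk10_3
    | false, .g1 => chk10_4
    | false, .t0 => chk10_5
    | false, .t1 => chk10_6
    | false, .w0 => chk10_7
    | false, .w1 => chk10_8
    | true, .l0 => chk10_9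
    | true, .l1 => chk10_10
    | true, .r => chk10_11
    | true, .g0 => chk10_12
    | true, .g1 => chk10_13
    | true, .t0 => chk10_14
    | true, .t1 => chk10_15
    | true, .w0 => chk10_16
    | true, .w1 => chk10_17
  gap := fun ze t => match ze, t with
    | false, false => chk10_61
    | false, true => chk10_62
    | true, false => chk10_63
    | true, true => chk10_64

end Vale.Agent.P100.Calib.StripMid
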