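import Vale.Agent.P100.Calib.SlabStripMidChart

/-!
# The checks of piece 21 below 153/200
-/

set_option linter.defProp false

namespace Vale.Agent.P100.Calib.StripMid

open Pack

/-- The numbers of piece 21. -/
def pc21 : Piece := ⟨.D, (18, 25), (153, 200), (1, 1), (39, 100), (7, 4), (117, 250), (76, 125), (471, 500), (334, -525, 500), (368, -445, 500), 35, (-83,-300,241,10), (221, 250), (1213, 1000), (9, 20), (1, 1), (11, 4)⟩

/-- The ranges of piece 21. -/
def box21 : Box := ⟨(0, 1, 20), (47, 58, 200), (30, 247, 100), (39, 175, 100), (144, 153, 200)⟩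

def chk21_0 : Chk (box21.cC) (bound pc21 false .l0) :=
  ⟨211, 13, 9, 2, 3, by decide +kernel⟩
def chk21_1 : Chk (box21.cC) (bound pc21 false .l1) :=
  ⟨210, 13, 9, 2, 3, by decide +kernel⟩
def chk21_2 : Chk (box21.cC) (bound pc21 false .r) :=
  ⟨211, 13, 9, 2, 3, by decide +kernel⟩
def chk21_3 : Chk (box21.cC) (bound pc21 false .g0) :=
  ⟨86, 4, 3, 1, 2, by decide +kernel⟩
def chk21_4 : Chk (box21.cC) (bound pc21 false .g1) :=
  ⟨88, 4, 3, 1, 2, by decide +kernel⟩
def chk21_5 : Chk (box21.cC) (bound pc21 false .t0) :=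
  ⟨141, 6, 6, 2, 3, by decide +kernel⟩
def chk21_6 : Chk (box21.cC) (bound pc21 false .t1) :=
  ⟨141, 6, 6, 2, 3, by decide +kernel⟩
def chk21_7 : Chk (box21.cC) (bound pc21 false .w0) :=
  ⟨183, 10, 7, 3, 4, by decide +kernel⟩
def chk21_8 : Chk (box21.cC) (bound pc21 false .w1) :=
  ⟨186, 10, 7, 3, 4, by decide +kernel⟩
def chk21_9 : Chk (box21.cC) (bound pc21 true .l0) :=
  ⟨211, 13, 9, 2, 3, by decide +kernel⟩
def chk21_10 : Chk (box21.cC) (bound pc21 true .l1) :=
  ⟨210, 13, 9, 2, 3, by decide +kernel⟩
def chk21_11 : Chk (box21.cC) (bound pc21 true .r) :=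
  ⟨211, 13, 9, 2, 3, by decide +kernel⟩
def chk21_12 : Chk (box21.cC) (bound pc21 true .g0) :=
  ⟨86, 4, 3, 1, 2, by decide +kernel⟩
def chk21_13 : Chk (box21.cC) (bound pc21 true .g1) :=
  ⟨88, 4, 3, 1, 2, by decide +kernel⟩
def chk21_14 : Chk (box21.cC) (bound pc21 true .t0) :=
  ⟨141, 6, 6, 2, 3, by decide +kernel⟩
def chk21_15 : Chk (box21.cC) (bound pc21 true .t1) :=
  ⟨141, 6, 6, 2, 3, by decide +kernel⟩
def chk21_16 : Chk (box21.cC) (bound pc21 true .w0) :=
  ⟨183, 10, 7, 3, 4, by decide +kernel⟩
def chk21_17 : Chk (box21.cC) (bound pc21 true .w1) :=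
  ⟨186, 10, 7, 3, 4, by decide +kernel⟩
def chk21_18 : Chk (box21.vC) (subst (sub pc21 ⟨false, false, true, true, false⟩) (condX)) :=
  ⟨226, 13, 10, 4, 0, by decide +kernel⟩
def chk21_19 : Chk (box21.vC) (subst (sub pc21 ⟨false, true, true, true, false⟩) (condX)) :=
  ⟨225, 13, 10, 4, 0, by decide +kernel⟩
def chk21_20 : Chk (box21.vC) (subst (sub pc21 ⟨true, false, true, true, false⟩) (condX)) :=
  ⟨226, 13, 10, 4, 0, by decide +kernel⟩
def chk21_21 : Chk (box21.vC) (subst (sub pc21 ⟨true, true, true, true, false⟩) (condX)) :=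
  ⟨225, 13, 10, 4, 0, by decide +kernel⟩
def chk21_22 : Chk (box21.vC) (subst (sub pc21 ⟨false, false, true, false, false⟩) (tplMG)) :=
  ⟨429, 26, 20, 6, 0, by decide +kernel⟩
def chk21_23 : Chk (box21.vC) (subst (sub pc21 ⟨false, true, true, false, false⟩) (tplMG)) :=
  ⟨427, 26, 20, 6, 0, by decide +kernel⟩
def chk21_24 : Chk (box21.vC) (subst (sub pc21 ⟨true, false, true, false, false⟩) (tplMG)) :=
  ⟨429, 26, 20, 6, 0, by decide +kernel⟩
def chk21_25 : Chk (box21.vC) (subst (sub pc21 ⟨true, true, true, false, false⟩) (tplMG)) :=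
  ⟨427, 26, 20, 6, 0, by decide +kernel⟩
def chk21_26 : Chk (box21.vC) (subst (sub pc21 ⟨false, false, false, false, false⟩) (pc21.m1)) :=
  ⟨299, 17, 14, 4, 0, by decide +kernel⟩
def chk21_27 : Chk (box21.vC) (subst (sub pc21 ⟨false, true, false, false, false⟩) (pc21.m1)) :=
  ⟨298, 17, 14, 4, 0, by decide +kernel⟩
def chk21_28 : Chk (box21.vC) (subst (sub pc21 ⟨true, false, false, false, false⟩) (pc21.m1)) :=
  ⟨299, 17, 14, 4, 0, by decide +kernel⟩
def chk21_29 : Chk (box21.vC) (subst (sub pc21 ⟨true, true, false, false, false⟩) (pc21.m1)) :=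
  ⟨298, 17, 14, 4, 0, by decide +kernel⟩
def chk21_30 : Chk (box21.vC) (subst (sub pc21 ⟨false, false, true, false, false⟩) (strict (pc21.m2 false))) :=
  ⟨467, 24, 19, 6, 0, by decide +kernel⟩
def chk21_31 : Chk (box21.vC) (subst (sub pc21 ⟨false, false, true, false, true⟩) (strict (pc21.m2 false))) :=
  ⟨467, 24, 19, 6, 0, by decide +kernel⟩
def chk21_32 : Chk (box21.vC) (subst (sub pc21 ⟨true, false, true, false, false⟩) (strict (pc21.m2 false))) :=
  ⟨467, 24, 19, 6, 0, by decide +kernel⟩
def chk21_33 : Chk (box21.vC) (subst (sub pc21 ⟨true, false, true, false, true⟩) (strict (pc21.m2 false))) :=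
  ⟨467, 24, 19, 6, 0, by decide +kernel⟩
def chk21_34 : Chk (box21.vC) (subst (sub pc21 ⟨false, true, true, false, false⟩) (strict (pc21.m2 true))) :=
  ⟨464, 24, 19, 6, 0, by decide +kernel⟩
def chk21_35 : Chk (box21.vC) (subst (sub pc21 ⟨false, true, true, false, true⟩) (strict (pc21.m2 true))) :=
  ⟨464, 24, 19, 6, 0, by decide +kernel⟩
def chk21_36 : Chk (box21.vC) (subst (sub pc21 ⟨true, true, true, false, false⟩) (strict (pc21.m2 true))) :=
  ⟨464, 24, 19, 6, 0, by decide +kernel⟩
def chk21_37 : Chk (box21.vC) (subst (sub pc21 ⟨true, true, true, false, true⟩) (strict (pc21.m2 true))) :=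
  ⟨464, 24, 19, 6, 0, by decide +kernel⟩
def chk21_38 : Chk (box21.vC) (subst (sub pc21 ⟨false, false, true, true, false⟩) (strict (pc21.m3 false))) :=
  ⟨581, 31, 25, 6, 0, by decide +kernel⟩
def chk21_39 : Chk (box21.vC) (subst (sub pc21 ⟨false, false, true, true, true⟩) (strict (pc21.m3 false))) :=
  ⟨581, 31, 25, 6, 0, by decide +kernel⟩
def chk21_40 : Chk (box21.vC) (subst (sub pc21 ⟨false, true, true, true, false⟩) (strict (pc21.m3 false))) :=
  ⟨580, 31, 25, 6, 0, by decide +kernel⟩
def chk21_41 : Chk (box21.vC) (subst (sub pc21 ⟨false, true, true, true, true⟩) (strict (pc21.m3 false))) :=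
  ⟨580, 31, 25, 6, 0, by decide +kernel⟩
def chk21_42 : Chk (box21.vC) (subst (sub pc21 ⟨true, false, true, true, false⟩) (strict (pc21.m3 false))) :=
  ⟨581, 31, 25, 6, 0, by decide +kernel⟩
def chk21_43 : Chk (box21.vC) (subst (sub pc21 ⟨true, false, true, true, true⟩) (strict (pc21.m3 false))) :=
  ⟨581, 31, 25, 6, 0, by decide +kernel⟩
def chk21_44 : Chk (box21.vC) (subst (sub pc21 ⟨true, true, true, true, false⟩) (strict (pc21.m3 false))) :=
  ⟨580, 31, 25, 6, 0, by decide +kernel⟩
def chk21_45 : Chk (box21.vC) (subst (sub pc21 ⟨true, true, true, true, true⟩) (strict (pc21.m3 false))) :=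
  ⟨580, 31, 25, 6, 0, by decide +kernel⟩
def chk21_46 : Chk (box21.vC) (subst (sub pc21 ⟨false, false, true, true, false⟩) (strict (pc21.m3 true))) :=
  ⟨579, 31, 25, 6, 0, by decide +kernel⟩
def chk21_47 : Chk (box21.vC) (subst (sub pc21 ⟨false, false, true, true, true⟩) (strict (pc21.m3 true))) :=
  ⟨579, 31, 25, 6, 0, by decide +kernel⟩
def chk21_48 : Chk (box21.vC) (subst (sub pc21 ⟨false, true, true, true, false⟩) (strict (pc21.m3 true))) :=
  ⟨577, 31, 25, 6, 0, by decide +kernel⟩
def chk21_49 : Chk (box21.vC) (subst (sub pc21 ⟨false, true, true, true, true⟩) (strict (pc21.m3 true))) :=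
  ⟨577, 31, 25, 6, 0, by decide +kernel⟩
def chk21_50 : Chk (box21.vC) (subst (sub pc21 ⟨true, false, true, true, false⟩) (strict (pc21.m3 true))) :=
  ⟨579, 31, 25, 6, 0, by decide +kernel⟩
def chk21_51 : Chk (box21.vC) (subst (sub pc21 ⟨true, false, true, true, true⟩) (strict (pc21.m3 true))) :=
  ⟨579, 31, 25, 6, 0, by decide +kernel⟩
def chk21_52 : Chk (box21.vC) (subst (sub pc21 ⟨true, true, true, true, false⟩) (strict (pc21.m3 true))) :=
  ⟨577, 31, 25, 6, 0, by decide +kernel⟩
def chk21_53 : Chk (box21.vC) (subst (sub pc21 ⟨true, true, true, true, true⟩) (strict (pc21.m3 true))) :=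
  ⟨577, 31, 25, 6, 0, by decide +kernel⟩
def chk21_54 : Chk (box21.vC) (subst (sub pc21 ⟨false, false, true, true, false⟩) (negEx coMG12)) :=
  ⟨106, 5, 5, 4, 0, by decide +kernel⟩
def chk21_55 : Chk (box21.vC) (subst (sub pc21 ⟨false, false, true, true, false⟩) (negEx (pc21.curve2 false))) :=
  ⟨113, 5, 5, 4, 0, by decide +kernel⟩
def chk21_56 : Chk (box21.vC) (subst (sub pc21 ⟨false, false, true, true, false⟩) (negEx (pc21.curve2 true))) :=
  ⟨109, 5, 5, 4, 0, by decide +kernel⟩
def chk21_57 : Chk (box21.vC) (subst (sub pc21 ⟨false, false, true, true, false⟩) (negEx (pc21.curve3 false))) :=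
  ⟨123, 6, 6, 4, 0, by decide +kernel⟩
def chk21_58 : Chk (box21.vC) (subst (sub pc21 ⟨false, false, true, true, false⟩) (negEx (pc21.curve3 true))) :=
  ⟨121, 6, 6, 4, 0, by decide +kernel⟩
def chk21_59 : Chk (box21.vC) (subst (sub pc21 ⟨false, false, true, true, false⟩) (slopeT)) :=
  ⟨127, 7, 6, 4, 0, by decide +kernel⟩
def chk21_60 : Chk (box21.vC) (subst (sub pc21 ⟨true, false, true, true, false⟩) (slopeT)) :=
  ⟨127, 7, 6, 4, 0, by decide +kernel⟩
def chk21_61 : Chk (box21.gC true) (subst (gapSub pc21 true false false) tplL) :=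
  ⟨351, 22, 17, 5, 2, by decide +kernel⟩
def chk21_62 : Chk (box21.gC true) (subst (gapSub pc21 true false true) tplL) :=
  ⟨351, 22, 17, 5, 2, by decide +kernel⟩
def chk21_63 : Chk (box21.gC true) (subst (gapSub pc21 true true false) tplL) :=
  ⟨351, 22, 17, 5, 2, by decide +kernel⟩
def chk21_64 : Chk (box21.gC true) (subst (gapSub pc21 true true true) tplL) :=
  ⟨351, 22, 17, 5, 2, by decide +kernel⟩

/-- Piece 21 passes. -/
theorem cert21 : Cert pc21 box21 true where
  pos := by
    refine ⟨⟨⟨?_, ?_, ?_, ?_, ?_, ?_, ?_⟩, ?_, ?_, ?_, ?_, ?_, ?_, ?_, ?_, ?_, ?_, ?_⟩, ?_, ?_⟩ <;>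
      norm_num [fr, pc21]
  gX := fun p l => match p, l with
    | false, false => chk21_18
    | false, true => chk21_19
    | true, false => chk21_20
    | true, true => chk21_21
  gMG := fun p l => match p, l with
    | false, false => chk21_22
    | false, true => chk21_23
    | true, false => chk21_24
    | true, true => chk21_25
  g1 := fun p l => match p, l with
    | false, false => chk21_26
    | false, true => chk21_27
    | true, false => chk21_28
    | true, true => chk21_29
  g2 := fun s p t => match s, p, t with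
    | false, false, false => chk21_30
    | false, false, true => chk21_31
    | false, true, false => chk21_32
    | false, true, true => chk21_33
    | true, false, false => chk21_34
    | true, false, true => chk21_35
    | true, true, false => chk21_36
    | true, true, true => chk21_37
  g3 := fun s p l t => match s, p, l, t with
    | false, false, false, false => chk21_38
    | false, false, false, true => chk21_39
    | false, false, true, false => chk21_40
    | false, false, true, true => chk21_41
    | false, true, false, false => chk21_42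
    | false, true, false, true => chk21_43
    | false, true, true, false => chk21_44
    | false, true, true, true => chk21_45
    | true, false, false, false => chk21_46
    | true, false, false, true => chk21_47
    | true, false, true, false => chk21_48
    | true, false, true, true => chk21_49
    | true, true, false, false => chk21_50
    | true, true, false, true => chk21_51
    | true, true, true, false => chk21_52
    | true, true, true, true => chk21_53
  cMG := chk21_54
  c2 := fun s => match s with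
    | false => chk21_55
    | true => chk21_56
  c3 := fun s => match s with
    | false => chk21_57
    | true => chk21_58
  sT := fun p => match p with
    | false => chk21_59
    | true => chk21_60
  bnd := fun ze b => match ze, b with
    | false, .l0 => chk21_0
    | false, .l1 => chk21_1
    | false, .r => chk21_2
    | false, .g0 => chk21_3
    | false, .g1 => chk21_4
    | false, .t0 => chk21_5
    | false, .t1 => chk21_6
    | false, .w0 => chk21_7
    | false, .w1 => chk21_8
    | true, .l0 => chk21_9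
    | true, .l1 => chk21_10
    | true, .r => chk21_11
    | true, .g0 => chk21_12
    | true, .g1 => chk21_13
    | true, .t0 => chk21_14
    | true, .t1 => chk21_15
    | true, .w0 => chk21_16
    | true, .w1 => chk21_17
  gap := fun ze t => match ze, t with
    | false, false => chk21_61
    | false, true => chk21_62
    | true, false => chk21_63
    | true, true => chk21_64

end Vale.Agent.P100.Calib.StripMid
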