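import Vale.Agent.P100.Calib.SlabStripMidCore

/-!
# The values at the ends of a piece below 153/200
-/

set_option linter.unusedVariables false

namespace Vale.Agent.P100.Calib.StripMid

open Pack

/-- The value of a fraction. -/
noncomputable def fr (q : ℤ × ℕ) : ℝ := (q.1 : ℝ) / (q.2 : ℝ)

variable (P : Piece) (x : ℕ → ℝ)

/-- `a` at a point of the chart. -/
noncomputable def xa : ℝ := (kA P.kind).eval x / 2

/-- `d` at a point of the chart. -/
noncomputable def xd : ℝ := (kD P.kind).eval x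

/-- `v` at a point of the chart. -/
noncomputable def xv : ℝ := (kV P.kind).eval x

/-- `I` at a point of the chart. -/
noncomputable def xI : ℝ := (kI P.kind).eval x

/-- An end of `b g W`. -/
noncomputable def pEnd (b : Bool) : ℝ :=
  4 * (1 - xa P x * xv P x) + cond b (fr P.z * (4 * xI P x * (1 + 20 / 9 * xI P x))) 0

/-- An end of the multiplier of `g E`. -/
noncomputable def lEnd (b : Bool) : ℝ := fr (cond b P.l₁ P.l₀)

/-- `g E M/b` is this times minus the multiplier. -/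
noncomputable def phi : ℝ :=
  ((kAb P.kind).eval x + (kBb P.kind).eval x) /
    (5 * (kB P.kind).eval x ^ 3 * (kDk P.kind).eval x)

/-- The two ends of `g K M/b`. -/
noncomputable def psi (hi : Bool) : ℝ :=
  cond hi
      (fr P.r * (kAb P.kind).eval x * xd P x - 3 * xI P x ^ 2 * (kBb P.kind).eval x)
      ((kAb P.kind).eval x * xd P x - 3 * fr P.r * xI P x ^ 2 * (kBb P.kind).eval x) /
    (5 * (kB P.kind).eval x ^ 3 * (kDk P.kind).eval x)

/-- An end of `b² g W1`. -/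
noncomputable def wEnd (b : Bool) : ℝ :=
  xI P x * (kB P.kind).eval x ^ 2 / 4 *
    cond b ((P.w.1 + P.w.2.1 * xI P x - P.w.2.2.1 * xd P x) / (P.w.2.2.2 : ℝ)) (-(P.w₀ : ℝ))

/-- An end of `T`. -/
noncomputable def tEnd (b : Bool) : ℝ :=
  ((cond b P.t₁ P.t₀).1 + (cond b P.t₁ P.t₀).2.1 * xd P x) / ((cond b P.t₁ P.t₀).2.2 : ℝ)

/-- `D2 d` in the chart. -/
noncomputable def kap : ℝ :=
  match P.kind with
  | .A => 0
  | .B => (1 - xI P x - (kS P.kind).eval x * x 1) / (kS P.kind).eval x ^ 2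
  | .D => ((1 - xI P x) * xd P x - (kS P.kind).eval x * xI P x) /
      (xd P x * (kS P.kind).eval x ^ 2)

/-- What the constants of a piece satisfy. -/
structure Piece.Pos : Prop where
  z : 0 < P.z.2
  l₀ : 0 < P.l₀.2
  l₁ : 0 < P.l₁.2
  r : 0 < P.r.2
  t₀ : 0 < P.t₀.2.2
  t₁ : 0 < P.t₁.2.2
  w : 0 < P.w.2.2.2

/-- What a point satisfies. -/
structure Good : Prop where
  I : 0 < xI P x
  d : 0 < xd P x
  a : 0 < xa P x
  v : 0 < xv P x
  S : 0 < (kS P.kind).eval x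

variable {P : Piece} {x : ℕ → ℝ}

theorem eval_kS : (kS P.kind).eval x = 1 - 2 * xI P x := by
  show ((1 : ℤ) : ℝ) - ((2 : ℤ) : ℝ) * xI P x = _
  norm_num

theorem eval_kA : (kA P.kind).eval x = 2 * xa P x := by unfold xa; ring

theorem eval_kA' : 2 * xa P x + xd P x = 1 - 2 * xI P x := by
  have : (kA P.kind).eval x = (kS P.kind).eval x - xd P x := rfl
  rw [eval_kS, eval_kA] at this
  linarith

theorem eval_kB : (kB P.kind).eval x = 2 * (xa P x + xd P x) := by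
  have : (kB P.kind).eval x = (kS P.kind).eval x + xd P x := rfl
  rw [eval_kS] at this
  linarith [eval_kA' (P := P) (x := x)]

theorem eval_kDk : (kDk P.kind).eval x = xd P x + 3 * xI P x ^ 2 := by
  show xd P x + ((3 : ℤ) : ℝ) * xI P x ^ 2 = _
  norm_num

theorem Good.kB (h : Good P x) : 0 < (kB P.kind).eval x := by
  rw [eval_kB]; linarith [h.a, h.d]

theorem Good.kDk (h : Good P x) : 0 < (kDk P.kind).eval x := by
  rw [eval_kDk]; nlinarith [h.d]

/-- The numerators at an end. -/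
noncomputable def rho (P : Piece) (V : Vtx) (x : ℕ → ℝ) : ℕ → ℝ := fun i => (sub P V i).eval x

theorem rho_den (hP : P.Pos) (h : Good P x) (V : Vtx) :
    0 < rho P V x 4 ∧ 0 < rho P V x 7 ∧ 0 < rho P V x 9 ∧ 0 < rho P V x 12 ∧ 0 < rho P V x 14 := by
  have hL : 0 < (cond V.l P.l₁ P.l₀).2 := by cases V.l <;> simp [hP.l₀, hP.l₁]
  have hT : 0 < (cond V.t P.t₁ P.t₀).2.2 := by cases V.t <;> simp [hP.t₀, hP.t₁]
  have hB := h.kB
  have hD := h.kDk
  refine ⟨?_, ?_, ?_, ?_, ?_⟩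
  · show (0 : ℝ) < ((9 * P.z.2 : ℤ) : ℝ)
    have := hP.z
    exact_mod_cast (by positivity : (0 : ℤ) < 9 * P.z.2)
  · show (0 : ℝ) < ((5 * (cond V.l P.l₁ P.l₀).2 * P.r.2 : ℤ) : ℝ) *
      (kB P.kind).eval x ^ 3 * (kDk P.kind).eval x
    have h1 : (0 : ℝ) < ((5 * (cond V.l P.l₁ P.l₀).2 * P.r.2 : ℤ) : ℝ) := by
      have := hP.r
      exact_mod_cast (by positivity : (0 : ℤ) < 5 * (cond V.l P.l₁ P.l₀).2 * P.r.2)
    positivity
  · show (0 : ℝ) < ((4 * P.w.2.2.2 : ℤ) : ℝ)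
    have := hP.w
    exact_mod_cast (by positivity : (0 : ℤ) < 4 * (P.w.2.2.2 : ℤ))
  · show (0 : ℝ) < ((5 * (cond V.t P.t₁ P.t₀).2.2 : ℤ) : ℝ) * (kB P.kind).eval x ^ 2
    have h1 : (0 : ℝ) < ((5 * (cond V.t P.t₁ P.t₀).2.2 : ℤ) : ℝ) := by
      exact_mod_cast (by positivity : (0 : ℤ) < 5 * ((cond V.t P.t₁ P.t₀).2.2 : ℤ))
    positivity
  · have hS := h.S
    have hd := h.d
    unfold rho sub
    simp only
    generalize hk : P.kind = K at hS ⊢
    cases K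
    · show (0 : ℝ) < ((1 : ℤ) : ℝ); norm_num
    · show (0 : ℝ) < (kS .B).eval x ^ 2; positivity
    · have hd' : 0 < (kD .D).eval x := by rw [← hk]; exact hd
      show (0 : ℝ) < (kD .D).eval x * (kS .D).eval x ^ 2; positivity

theorem quo_rho (hP : P.Pos) (h : Good P x) (V : Vtx) :
    quo (rho P V x) = vec (xa P x) (xd P x) (xv P x) (pEnd P x V.p)
      (-lEnd P V.l * phi P x) (-lEnd P V.l * psi P x V.k) (wEnd P x V.w) (tEnd P x V.t)
      (kap P x) := by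
  obtain ⟨h4, h7, h9, h12, h14⟩ := rho_den hP h V
  have hz : (0 : ℝ) < P.z.2 := by exact_mod_cast hP.z
  have hr : (0 : ℝ) < P.r.2 := by exact_mod_cast hP.r
  have hw : (0 : ℝ) < P.w.2.2.2 := by exact_mod_cast hP.w
  have hL : (0 : ℝ) < (cond V.l P.l₁ P.l₀).2 := by
    cases V.l <;> simp [hP.l₀, hP.l₁]
  have hT : (0 : ℝ) < (cond V.t P.t₁ P.t₀).2.2 := by
    cases V.t <;> simp [hP.t₀, hP.t₁]
  have hB := h.kB
  have hD := h.kDk
  have hA : (kA P.kind).eval x = 2 * xa P x := eval_kA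
  have hb : (kB P.kind).eval x = 2 * (xa P x + xd P x) := eval_kB
  have hab : xa P x + xd P x ≠ 0 := by linarith [h.a, h.d]
  unfold quo vec gHat gHat1
  congr 1
  · show (((9 * P.z.2 : ℤ) : ℝ) * (((4 : ℤ) : ℝ) - ((2 : ℤ) : ℝ) * (kA P.kind).eval x *
      (kV P.kind).eval x) + (cond V.p _ _ : Ex).eval x) / ((9 * P.z.2 : ℤ) : ℝ) = _
    rcases Bool.eq_false_or_eq_true V.p with hv | hv <;> rw [hv]
    · show (((9 * P.z.2 : ℤ) : ℝ) * (((4 : ℤ) : ℝ) - ((2 : ℤ) : ℝ) * (kA P.kind).eval x *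
        (kV P.kind).eval x) + ((4 * P.z.1 : ℤ) : ℝ) * xI P x * (((9 : ℤ) : ℝ) +
        ((20 : ℤ) : ℝ) * xI P x)) / ((9 * P.z.2 : ℤ) : ℝ) = _
      simp only [pEnd, cond_true, fr, hA, xv]
      push_cast
      field_simp
      ring
    · show (((9 * P.z.2 : ℤ) : ℝ) * (((4 : ℤ) : ℝ) - ((2 : ℤ) : ℝ) * (kA P.kind).eval x *
        (kV P.kind).eval x) + ((0 : ℤ) : ℝ)) / ((9 * P.z.2 : ℤ) : ℝ) = _
      simp only [pEnd, cond_false, hA, xv]
      push_cast
      field_simp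
      ring
  · show ((-(cond V.l P.l₁ P.l₀).1 * P.r.2 : ℤ) : ℝ) *
      ((kAb P.kind).eval x + (kBb P.kind).eval x) /
      (((5 * (cond V.l P.l₁ P.l₀).2 * P.r.2 : ℤ) : ℝ) * (kB P.kind).eval x ^ 3 *
        (kDk P.kind).eval x) = _
    simp only [lEnd, fr, phi]
    push_cast
    field_simp
  · show ((-(cond V.l P.l₁ P.l₀).1 : ℤ) : ℝ) * (cond V.k _ _ : Ex).eval x /
      (((5 * (cond V.l P.l₁ P.l₀).2 * P.r.2 : ℤ) : ℝ) * (kB P.kind).eval x ^ 3 *
        (kDk P.kind).eval x) = _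
    rcases Bool.eq_false_or_eq_true V.k with hv | hv <;> rw [hv]
    · show ((-(cond V.l P.l₁ P.l₀).1 : ℤ) : ℝ) * ((P.r.1 : ℝ) * (kAb P.kind).eval x *
        xd P x - (((3 * P.r.2 : ℤ)) : ℝ) * xI P x ^ 2 * (kBb P.kind).eval x) / _ = _
      simp only [lEnd, fr, psi, cond_true]
      push_cast
      field_simp
    · show ((-(cond V.l P.l₁ P.l₀).1 : ℤ) : ℝ) * (((P.r.2 : ℤ) : ℝ) * (kAb P.kind).eval x *
        xd P x - (((3 * P.r.1 : ℤ)) : ℝ) * xI P x ^ 2 * (kBb P.kind).eval x) / _ = _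
      simp only [lEnd, fr, psi, cond_false]
      push_cast
      field_simp
  · show xI P x * (kB P.kind).eval x ^ 2 * (cond V.w _ _ : Ex).eval x /
      ((4 * P.w.2.2.2 : ℤ) : ℝ) = _
    rcases Bool.eq_false_or_eq_true V.w with hv | hv <;> rw [hv]
    · show xI P x * (kB P.kind).eval x ^ 2 * ((P.w.1 : ℝ) + (P.w.2.1 : ℝ) * xI P x -
        (P.w.2.2.1 : ℝ) * xd P x) / ((4 * P.w.2.2.2 : ℤ) : ℝ) = _
      simp only [wEnd, cond_true]
      push_cast
      field_simp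
    · show xI P x * (kB P.kind).eval x ^ 2 * ((-P.w₀ * P.w.2.2.2 : ℤ) : ℝ) /
        ((4 * P.w.2.2.2 : ℤ) : ℝ) = _
      simp only [wEnd, cond_false]
      push_cast
      field_simp
  · show (((-5 * (cond V.t P.t₁ P.t₀).2.2 : ℤ) : ℝ) * (((2 : ℤ) : ℝ) -
      ((3 : ℤ) : ℝ) * (kA P.kind).eval x - ((2 : ℤ) : ℝ) * xI P x) * xI P x *
      (kB P.kind).eval x - ((2 : ℤ) : ℝ) * (((cond V.t P.t₁ P.t₀).1 : ℝ) +
      ((cond V.t P.t₁ P.t₀).2.1 : ℝ) * xd P x)) /
      (((5 * (cond V.t P.t₁ P.t₀).2.2 : ℤ) : ℝ) * (kB P.kind).eval x ^ 2) = _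
    have hI : xI P x = (1 - 2 * xa P x - xd P x) / 2 := by
      linarith [eval_kA' (P := P) (x := x)]
    rw [hA, hb, hI]
    simp only [tEnd]
    push_cast
    field_simp
    ring
  · show ((-2 : ℤ) : ℝ) * (((cond V.t P.t₁ P.t₀).1 : ℝ) +
      ((cond V.t P.t₁ P.t₀).2.1 : ℝ) * xd P x) /
      (((5 * (cond V.t P.t₁ P.t₀).2.2 : ℤ) : ℝ) * (kB P.kind).eval x ^ 2) = _
    rw [hb]
    simp only [tEnd]
    push_cast
    field_simp
    ring
  · unfold rho sub kap xI xd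
    simp only
    generalize P.kind = K
    cases K
    · show ((0 : ℤ) : ℝ) / ((1 : ℤ) : ℝ) = _; simp
    · show (((1 : ℤ) : ℝ) - (kI .B).eval x - (kS .B).eval x * x 1) / (kS .B).eval x ^ 2 = _
      simp
    · show ((((1 : ℤ) : ℝ) - (kI .D).eval x) * (kD .D).eval x - (kS .D).eval x * (kI .D).eval x) /
        ((kD .D).eval x * (kS .D).eval x ^ 2) = _
      simp

end Vale.Agent.P100.Calib.StripMid
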