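import Vale.Agent.P100.Calib.SlabStripMidGap
import Vale.Agent.P100.Calib.SlabStripMidAlg
import Vale.Agent.P100.Calib.SlabStripMidInside

/-!
# The closed signs of a piece below 153/200 at a point

From the conditions of a piece and the nine bounds of its window: the three multipliers turn
`S1`, `S2`, `S3` into the arrow.
-/

set_option linter.unusedVariables false

namespace Vale.Agent.P100.Calib.StripMid

open Pack ClosedGen

/-- The arrow from the three conditions, by the sign of the `EG` block. -/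
theorem arrow_pos {ab c d q A M G T X k₁ k₂ k₂' : ℝ} (hc : c = ab) (hab : 0 < ab) (hd : 0 < d)
    (hq : 0 < q) (hM : 0 < M) (hG : 0 < G) (hX : 0 ≤ X)
    (h1 : 4 * ab * q * X ≤ k₁ * M) (h2 : q * (d * T) < k₂ * (4 * G))
    (h2' : -(q * (d * T)) < k₂' * (4 * G)) (h3 : 0 < A - k₂ * (d * T) - k₁ * X)
    (h3' : 0 < A + k₂' * (d * T) - k₁ * X) :
    0 < 4 * A * M * G + -1 * d ^ 2 * q * T ^ 2 * M + -16 * c * q * X ^ 2 * G := by
  subst hc
  have eX : 4 * c * q * X * X ≤ k₁ * M * X := mul_le_mul_of_nonneg_right h1 hX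
  rcases le_or_gt 0 T with hT | hT
  · have := mul_pos (mul_pos hG hM) h3
    nlinarith [mul_le_mul_of_nonneg_left eX hG.le,
      mul_le_mul_of_nonneg_left h2.le (mul_nonneg (mul_nonneg hd.le hT) hM.le)]
  · have := mul_pos (mul_pos hG hM) h3'
    nlinarith [mul_le_mul_of_nonneg_left eX hG.le,
      mul_le_mul_of_nonneg_left h2'.le (mul_nonneg (mul_nonneg hd.le (neg_nonneg.2 hT.le)) hM.le)]

section forms
variable {a b d v I g M X G A T : ℝ} {k₁ g₀ g₁ k : ℤ × ℕ} {ρ : ℕ → ℝ}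

/-- What the templates' variables satisfy. -/
structure Unit1 (a b d v I : ℝ) (ρ : ℕ → ℝ) : Prop where
  m : mEx.eval ρ = 2 * I
  ab : abEx.eval ρ = 16 * a ^ 2 * b ^ 2
  d1 : ρ 1 = d
  v1 : ρ 2 = v
  o4 : ρ 4 = 1
  o7 : ρ 7 = 1
  o9 : ρ 9 = 1
  o12 : ρ 12 = 1
  o14 : ρ 14 = 1

/-- `S1` in the blocks. -/
theorem one_form (u : Unit1 a b d v I ρ) (ha : 0 < a) (hb : 0 < b) (hq : 0 < 1 + d * v)
    (hg : 0 < g) (hM : 0 ≤ M) (hk : 0 < k₁.2) (hg₁ : 0 < g₁.2) (hkn : 0 < k₁.1) (hg₁n : 0 < g₁.1)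
    (hgI : g * I ≤ fr g₁)
    (tM : 1 * (g ^ 2 * M) = (1 + d * v) * tplM.eval ρ)
    (tX : 8 * (g * -X) = a * b * tplX.eval ρ)
    (h : 0 ≤ (cond1 (16 * k₁.1 * g₁.2) (g₁.1 * k₁.2)).eval ρ) :
    4 * (a * b) * (1 + d * v) * X ≤ fr k₁ * M := by
  have e1 : (0 : ℝ) < k₁.2 := by exact_mod_cast hk
  have e2 : (0 : ℝ) < g₁.2 := by exact_mod_cast hg₁
  have e3 : (0 : ℝ) < k₁.1 := by exact_mod_cast hkn
  have e4 : (0 : ℝ) < g₁.1 := by exact_mod_cast hg₁n
  have hab : 0 < a * b := mul_pos ha hb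
  change 0 ≤ ((16 * k₁.1 * g₁.2 : ℤ) : ℝ) * mEx.eval ρ * (ρ 9 * tplM.eval ρ) +
    ((g₁.1 * k₁.2 : ℤ) : ℝ) * abEx.eval ρ * tplX.eval ρ at h
  rw [u.m, u.ab, u.o9] at h
  push_cast at h
  have h' : 0 ≤ 32 * (k₁.1 : ℝ) * g₁.2 * I * (g ^ 2 * M) -
      128 * g₁.1 * k₁.2 * (a * b) * (1 + d * v) * (g * X) := by
    have := mul_nonneg h hq.le
    have e : 32 * (k₁.1 : ℝ) * g₁.2 * I * (g ^ 2 * M) -
        128 * g₁.1 * k₁.2 * (a * b) * (1 + d * v) * (g * X) =
        (16 * (k₁.1 : ℝ) * g₁.2 * (2 * I) * (1 * tplM.eval ρ) +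
          (g₁.1 : ℝ) * k₁.2 * (16 * a ^ 2 * b ^ 2) * tplX.eval ρ) * (1 + d * v) := by
      linear_combination 32 * (k₁.1 : ℝ) * g₁.2 * I * tM +
        16 * (g₁.1 : ℝ) * k₁.2 * a * b * (1 + d * v) * tX
    linarith
  have h2 : (k₁.1 : ℝ) * g₁.2 * (g * I) * M ≤ k₁.1 * g₁.1 * M := by
    rw [fr, le_div_iff₀ e2] at hgI
    nlinarith [mul_le_mul_of_nonneg_left hgI (mul_nonneg e3.le hM)]
  rw [fr, div_mul_eq_mul_div, le_div_iff₀ e1]
  refine le_of_mul_le_mul_left ?_ (show (0 : ℝ) < 32 * g₁.1 * g by positivity)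
  nlinarith [mul_le_mul_of_nonneg_left h2 (show (0 : ℝ) ≤ 32 * g by positivity)]

/-- `S2` in the blocks. -/
theorem two_form (u : Unit1 a b d v I ρ) (hab : 0 < a ^ 3 * b ^ 3) (hk : 0 < k.2) (sg : ℤ)
    (tT : 4 * (d * T) = a ^ 3 * b ^ 3 * tplT.eval ρ)
    (tG : 32 * G = a ^ 3 * b ^ 3 * tplG.eval ρ)
    (h : 0 < (cond2 k.1 k.2 sg).eval ρ) :
    (sg : ℝ) * ((1 + d * v) * (d * T)) < fr k * (4 * G) := by
  have hk' : (0 : ℝ) < k.2 := by exact_mod_cast hk
  rw [eval_cond2, u.o7, u.o12, u.o14, u.d1, u.v1] at h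
  have := mul_pos h hab
  rw [fr, div_mul_eq_mul_div, lt_div_iff₀ hk']
  push_cast at this
  have e : (4 * (k.1 : ℝ) * (1 * tplG.eval ρ) -
      8 * sg * k.2 * (1 + d * v) * (1 * (1 * tplT.eval ρ))) * (a ^ 3 * b ^ 3) =
      128 * (k.1 : ℝ) * G - 32 * sg * k.2 * ((1 + d * v) * (d * T)) := by
    linear_combination 8 * (sg : ℝ) * k.2 * (1 + d * v) * tT - 4 * (k.1 : ℝ) * tG
  linarith

/-- `S3` in the blocks. -/
theorem three_form (u : Unit1 a b d v I ρ) (ha : 0 < a) (hb : 0 < b) (hg : 0 < g) (hX : 0 ≤ X)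
    (hk : 0 < k.2) (hk₁ : 0 < k₁.2) (hg₀ : 0 < g₀.2) (hk₁n : 0 < k₁.1) (hg₀n : 0 < g₀.1)
    (hgI : fr g₀ ≤ g * I) (sg : ℤ)
    (tX : 8 * (g * -X) = a * b * tplX.eval ρ)
    (tT : 4 * (d * T) = a ^ 3 * b ^ 3 * tplT.eval ρ)
    (tA : 8 * A = a ^ 3 * b ^ 3 * tplA.eval ρ)
    (h : 0 < (cond3 (g₀.1 * k₁.2) k.2 (sg * (-2 * k.1)) (8 * k₁.1 * g₀.2 * k.2)).eval ρ) :
    0 < A - sg * (fr k * (d * T)) - fr k₁ * X := by
  have e0 : (0 : ℝ) < k.2 := by exact_mod_cast hk
  have e1 : (0 : ℝ) < k₁.2 := by exact_mod_cast hk₁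
  have e2 : (0 : ℝ) < g₀.2 := by exact_mod_cast hg₀
  have e3 : (0 : ℝ) < k₁.1 := by exact_mod_cast hk₁n
  have e4 : (0 : ℝ) < g₀.1 := by exact_mod_cast hg₀n
  have hab : 0 < a * b := mul_pos ha hb
  change 0 < ((g₀.1 * k₁.2 : ℤ) : ℝ) * abEx.eval ρ * (((k.2 : ℤ) : ℝ) * tplA.eval ρ +
      ((sg * (-2 * k.1) : ℤ) : ℝ) * (ρ 7 * (ρ 9 * (ρ 14 * tplT.eval ρ)))) +
    ((8 * k₁.1 * g₀.2 * k.2 : ℤ) : ℝ) * mEx.eval ρ *
      (ρ 4 * (ρ 7 * (ρ 12 * (ρ 14 ^ 2 * tplX.eval ρ)))) at h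
  rw [u.m, u.ab, u.o4, u.o7, u.o9, u.o12, u.o14] at h
  push_cast at h
  have h' := mul_pos h hab
  have e : ((g₀.1 : ℝ) * k₁.2 * (16 * a ^ 2 * b ^ 2) * (k.2 * tplA.eval ρ +
        (sg : ℝ) * (-2 * k.1) * (1 * (1 * (1 * tplT.eval ρ)))) +
      8 * (k₁.1 : ℝ) * g₀.2 * k.2 * (2 * I) * (1 * (1 * (1 * (1 ^ 2 * tplX.eval ρ))))) * (a * b) =
      128 * ((g₀.1 : ℝ) * k₁.2 * (k.2 * A - sg * k.1 * (d * T)) -
        k₁.1 * g₀.2 * k.2 * (g * I) * X) := by
    linear_combination 32 * (g₀.1 : ℝ) * k₁.2 * sg * k.1 * tT -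
      16 * (g₀.1 : ℝ) * k₁.2 * k.2 * tA - 16 * (k₁.1 : ℝ) * g₀.2 * k.2 * I * tX
  have h2 : (k₁.1 : ℝ) * g₀.1 * k.2 * X ≤ k₁.1 * g₀.2 * k.2 * (g * I) * X := by
    rw [fr, div_le_iff₀ e2] at hgI
    nlinarith [mul_le_mul_of_nonneg_left hgI (mul_nonneg (mul_nonneg e3.le e0.le) hX)]
  rw [show A - sg * (fr k * (d * T)) - fr k₁ * X =
      ((k₁.2 : ℝ) * (k.2 * A - sg * k.1 * (d * T)) - k₁.1 * k.2 * X) / (k₁.2 * k.2) by
    simp only [fr]; field_simp]
  refine div_pos (pos_of_mul_pos_right ?_ e4.le) (mul_pos e1 e0)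
  rw [e] at h'
  linarith

end forms

variable {P : Piece} {x : ℕ → ℝ}

/-- What the constants of a piece satisfy for the window. -/
structure Piece.Pos3 (P : Piece) : Prop extends P.Pos2 where
  zn : 0 ≤ P.z.1
  l₀n : 0 < P.l₀.1

/-- The Flow, the sizes of the fields and the place at a point. -/
structure Fields (P : Piece) (x : ℕ → ℝ) (C g W W1 R : ℝ) : Prop where
  g_eq : g * xI P x = 2 * wD (xa P x) (xd P x) (xv P x) ((kS P.kind).eval x) (x 3) C /
    ((xa P x + xd P x) * (2 + xd P x * xv P x))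
  W_eq : (xa P x + xd P x) * (g * W) = 4 * C / (kS P.kind).eval x
  R_eq : R = (kS P.kind).eval x * x 3 / (2 * xI P x)
  W1_eq : g * W1 * (xa P x + xd P x) ^ 2 =
    4 * wN (xa P x) (xd P x) (xv P x) ((kS P.kind).eval x) (x 3) C /
      ((kS P.kind).eval x ^ 2 * x 3 * (2 + xd P x * xv P x))

theorem eval_kBb : (kBb P.kind).eval x = 20 * xI P x * (2 - 6 * xI P x - (2 * xa P x) ^ 2) *
    (2 * (xa P x + xd P x)) ^ 2 := by
  show ((20 : ℤ) : ℝ) * xI P x * (((2 : ℤ) : ℝ) - ((6 : ℤ) : ℝ) * xI P x -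
    (kA P.kind).eval x ^ 2) * (kB P.kind).eval x ^ 2 = _
  rw [eval_kA, eval_kB]; norm_num

theorem eval_kAb : (kAb P.kind).eval x =
    50 * (2 * (xa P x + xd P x)) ^ 2 - 43 * (2 * xa P x) ^ 2 := by
  show ((50 : ℤ) : ℝ) * (kB P.kind).eval x ^ 2 - ((43 : ℤ) : ℝ) * (kA P.kind).eval x ^ 2 = _
  rw [eval_kA, eval_kB]; norm_num

theorem kBb_nonneg (h : Good P x) (hI : xI P x ≤ 1 / 7) : 0 ≤ (kBb P.kind).eval x := by
  have := h.I
  have := h.d
  have := h.a
  have e := eval_kA' (P := P) (x := x)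
  rw [eval_kBb]
  have h1 : (2 * xa P x) ^ 2 ≤ 1 := pow_le_one₀ (by linarith) (by linarith)
  exact mul_nonneg (mul_nonneg (by linarith) (by linarith)) (sq_nonneg _)

theorem kAb_pos (h : Good P x) : 0 < (kAb P.kind).eval x := by
  have ha := h.a
  have hd := h.d
  rw [eval_kAb]
  have h1 := pow_le_pow_left₀ (by linarith)
    (show 2 * xa P x ≤ 2 * (xa P x + xd P x) by linarith) 2
  linarith [pow_pos (show 0 < 2 * (xa P x + xd P x) by linarith) 2]

/-- The multiplier of `g E` at a value of the Flow. -/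
noncomputable def wEl (P : Piece) (x : ℕ → ℝ) (C : ℝ) : ℝ :=
  2 * wL (xa P x) (xd P x) (xv P x) ((kS P.kind).eval x) (x 3) C ((kBb P.kind).eval x)
      ((kAb P.kind).eval x) ((kDk P.kind).eval x) (xI P x) /
    ((xa P x + xd P x) * (2 + xd P x * xv P x) * ((kAb P.kind).eval x + (kBb P.kind).eval x))

/-- `g K`, scaled. -/
noncomputable def wKv (P : Piece) (x : ℕ → ℝ) (C : ℝ) : ℝ :=
  -(2 * wR (xa P x) (xd P x) (xv P x) ((kS P.kind).eval x) (x 3) C /
      ((xa P x + xd P x) * (2 + xd P x * xv P x)) *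
    ((kAb P.kind).eval x * xd P x - 3 * xI P x ^ 2 * (kBb P.kind).eval x) /
    (5 * (kB P.kind).eval x ^ 3 * (kDk P.kind).eval x))

/-- `T` at a value of the Flow. -/
noncomputable def wTv (P : Piece) (x : ℕ → ℝ) (C : ℝ) : ℝ :=
  wR (xa P x) (xd P x) (xv P x) ((kS P.kind).eval x) (x 3) C /
    ((1 + xd P x * xv P x) * wD (xa P x) (xd P x) (xv P x) ((kS P.kind).eval x) (x 3) C)

variable {C g W W1 R : ℝ}

theorem wD_pos (hP : P.Pos3) (h : Good P x) (hB : 0 ≤ wBound P x C .g0) :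
    0 < wD (xa P x) (xd P x) (xv P x) ((kS P.kind).eval x) (x 3) C := by
  have g0 : 0 < fr P.g₀ := div_pos (by exact_mod_cast hP.g₀n) (by exact_mod_cast hP.g₀)
  have := h.a
  have := h.d
  have := h.v
  have : 0 < fr P.g₀ * (xa P x + xd P x) * (2 + xd P x * xv P x) := by positivity
  simp only [wBound] at hB
  linarith

theorem C_nonneg (h : Good P x) (hav : xa P x * xv P x < 1) (hC : cEnd P x false ≤ C) : 0 ≤ C := by
  have h1 : 0 ≤ (kS P.kind).eval x * (1 - xa P x * xv P x) :=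
    mul_nonneg h.S.le (by linarith)
  simp only [cEnd, cond_false, add_zero] at hC
  linarith

/-- The point lies in the window. -/
theorem inside_of_fields (hP : P.Pos3) (h : Good P x) (hI : xI P x ≤ 1 / 7)
    (htop : 4 * C ≤ (kS P.kind).eval x * pEnd P x true) (hu : 0 < x 3)
    (hav : xa P x * xv P x < 1) (hC : cEnd P x false ≤ C) (hC' : C ≤ cEnd P x true)
    (hB : ∀ b, 0 ≤ wBound P x C b) (F : Fields P x C g W W1 R) :
    Inside P x ((xa P x + xd P x) * (g * W)) (wEl P x C) (wKv P x C)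
      (g * W1 * (xa P x + xd P x) ^ 2) (wTv P x C) := by
  have hI0 := h.I
  have hd := h.d
  have ha := h.a
  have hv := h.v
  have hS := h.S
  have hb0 : 0 < xa P x + xd P x := by linarith
  have hP0 : 0 < 2 + xd P x * xv P x := by positivity
  have hD := wD_pos hP h (hB .g0)
  have hKB := kBb_nonneg h hI
  have hAB := kAb_pos h
  have hDk := h.kDk
  have hbP : 0 < (xa P x + xd P x) * (2 + xd P x * xv P x) := mul_pos hb0 hP0
  have hAK : 0 < (xa P x + xd P x) * (2 + xd P x * xv P x) *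
      ((kAb P.kind).eval x + (kBb P.kind).eval x) := mul_pos hbP (by linarith)
  have hr := hB .r
  simp only [wBound] at hr
  have h0 : fr P.r * wEl P x C ≤ 2 * wR (xa P x) (xd P x) (xv P x) ((kS P.kind).eval x) (x 3) C /
      ((xa P x + xd P x) * (2 + xd P x * xv P x)) := by
    rw [wEl, mul_div_assoc', div_le_div_iff₀ hAK hbP]
    have := mul_le_mul_of_nonneg_right (sub_nonneg.1 hr) hbP.le
    linarith
  have h1 : 2 * wR (xa P x) (xd P x) (xv P x) ((kS P.kind).eval x) (x 3) C /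
      ((xa P x + xd P x) * (2 + xd P x * xv P x)) ≤ wEl P x C := by
    rw [wEl, div_le_div_iff₀ hbP hAK]
    have := mul_le_mul_of_nonneg_right (wR_le (a := xa P x) (S := (kS P.kind).eval x)
      (AB := (kAb P.kind).eval x) hd.le hv.le hu.le (C_nonneg h hav hC) hKB hI0.le hD.le
      eval_kDk) hbP.le
    linarith
  obtain ⟨k0, k1⟩ := k_window (I := xI P x) hd.le hKB hAB.le h0 h1
  have hden : 0 ≤ 5 * (kB P.kind).eval x ^ 3 * (kDk P.kind).eval x := by
    have := h.kB; positivity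
  have hWd : 0 < (kS P.kind).eval x ^ 2 * x 3 * (2 + xd P x * xv P x) := by positivity
  refine ⟨?_, ?_, ?_, ?_, ?_, ?_, ?_, ?_, ?_, ?_⟩
  · rw [F.W_eq, le_div_iff₀ hS]
    simp only [cEnd, pEnd, cond_false, add_zero] at hC ⊢
    linarith
  · rw [F.W_eq, div_le_iff₀ hS]
    linarith
  · have := hB .l0
    simp only [wBound] at this
    rw [lEnd, cond_false, wEl, le_div_iff₀ hAK]; linarith
  · have := hB .l1
    simp only [wBound] at this
    rw [lEnd, cond_true, wEl, div_le_iff₀ hAK]; linarith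
  · simp only [wKv, psi, cond_false]
    rw [neg_mul, neg_le_neg_iff, ← mul_div_assoc]
    exact div_le_div_of_nonneg_right k1 hden
  · simp only [wKv, psi, cond_true]
    rw [neg_mul, neg_le_neg_iff, ← mul_div_assoc]
    exact div_le_div_of_nonneg_right k0 hden
  · have := hB .w0
    simp only [wBound] at this
    rw [F.W1_eq, le_div_iff₀ hWd]
    simp only [wEnd, cond_false, eval_kB]
    linarith
  · have := hB .w1
    simp only [wBound] at this
    rw [F.W1_eq, div_le_iff₀ hWd]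
    simp only [wEnd, cond_true, eval_kB]
    linarith
  · have := hB .t0
    simp only [wBound] at this
    rw [wTv, le_div_iff₀ (by positivity)]; linarith
  · have := hB .t1
    simp only [wBound] at this
    rw [wTv, div_le_iff₀ (by positivity)]; linarith

/-- The numbers at a point in scaled variables. -/
theorem hat_of_fields (hP : P.Pos3) (h : Good P x) (hB : 0 ≤ wBound P x C .g0) (hu : 0 < x 3)
    (hI : xI P x ≤ 1 / 7) (F : Fields P x C g W W1 R)
    (hk : (AllN.kapAll (1 / xI P x) (xa P x) + 1) / xd P x = kap P x) :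
    ∃ E K, stripNum (xa P x) (xd P x) (xv P x) W R =
        hatNum (xa P x) (xd P x) E K (gHat (xa P x) (xd P x) (wTv P x C))
          (gHat1 (xa P x) (xd P x) (wTv P x C)) (kap P x) ∧
      hatAt (xa P x) (xd P x) (xv P x) g W W1 E K (gHat (xa P x) (xd P x) (wTv P x C))
          (gHat1 (xa P x) (xd P x) (wTv P x C)) (kap P x) =
        vec (xa P x) (xd P x) (xv P x) ((xa P x + xd P x) * (g * W)) (-wEl P x C * phi P x)
          (wKv P x C) (g * W1 * (xa P x + xd P x) ^ 2) (wTv P x C) (kap P x) ∧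
      gapVec P x C (wTv P x C) = fun i => cond (wG i)
        (20 * (kB P.kind).eval x ^ 2 * (kDk P.kind).eval x *
            ((xa P x + xd P x) * (2 + xd P x * xv P x) * xI P x / 2) *
          llgOne (xa P x) (xd P x) (xv P x) g (g * (W * R)) (g * E) (g * K) R
            (gHat (xa P x) (xd P x) (wTv P x C)) (kap P x) i)
        (llgOne (xa P x) (xd P x) (xv P x) g (g * (W * R)) (g * E) (g * K) R
            (gHat (xa P x) (xd P x) (wTv P x C)) (kap P x) i) := by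
  have hI0 := h.I
  have hd := h.d
  have ha := h.a
  have hv := h.v
  have hS := h.S
  have hb0 : 0 < xa P x + xd P x := by linarith
  have hP0 : 0 < 2 + xd P x * xv P x := by positivity
  have hq : 0 < 1 + xd P x * xv P x := by positivity
  have hD := wD_pos hP h hB
  have hDk := h.kDk
  have hAB := kAb_pos h
  have hKB := kBb_nonneg h hI
  have hM : 1 - 2 * xa P x - xd P x = 2 * xI P x := by linarith [eval_kA' (P := P) (x := x)]
  have hN : dimAll (xa P x) (xd P x) = 1 / xI P x := by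
    rw [dimAll, show 1 - (xa P x + (xa P x + xd P x)) = 2 * xI P x by linarith]; field_simp
  have h1 := one_sub_RdW rfl hb0 hP0 hI0 hS hD F.g_eq F.W_eq F.R_eq
  obtain ⟨eE, eK⟩ := num_EK rfl hb0 hd hI0 hP0 hD eval_kBb eval_kAb eval_kDk hN F.g_eq h1
  obtain ⟨E, hE⟩ : ∃ E, E = (stripNum (xa P x) (xd P x) (xv P x) W R).E := ⟨_, rfl⟩
  obtain ⟨K, hK⟩ : ∃ K, K = (stripNum (xa P x) (xd P x) (xv P x) W R).K := ⟨_, rfl⟩
  rw [← hE] at eE
  rw [← hK] at eK
  have eT : wTv P x C = (1 - R * xd P x * W) / (1 + xd P x * xv P x) := by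
    rw [h1, wTv, div_div, mul_comm (1 + xd P x * xv P x)]
  refine ⟨E, K, ?_, ?_, ?_⟩
  · rw [hE, hK]; exact num_hat rfl ha hb0 hd hI0 hM hq.ne' eT hk
  · simp only [hatAt, vec, hM]
    congr 1
    · rw [show g * E * (2 * xI P x) = g * xI P x * E * 2 by ring, eE]
      simp only [phi, wEl, eval_kB]
      field_simp; ring
    · rw [show g * K * (2 * xI P x) = g * xI P x * K * 2 by ring, eK]
      simp only [wKv, eval_kB]
      field_simp; ring
  · funext i
    simp only [gapVec]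
    match i with
    | 4 =>
      simp only [llgOne, wG, cond_true]
      rw [show ∀ m : ℝ, m * ((xa P x + xd P x) * (2 + xd P x * xv P x) * xI P x / 2) * g =
        m * ((xa P x + xd P x) * (2 + xd P x * xv P x) / 2) * (g * xI P x) from fun m => by ring,
        F.g_eq]
      field_simp
    | 5 =>
      simp only [llgOne, wG, cond_true]
      rw [show ∀ m : ℝ, m * ((xa P x + xd P x) * (2 + xd P x * xv P x) * xI P x / 2) *
          (g * (W * R)) = m * ((2 + xd P x * xv P x) * xI P x / 2) * R *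
            ((xa P x + xd P x) * (g * W)) from fun m => by ring, F.W_eq, F.R_eq]
      field_simp
      ring
    | 6 =>
      simp only [llgOne, wG, cond_true]
      rw [show ∀ m : ℝ, m * ((xa P x + xd P x) * (2 + xd P x * xv P x) * xI P x / 2) * (g * E) =
        m * ((xa P x + xd P x) * (2 + xd P x * xv P x) / 2) * (g * xI P x * E) from
        fun m => by ring, eE]
      simp only [eval_kB]
      field_simp
    | 7 =>
      simp only [llgOne, wG, cond_true]
      rw [show ∀ m : ℝ, m * ((xa P x + xd P x) * (2 + xd P x * xv P x) * xI P x / 2) * (g * K) =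
        m * ((xa P x + xd P x) * (2 + xd P x * xv P x) / 2) * (g * xI P x * K) from
        fun m => by ring, eK]
      simp only [eval_kB]
      field_simp
    | 0 | 1 | 2 | 3 => simp [llgOne, wG]
    | 9 => simp [llgOne, wG, F.R_eq]
    | 8 | 10 | 11 | 12 | 13 => simp [llgOne, wG]
    | k + 14 => simp [llgOne, wG]

/-- **The closed signs at a point of a piece.** -/
theorem signs_point_gen (hP : P.Pos3) (h : Good P x) (hI : xI P x ≤ 1 / 7)
    (hlin : fr P.k₁ * xI P x ≤ 4 / 25 * fr P.g₀)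
    (htop : 4 * C ≤ (kS P.kind).eval x * pEnd P x true)
    (hab : 1 / 10 ≤ xa P x * (xa P x + xd P x)) (hu : 0 < x 3) (hav : xa P x * xv P x < 1) (K : Checks P x)
    (hC : cEnd P x false ≤ C) (hC' : C ≤ cEnd P x true) (hB : ∀ b, 0 ≤ wBound P x C b)
    (hgap : ∀ ze t, 0 ≤ gapFun P x (cEnd P x ze) (tEnd P x t)) (F : Fields P x C g W W1 R)
    (hk : (AllN.kapAll (1 / xI P x) (xa P x) + 1) / xd P x = kap P x) :
    ClosedGen.Signs (xa P x) (xd P x) (xv P x) g W W1 R
      (stripNum (xa P x) (xd P x) (xv P x) W R) := by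
  have W0 := inside_of_fields hP h hI htop hu hav hC hC' hB F
  obtain ⟨E, Kf, eN, eV, eG⟩ := hat_of_fields hP h (hB .g0) hu hI F hk
  have ha0 := h.a
  have hd := h.d
  have hv := h.v
  have hI0 := h.I
  have hb0 : 0 < xa P x + xd P x := by linarith
  have hM : 1 - 2 * xa P x - xd P x = 2 * xI P x := by linarith [eval_kA' (P := P) (x := x)]
  have hMne : 1 - 2 * xa P x - xd P x ≠ 0 := by rw [hM]; positivity
  have hq : 0 < 1 + xd P x * xv P x := by positivity
  have hD := wD_pos hP h (hB .g0)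
  have hbP : 0 < (xa P x + xd P x) * (2 + xd P x * xv P x) := by positivity
  have g0 : 0 < fr P.g₀ := div_pos (by exact_mod_cast hP.g₀n) (by exact_mod_cast hP.g₀)
  have gI0 : fr P.g₀ ≤ g * xI P x := by
    have := hB .g0
    simp only [wBound] at this
    rw [F.g_eq, le_div_iff₀ hbP]; linarith
  have gI1 : g * xI P x ≤ fr P.g₁ := by
    have := hB .g1
    simp only [wBound] at this
    rw [F.g_eq, div_le_iff₀ hbP]; linarith
  have hg : 0 < g := pos_of_mul_pos_left (lt_of_lt_of_le g0 gI0) hI0.le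
  obtain ⟨n, hn⟩ : ∃ n, n = stripNum (xa P x) (xd P x) (xv P x) W R := ⟨_, rfl⟩
  have tM := hatM_eq (v := xv P x) (g := g) (W := W) (W1 := W1) (R := R) (E := E) (K := Kf)
    (G := gHat (xa P x) (xd P x) (wTv P x C)) (G1 := gHat1 (xa P x) (xd P x) (wTv P x C))
    (c := kap P x) ha0.ne' hb0.ne' hd.ne' hMne
  have tX := hatX_eq (v := xv P x) (g := g) (W := W) (W1 := W1) (R := R) (E := E) (K := Kf)
    (G := gHat (xa P x) (xd P x) (wTv P x C)) (G1 := gHat1 (xa P x) (xd P x) (wTv P x C))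
    (c := kap P x) ha0.ne' hb0.ne' hd.ne' hMne
  have tT := hatT_eq (v := xv P x) (g := g) (W := W) (W1 := W1) (R := R) (E := E) (K := Kf)
    (G := gHat (xa P x) (xd P x) (wTv P x C)) (G1 := gHat1 (xa P x) (xd P x) (wTv P x C))
    (c := kap P x) ha0.ne' hb0.ne' hd.ne' hMne
  have tG := hatG_eq (v := xv P x) (g := g) (W := W) (W1 := W1) (R := R) (E := E) (K := Kf)
    (G := gHat (xa P x) (xd P x) (wTv P x C)) (G1 := gHat1 (xa P x) (xd P x) (wTv P x C))
    (c := kap P x) ha0.ne' hb0.ne' hd.ne' hMne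
  have tMG := hatMG_eq (v := xv P x) (g := g) (W := W) (W1 := W1) (R := R) (E := E) (K := Kf)
    (G := gHat (xa P x) (xd P x) (wTv P x C)) (G1 := gHat1 (xa P x) (xd P x) (wTv P x C))
    (c := kap P x) ha0.ne' hb0.ne' hd.ne' hMne
  have tA := hatA_eq (v := xv P x) (g := g) (W := W) (W1 := W1) (R := R) (E := E) (K := Kf)
    (G := gHat (xa P x) (xd P x) (wTv P x C)) (G1 := gHat1 (xa P x) (xd P x) (wTv P x C))
    (c := kap P x) ha0.ne' hb0.ne' hd.ne' hMne
  rw [← eN, ← hn, eV] at tM tX tT tG tMG tA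
  have hp' : 0 ≤ pEnd P x false := by
    simp only [pEnd, cond_false, add_zero]; linarith
  have cX := inside_X hP.toPos2 h K W0
  have cM := inside_MG hP.toPos2 h hp' K W0
  have c1 := inside_one hP.toPos2 h K W0
  have c2 := inside_two hP.toPos2 h hI K W0
  have c3 := inside_three hP.toPos2 h hlin hab K W0
  obtain ⟨ρ, hρ⟩ : ∃ ρ, ρ = vec (xa P x) (xd P x) (xv P x) ((xa P x + xd P x) * (g * W))
      (-wEl P x C * phi P x) (wKv P x C) (g * W1 * (xa P x + xd P x) ^ 2) (wTv P x C) (kap P x) :=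
    ⟨_, rfl⟩
  rw [← hρ] at tM tX tT tG tMG tA cX cM c1 c2 c3
  have u : Unit1 (xa P x) (xa P x + xd P x) (xd P x) (xv P x) (xI P x) ρ := by
    subst hρ
    refine ⟨?_, ?_, rfl, rfl, rfl, rfl, rfl, rfl, rfl⟩
    · rw [eval_mEx]; exact hM
    · show (2 * xa P x) ^ 2 * (2 * xa P x + ((2 : ℤ) : ℝ) * xd P x) ^ 2 = _
      push_cast; ring
  rw [← hn]
  have hMpos : 0 < TMMS (xa P x) (xd P x) (xv P x) g W W1 R n := by
    have e5 : tplM.eval ρ = wEl P x C * phi P x * ((xa P x + xd P x) * (g * W)) := by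
      subst hρ
      show -wEl P x C * phi P x * ((xa P x + xd P x) * (g * W) * ((-1 : ℤ) : ℝ)) = _
      push_cast; ring
    rw [e5] at tM
    have hL : 0 < wEl P x C := lt_of_lt_of_le
      (show 0 < lEnd P false from div_pos (by exact_mod_cast hP.l₀n) (by exact_mod_cast hP.l₀))
      W0.l_low
    have hφ : 0 < phi P x := by
      have := h.kB
      have := h.kDk
      have := kAb_pos h
      have := kBb_nonneg h hI
      unfold phi; positivity
    have hp0 : 0 < (xa P x + xd P x) * (g * W) := by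
      have := W0.p_low
      simp only [pEnd, cond_false, add_zero] at this
      linarith
    have h1 : 0 < g ^ 2 * TMMS (xa P x) (xd P x) (xv P x) g W W1 R n := by
      have := mul_pos hq (mul_pos (mul_pos hL hφ) hp0); linarith
    exact pos_of_mul_pos_right h1 (sq_nonneg g)
  obtain ⟨X, hX⟩ : ∃ X, X = -TMES (xa P x) (xd P x) (xv P x) g W W1 R n := ⟨_, rfl⟩
  rw [show TMES (xa P x) (xd P x) (xv P x) g W W1 R n = -X by rw [hX, neg_neg]] at tX
  have hXnn : 0 ≤ X := by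
    change 0 ≤ ((-1 : ℤ) : ℝ) * tplX.eval ρ at cX
    push_cast at cX
    have : 0 ≤ g * X := by
      have := mul_nonneg (mul_pos ha0 hb0).le (show 0 ≤ -tplX.eval ρ by linarith)
      linarith
    exact nonneg_of_mul_nonneg_right this hg
  have hab3 : 0 < xa P x ^ 3 * (xa P x + xd P x) ^ 3 := by positivity
  have s1 := one_form u ha0 hb0 hq hg hMpos.le hP.k₁ hP.g₁ hP.k₁n hP.g₁n gI1 tM tX c1
  have p2 := two_form u hab3 hP.k₂ 1 tT tG (c2 true)
  have m2 := two_form u hab3 hP.k₂' (-1) tT tG (c2 false)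
  have p3 := three_form u ha0 hb0 hg hXnn (k := P.k₂) hP.k₂ hP.k₁ hP.g₀ hP.k₁n hP.g₀n gI0 1 tX tT tA
    (by have := c3 true; simpa [Piece.m3] using this)
  have m3 := three_form u ha0 hb0 hg hXnn (k := P.k₂') hP.k₂' hP.k₁ hP.g₀ hP.k₁n hP.g₀n gI0 (-1) tX tT tA
    (by have := c3 false; simpa [Piece.m3] using this)
  push_cast at p2 m2 p3 m3
  have hGpos : 0 < TGGS (xa P x) (xd P x) (xv P x) g W W1 R n := by
    have f2 : 0 < fr P.k₂ := div_pos (by exact_mod_cast hP.k₂n) (by exact_mod_cast hP.k₂)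
    have f2' : 0 < fr P.k₂' := div_pos (by exact_mod_cast hP.k₂n') (by exact_mod_cast hP.k₂')
    have : 0 < (fr P.k₂ + fr P.k₂') * (4 * TGGS (xa P x) (xd P x) (xv P x) g W W1 R n) := by
      linarith
    linarith [pos_of_mul_pos_right this (by linarith)]
  refine ⟨hGpos, hMpos, ?_, ?_, ?_⟩
  · have ec : n.c = xa P x * (xa P x + xd P x) := by rw [hn]; rfl
    have := arrow_pos (k₂ := fr P.k₂) (k₂' := fr P.k₂')
      (T := TEGS (xa P x) (xd P x) (xv P x) g W W1 R n)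
      (A := TAS (xa P x) (xd P x) (xv P x) g W W1 R n) ec (mul_pos ha0 hb0) hd hq hMpos hGpos
      hXnn s1 (by linarith) (by linarith) (by linarith) (by linarith)
    rw [hX] at this
    simp only [TArrowS, neg_sq] at this ⊢
    linarith
  · have := mul_nonneg hab3.le cM
    linarith
  · have hgg := gap_nonneg hgap hC hC' W0.t_low W0.t_high
    have eg := llg_eq (a := xa P x) (v := xv P x) (g := g) (W := W) (W1 := W1) (R := R) (E := E)
      (K := Kf) (G := gHat (xa P x) (xd P x) (wTv P x C))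
      (G1 := gHat1 (xa P x) (xd P x) (wTv P x C)) (c := kap P x) hd.ne'
    rw [← eN, ← hn] at eg
    rw [gapFun, eG, eval_scale wG _ _ tplL 1 rfl, ← eg] at hgg
    refine nonneg_of_mul_nonneg_right (nonneg_of_mul_nonneg_right
      (nonneg_of_mul_nonneg_right hgg ?_) (by norm_num : (0 : ℝ) < 64)) hg
    have := h.kB
    have := h.kDk
    positivity

/-- **The closed signs at a point of a piece** from twenty on. -/
theorem signs_point (hP : P.Pos3) (h : Good P x) (hI : xI P x ≤ 1 / 20) (ha : 1 / 4 ≤ xa P x)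
    (hb : 2 / 5 ≤ xa P x + xd P x) (hu : 0 < x 3) (hav : xa P x * xv P x < 1) (K : Checks P x)
    (hC : cEnd P x false ≤ C) (hC' : C ≤ cEnd P x true) (hB : ∀ b, 0 ≤ wBound P x C b)
    (hgap : ∀ ze t, 0 ≤ gapFun P x (cEnd P x ze) (tEnd P x t)) (F : Fields P x C g W W1 R)
    (hk : (AllN.kapAll (1 / xI P x) (xa P x) + 1) / xd P x = kap P x) :
    ClosedGen.Signs (xa P x) (xd P x) (xv P x) g W W1 R
      (stripNum (xa P x) (xd P x) (xv P x) W R) := by
  have hI0 := h.I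
  refine signs_point_gen hP h (by linarith) ?_ ?_
    (le_trans (by norm_num) (mul_le_mul ha hb (by norm_num) h.a.le)) hu hav K hC hC' hB hgap F hk
  · exact le_trans (mul_le_mul_of_nonneg_left hI
      (div_nonneg (by exact_mod_cast hP.k₁n.le) (Nat.cast_nonneg _))) (by linarith [hP.lin])
  · have hz : 0 ≤ fr P.z := div_nonneg (by exact_mod_cast hP.zn) (Nat.cast_nonneg _)
    simp only [cEnd, pEnd, cond_true] at hC' ⊢
    have key : 1 ≤ (1 + 20 / 9 * xI P x) * (kS P.kind).eval x := by rw [eval_kS]; nlinarith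
    nlinarith [mul_le_mul_of_nonneg_left key (mul_nonneg hz hI0.le)]

end Vale.Agent.P100.Calib.StripMid
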