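import Vale.Agent.P100.Calib.SlabStripLeftExit
import Vale.Agent.P100.Calib.SlabStripSevExit
import Vale.Agent.P100.Calib.SlabStripSevLeftSigns

/-!
# The left exit band of the strip for `N` between seven and twenty

`u (1 - a v - H (b - a u (1 + d v)) - (1 - u) G / 20) + (13/20) (67/100 - u) (2 I C - v) > 0`
for `u <= 67/100`, `G = 20 S v (1 + d v) - (13 - 4 u + 18 u ^ 2) (1 - a v) (I - S d v / 2)`,
`C = (23 + 6 u + 48 u ^ 2) / 20`, on orbits, for real `N` in `[7, 20)` and `31/100 < a`. It is an
exit barrier up to `u = 67/100`, where `stripTop` takes over.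
-/

open Set Filter Topology

namespace Vale.Agent.P100.Calib.Band

open Vale.Agent.P100.Bubble Chart

/-- Twenty times the coefficient of the band. -/
noncomputable def stripSevLeftG (a b u v : ℝ) : ℝ :=
  20 * ((a + b) * (v * (1 + (b - a) * v))) - (13 - 4 * u + 18 * (u * u)) * stripLeftKI a b v

/-- Its derivative in `v`. -/
noncomputable def stripSevLeftGv (a b u v : ℝ) : ℝ :=
  20 * ((a + b) * (1 + 2 * ((b - a) * v))) + (13 - 4 * u + 18 * (u * u)) *
    (a * (allStabI a b - (a + b) * ((b - a) * v) / 2) + (1 - a * v) * ((a + b) * (b - a)) / 2)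

/-- The part of the band that takes over from `stripTop`. -/
noncomputable def stripSevLeftX (a b u v H : ℝ) : ℝ :=
  1 - a * v - H * (b - a * ((1 + (b - a) * v) * u)) - (1 - u) * stripSevLeftG a b u v / 20

/-- **The band function.** -/
noncomputable def stripSevLeft (a b u v H : ℝ) : ℝ :=
  u * stripSevLeftX a b u v H + 13 / 20 * ((67 / 100 - u) * (2 * (allStabI a b * stripSevLeftC u) - v))

/-- Its derivative in `u`. -/
noncomputable def stripSevLeftFu (a b u v H : ℝ) : ℝ :=
  stripSevLeftX a b u v H + u * (a * (1 + (b - a) * v) * H +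
    (stripSevLeftG a b u v + (1 - u) * ((36 * u - 4) * stripLeftKI a b v)) / 20) +
    13 / 20 * ((67 / 100 - u) * (2 * (allStabI a b * ((6 + 96 * u) / 20))) -
      (2 * (allStabI a b * stripSevLeftC u) - v))

/-- Its derivative in `v`. -/
noncomputable def stripSevLeftFv (a b u v H : ℝ) : ℝ :=
  u * (a * u * (b - a) * H - a - (1 - u) * stripSevLeftGv a b u v / 20) - 13 / 20 * (67 / 100 - u)

theorem hasGrad_stripSevLeft (a b : ℝ) :
    HasGrad (fun u v H => stripSevLeft a b u v H) (stripSevLeftFu a b) (stripSevLeftFv a b)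
      (fun u v _ => -(u * (b - a * ((1 + (b - a) * v) * u)))) := by
  intro u v H du dv dh t hu hv hh
  have h1 := ((((hv.const_mul (b - a)).const_add 1).fun_mul hu).const_mul a).const_sub b
  have hKI : HasDerivAt (fun s => stripLeftKI a b (v s))
      (-((a * (allStabI a b - (a + b) * ((b - a) * v t) / 2) +
        (1 - a * v t) * ((a + b) * (b - a)) / 2) * dv)) t := by
    refine (((hv.const_mul a).const_sub 1).fun_mul
      ((((hv.const_mul (b - a)).const_mul (a + b)).div_const 2).const_sub
        (allStabI a b))).congr_deriv ?_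
    ring
  have h2 : HasDerivAt (fun s => stripSevLeftG a b (u s) (v s))
      (-((36 * u t - 4) * stripLeftKI a b (v t)) * du + stripSevLeftGv a b (u t) (v t) * dv) t := by
    refine (((hv.fun_mul ((hv.const_mul (b - a)).const_add 1)).const_mul (a + b)).const_mul
      20 |>.fun_sub ((((hu.const_mul 4).const_sub 13).fun_add
        ((hu.fun_mul hu).const_mul 18)).fun_mul hKI)).congr_deriv ?_
    simp only [stripSevLeftGv, stripLeftKI]
    ring
  have hX : HasDerivAt (fun s => stripSevLeftX a b (u s) (v s) (H s))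
      ((a * (1 + (b - a) * v t) * H t + (stripSevLeftG a b (u t) (v t) +
        (1 - u t) * ((36 * u t - 4) * stripLeftKI a b (v t))) / 20) * du +
      (a * u t * (b - a) * H t - a - (1 - u t) * stripSevLeftGv a b (u t) (v t) / 20) * dv +
      -(b - a * ((1 + (b - a) * v t) * u t)) * dh) t := by
    refine ((((hv.const_mul a).const_sub 1).fun_sub (hh.fun_mul h1)).fun_sub
      (((hu.const_sub 1).fun_mul h2).div_const 20)).congr_deriv ?_
    ring
  have hC : HasDerivAt (fun s => stripSevLeftC (u s)) ((6 + 96 * u t) / 20 * du) t := by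
    refine ((((hu.const_mul 6).const_add 23).fun_add
      ((hu.fun_mul hu).const_mul 48)).div_const 20).congr_deriv ?_
    ring
  refine ((hu.fun_mul hX).fun_add (((hu.const_sub (67 / 100)).fun_mul
    (((hC.const_mul (allStabI a b)).const_mul 2).fun_sub hv)).const_mul (13 / 20))).congr_deriv ?_
  simp only [stripSevLeftFu, stripSevLeftFv]
  ring

/-- The band in the variables of `StripAtoms`. -/
theorem stripSevLeft_eq (a b u v H : ℝ) :
    20 * stripSevLeft a b u v H =
      (stripAt a b u v).slN - 20 * (u * ((stripAt a b u v).P * H)) := by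
  simp only [stripAt, StripAtoms.slN, StripAtoms.slM, StripAtoms.slG, StripAtoms.slg,
    StripAtoms.slT, StripAtoms.slC, StripAtoms.upKI, StripAtoms.P, StripAtoms.qu, StripAtoms.q,
    StripAtoms.u, stripSevLeft, stripSevLeftX, stripSevLeftG, stripLeftKI, stripSevLeftC]
  ring

/-- The signs at a point of the strip. -/
theorem strip_sev_pos {a b u v : ℝ} (hP : SevPlace a b u v) :
    0 < (stripAt a b u v).P ∧ 0 < (stripAt a b u v).upW ∧ 0 < (stripAt a b u v).f0 := by
  obtain ⟨hI20, hI7, ha, hd, hu, hu1, hv, hav, hlo, hhi⟩ := hP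
  have hI0 : 0 < allStabI a b := by linarith
  have hw : 0 < 1 - u := by linarith
  have hK : 0 < 1 - a * v := by linarith
  have hb : 0 < b := by linarith
  have hS : 0 < a + b := by linarith
  have h2 : 0 < 2 - (a + b) := by
    simp only [allStabI] at hI0
    linarith
  refine ⟨?_, ?_, ?_⟩
  · have e : (stripAt a b u v).P = (1 - u) * b + u * ((b - a) * (1 - a * v)) := by
      simp only [stripAt, StripAtoms.P, StripAtoms.qu, StripAtoms.q, StripAtoms.u]
      ring
    rw [e]
    exact add_pos (mul_pos hw hb) (by positivity)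
  · simp only [stripAt, StripAtoms.upW, StripAtoms.u]
    linarith [mul_le_mul_of_nonneg_right hu1.le (show 0 ≤ a by linarith)]
  · have e : (stripAt a b u v).f0 = (1 - u) * ((2 - (a + b)) * b + b * ((b - a) * v)) +
        u * ((b - a) * (1 - a * v)) + (a + b) * ((1 - u) * b) +
        (a + b) * ((1 - a * v) * (u * (b - a))) := by
      simp only [stripAt, StripAtoms.f0, StripAtoms.qn, StripAtoms.D0, StripAtoms.qu,
        StripAtoms.q, StripAtoms.ud, StripAtoms.u]
      ring
    rw [e]
    positivity

/-- The sign of the exit condition. -/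
theorem strip_sev_left_sign {a b u v H : ℝ} (hP : SevPlace a b u v) (hu9 : u ≤ 67 / 100)
    (hfl : 0 < allFlow a b u v H) (hup : H < stripSev a b u v) (hF : stripSevLeft a b u v H = 0) :
    allDot a b u v H (stripSevLeftFu a b u v H) (stripSevLeftFv a b u v H)
      (-(u * (b - a * ((1 + (b - a) * v) * u)))) < 0 := by
  obtain ⟨e1, -, -⟩ := stripSev_eq (a := a) (b := b) (v := v) hP.u_lt.le
  obtain ⟨hPp, hW, hf0⟩ := strip_sev_pos hP
  rw [e1, lt_div_iff₀ hW] at hup
  have eF := stripSevLeft_eq a b u v H
  rw [hF] at eF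
  obtain ⟨p, hp⟩ : ∃ p, p = stripAt a b u v := ⟨_, rfl⟩
  have hu := hP.u_pos
  have eflow : allFlow a b u v H = p.f0 * H - p.N := by
    simp only [hp, stripAt, StripAtoms.f0, StripAtoms.N, StripAtoms.qn, StripAtoms.D0,
      StripAtoms.qu, StripAtoms.q, StripAtoms.ud, StripAtoms.u, allFlow, allQn, allDen]
    ring
  rw [← hp] at eF hPp hW hf0 hup
  have hv0 : 2 * allStabI a b * (stripSevLeftC u + u * stripSevLeftLo u) < v := by
    by_contra hc
    have h := AllLow.strip_sev_left_gap hP hu9 (not_lt.1 hc)
    simp only [← hp, StripAtoms.slGap, show p.u = u by simp [hp, stripAt, StripAtoms.u]] at h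
    have h1 := mul_lt_mul_of_pos_left hup (show 0 < 20 * (u * p.P) by positivity)
    have h2 : p.slN * p.upW = 20 * (u * (p.P * H)) * p.upW := by
      rw [show p.slN = 20 * (u * (p.P * H)) by linarith]
    linarith
  have hv1 : v < 2 * allStabI a b * (stripSevLeftC u + u * stripSevLeftHi u) := by
    by_contra hc
    have h := AllLow.strip_sev_left_low hP hu9 (not_lt.1 hc)
    simp only [← hp, StripAtoms.slFlow, show p.u = u by simp [hp, stripAt, StripAtoms.u]] at h
    rw [eflow] at hfl
    have h1 := mul_pos (show 0 < 20 * (u * p.P) by positivity) hfl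
    have h2 : p.f0 * p.slN = p.f0 * (20 * (u * (p.P * H))) := by
      rw [show p.slN = 20 * (u * (p.P * H)) by linarith]
    linarith
  have hI0 : 0 < allStabI a b := by linarith [hP.I_gt]
  obtain ⟨s, hs⟩ : ∃ s, s = (v / (2 * allStabI a b) - stripSevLeftC u) / u := ⟨_, rfl⟩
  have hv : v = 2 * allStabI a b * (stripSevLeftC u + u * s) := by
    rw [hs]
    field_simp
    ring
  have hs0 : stripSevLeftLo u ≤ s := by
    rw [hv] at hv0
    have := lt_of_mul_lt_mul_left hv0 (by positivity)
    exact le_of_mul_le_mul_left (by linarith) hu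
  have hs1 : s < stripSevLeftHi u := by
    rw [hv] at hv1
    have := lt_of_mul_lt_mul_left hv1 (by positivity)
    exact lt_of_mul_lt_mul_left (by linarith) hu.le
  have hm := AllLow.strip_sev_left_main hP hu9 hs0 hs1 hv
  rw [← hp] at hm
  have eC : stripSevLeftC u = p.slC := by
    simp only [hp, stripAt, StripAtoms.slC, StripAtoms.u, stripSevLeftC]
    ring
  have eT : 67 / 100 - u = p.slT := by
    simp only [hp, stripAt, StripAtoms.slT, StripAtoms.u]
    ring
  have eN : p.slN = u * p.slH s := by
    simp only [StripAtoms.slH, StripAtoms.slN, show p.u = u by simp [hp, stripAt, StripAtoms.u],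
      show p.I = allStabI a b by simp [hp, stripAt],
      show p.v = v by simp [hp, stripAt], ← eC]
    linear_combination (-13 * p.slT) * hv
  have eH : p.slH s = 20 * (p.P * H) := by
    refine mul_left_cancel₀ hu.ne' ?_
    linarith
  have eX : stripSevLeftX a b u v H = 13 / 10 * (allStabI a b * (p.slT * s)) := by
    have : 20 * (stripSevLeftX a b u v H - 13 / 10 * (allStabI a b * (p.slT * s))) =
        p.slH s - 20 * (p.P * H) := by
      simp only [hp, stripAt, StripAtoms.slH, StripAtoms.slM, StripAtoms.slG, StripAtoms.slg,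
        StripAtoms.upKI, StripAtoms.P, StripAtoms.qu, StripAtoms.q, StripAtoms.u, stripSevLeftX,
        stripSevLeftG, stripLeftKI]
      ring
    linarith
  have eFu : 400 * (p.P * stripSevLeftFu a b u v H) = p.slFu s := by
    rw [stripSevLeftFu, eX, eC, eT]
    simp only [StripAtoms.slFu, eH]
    simp only [hp, stripAt, StripAtoms.slMu, StripAtoms.slG, StripAtoms.slg, StripAtoms.slT,
      StripAtoms.slCd, StripAtoms.slC, StripAtoms.upKI, StripAtoms.P, StripAtoms.qu, StripAtoms.q,
      StripAtoms.u, stripSevLeftG, stripLeftKI]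
    simp only [stripSevLeftC] at hv
    linear_combination (260 * (b - a * ((1 + (b - a) * v) * u))) * hv
  have eFv : 800 * (p.P * stripSevLeftFv a b u v H) = p.slFv s := by
    simp only [StripAtoms.slFv, eH]
    simp only [hp, stripAt, StripAtoms.slGv, StripAtoms.slg, StripAtoms.slT, StripAtoms.P,
      StripAtoms.qu, StripAtoms.q, StripAtoms.ud, StripAtoms.u, stripSevLeftFv, stripSevLeftGv]
    ring
  have eEn : 20 * (p.P * allEn a b u v H) = p.slEn s := by
    simp only [StripAtoms.slEn, eH]
    simp only [hp, stripAt, StripAtoms.E0, StripAtoms.e1, StripAtoms.qn, StripAtoms.P,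
      StripAtoms.D0, StripAtoms.qu, StripAtoms.q, StripAtoms.ud, StripAtoms.u, allEn, allQn,
      allDen]
    ring
  have eFl : 20 * (p.P * allFlow a b u v H) = p.slFl s := by
    simp only [StripAtoms.slFl, eH, eflow]
    ring
  have eFh : 400 * (p.P * p.P * allFh a b u v H) = p.slFh s := by
    simp only [StripAtoms.slFh, eH]
    simp only [hp, stripAt, StripAtoms.A0, StripAtoms.A1, StripAtoms.E0, StripAtoms.e1,
      StripAtoms.f0, StripAtoms.N, StripAtoms.qn, StripAtoms.P, StripAtoms.D0, StripAtoms.qu,
      StripAtoms.q, StripAtoms.ud, StripAtoms.u, allFh, allFlow, allEn, allQn, allDen]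
    ring
  have e : u * p.slMain s = -32000 * (p.P * p.P) *
      allDot a b u v H (stripSevLeftFu a b u v H) (stripSevLeftFv a b u v H)
        (-(u * (b - a * ((1 + (b - a) * v) * u)))) -
      20 * (u * (p.P * p.P * p.P * (p.sevN - H * p.upW))) := by
    simp only [StripAtoms.slMain, ← eFu, ← eFv, ← eEn, ← eFl, ← eFh, eH, allDot,
      show p.q = 1 + (b - a) * v by simp [hp, stripAt, StripAtoms.q],
      show b - a * ((1 + (b - a) * v) * u) = p.P by
        simp [hp, stripAt, StripAtoms.P, StripAtoms.qu, StripAtoms.q, StripAtoms.u]]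
    ring
  have h1 : 0 < u * (p.P * p.P * p.P * (p.sevN - H * p.upW)) := by
    have : 0 < p.sevN - H * p.upW := by linarith
    positivity
  have h2 := mul_nonneg hu.le hm
  by_contra hc
  have h3 := mul_nonneg (mul_self_nonneg p.P) (not_lt.1 hc)
  linarith

variable {N p q : ℝ} {S : Set ℝ} {R x y s dx dy : ℝ → ℝ}

/-- **The left exit band of the strip** for real `N ∈ [7, 20)` and `31/100 < 1/(p+1)`. -/
theorem orbit_strip_sev_left (hf : IsOrbitFns N p q S R x y s dx dy)
    (hb : SlabBoxAll N (1 / (p + 1)) (1 / (q + 1))) (h7 : 7 ≤ N) (h20 : N < 20) (ha : 31 / 100 < 1 / (p + 1))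
    {w : ℝ} (hw : w ∈ S) (hw0 : 0 < R w) (hwu : uOf N (R w) (x w) ≤ 67 / 100) :
    0 < stripSevLeft (1 / (p + 1)) (1 / (q + 1)) (uOf N (R w) (x w))
      (vOf (1 / (p + 1)) (1 / (q + 1)) (y w / x w))
      (hOf N (R w) (x w) (y w) w / (1 / (q + 1) - 1 / (p + 1))) := by
  refine exit_step_all hf hb (u₁ := 67 / 100) (by norm_num) (hasGrad_stripSevLeft _ _)
    (fun u v H => H < stripSev (1 / (p + 1)) (1 / (q + 1)) u v ∧
      (67 / 100 ≤ u → 0 ≤ stripTop (1 / (p + 1)) (1 / (q + 1)) u v H))
    (fun z hz hz0 hzu => ⟨orbit_strip_sev hf hb h7 h20 ha hz hz0 (by linarith),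
      fun h => orbit_strip_sev_top hf hb h7 h20 ha hz hz0 h⟩)
    (fun v H hP _ hE => ?_)
    (fun u v H hP _ hu hE hF => ?_) hw hw0 hwu
  · have h := hE.2 le_rfl
    obtain ⟨hI20, -, ha', hd, -, -, hv, hav, -, hhi⟩ :=
      sevPlace_of hb h7 h20 ha hP.u_pos hP.u_lt hP.toVRange
    generalize 1 / (p + 1) = a at *
    generalize 1 / (q + 1) = b at *
    have hI0 : 0 < allStabI a b := by linarith
    have hKI : 0 < stripLeftKI a b v := by
      simp only [stripLeftKI]
      exact mul_pos (by linarith) (by linarith)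
    have e : stripSevLeft a b (67 / 100) v H =
        67 / 100 * (stripTop a b (67 / 100) v H + 62733 / 10000000 * stripLeftKI a b v) := by
      simp only [stripSevLeft, stripSevLeftX, stripSevLeftG, stripTop, stripTopG, stripLeftKI]
      ring
    rw [e]
    positivity
  · exact strip_sev_left_sign (sevPlace_of hb h7 h20 ha hP.u_pos hP.u_lt hP.toVRange) hu
      hP.flow_pos hE.1 hF

end Vale.Agent.P100.Calib.Band
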