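import Vale.Agent.P100.Calib.SlabStripMidSevExpr
import Vale.Agent.P100.Calib.SlabStripSevFlow
import Vale.Agent.P100.Calib.SlabStripSevLow
import Vale.Agent.P100.Calib.SlabStripSevLeftExit

/-!
# The bands at a point of a piece for `N` between seven and twenty

The values of the numerators, and what they say of the window of `v`, of the Flow and of the flow
through the tight band.
-/

set_option linter.unusedVariables false

namespace Vale.Agent.P100.Calib.StripMid

open Pack Band
open Bubble (HasGrad)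

/-- The numerator of the upper band, lowered from `u = 9/20` on. -/
noncomputable def tightN (a b u v : ℝ) : ℝ :=
  stripSevN a b u v -
    allStabI a b * ((1 - 3 * (b - a)) * ((u - 9 / 20) * (100 + 300 * (u - 9 / 20))))

/-- Its derivative in `u`. -/
noncomputable def tightNu (a b u v : ℝ) : ℝ :=
  stripSevNu a b u v - allStabI a b * ((1 - 3 * (b - a)) * (100 + 600 * (u - 9 / 20)))

/-- The coefficient of `v` in the band. -/
def tightK (a b u : ℝ) : ℝ := 100 * b - a * (u * (130 - 80 * u))

/-- The band function. -/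
noncomputable def stripTight7 (a b u v H : ℝ) : ℝ := tightN a b u v - H * (100 * (b - u * a))

/-- The numerator of either band. -/
noncomputable def bandN (t : Bool) (a b u v : ℝ) : ℝ :=
  cond t (tightN a b u v) (stripSevN a b u v)

/-- The exit band of a side. -/
noncomputable def exitBand (top : Bool) (a b u v H : ℝ) : ℝ :=
  cond top (stripTop a b u v H) (stripSevLeft a b u v H)

/-- A point in the variables of a piece. -/
structure SevAt (K : Kind) (y : ℕ → ℝ) (a b u v : ℝ) : Prop where
  hI : (kI K).eval y = allStabI a b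
  hd : (kD K).eval y = b - a
  hA : (kA K).eval y = 2 * a
  hB : (kB K).eval y = 2 * b
  hS : (kS K).eval y = a + b
  hu : y 3 = u
  he : (uE K).eval y = 1 - 2 * a * u
  hV : (uV K).eval y = v * (1 - 2 * a * u)

variable {K : Kind} {y : ℕ → ℝ} {a b u v : ℝ}

local instance sevBandsAdd : Add Ex := ⟨Ex.add⟩
local instance sevBandsSub : Sub Ex := ⟨Ex.sub⟩
local instance sevBandsMul : Mul Ex := ⟨Ex.mul⟩

theorem sev_add (e f : Ex) : (e + f).eval y = e.eval y + f.eval y := rfl

theorem sev_sub (e f : Ex) : (e - f).eval y = e.eval y - f.eval y := rfl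

theorem sev_mul (e f : Ex) : (e * f).eval y = e.eval y * f.eval y := rfl

theorem sev_eval_uQ (h : SevAt K y a b u v) :
    (uQ K).eval y = (1 - 2 * a * u) * (1 + (b - a) * v) := by
  simp only [uQ, sev_add, sev_mul, h.he, h.hd, h.hV]
  ring

theorem sev_eval_uP (h : SevAt K y a b u v) :
    (uP K).eval y = (1 - 2 * a * u) * (2 + (b - a) * v) := by
  simp only [uP, sev_add, sev_mul, Ex.eval, h.he, h.hd, h.hV]
  push_cast; ring

theorem sev_eval_sK1 (h : SevAt K y a b u v) :
    (sK1 K).eval y = 2 * (1 - 2 * a * u) * (1 - a * v) := by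
  simp only [sK1, sev_sub, sev_mul, Ex.eval, h.he, h.hA, h.hV]
  push_cast; ring

theorem sev_eval_sQn (h : SevAt K y a b u v) :
    (sQn K).eval y = 2 * (1 - 2 * a * u) * allQn a b u v := by
  simp only [sQn, sev_sub, sev_mul, Ex.eval, h.hB, h.hS, h.hu, sev_eval_uP h, sev_eval_uQ h, allQn]
  push_cast; ring

/-- The coefficient of `H` in the Flow less `z I Den`. -/
noncomputable def flowF (a b u v z : ℝ) : ℝ :=
  allQn a b u v + (a + b) * ((1 - a * v) * (u * (b - a))) + z * (allStabI a b * (u * (b - a)))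

theorem sev_eval_sF1 (h : SevAt K y a b u v) (p q : ℤ) (hq : (q : ℝ) ≠ 0) :
    (sF1 K p q).eval y = 2 * (1 - 2 * a * u) * q * flowF a b u v ((p : ℝ) / q) := by
  simp only [sF1, sev_add, sev_mul, Ex.eval, h.hS, h.hu, h.hd, h.hI, h.he, sev_eval_sQn h,
    sev_eval_sK1 h, flowF]
  field_simp
  push_cast; ring

theorem sev_eval_sR1 (h : SevAt K y a b u v) (p q : ℤ) (hq : (q : ℝ) ≠ 0) :
    (sR1 K p q).eval y = 2 * (1 - 2 * a * u) ^ 2 * q *
      (((a + b) * (1 - a * v) + (p : ℝ) / q * allStabI a b) * (2 + (b - a) * v)) := by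
  simp only [sR1, sev_add, sev_mul, Ex.eval, h.hS, h.hI, h.he, sev_eval_sK1 h, sev_eval_uP h]
  field_simp
  push_cast; ring

theorem flow_lin (a b u v H z : ℝ) :
    allFlow a b u v H - z * (allStabI a b * allDen a b u v H) = flowF a b u v z * H -
      ((a + b) * (1 - a * v) + z * allStabI a b) * (2 + (b - a) * v) := by
  simp only [allFlow, allDen, flowF]; ring

theorem sev_eval_sW (h : SevAt K y a b u v) : (sW K).eval y = 100 * (b - u * a) := by
  simp only [sW, sev_sub, sev_mul, Ex.eval, h.hA, h.hB, h.hu]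
  push_cast; ring

theorem sev_eval_sN (h : SevAt K y a b u v) (t : Bool) :
    (sN K t).eval y = 4 * (1 - 2 * a * u) * bandN t a b u v := by
  cases t <;>
  · simp only [sN, sPsi, sDel, sT, sP0, sP1, sP2, sKv, cond_true, cond_false, sev_add, sev_sub,
      sev_mul, Ex.eval, h.hA, h.hB, h.hu, h.hd, h.hI, h.he, h.hV, bandN, tightN, stripSevN,
      stripUpP0, stripUpP1, stripUpP2]
    push_cast; ring

theorem sev_eval_sPe (h : SevAt K y a b u v) :
    (sPe K).eval y = 2 * (1 - 2 * a * u) * (b - a * ((1 + (b - a) * v) * u)) := by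
  simp only [sPe, sev_sub, sev_mul, Ex.eval, h.hA, h.hB, h.hu, h.he, sev_eval_uQ h]
  ring

theorem sev_eval_exit (h : SevAt K y a b u v) (top : Bool) (H : ℝ) :
    (sExM K top).eval y - H * ((1 - 2 * a * u) * (sExD K top).eval y) =
      cond top 80 160000 * (1 - 2 * a * u) ^ 2 * exitBand top a b u v H := by
  cases top <;>
  · simp only [sExM, sExD, sLeftM, sM, sKI, cond_true, cond_false, sev_add, sev_sub, sev_mul,
      Ex.eval, h.hA, h.hB, h.hS, h.hu, h.hd, h.hI, h.he, h.hV, sev_eval_sK1 h, sev_eval_uQ h, sev_eval_sPe h,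
      exitBand, stripTop, stripTopG, stripSevLeft, stripSevLeftX, stripSevLeftG, stripLeftKI,
      stripSevLeftC]
    push_cast; ring

theorem sev_eval_low (h : SevAt K y a b u v) (H : ℝ) :
    H * ((1 - 2 * a * u) * (40 * (sPe K).eval y)) - (sLowM K).eval y =
      80 * (1 - 2 * a * u) ^ 2 * stripSevLow a b u v H := by
  simp only [sLowM, sKI, sev_add, sev_sub, sev_mul, Ex.eval, h.hS, h.hu, h.hd, h.hI, h.he, h.hV,
    sev_eval_sK1 h, sev_eval_uQ h, sev_eval_sPe h, stripSevLow, stripSevG]
  push_cast; ring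

theorem sev_eval_sPos (h : SevAt K y a b u v) :
    (sPos K).eval y = allStabI a b * (b - a) * (1 - 2 * a * u) := by
  simp only [sPos, sev_mul, h.hI, h.hd, h.he]

/-- What a point gives. -/
structure SevPos (a b u v : ℝ) : Prop where
  I : 0 < allStabI a b
  d : 0 < b - a
  e : 0 < 1 - 2 * a * u
  P : 0 < b - a * ((1 + (b - a) * v) * u)
  W : 0 < b - u * a
  f : 0 < allQn a b u v + (a + b) * ((1 - a * v) * (u * (b - a)))

theorem sevPos_of (h : SevPlace a b u v) : SevPos a b u v := by
  obtain ⟨hP, -, hf⟩ := strip_sev_pos h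
  have he : 0 < 1 - 2 * a * u := by
    have h1 : a < 1 / 2 := by
      have := h.I_gt
      have := h.d_pos
      simp only [allStabI] at *
      linarith
    have := mul_le_mul_of_nonneg_right h1.le h.u_pos.le
    linarith [h.u_lt]
  have hd := h.d_pos
  have hu := h.u_lt
  have hu0 := h.u_pos
  have ha : 0 < a := by linarith [h.a_gt]
  refine ⟨by linarith [h.I_gt], hd, he, ?_, ?_, ?_⟩
  · simp only [stripAt, StripAtoms.P, StripAtoms.qu, StripAtoms.q, StripAtoms.u] at hP
    linarith
  · have := mul_le_mul_of_nonneg_right hu.le ha.le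
    linarith
  · simp only [stripAt, StripAtoms.f0, StripAtoms.qn, StripAtoms.D0, StripAtoms.qu, StripAtoms.q,
      StripAtoms.ud, StripAtoms.u] at hf
    simp only [allQn]
    linarith

theorem flowF_pos (hp : SevPos a b u v) (hu : 0 ≤ u) {z : ℝ} (hz : 0 ≤ z) :
    0 < flowF a b u v z := by
  have := mul_nonneg hz (mul_nonneg hp.I.le (mul_nonneg hu hp.d.le))
  have := hp.f
  simp only [flowF]; linarith

/-- Below the upper band the lower one fails. -/
theorem cross_false (h : SevAt K y a b u v) (hp : SevPos a b u v) {t : Bool} {H : ℝ}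
    (hc : 0 ≤ (sCross K t).eval y) (hN : H * (100 * (b - u * a)) ≤ bandN t a b u v)
    (hl : 0 ≤ stripSevLow a b u v H) : False := by
  have hpos : 0 < (sPos K).eval y := by
    rw [sev_eval_sPos h]; exact mul_pos (mul_pos hp.I hp.d) hp.e
  simp only [sCross, sev_sub, sev_mul, Ex.eval] at hc
  push_cast at hc
  rw [sev_eval_sW h, sev_eval_sN h, sev_eval_sPe h] at hc
  have e := sev_eval_low h H
  rw [sev_eval_sPe h] at e
  have he := hp.e
  have h1 : (sLowM K).eval y ≤
      H * ((1 - 2 * a * u) * (40 * (2 * (1 - 2 * a * u) * (b - a * ((1 + (b - a) * v) * u))))) := by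
    have := mul_nonneg (show (0 : ℝ) ≤ 80 * (1 - 2 * a * u) ^ 2 by positivity) hl
    linarith
  have h2 := mul_le_mul_of_nonneg_left h1
    (show (0 : ℝ) ≤ 4 * (100 * (b - u * a)) by linarith [hp.W])
  have h3 := mul_le_mul_of_nonneg_left hN
    (show (0 : ℝ) ≤ 320 * (1 - 2 * a * u) ^ 2 * (b - a * ((1 + (b - a) * v) * u)) by
      have := hp.P; positivity)
  have h4 := pow_pos hpos 2
  linarith

/-- A bound of the Flow from an upper bound of `H`. -/
theorem flow_le_of (h : SevAt K y a b u v) (hp : SevPos a b u v) (hu : 0 ≤ u) {p q : ℤ}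
    (hp0 : 0 ≤ p) (hq : 0 < q) {H M D : ℝ} (hD : 0 < D) (hH : H * ((1 - 2 * a * u) * D) ≤ M)
    (hc : 0 ≤ D * (sR1 K p q).eval y - (sF1 K p q).eval y * M) :
    allFlow a b u v H ≤ (p : ℝ) / q * (allStabI a b * allDen a b u v H) := by
  have hqr : (0 : ℝ) < q := by exact_mod_cast hq
  have hz : (0 : ℝ) ≤ (p : ℝ) / q := div_nonneg (by exact_mod_cast hp0) hqr.le
  rw [sev_eval_sR1 h p q hqr.ne', sev_eval_sF1 h p q hqr.ne'] at hc
  have hF := flowF_pos hp hu hz
  have he := hp.e
  have e := flow_lin a b u v H ((p : ℝ) / q)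
  obtain ⟨f, hf⟩ : ∃ f, f = flowF a b u v ((p : ℝ) / q) := ⟨_, rfl⟩
  obtain ⟨R, hR⟩ : ∃ R, R = ((a + b) * (1 - a * v) + (p : ℝ) / q * allStabI a b) *
      (2 + (b - a) * v) := ⟨_, rfl⟩
  rw [← hf, ← hR] at hc e
  rw [← hf] at hF
  have h1 := mul_le_mul_of_nonneg_left hH
    (show (0 : ℝ) ≤ 2 * (1 - 2 * a * u) * q * f by positivity)
  have h2 : 0 ≤ (2 * (1 - 2 * a * u) ^ 2 * q * D) * (R - f * H) := by linarith
  linarith [nonneg_of_mul_nonneg_right h2 (by positivity)]

theorem exD_pos (h : SevAt K y a b u v) (hp : SevPos a b u v) (hu : 0 < u) (top : Bool) :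
    0 < (sExD K top).eval y := by
  have he := hp.e
  have hP := hp.P
  cases top <;>
  · simp only [sExD, cond_true, cond_false, sev_mul, Ex.eval, h.hu, sev_eval_sPe h]
    push_cast; positivity

/-- An exit band bounds `H`. -/
theorem exit_le (h : SevAt K y a b u v) {top : Bool} {H : ℝ}
    (hX : 0 ≤ exitBand top a b u v H) :
    H * ((1 - 2 * a * u) * (sExD K top).eval y) ≤ (sExM K top).eval y := by
  have := sev_eval_exit h top H
  have hk : 0 ≤ cond top (80 : ℝ) 160000 := by cases top <;> norm_num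
  have := mul_nonneg (mul_nonneg hk (sq_nonneg (1 - 2 * a * u))) hX
  linarith

/-- The Flow is not positive below an exit band. -/
theorem exit_false (h : SevAt K y a b u v) (hp : SevPos a b u v) (hu : 0 < u) {top : Bool} {H : ℝ}
    (hc : 0 ≤ (sExit K top).eval y) (hX : 0 ≤ exitBand top a b u v H)
    (hfl : 0 < allFlow a b u v H) : False := by
  have := flow_le_of h hp hu.le (p := 0) (q := 1) le_rfl one_pos (exD_pos h hp hu top)
    (exit_le h hX) (by simpa only [sExit, sev_sub, sev_mul] using hc)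
  simp only [Int.cast_zero, zero_div, zero_mul] at this
  linarith

/-- The Flow below both bands. -/
theorem mix_le (h : SevAt K y a b u v) (hp : SevPos a b u v) (hu : 0 < u) {t top : Bool}
    {m : ℤ × ℤ} {p q : ℤ} (hp0 : 0 ≤ p) (hq : 0 < q) {H : ℝ}
    (hm0 : 0 ≤ (m.1 : ℝ) + m.2 * u) (hm1 : (m.1 : ℝ) + m.2 * u ≤ 100)
    (hc : 0 ≤ (sMix K t top m p q).eval y)
    (hN : H * (100 * (b - u * a)) ≤ bandN t a b u v) (hX : 0 ≤ exitBand top a b u v H) :
    allFlow a b u v H ≤ (p : ℝ) / q * (allStabI a b * allDen a b u v H) := by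
  have hD := exD_pos h hp hu top
  have hW : 0 < 4 * (sW K).eval y := by rw [sev_eval_sW h]; linarith [hp.W]
  have h1 := exit_le h hX
  have h2 : H * ((1 - 2 * a * u) * (4 * (sW K).eval y)) ≤ (sN K t).eval y := by
    rw [sev_eval_sW h, sev_eval_sN h]
    have := mul_le_mul_of_nonneg_left hN (show (0 : ℝ) ≤ 4 * (1 - 2 * a * u) by linarith [hp.e])
    linarith
  simp only [sMix, sLam, sev_sub, sev_add, sev_mul, Ex.eval, h.hu] at hc
  push_cast at hc
  obtain ⟨l, hl⟩ : ∃ l, l = (m.1 : ℝ) + m.2 * u := ⟨_, rfl⟩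
  rw [← hl] at hc hm0 hm1
  refine flow_le_of h hp hu.le hp0 hq (D := 100 * (4 * (sW K).eval y) * (sExD K top).eval y)
    (M := l * (sN K t).eval y * (sExD K top).eval y +
      (100 - l) * (4 * (sW K).eval y) * (sExM K top).eval y) (by positivity) ?_ hc
  have h3 := mul_le_mul_of_nonneg_left h2 (mul_nonneg hm0 hD.le)
  have h4 := mul_le_mul_of_nonneg_left h1 (mul_nonneg (sub_nonneg.2 hm1) hW.le)
  linarith

/-- The flow through the tight band. -/
theorem band_dot (h : SevAt K y a b u v) (hp : SevPos a b u v) {H : ℝ}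
    (hc : 0 ≤ (sBand K).eval y) (hF : stripTight7 a b u v H = 0) :
    0 < allDot a b u v H (tightNu a b u v + H * (100 * a)) (tightK a b u)
      (-(100 * (b - u * a))) := by
  have hpos : 0 < (sPos K).eval y := by
    rw [sev_eval_sPos h]; exact mul_pos (mul_pos hp.I hp.d) hp.e
  simp only [stripTight7, sub_eq_zero] at hF
  have eN : (sN K true).eval y = 4 * (1 - 2 * a * u) * (H * (100 * (b - u * a))) := by
    rw [sev_eval_sN h, bandN, cond_true, hF]
  have eNu : (sNu K).eval y = 4 * (1 - 2 * a * u) * tightNu a b u v := by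
    simp only [sNu, sT, sP1, sP2, sev_add, sev_sub, sev_mul, Ex.eval, h.hA, h.hu, h.hd, h.hI,
      h.he, h.hV, tightNu, stripSevNu, stripUpP1, stripUpP2]
    push_cast; ring
  have eK : (sKv K).eval y = tightK a b u := by
    simp only [sKv, sev_sub, sev_mul, Ex.eval, h.hA, h.hB, h.hu, tightK]
    push_cast; ring
  have e : (sDot K).eval y = 2 * (1 - 2 * a * u) *
      (4 * (1 - 2 * a * u) * (100 * (b - u * a))) ^ 2 *
      allDot a b u v H (tightNu a b u v + H * (100 * a)) (tightK a b u)
        (-(100 * (b - u * a))) := by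
    simp only [sDot, sFh, sFl, sEn, sOm, sDen, sev_add, sev_sub, sev_mul, Ex.eval, h.hA, h.hB,
      h.hS, h.hu, h.hd, h.he, h.hV, sev_eval_sW h, sev_eval_uP h, sev_eval_uQ h, sev_eval_sQn h, sev_eval_sK1 h, eN,
      eNu, eK, allDot, allEn, allFlow, allFh, allDen]
    push_cast; ring
  simp only [sBand, sev_sub, sev_mul, Ex.eval] at hc
  push_cast at hc
  rw [e] at hc
  have h4 := pow_pos hpos 4
  refine pos_of_mul_pos_right (a := 2 * (1 - 2 * a * u) *
    (4 * (1 - 2 * a * u) * (100 * (b - u * a))) ^ 2) ?_ ?_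
  · linarith
  · have := hp.e; positivity

theorem hasGrad_stripTight7 (a b : ℝ) :
    HasGrad (fun u v H => stripTight7 a b u v H)
      (fun u v H => tightNu a b u v + H * (100 * a)) (fun u _ _ => tightK a b u)
      (fun u _ _ => -(100 * (b - u * a))) := by
  intro u v H du dv dh t hu hv hh
  simp only [stripTight7, tightN, tightNu, tightK, stripSevN, stripSevNu, stripUpP0, stripUpP1,
    stripUpP2]
  set I := allStabI a b
  have hw := hu.sub_const (9 / 20)
  have h1 := (((hu.fun_mul ((hu.const_mul 80).const_sub 130)).const_mul a).const_sub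
    (100 * b)).fun_mul hv
  have h2 := ((hu.fun_mul hu).const_mul 60).const_add
    (8980 * a - 1503 - 13330 * (a * a) + I * (4840 - 15870 * a + 1947 * (a * a)))
  have h3 := (hu.fun_mul ((hu.fun_mul h2).const_add
    (464 - 1676 * a + 1565 * (a * a) + I * (5790 * a + 1661 * (a * a) - 2620)))).const_add
    (653 * I + 189 * (a * I) - 828 * (I * I) - 398 + 3)
  have h4 := ((hw.fun_mul ((hw.const_mul 300).const_add 100)).const_mul
    (1 - 3 * (b - a))).const_mul I
  refine ((((h1.const_add 100).fun_add (h3.const_mul I)).fun_sub h4).fun_sub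
    (hh.fun_mul (((hu.mul_const a).const_sub b).const_mul 100))).congr_deriv ?_
  ring

theorem continuous_stripTight7 (a b : ℝ) :
    Continuous fun w : ℝ × ℝ × ℝ => stripTight7 a b w.1 w.2.1 w.2.2 := by
  unfold stripTight7 tightN stripSevN; fun_prop

end Vale.Agent.P100.Calib.StripMid
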