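import Vale.Agent.P100.Calib.SlabStripMidChart

/-!
# The signs in the chart from the checks of a piece, up to `I = 1/7`

The Flow is below `z S (1 + 20 I / 9) I Den`, `z` that of the piece.
-/

set_option linter.unusedVariables false

namespace Vale.Agent.P100.Calib.StripMid

open Pack

/-- What holds at an orbit point for a piece. -/
structure PlaceSev (P : Piece) (B : Box) (d S u v t : ℝ) : Prop where
  facts : Closed.All.ChartFacts d S u v t
  d_pos : 0 < d
  I_pos : S < 1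
  I_ge : 1 / 20 ≤ (1 - S) / 2
  I_le : (1 - S) / 2 ≤ 1 / 7
  a_low : 31 / 100 < (S - d) / 2
  cy : ∃ c Y, InR B.qc c ∧ InR B.qY Y ∧ v = (1 - S) * (1 + Y) ∧
    Y * (1 - (S - d) * u) = c * ((S - d) * u)
  r₀ : InR B.q₀ (mkPt P.kind d ((1 - S) / 2) 0 u 0)
  r₁ : InR B.q₁ (mkPt P.kind d ((1 - S) / 2) 0 u 1)
  ru : InU B.qu u
  kap : match P.kind with
    | .A => d * (1 - (1 - S) / 2) ≤ S * ((1 - S) / 2)
    | _ => S * ((1 - S) / 2) ≤ d * (1 - (1 - S) / 2)
  lin : fr P.k₁ * ((1 - S) / 2) ≤ 4 / 25 * fr P.g₀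
  flow : Band.allFlow ((S - d) / 2) ((S + d) / 2) u v (Closed.chH d S u v t) ≤
    fr P.z * S * (1 + 20 / 9 * ((1 - S) / 2)) * ((1 - S) / 2 * Band.allDen ((S - d) / 2) ((S + d) / 2) u v (Closed.chH d S u v t))

/-- `D2 d` is that of the chart. -/
theorem kap_eq_sev {P : Piece} {x : ℕ → ℝ} (h : Good P x) (hI : xI P x ≤ 1 / 7)
    (hk : match P.kind with
      | .A => xd P x * (1 - xI P x) ≤ (kS P.kind).eval x * xI P x
      | _ => (kS P.kind).eval x * xI P x ≤ xd P x * (1 - xI P x)) :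
    (AllN.kapAll (1 / xI P x) (xa P x) + 1) / xd P x = kap P x := by
  have hI0 := h.I
  have hd := h.d
  have hS := h.S
  have eS := eval_kS (P := P) (x := x)
  have eA := eval_kA' (P := P) (x := x)
  have e1 : 2 * (1 / xI P x * xa P x) * (1 / xI P x - 1) / (1 / xI P x - 2) ^ 2 =
      2 * xa P x * (1 - xI P x) / (kS P.kind).eval x ^ 2 := by
    rw [eS] at hS ⊢
    field_simp
  have e2 : -1 + 1 = (0 : ℝ) := by norm_num
  have e3 : -(2 * xa P x * (1 - xI P x) / (kS P.kind).eval x ^ 2) + 1 =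
      (xd P x * (1 - xI P x) - (kS P.kind).eval x * xI P x) / (kS P.kind).eval x ^ 2 := by
    field_simp
    rw [eS, show 2 * xa P x = 1 - 2 * xI P x - xd P x by linarith]
    ring
  rw [AllN.kapAll, e1, ← max_add_add_right, e2, e3]
  unfold kap
  rcases hK : P.kind with _ | _ | _ <;> simp only [hK] at hk hS ⊢
  · rw [max_eq_left (div_nonpos_of_nonpos_of_nonneg (by linarith) (sq_nonneg _)), zero_div]
  · rw [max_eq_right (div_nonneg (by linarith) (sq_nonneg _))]
    have e0 : xd P x = x 0 := by unfold xd; rw [hK]; rfl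
    have e0' : xI P x = x 1 * x 0 := by unfold xI; rw [hK]; rfl
    rw [e0] at hd ⊢
    rw [e0']
    field_simp
  · rw [max_eq_right (div_nonneg (by linarith) (sq_nonneg _))]
    field_simp

/-- The ends of the window of the Flow from `I = 1/20` on. -/
theorem sev_ends {P : Piece} {x : ℕ → ℝ} {I a v C D : ℝ} (hz : 0 ≤ P.z.1) (hI : 1 / 20 ≤ I)
    (eS : (kS P.kind).eval x = 1 - 2 * I) (eI : xI P x = I) (ev : xv P x = v) (ea : xa P x = a)
    (hD : 0 < D)
    (h : (C - (1 - 2 * I) * (1 - a * v)) * D ≤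
      fr P.z * (1 - 2 * I) * (1 + 20 / 9 * I) * (I * D)) :
    C ≤ cEnd P x true ∧ 4 * C ≤ (kS P.kind).eval x * pEnd P x true := by
  have hz0 : 0 ≤ fr P.z := div_nonneg (by exact_mod_cast hz) (Nat.cast_nonneg _)
  have h' : C - (1 - 2 * I) * (1 - a * v) ≤ fr P.z * (1 - 2 * I) * (1 + 20 / 9 * I) * I :=
    le_of_mul_le_mul_right (by linarith) hD
  have h0 : 0 ≤ fr P.z * I * (I * (20 * I - 1)) :=
    mul_nonneg (mul_nonneg hz0 (by linarith)) (mul_nonneg (by linarith) (by linarith))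
  simp only [cEnd, pEnd, cond_true, eS, eI, ev, ea]
  constructor <;> linarith

/-- The fields at a point of a piece. -/
theorem sev_fields {P : Piece} {x : ℕ → ℝ} {d I u v t a b H Den C : ℝ} (eI : xI P x = I)
    (ea : xa P x = (1 - 2 * I - d) / 2) (ed : xd P x = d) (ev' : xv P x = v)
    (eS : (kS P.kind).eval x = 1 - 2 * I) (e3 : x 3 = u) (ha' : a = (1 - 2 * I - d) / 2)
    (hb' : b = (1 - 2 * I + d) / 2) (hH : H = Closed.chH d (1 - 2 * I) u v t)
    (hC : C = Band.allQn a b u v * H / Den) (hd : 0 < d) (hI0 : 0 < I) (hu0 : 0 < u) (hP0 : 0 < 2 + d * v)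
    (hS' : 0 < 1 - 2 * I) (hb0 : 0 < b) (hDen0 : 0 < Den)
    (eg : Closed.chG d (1 - 2 * I) u v t = 2 * Band.allQn a b u v / (I * b * Den))
    (eD : wD a d v (1 - 2 * I) u C = Band.allQn a b u v * (2 + d * v) / Den) :
    Fields P x C (Closed.chG d (1 - 2 * I) u v t) (Closed.chW d (1 - 2 * I) u v t)
      (Closed.chW1 d (1 - 2 * I) u v t) (Closed.chR (1 - 2 * I) u) := by
  have eab : a + d = b := by linarith
  have hS2 : 0 < 2 - (1 - 2 * I) := by linarith
  refine ⟨?_, ?_, ?_, ?_⟩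
  · rw [eI, ea, ed, ev', eS, e3, ← ha', eD, eg, eab]
    field_simp
  · rw [ea, ed, eS, ← ha', eg, eab, Closed.chW, ← hH, hC]
    field_simp
    ring
  · rw [eS, e3, eI, Closed.chR]; ring
  · have et : t = (H - (1 - 2 * I) * (1 + (1 - a) * v) / (b * (2 - (1 - 2 * I)))) / u := by
      rw [hH, Closed.chH, ← ha', ← hb']; field_simp; ring
    rw [ea, ed, ev', eS, e3, ← ha', eg, eab, Closed.chW1, ← hH, ← ha', ← hb', wN, eD, eab, hC, et]
    field_simp
    ring

/-- **The signs in the chart from the checks of a piece.** -/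
theorem chartSigns_of_cert_sev {n : ℕ} {P : Piece} {B : Box} {rect : Bool} (K : Cert P B rect)
    {d S u v t : ℝ} (hcb : Closed.All.ChartBox n d S) (hp : PlaceSev P B d S u v t) :
    Closed.Strip.ChartSigns d S u v t := by
  obtain ⟨hf, hd, hS1, hI20, hI, ha, ⟨c, Y, hc, hY, hv, hrel⟩, h0, h1, hu, hk, hlin, hfl⟩ := hp
  have hS0 : (5 : ℝ) / 7 ≤ S := by linarith
  obtain ⟨I, hIe⟩ : ∃ I, I = (1 - S) / 2 := ⟨_, rfl⟩
  obtain rfl : S = 1 - 2 * I := by linarith
  have hI0 : 0 < I := by linarith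
  simp only [← hIe] at h0 h1 hk hI hI20 hlin hfl
  obtain ⟨x, hx⟩ : ∃ x, x = mkPt P.kind d I Y u := ⟨_, rfl⟩
  obtain ⟨y, hy⟩ : ∃ y, y = mkPt P.kind d I c u := ⟨_, rfl⟩
  obtain ⟨ed, eI, ev, eS, ea⟩ := mkPt_coords (P := P) (Y := Y) (u := u) hd.ne' hI0.ne'
  rw [← hx] at ed eI ev eS ea
  have ev' : xv P x = v := by rw [ev, hv]; ring
  have e3 : x 3 = u := by rw [hx]; rfl
  have e0 : x 0 = mkPt P.kind d I 0 u 0 := by rw [hx]; rfl
  have e1 : x 1 = mkPt P.kind d I 0 u 1 := by rw [hx]; rfl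
  have hv0 : 0 < v := by
    have := hf.v_crit
    have : 0 < 2 + (1 - 2 * I - d) * (1 - (1 - 2 * I)) := by nlinarith [ha, hI0]
    nlinarith
  have hea : xa P x = (1 - 2 * I - d) / 2 := ea
  have hG : Good P x := ⟨by rw [eI]; exact hI0, by rw [ed]; exact hd, by rw [ea]; linarith,
    by rw [ev']; exact hv0, by rw [eS]; linarith⟩
  have he : 0 < 1 - 2 * xa P x * x 3 := by
    rw [ea, e3]
    nlinarith [hf.u_lt, hf.u_pos, hd]
  have hT : Twin P x y := by
    refine ⟨by rw [hx, hy]; rfl, by rw [hx, hy]; rfl, by rw [hx, hy]; rfl,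
      by rw [e3]; exact hf.u_pos, he, ?_⟩
    rw [ev', eI, ea, e3, hy]
    show v * _ = 2 * I * (_ + c * _)
    rw [hv]
    linear_combination 2 * I * hrel
  have hvC : ∀ i < 4, ∃ s : ℝ, 0 ≤ s ∧ 0 < ((B.vC i).c : ℝ) + (B.vC i).d * s ∧
      ((B.vC i).a : ℝ) + (B.vC i).b * s = x i * (((B.vC i).c : ℝ) + (B.vC i).d * s) := by
    intro i hi
    interval_cases i
    · exact e0 ▸ side_mem h0
    · exact e1 ▸ side_mem h1
    · rw [hx]; exact side_mem hY
    · rw [e3]
      have h10 : 0 < 1 - u := sub_pos.2 hf.u_lt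
      refine ⟨u / (1 - u), div_nonneg hf.u_pos.le h10.le, ?_, ?_⟩
      · show (0 : ℝ) < ((1 : ℤ) : ℝ) + ((1 : ℤ) : ℝ) * _
        have := div_nonneg hf.u_pos.le h10.le
        push_cast; linarith
      · show ((0 : ℤ) : ℝ) + ((1 : ℤ) : ℝ) * _ = u * (((1 : ℤ) : ℝ) + ((1 : ℤ) : ℝ) * _)
        push_cast; field_simp; ring
  have hcC : ∀ i < 4, ∃ s : ℝ, 0 ≤ s ∧ 0 < ((B.cC i).c : ℝ) + (B.cC i).d * s ∧
      ((B.cC i).a : ℝ) + (B.cC i).b * s = y i * (((B.cC i).c : ℝ) + (B.cC i).d * s) := by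
    intro i hi
    rw [hy]
    interval_cases i
    · exact side_mem h0
    · exact side_mem h1
    · exact side_mem hc
    · exact sideUp_mem hu
  have hchk : Checks P x := ⟨fun p l => (K.gX p l).nonneg hvC, fun p l => (K.gMG p l).nonneg hvC,
    fun p l => (K.g1 p l).nonneg hvC, fun s p t => (K.g2 s p t).nonneg hvC,
    fun s p l t => (K.g3 s p l t).nonneg hvC, K.cMG.nonneg hvC, fun s => (K.c2 s).nonneg hvC,
    fun s => (K.c3 s).nonneg hvC, fun p => (K.sT p).nonneg hvC⟩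
  have hgap : ∀ ze w, 0 ≤ gapFun P x (cEnd P x ze) (tEnd P x w) := by
    intro ze w
    cases rect
    · refine gap_end K.pos.toPos2 hG he false ze w hT.h0 hT.h1 hT.h3 hT.uE hT.uV
        ((K.gap ze w).nonneg fun i hi => ?_)
      interval_cases i
      · exact hcC 0 (by norm_num)
      · exact hcC 1 (by norm_num)
      · exact hcC 2 (by norm_num)
      · exact hcC 3 (by norm_num)
    · refine gap_end K.pos.toPos2 hG one_pos true ze w rfl rfl rfl (by simp [Ex.eval])
        (by rw [mul_one]; rfl) ((K.gap ze w).nonneg fun i hi => ?_)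
      interval_cases i
      · exact hvC 0 (by norm_num)
      · exact hvC 1 (by norm_num)
      · exact hvC 2 (by norm_num)
      · rw [e3]; exact sideUp_mem hu
  obtain ⟨H, hH⟩ : ∃ H, H = Closed.chH d (1 - 2 * I) u v t := ⟨_, rfl⟩
  rw [← hH] at hfl
  have hH0 : 0 < H := hH ▸ hf.H_pos
  have hdr := hf.drift
  obtain ⟨a, ha'⟩ : ∃ a, a = (1 - 2 * I - d) / 2 := ⟨_, rfl⟩
  obtain ⟨b, hb'⟩ : ∃ b, b = (1 - 2 * I + d) / 2 := ⟨_, rfl⟩
  simp only [← ha', ← hb'] at hfl ha hdr
  have hb0 : 0 < b := by linarith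
  obtain ⟨Den, hDen⟩ : ∃ D, D = Band.allDen a b u v H := ⟨_, rfl⟩
  have hDen0 : 0 < Den := by
    rw [hDen, Band.allDen, show b - a = d by linarith]
    have h1 : u * (d * H) ≤ 1 * (d * H) :=
      mul_le_mul_of_nonneg_right hf.u_lt.le (mul_pos hd hH0).le
    have h2 : d * H < 1 := hH ▸ hf.h_lt
    have := mul_pos hd hv0
    linarith
  obtain ⟨C, hC⟩ : ∃ C, C = Band.allQn a b u v * H / Den := ⟨_, rfl⟩
  have hflow : Band.allFlow a b u v H = (C - (1 - 2 * I) * (1 - a * v)) * Den := by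
    rw [hC, Band.allFlow, hDen, show a + b = 1 - 2 * I by linarith]
    rw [hDen] at hDen0
    field_simp
  rw [← hDen, hflow] at hfl
  obtain ⟨hC1, htop⟩ := sev_ends (x := x) (a := a) (v := v) (C := C) (I := I) (D := Den) K.pos.zn hI20 eS eI ev'
    (ea.trans ha'.symm) hDen0 (by linarith)
  have eg : Closed.chG d (1 - 2 * I) u v t = 2 * Band.allQn a b u v / (I * b * Den) := by
    rw [Closed.chG, ← hH, ← hb', hDen, Band.allDen, Band.allQn, show b - a = d by linarith,
      show a + b = 1 - 2 * I by linarith,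
      show 2 + d * v - d * u * H = 2 + d * v - u * (d * H) by ring]
    field_simp
    ring
  have hC0 : cEnd P x false ≤ C := by
    simp only [cEnd, cond_false, add_zero, eS, ev', ea, ← ha']
    rw [eg, ← hH] at hdr
    have e : 2 * Band.allQn a b u v / (I * b * Den) * H / 2 = C / (I * b) := by
      rw [hC]; field_simp
    rw [e, show (1 - (1 - 2 * I)) * b = 2 * (I * b) by ring, ← div_div,
      div_lt_div_iff_of_pos_right (by positivity)] at hdr
    linarith
  have hav : xa P x * xv P x < 1 := by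
    rw [ea, ev']; linarith [hf.r_lt]
  have hB := wBound_nonneg K.pos.toPos2 hT (fun ze b => (K.bnd ze b).nonneg hcC) hC0 hC1
  have hP0 : 0 < 2 + d * v := by positivity
  have eD : wD a d v (1 - 2 * I) u C = Band.allQn a b u v * (2 + d * v) / Den := by
    rw [eq_div_iff hDen0.ne', wD, hC]
    field_simp
    rw [hDen, Band.allDen, Band.allQn, show b - a = d by linarith,
      show a + b = 1 - 2 * I by linarith, show a + d = b by linarith]
    ring
  have eab : a + d = b := by linarith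
  have F := sev_fields eI ea ed ev' eS e3 ha' hb' hH hC hd hI0 hf.u_pos hP0 (by linarith) hb0 hDen0 eg eD
  have hk' : (AllN.kapAll (1 / xI P x) (xa P x) + 1) / xd P x = kap P x := by
    refine kap_eq_sev hG (by rw [eI]; exact hI) ?_
    rw [ed, eI, eS]
    exact hk
  have hab : (1 : ℝ) / 10 ≤ xa P x * (xa P x + xd P x) := by
    rw [ea, ed, ← ha', eab]
    have : 0 ≤ (a - 31 / 100) * (b - 31 / 100) :=
      mul_nonneg (by linarith) (by linarith)
    linarith
  have hs := signs_point_gen K.pos hG (by rw [eI]; exact hI) (by rw [eI]; exact hlin) htop hab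
    (by rw [e3]; exact hf.u_pos) hav hchk hC0 hC1 hB hgap F hk'
  rw [ea, ed, ev'] at hs
  refine Closed.Strip.ChartSigns.of_arrow hcb hv0 ?_ hs
  rw [eg]
  refine div_pos ?_ (by positivity)
  have hD := wD_pos K.pos hG (hB .g0)
  rw [ea, ed, ev', eS, e3, ← ha', eD] at hD
  have := pos_of_mul_pos_left (pos_of_mul_pos_left (by rwa [div_eq_mul_inv] at hD)
    (inv_nonneg.2 hDen0.le)) hP0.le
  linarith

end Vale.Agent.P100.Calib.StripMid
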