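import Vale.Agent.P100.Calib.SlabStripMidSevWindow

/-!
# The checks of piece 18 below 153/200 for `N` between seven and twenty
-/

set_option linter.defProp false

namespace Vale.Agent.P100.Calib.StripMid

open Pack

/-- The numbers of piece 18. -/
def pcS18 : Piece := ⟨.D, (27, 50), (69, 100), (61, 100), (17, 20), (279, 100), (79, 125), (997, 1000), (93, 100), (421, -825, 500), (931, -1050, 1000), 51, (101,-425,450,5), (209, 250), (157, 125), (9, 20), (2, 5), (3, 5)⟩

/-- The ranges of piece 18. -/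
def boxS18 : Box := ⟨(10, 27, 200), (22, 35, 200), (42, 335, 100), (85, 279, 100), (54, 69, 100)⟩

def grpS18_0 : ([bound pcS18 false .l0,
    bound pcS18 false .l1,
    bound pcS18 false .r,
    bound pcS18 true .l0,
    bound pcS18 true .l1,
    bound pcS18 true .r].all
    (checkFour (boxS18.cC) 259 13 9 2 3)) = true := by decide +kernel
def chkS18_0 : Chk (boxS18.cC) (bound pcS18 false .l0) :=
  ⟨259, 13, 9, 2, 3, List.all_eq_true.1 grpS18_0 _ (.head _)⟩
def chkS18_1 : Chk (boxS18.cC) (bound pcS18 false .l1) :=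
  ⟨259, 13, 9, 2, 3, List.all_eq_true.1 grpS18_0 _ (.tail _ (.head _))⟩
def chkS18_2 : Chk (boxS18.cC) (bound pcS18 false .r) :=
  ⟨259, 13, 9, 2, 3, List.all_eq_true.1 grpS18_0 _ (.tail _ (.tail _ (.head _)))⟩
def chkS18_9 : Chk (boxS18.cC) (bound pcS18 true .l0) :=
  ⟨259, 13, 9, 2, 3, List.all_eq_true.1 grpS18_0 _ (.tail _ (.tail _ (.tail _ (.head _))))⟩
def chkS18_10 : Chk (boxS18.cC) (bound pcS18 true .l1) :=
  ⟨259, 13, 9, 2, 3, List.all_eq_true.1 grpS18_0 _ (.tail _ (.tail _ (.tail _ (.tail _ (.head _)))))⟩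
def chkS18_11 : Chk (boxS18.cC) (bound pcS18 true .r) :=
  ⟨259, 13, 9, 2, 3, List.all_eq_true.1 grpS18_0 _ (.tail _ (.tail _ (.tail _ (.tail _ (.tail _ (.head _))))))⟩
def grpS18_1 : ([bound pcS18 false .g0,
    bound pcS18 false .g1,
    bound pcS18 true .g0,
    bound pcS18 true .g1].all
    (checkFour (boxS18.cC) 104 4 3 1 2)) = true := by decide +kernel
def chkS18_3 : Chk (boxS18.cC) (bound pcS18 false .g0) :=
  ⟨104, 4, 3, 1, 2, List.all_eq_true.1 grpS18_1 _ (.head _)⟩
def chkS18_4 : Chk (boxS18.cC) (bound pcS18 false .g1) :=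
  ⟨104, 4, 3, 1, 2, List.all_eq_true.1 grpS18_1 _ (.tail _ (.head _))⟩
def chkS18_12 : Chk (boxS18.cC) (bound pcS18 true .g0) :=
  ⟨104, 4, 3, 1, 2, List.all_eq_true.1 grpS18_1 _ (.tail _ (.tail _ (.head _)))⟩
def chkS18_13 : Chk (boxS18.cC) (bound pcS18 true .g1) :=
  ⟨104, 4, 3, 1, 2, List.all_eq_true.1 grpS18_1 _ (.tail _ (.tail _ (.tail _ (.head _))))⟩
def grpS18_2 : ([bound pcS18 false .t0,
    bound pcS18 false .t1,
    bound pcS18 true .t0,
    bound pcS18 true .t1].all
    (checkFour (boxS18.cC) 165 6 6 2 3)) = true := by decide +kernel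
def chkS18_5 : Chk (boxS18.cC) (bound pcS18 false .t0) :=
  ⟨165, 6, 6, 2, 3, List.all_eq_true.1 grpS18_2 _ (.head _)⟩
def chkS18_6 : Chk (boxS18.cC) (bound pcS18 false .t1) :=
  ⟨165, 6, 6, 2, 3, List.all_eq_true.1 grpS18_2 _ (.tail _ (.head _))⟩
def chkS18_14 : Chk (boxS18.cC) (bound pcS18 true .t0) :=
  ⟨165, 6, 6, 2, 3, List.all_eq_true.1 grpS18_2 _ (.tail _ (.tail _ (.head _)))⟩
def chkS18_15 : Chk (boxS18.cC) (bound pcS18 true .t1) :=
  ⟨165, 6, 6, 2, 3, List.all_eq_true.1 grpS18_2 _ (.tail _ (.tail _ (.tail _ (.head _))))⟩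
def grpS18_3 : ([bound pcS18 false .w0,
    bound pcS18 false .w1,
    bound pcS18 true .w0,
    bound pcS18 true .w1].all
    (checkFour (boxS18.cC) 221 10 7 3 4)) = true := by decide +kernel
def chkS18_7 : Chk (boxS18.cC) (bound pcS18 false .w0) :=
  ⟨221, 10, 7, 3, 4, List.all_eq_true.1 grpS18_3 _ (.head _)⟩
def chkS18_8 : Chk (boxS18.cC) (bound pcS18 false .w1) :=
  ⟨221, 10, 7, 3, 4, List.all_eq_true.1 grpS18_3 _ (.tail _ (.head _))⟩
def chkS18_16 : Chk (boxS18.cC) (bound pcS18 true .w0) :=
  ⟨221, 10, 7, 3, 4, List.all_eq_true.1 grpS18_3 _ (.tail _ (.tail _ (.head _)))⟩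
def chkS18_17 : Chk (boxS18.cC) (bound pcS18 true .w1) :=
  ⟨221, 10, 7, 3, 4, List.all_eq_true.1 grpS18_3 _ (.tail _ (.tail _ (.tail _ (.head _))))⟩
def grpS18_4 : ([subst (sub pcS18 ⟨false, false, true, true, false⟩) (condX),
    subst (sub pcS18 ⟨false, true, true, true, false⟩) (condX),
    subst (sub pcS18 ⟨true, false, true, true, false⟩) (condX),
    subst (sub pcS18 ⟨true, true, true, true, false⟩) (condX)].all
    (checkFour (boxS18.vC) 276 13 10 4 0)) = true := by decide +kernel
def chkS18_18 : Chk (boxS18.vC) (subst (sub pcS18 ⟨false, false, true, true, false⟩) (condX)) :=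
  ⟨276, 13, 10, 4, 0, List.all_eq_true.1 grpS18_4 _ (.head _)⟩
def chkS18_19 : Chk (boxS18.vC) (subst (sub pcS18 ⟨false, true, true, true, false⟩) (condX)) :=
  ⟨276, 13, 10, 4, 0, List.all_eq_true.1 grpS18_4 _ (.tail _ (.head _))⟩
def chkS18_20 : Chk (boxS18.vC) (subst (sub pcS18 ⟨true, false, true, true, false⟩) (condX)) :=
  ⟨276, 13, 10, 4, 0, List.all_eq_true.1 grpS18_4 _ (.tail _ (.tail _ (.head _)))⟩
def chkS18_21 : Chk (boxS18.vC) (subst (sub pcS18 ⟨true, true, true, true, false⟩) (condX)) :=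
  ⟨276, 13, 10, 4, 0, List.all_eq_true.1 grpS18_4 _ (.tail _ (.tail _ (.tail _ (.head _))))⟩
def grpS18_5 : ([subst (sub pcS18 ⟨false, false, true, false, false⟩) (tplMG),
    subst (sub pcS18 ⟨false, true, true, false, false⟩) (tplMG),
    subst (sub pcS18 ⟨true, false, true, false, false⟩) (tplMG),
    subst (sub pcS18 ⟨true, true, true, false, false⟩) (tplMG)].all
    (checkFour (boxS18.vC) 527 26 20 6 0)) = true := by decide +kernel
def chkS18_22 : Chk (boxS18.vC) (subst (sub pcS18 ⟨false, false, true, false, false⟩) (tplMG)) :=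
  ⟨527, 26, 20, 6, 0, List.all_eq_true.1 grpS18_5 _ (.head _)⟩
def chkS18_23 : Chk (boxS18.vC) (subst (sub pcS18 ⟨false, true, true, false, false⟩) (tplMG)) :=
  ⟨527, 26, 20, 6, 0, List.all_eq_true.1 grpS18_5 _ (.tail _ (.head _))⟩
def chkS18_24 : Chk (boxS18.vC) (subst (sub pcS18 ⟨true, false, true, false, false⟩) (tplMG)) :=
  ⟨527, 26, 20, 6, 0, List.all_eq_true.1 grpS18_5 _ (.tail _ (.tail _ (.head _)))⟩
def chkS18_25 : Chk (boxS18.vC) (subst (sub pcS18 ⟨true, true, true, false, false⟩) (tplMG)) :=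
  ⟨527, 26, 20, 6, 0, List.all_eq_true.1 grpS18_5 _ (.tail _ (.tail _ (.tail _ (.head _))))⟩
def grpS18_6 : ([subst (sub pcS18 ⟨false, false, false, false, false⟩) (pcS18.m1),
    subst (sub pcS18 ⟨false, true, false, false, false⟩) (pcS18.m1),
    subst (sub pcS18 ⟨true, false, false, false, false⟩) (pcS18.m1),
    subst (sub pcS18 ⟨true, true, false, false, false⟩) (pcS18.m1)].all
    (checkFour (boxS18.vC) 359 17 14 4 0)) = true := by decide +kernel
def chkS18_26 : Chk (boxS18.vC) (subst (sub pcS18 ⟨false, false, false, false, false⟩) (pcS18.m1)) :=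
  ⟨359, 17, 14, 4, 0, List.all_eq_true.1 grpS18_6 _ (.head _)⟩
def chkS18_27 : Chk (boxS18.vC) (subst (sub pcS18 ⟨false, true, false, false, false⟩) (pcS18.m1)) :=
  ⟨359, 17, 14, 4, 0, List.all_eq_true.1 grpS18_6 _ (.tail _ (.head _))⟩
def chkS18_28 : Chk (boxS18.vC) (subst (sub pcS18 ⟨true, false, false, false, false⟩) (pcS18.m1)) :=
  ⟨359, 17, 14, 4, 0, List.all_eq_true.1 grpS18_6 _ (.tail _ (.tail _ (.head _)))⟩
def chkS18_29 : Chk (boxS18.vC) (subst (sub pcS18 ⟨true, true, false, false, false⟩) (pcS18.m1)) :=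
  ⟨359, 17, 14, 4, 0, List.all_eq_true.1 grpS18_6 _ (.tail _ (.tail _ (.tail _ (.head _))))⟩
def chkS18_30 : Chk (boxS18.vC) (subst (sub pcS18 ⟨false, false, true, false, false⟩) (strict (pcS18.m2 false))) :=
  ⟨556, 24, 19, 6, 0, by decide +kernel⟩
def chkS18_31 : Chk (boxS18.vC) (subst (sub pcS18 ⟨false, false, true, false, true⟩) (strict (pcS18.m2 false))) :=
  ⟨558, 24, 19, 6, 0, by decide +kernel⟩
def chkS18_32 : Chk (boxS18.vC) (subst (sub pcS18 ⟨true, false, true, false, false⟩) (strict (pcS18.m2 false))) :=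
  ⟨556, 24, 19, 6, 0, by decide +kernel⟩
def chkS18_33 : Chk (boxS18.vC) (subst (sub pcS18 ⟨true, false, true, false, true⟩) (strict (pcS18.m2 false))) :=
  ⟨558, 24, 19, 6, 0, by decide +kernel⟩
def chkS18_34 : Chk (boxS18.vC) (subst (sub pcS18 ⟨false, true, true, false, false⟩) (strict (pcS18.m2 true))) :=
  ⟨559, 24, 19, 6, 0, by decide +kernel⟩
def chkS18_35 : Chk (boxS18.vC) (subst (sub pcS18 ⟨false, true, true, false, true⟩) (strict (pcS18.m2 true))) :=
  ⟨561, 24, 19, 6, 0, by decide +kernel⟩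
def chkS18_36 : Chk (boxS18.vC) (subst (sub pcS18 ⟨true, true, true, false, false⟩) (strict (pcS18.m2 true))) :=
  ⟨559, 24, 19, 6, 0, by decide +kernel⟩
def chkS18_37 : Chk (boxS18.vC) (subst (sub pcS18 ⟨true, true, true, false, true⟩) (strict (pcS18.m2 true))) :=
  ⟨561, 24, 19, 6, 0, by decide +kernel⟩
def grpS18_15 : ([subst (sub pcS18 ⟨false, false, true, true, false⟩) (strict (pcS18.m3 false)),
    subst (sub pcS18 ⟨false, false, true, true, true⟩) (strict (pcS18.m3 false)),
    subst (sub pcS18 ⟨false, false, true, true, false⟩) (strict (pcS18.m3 true)),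
    subst (sub pcS18 ⟨false, false, true, true, true⟩) (strict (pcS18.m3 true))].all
    (checkFour (boxS18.vC) 690 31 25 6 0)) = true := by decide +kernel
def chkS18_38 : Chk (boxS18.vC) (subst (sub pcS18 ⟨false, false, true, true, false⟩) (strict (pcS18.m3 false))) :=
  ⟨690, 31, 25, 6, 0, List.all_eq_true.1 grpS18_15 _ (.head _)⟩
def chkS18_39 : Chk (boxS18.vC) (subst (sub pcS18 ⟨false, false, true, true, true⟩) (strict (pcS18.m3 false))) :=
  ⟨690, 31, 25, 6, 0, List.all_eq_true.1 grpS18_15 _ (.tail _ (.head _))⟩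
def chkS18_46 : Chk (boxS18.vC) (subst (sub pcS18 ⟨false, false, true, true, false⟩) (strict (pcS18.m3 true))) :=
  ⟨690, 31, 25, 6, 0, List.all_eq_true.1 grpS18_15 _ (.tail _ (.tail _ (.head _)))⟩
def chkS18_47 : Chk (boxS18.vC) (subst (sub pcS18 ⟨false, false, true, true, true⟩) (strict (pcS18.m3 true))) :=
  ⟨690, 31, 25, 6, 0, List.all_eq_true.1 grpS18_15 _ (.tail _ (.tail _ (.tail _ (.head _))))⟩
def grpS18_16 : ([subst (sub pcS18 ⟨false, true, true, true, false⟩) (strict (pcS18.m3 false)),
    subst (sub pcS18 ⟨false, true, true, true, true⟩) (strict (pcS18.m3 false)),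
    subst (sub pcS18 ⟨false, true, true, true, false⟩) (strict (pcS18.m3 true)),
    subst (sub pcS18 ⟨false, true, true, true, true⟩) (strict (pcS18.m3 true))].all
    (checkFour (boxS18.vC) 696 31 25 6 0)) = true := by decide +kernel
def chkS18_40 : Chk (boxS18.vC) (subst (sub pcS18 ⟨false, true, true, true, false⟩) (strict (pcS18.m3 false))) :=
  ⟨696, 31, 25, 6, 0, List.all_eq_true.1 grpS18_16 _ (.head _)⟩
def chkS18_41 : Chk (boxS18.vC) (subst (sub pcS18 ⟨false, true, true, true, true⟩) (strict (pcS18.m3 false))) :=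
  ⟨696, 31, 25, 6, 0, List.all_eq_true.1 grpS18_16 _ (.tail _ (.head _))⟩
def chkS18_48 : Chk (boxS18.vC) (subst (sub pcS18 ⟨false, true, true, true, false⟩) (strict (pcS18.m3 true))) :=
  ⟨696, 31, 25, 6, 0, List.all_eq_true.1 grpS18_16 _ (.tail _ (.tail _ (.head _)))⟩
def chkS18_49 : Chk (boxS18.vC) (subst (sub pcS18 ⟨false, true, true, true, true⟩) (strict (pcS18.m3 true))) :=
  ⟨696, 31, 25, 6, 0, List.all_eq_true.1 grpS18_16 _ (.tail _ (.tail _ (.tail _ (.head _))))⟩
def grpS18_17 : ([subst (sub pcS18 ⟨true, false, true, true, false⟩) (strict (pcS18.m3 false)),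
    subst (sub pcS18 ⟨true, false, true, true, true⟩) (strict (pcS18.m3 false)),
    subst (sub pcS18 ⟨true, false, true, true, false⟩) (strict (pcS18.m3 true)),
    subst (sub pcS18 ⟨true, false, true, true, true⟩) (strict (pcS18.m3 true))].all
    (checkFour (boxS18.vC) 690 31 25 6 0)) = true := by decide +kernel
def chkS18_42 : Chk (boxS18.vC) (subst (sub pcS18 ⟨true, false, true, true, false⟩) (strict (pcS18.m3 false))) :=
  ⟨690, 31, 25, 6, 0, List.all_eq_true.1 grpS18_17 _ (.head _)⟩
def chkS18_43 : Chk (boxS18.vC) (subst (sub pcS18 ⟨true, false, true, true, true⟩) (strict (pcS18.m3 false))) :=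
  ⟨690, 31, 25, 6, 0, List.all_eq_true.1 grpS18_17 _ (.tail _ (.head _))⟩
def chkS18_50 : Chk (boxS18.vC) (subst (sub pcS18 ⟨true, false, true, true, false⟩) (strict (pcS18.m3 true))) :=
  ⟨690, 31, 25, 6, 0, List.all_eq_true.1 grpS18_17 _ (.tail _ (.tail _ (.head _)))⟩
def chkS18_51 : Chk (boxS18.vC) (subst (sub pcS18 ⟨true, false, true, true, true⟩) (strict (pcS18.m3 true))) :=
  ⟨690, 31, 25, 6, 0, List.all_eq_true.1 grpS18_17 _ (.tail _ (.tail _ (.tail _ (.head _))))⟩
def grpS18_18 : ([subst (sub pcS18 ⟨true, true, true, true, false⟩) (strict (pcS18.m3 false)),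
    subst (sub pcS18 ⟨true, true, true, true, true⟩) (strict (pcS18.m3 false)),
    subst (sub pcS18 ⟨true, true, true, true, false⟩) (strict (pcS18.m3 true)),
    subst (sub pcS18 ⟨true, true, true, true, true⟩) (strict (pcS18.m3 true))].all
    (checkFour (boxS18.vC) 697 31 25 6 0)) = true := by decide +kernel
def chkS18_44 : Chk (boxS18.vC) (subst (sub pcS18 ⟨true, true, true, true, false⟩) (strict (pcS18.m3 false))) :=
  ⟨697, 31, 25, 6, 0, List.all_eq_true.1 grpS18_18 _ (.head _)⟩
def chkS18_45 : Chk (boxS18.vC) (subst (sub pcS18 ⟨true, true, true, true, true⟩) (strict (pcS18.m3 false))) :=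
  ⟨697, 31, 25, 6, 0, List.all_eq_true.1 grpS18_18 _ (.tail _ (.head _))⟩
def chkS18_52 : Chk (boxS18.vC) (subst (sub pcS18 ⟨true, true, true, true, false⟩) (strict (pcS18.m3 true))) :=
  ⟨697, 31, 25, 6, 0, List.all_eq_true.1 grpS18_18 _ (.tail _ (.tail _ (.head _)))⟩
def chkS18_53 : Chk (boxS18.vC) (subst (sub pcS18 ⟨true, true, true, true, true⟩) (strict (pcS18.m3 true))) :=
  ⟨697, 31, 25, 6, 0, List.all_eq_true.1 grpS18_18 _ (.tail _ (.tail _ (.tail _ (.head _))))⟩
def grpS18_19 : ([subst (sub pcS18 ⟨false, false, true, true, false⟩) (negEx coMG12),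
    subst (sub pcS18 ⟨false, false, true, true, false⟩) (negEx (pcS18.curve2 false)),
    subst (sub pcS18 ⟨false, false, true, true, false⟩) (negEx (pcS18.curve2 true))].all
    (checkFour (boxS18.vC) 128 5 5 4 0)) = true := by decide +kernel
def chkS18_54 : Chk (boxS18.vC) (subst (sub pcS18 ⟨false, false, true, true, false⟩) (negEx coMG12)) :=
  ⟨128, 5, 5, 4, 0, List.all_eq_true.1 grpS18_19 _ (.head _)⟩
def chkS18_55 : Chk (boxS18.vC) (subst (sub pcS18 ⟨false, false, true, true, false⟩) (negEx (pcS18.curve2 false))) :=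
  ⟨128, 5, 5, 4, 0, List.all_eq_true.1 grpS18_19 _ (.tail _ (.head _))⟩
def chkS18_56 : Chk (boxS18.vC) (subst (sub pcS18 ⟨false, false, true, true, false⟩) (negEx (pcS18.curve2 true))) :=
  ⟨128, 5, 5, 4, 0, List.all_eq_true.1 grpS18_19 _ (.tail _ (.tail _ (.head _)))⟩
def grpS18_20 : ([subst (sub pcS18 ⟨false, false, true, true, false⟩) (negEx (pcS18.curve3 false)),
    subst (sub pcS18 ⟨false, false, true, true, false⟩) (negEx (pcS18.curve3 true))].all
    (checkFour (boxS18.vC) 144 6 6 4 0)) = true := by decide +kernel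
def chkS18_57 : Chk (boxS18.vC) (subst (sub pcS18 ⟨false, false, true, true, false⟩) (negEx (pcS18.curve3 false))) :=
  ⟨144, 6, 6, 4, 0, List.all_eq_true.1 grpS18_20 _ (.head _)⟩
def chkS18_58 : Chk (boxS18.vC) (subst (sub pcS18 ⟨false, false, true, true, false⟩) (negEx (pcS18.curve3 true))) :=
  ⟨144, 6, 6, 4, 0, List.all_eq_true.1 grpS18_20 _ (.tail _ (.head _))⟩
def grpS18_21 : ([subst (sub pcS18 ⟨false, false, true, true, false⟩) (slopeT),
    subst (sub pcS18 ⟨true, false, true, true, false⟩) (slopeT)].all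
    (checkFour (boxS18.vC) 159 7 6 4 0)) = true := by decide +kernel
def chkS18_59 : Chk (boxS18.vC) (subst (sub pcS18 ⟨false, false, true, true, false⟩) (slopeT)) :=
  ⟨159, 7, 6, 4, 0, List.all_eq_true.1 grpS18_21 _ (.head _)⟩
def chkS18_60 : Chk (boxS18.vC) (subst (sub pcS18 ⟨true, false, true, true, false⟩) (slopeT)) :=
  ⟨159, 7, 6, 4, 0, List.all_eq_true.1 grpS18_21 _ (.tail _ (.head _))⟩
def grpS18_22 : ([subst (gapSub pcS18 true false false) tplL,
    subst (gapSub pcS18 true false true) tplL,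
    subst (gapSub pcS18 true true false) tplL,
    subst (gapSub pcS18 true true true) tplL].all
    (checkFour (boxS18.gC true) 430 22 17 5 2)) = true := by decide +kernel
def chkS18_61 : Chk (boxS18.gC true) (subst (gapSub pcS18 true false false) tplL) :=
  ⟨430, 22, 17, 5, 2, List.all_eq_true.1 grpS18_22 _ (.head _)⟩
def chkS18_62 : Chk (boxS18.gC true) (subst (gapSub pcS18 true false true) tplL) :=
  ⟨430, 22, 17, 5, 2, List.all_eq_true.1 grpS18_22 _ (.tail _ (.head _))⟩
def chkS18_63 : Chk (boxS18.gC true) (subst (gapSub pcS18 true true false) tplL) :=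
  ⟨430, 22, 17, 5, 2, List.all_eq_true.1 grpS18_22 _ (.tail _ (.tail _ (.head _)))⟩
def chkS18_64 : Chk (boxS18.gC true) (subst (gapSub pcS18 true true true) tplL) :=
  ⟨430, 22, 17, 5, 2, List.all_eq_true.1 grpS18_22 _ (.tail _ (.tail _ (.tail _ (.head _))))⟩

/-- Piece 18 passes. -/
theorem certS18 : Cert pcS18 boxS18 true where
  pos := by
    refine ⟨⟨⟨?_, ?_, ?_, ?_, ?_, ?_, ?_⟩, ?_, ?_, ?_, ?_, ?_, ?_, ?_, ?_, ?_, ?_, ?_⟩, ?_, ?_⟩ <;>
      norm_num [fr, pcS18]
  gX := fun p l => match p, l with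
    | false, false => chkS18_18
    | false, true => chkS18_19
    | true, false => chkS18_20
    | true, true => chkS18_21
  gMG := fun p l => match p, l with
    | false, false => chkS18_22
    | false, true => chkS18_23
    | true, false => chkS18_24
    | true, true => chkS18_25
  g1 := fun p l => match p, l with
    | false, false => chkS18_26
    | false, true => chkS18_27
    | true, false => chkS18_28
    | true, true => chkS18_29
  g2 := fun s p t => match s, p, t with
    | false, false, false => chkS18_30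
    | false, false, true => chkS18_31
    | false, true, false => chkS18_32
    | false, true, true => chkS18_33
    | true, false, false => chkS18_34
    | true, false, true => chkS18_35
    | true, true, false => chkS18_36
    | true, true, true => chkS18_37
  g3 := fun s p l t => match s, p, l, t with
    | false, false, false, false => chkS18_38
    | false, false, false, true => chkS18_39
    | false, false, true, false => chkS18_40
    | false, false, true, true => chkS18_41
    | false, true, false, false => chkS18_42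
    | false, true, false, true => chkS18_43
    | false, true, true, false => chkS18_44
    | false, true, true, true => chkS18_45
    | true, false, false, false => chkS18_46
    | true, false, false, true => chkS18_47
    | true, false, true, false => chkS18_48
    | true, false, true, true => chkS18_49
    | true, true, false, false => chkS18_50
    | true, true, false, true => chkS18_51
    | true, true, true, false => chkS18_52
    | true, true, true, true => chkS18_53
  cMG := chkS18_54
  c2 := fun s => match s with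
    | false => chkS18_55
    | true => chkS18_56
  c3 := fun s => match s with
    | false => chkS18_57
    | true => chkS18_58
  sT := fun p => match p with
    | false => chkS18_59
    | true => chkS18_60
  bnd := fun ze b => match ze, b with
    | false, .l0 => chkS18_0
    | false, .l1 => chkS18_1
    | false, .r => chkS18_2
    | false, .g0 => chkS18_3
    | false, .g1 => chkS18_4
    | false, .t0 => chkS18_5
    | false, .t1 => chkS18_6
    | false, .w0 => chkS18_7
    | false, .w1 => chkS18_8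
    | true, .l0 => chkS18_9
    | true, .l1 => chkS18_10
    | true, .r => chkS18_11
    | true, .g0 => chkS18_12
    | true, .g1 => chkS18_13
    | true, .t0 => chkS18_14
    | true, .t1 => chkS18_15
    | true, .w0 => chkS18_16
    | true, .w1 => chkS18_17
  gap := fun ze t => match ze, t with
    | false, false => chkS18_61
    | false, true => chkS18_62
    | true, false => chkS18_63
    | true, true => chkS18_64

/-- A window of piece 18. -/
def winS18L : Win := ⟨.D, (10, 27, 200), (22, 35, 200), (-27, 85, 100), (85, 279, 100), (279, 6300, 100), (54, 67, 100), true, false, (94, -77), (570, 1000)⟩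

/-- The window passes. -/
theorem winS18L_ok : winS18L.Cert where
  fits := ⟨by norm_num [winS18L], by norm_num [winS18L, qLo], by norm_num [winS18L, qLo, qHi],
    by norm_num [winS18L, qLo, qHi], by norm_num [winS18L, qLo], by norm_num [winS18L, qHi]⟩
  cross := ⟨252, 8, 6, 2, 7, by decide +kernel⟩
  exit := ⟨259, 10, 7, 3, 8, by decide +kernel⟩
  mix := ⟨341, 12, 9, 3, 11, by decide +kernel⟩

/-- A window of piece 18. -/
def winS18T : Win := ⟨.D, (10, 27, 200), (22, 35, 200), (-27, 85, 100), (85, 279, 100), (279, 4400, 100), (67, 69, 100), true, true, (43, 0), (570, 1000)⟩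

/-- The window passes. -/
theorem winS18T_ok : winS18T.Cert where
  fits := ⟨by norm_num [winS18T], by norm_num [winS18T, qLo], by norm_num [winS18T, qLo, qHi],
    by norm_num [winS18T, qLo, qHi], by norm_num [winS18T, qLo], by norm_num [winS18T, qHi]⟩
  cross := ⟨252, 8, 6, 2, 7, by decide +kernel⟩
  exit := ⟨233, 10, 7, 3, 6, by decide +kernel⟩
  mix := ⟨322, 12, 9, 3, 10, by decide +kernel⟩

/-- The tight band is crossed one way on piece 18. -/
theorem bandS18 : Chk (winS18L.chart (54, 69, 100) winS18L.qc) (sBand winS18L.kind) :=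
  ⟨432, 15, 11, 3, 14, by decide +kernel⟩

end Vale.Agent.P100.Calib.StripMid
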