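import Vale.Agent.P100.Calib.SlabStripMidSevWindow

/-!
# The checks of piece 23 below 153/200 for `N` between seven and twenty
-/

set_option linter.defProp false

namespace Vale.Agent.P100.Calib.StripMid

open Pack

/-- The numbers of piece 23. -/
def pcS23 : Piece := ⟨.A, (153, 200), (4, 5), (77, 100), (41, 50), (49, 25), (2, 5), (513, 1000), (469, 500), (189, -930, 200), (503, -1795, 500), 37, (5,-170,180,2), (199, 500), (353, 500), (2, 5), (1, 4), (3, 20)⟩

/-- The ranges of piece 23. -/
def boxS23 : Box := ⟨(5, 9, 100), (0, 237, 250), (21, 101, 20), (41, 98, 50), (153, 160, 200)⟩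

def grpS23_0 : ([bound pcS23 false .l0,
    bound pcS23 false .l1,
    bound pcS23 false .r,
    bound pcS23 true .l0,
    bound pcS23 true .l1,
    bound pcS23 true .r].all
    (checkFour (boxS23.cC) 257 14 9 2 3)) = true := by decide +kernel
def chkS23_0 : Chk (boxS23.cC) (bound pcS23 false .l0) :=
  ⟨257, 14, 9, 2, 3, List.all_eq_true.1 grpS23_0 _ (.head _)⟩
def chkS23_1 : Chk (boxS23.cC) (bound pcS23 false .l1) :=
  ⟨257, 14, 9, 2, 3, List.all_eq_true.1 grpS23_0 _ (.tail _ (.head _))⟩
def chkS23_2 : Chk (boxS23.cC) (bound pcS23 false .r) :=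
  ⟨257, 14, 9, 2, 3, List.all_eq_true.1 grpS23_0 _ (.tail _ (.tail _ (.head _)))⟩
def chkS23_9 : Chk (boxS23.cC) (bound pcS23 true .l0) :=
  ⟨257, 14, 9, 2, 3, List.all_eq_true.1 grpS23_0 _ (.tail _ (.tail _ (.tail _ (.head _))))⟩
def chkS23_10 : Chk (boxS23.cC) (bound pcS23 true .l1) :=
  ⟨257, 14, 9, 2, 3, List.all_eq_true.1 grpS23_0 _ (.tail _ (.tail _ (.tail _ (.tail _ (.head _)))))⟩
def chkS23_11 : Chk (boxS23.cC) (bound pcS23 true .r) :=
  ⟨257, 14, 9, 2, 3, List.all_eq_true.1 grpS23_0 _ (.tail _ (.tail _ (.tail _ (.tail _ (.tail _ (.head _))))))⟩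
def grpS23_1 : ([bound pcS23 false .g0,
    bound pcS23 false .g1,
    bound pcS23 true .g0,
    bound pcS23 true .g1].all
    (checkFour (boxS23.cC) 110 5 3 1 2)) = true := by decide +kernel
def chkS23_3 : Chk (boxS23.cC) (bound pcS23 false .g0) :=
  ⟨110, 5, 3, 1, 2, List.all_eq_true.1 grpS23_1 _ (.head _)⟩
def chkS23_4 : Chk (boxS23.cC) (bound pcS23 false .g1) :=
  ⟨110, 5, 3, 1, 2, List.all_eq_true.1 grpS23_1 _ (.tail _ (.head _))⟩
def chkS23_12 : Chk (boxS23.cC) (bound pcS23 true .g0) :=
  ⟨110, 5, 3, 1, 2, List.all_eq_true.1 grpS23_1 _ (.tail _ (.tail _ (.head _)))⟩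
def chkS23_13 : Chk (boxS23.cC) (bound pcS23 true .g1) :=
  ⟨110, 5, 3, 1, 2, List.all_eq_true.1 grpS23_1 _ (.tail _ (.tail _ (.tail _ (.head _))))⟩
def grpS23_2 : ([bound pcS23 false .t0,
    bound pcS23 false .t1,
    bound pcS23 true .t0,
    bound pcS23 true .t1].all
    (checkFour (boxS23.cC) 184 9 6 2 3)) = true := by decide +kernel
def chkS23_5 : Chk (boxS23.cC) (bound pcS23 false .t0) :=
  ⟨184, 9, 6, 2, 3, List.all_eq_true.1 grpS23_2 _ (.head _)⟩
def chkS23_6 : Chk (boxS23.cC) (bound pcS23 false .t1) :=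
  ⟨184, 9, 6, 2, 3, List.all_eq_true.1 grpS23_2 _ (.tail _ (.head _))⟩
def chkS23_14 : Chk (boxS23.cC) (bound pcS23 true .t0) :=
  ⟨184, 9, 6, 2, 3, List.all_eq_true.1 grpS23_2 _ (.tail _ (.tail _ (.head _)))⟩
def chkS23_15 : Chk (boxS23.cC) (bound pcS23 true .t1) :=
  ⟨184, 9, 6, 2, 3, List.all_eq_true.1 grpS23_2 _ (.tail _ (.tail _ (.tail _ (.head _))))⟩
def grpS23_3 : ([bound pcS23 false .w0,
    bound pcS23 false .w1,
    bound pcS23 true .w0,
    bound pcS23 true .w1].all
    (checkFour (boxS23.cC) 228 12 7 3 4)) = true := by decide +kernel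
def chkS23_7 : Chk (boxS23.cC) (bound pcS23 false .w0) :=
  ⟨228, 12, 7, 3, 4, List.all_eq_true.1 grpS23_3 _ (.head _)⟩
def chkS23_8 : Chk (boxS23.cC) (bound pcS23 false .w1) :=
  ⟨228, 12, 7, 3, 4, List.all_eq_true.1 grpS23_3 _ (.tail _ (.head _))⟩
def chkS23_16 : Chk (boxS23.cC) (bound pcS23 true .w0) :=
  ⟨228, 12, 7, 3, 4, List.all_eq_true.1 grpS23_3 _ (.tail _ (.tail _ (.head _)))⟩
def chkS23_17 : Chk (boxS23.cC) (bound pcS23 true .w1) :=
  ⟨228, 12, 7, 3, 4, List.all_eq_true.1 grpS23_3 _ (.tail _ (.tail _ (.tail _ (.head _))))⟩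
def grpS23_4 : ([subst (sub pcS23 ⟨false, false, true, true, false⟩) (condX),
    subst (sub pcS23 ⟨false, true, true, true, false⟩) (condX),
    subst (sub pcS23 ⟨true, false, true, true, false⟩) (condX),
    subst (sub pcS23 ⟨true, true, true, true, false⟩) (condX)].all
    (checkFour (boxS23.vC) 271 15 10 4 0)) = true := by decide +kernel
def chkS23_18 : Chk (boxS23.vC) (subst (sub pcS23 ⟨false, false, true, true, false⟩) (condX)) :=
  ⟨271, 15, 10, 4, 0, List.all_eq_true.1 grpS23_4 _ (.head _)⟩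
def chkS23_19 : Chk (boxS23.vC) (subst (sub pcS23 ⟨false, true, true, true, false⟩) (condX)) :=
  ⟨271, 15, 10, 4, 0, List.all_eq_true.1 grpS23_4 _ (.tail _ (.head _))⟩
def chkS23_20 : Chk (boxS23.vC) (subst (sub pcS23 ⟨true, false, true, true, false⟩) (condX)) :=
  ⟨271, 15, 10, 4, 0, List.all_eq_true.1 grpS23_4 _ (.tail _ (.tail _ (.head _)))⟩
def chkS23_21 : Chk (boxS23.vC) (subst (sub pcS23 ⟨true, true, true, true, false⟩) (condX)) :=
  ⟨271, 15, 10, 4, 0, List.all_eq_true.1 grpS23_4 _ (.tail _ (.tail _ (.tail _ (.head _))))⟩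
def grpS23_5 : ([subst (sub pcS23 ⟨false, false, true, false, false⟩) (tplMG),
    subst (sub pcS23 ⟨false, true, true, false, false⟩) (tplMG),
    subst (sub pcS23 ⟨true, false, true, false, false⟩) (tplMG),
    subst (sub pcS23 ⟨true, true, true, false, false⟩) (tplMG)].all
    (checkFour (boxS23.vC) 478 26 18 6 0)) = true := by decide +kernel
def chkS23_22 : Chk (boxS23.vC) (subst (sub pcS23 ⟨false, false, true, false, false⟩) (tplMG)) :=
  ⟨478, 26, 18, 6, 0, List.all_eq_true.1 grpS23_5 _ (.head _)⟩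
def chkS23_23 : Chk (boxS23.vC) (subst (sub pcS23 ⟨false, true, true, false, false⟩) (tplMG)) :=
  ⟨478, 26, 18, 6, 0, List.all_eq_true.1 grpS23_5 _ (.tail _ (.head _))⟩
def chkS23_24 : Chk (boxS23.vC) (subst (sub pcS23 ⟨true, false, true, false, false⟩) (tplMG)) :=
  ⟨478, 26, 18, 6, 0, List.all_eq_true.1 grpS23_5 _ (.tail _ (.tail _ (.head _)))⟩
def chkS23_25 : Chk (boxS23.vC) (subst (sub pcS23 ⟨true, true, true, false, false⟩) (tplMG)) :=
  ⟨478, 26, 18, 6, 0, List.all_eq_true.1 grpS23_5 _ (.tail _ (.tail _ (.tail _ (.head _))))⟩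
def grpS23_6 : ([subst (sub pcS23 ⟨false, false, false, false, false⟩) (pcS23.m1),
    subst (sub pcS23 ⟨false, true, false, false, false⟩) (pcS23.m1),
    subst (sub pcS23 ⟨true, false, false, false, false⟩) (pcS23.m1),
    subst (sub pcS23 ⟨true, true, false, false, false⟩) (pcS23.m1)].all
    (checkFour (boxS23.vC) 350 19 14 4 0)) = true := by decide +kernel
def chkS23_26 : Chk (boxS23.vC) (subst (sub pcS23 ⟨false, false, false, false, false⟩) (pcS23.m1)) :=
  ⟨350, 19, 14, 4, 0, List.all_eq_true.1 grpS23_6 _ (.head _)⟩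
def chkS23_27 : Chk (boxS23.vC) (subst (sub pcS23 ⟨false, true, false, false, false⟩) (pcS23.m1)) :=
  ⟨350, 19, 14, 4, 0, List.all_eq_true.1 grpS23_6 _ (.tail _ (.head _))⟩
def chkS23_28 : Chk (boxS23.vC) (subst (sub pcS23 ⟨true, false, false, false, false⟩) (pcS23.m1)) :=
  ⟨350, 19, 14, 4, 0, List.all_eq_true.1 grpS23_6 _ (.tail _ (.tail _ (.head _)))⟩
def chkS23_29 : Chk (boxS23.vC) (subst (sub pcS23 ⟨true, true, false, false, false⟩) (pcS23.m1)) :=
  ⟨350, 19, 14, 4, 0, List.all_eq_true.1 grpS23_6 _ (.tail _ (.tail _ (.tail _ (.head _))))⟩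
def chkS23_30 : Chk (boxS23.vC) (subst (sub pcS23 ⟨false, false, true, false, false⟩) (strict (pcS23.m2 false))) :=
  ⟨503, 24, 17, 6, 0, by decide +kernel⟩
def chkS23_31 : Chk (boxS23.vC) (subst (sub pcS23 ⟨false, false, true, false, true⟩) (strict (pcS23.m2 false))) :=
  ⟨505, 24, 17, 6, 0, by decide +kernel⟩
def chkS23_32 : Chk (boxS23.vC) (subst (sub pcS23 ⟨true, false, true, false, false⟩) (strict (pcS23.m2 false))) :=
  ⟨503, 24, 17, 6, 0, by decide +kernel⟩
def chkS23_33 : Chk (boxS23.vC) (subst (sub pcS23 ⟨true, false, true, false, true⟩) (strict (pcS23.m2 false))) :=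
  ⟨505, 24, 17, 6, 0, by decide +kernel⟩
def chkS23_34 : Chk (boxS23.vC) (subst (sub pcS23 ⟨false, true, true, false, false⟩) (strict (pcS23.m2 true))) :=
  ⟨508, 24, 17, 6, 0, by decide +kernel⟩
def chkS23_35 : Chk (boxS23.vC) (subst (sub pcS23 ⟨false, true, true, false, true⟩) (strict (pcS23.m2 true))) :=
  ⟨511, 24, 17, 6, 0, by decide +kernel⟩
def chkS23_36 : Chk (boxS23.vC) (subst (sub pcS23 ⟨true, true, true, false, false⟩) (strict (pcS23.m2 true))) :=
  ⟨508, 24, 17, 6, 0, by decide +kernel⟩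
def chkS23_37 : Chk (boxS23.vC) (subst (sub pcS23 ⟨true, true, true, false, true⟩) (strict (pcS23.m2 true))) :=
  ⟨511, 24, 17, 6, 0, by decide +kernel⟩
def grpS23_15 : ([subst (sub pcS23 ⟨false, false, true, true, false⟩) (strict (pcS23.m3 false)),
    subst (sub pcS23 ⟨false, false, true, true, true⟩) (strict (pcS23.m3 false)),
    subst (sub pcS23 ⟨false, false, true, true, false⟩) (strict (pcS23.m3 true)),
    subst (sub pcS23 ⟨false, false, true, true, true⟩) (strict (pcS23.m3 true))].all
    (checkFour (boxS23.vC) 628 31 23 6 0)) = true := by decide +kernel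
def chkS23_38 : Chk (boxS23.vC) (subst (sub pcS23 ⟨false, false, true, true, false⟩) (strict (pcS23.m3 false))) :=
  ⟨628, 31, 23, 6, 0, List.all_eq_true.1 grpS23_15 _ (.head _)⟩
def chkS23_39 : Chk (boxS23.vC) (subst (sub pcS23 ⟨false, false, true, true, true⟩) (strict (pcS23.m3 false))) :=
  ⟨628, 31, 23, 6, 0, List.all_eq_true.1 grpS23_15 _ (.tail _ (.head _))⟩
def chkS23_46 : Chk (boxS23.vC) (subst (sub pcS23 ⟨false, false, true, true, false⟩) (strict (pcS23.m3 true))) :=
  ⟨628, 31, 23, 6, 0, List.all_eq_true.1 grpS23_15 _ (.tail _ (.tail _ (.head _)))⟩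
def chkS23_47 : Chk (boxS23.vC) (subst (sub pcS23 ⟨false, false, true, true, true⟩) (strict (pcS23.m3 true))) :=
  ⟨628, 31, 23, 6, 0, List.all_eq_true.1 grpS23_15 _ (.tail _ (.tail _ (.tail _ (.head _))))⟩
def grpS23_16 : ([subst (sub pcS23 ⟨false, true, true, true, false⟩) (strict (pcS23.m3 false)),
    subst (sub pcS23 ⟨false, true, true, true, true⟩) (strict (pcS23.m3 false)),
    subst (sub pcS23 ⟨false, true, true, true, false⟩) (strict (pcS23.m3 true)),
    subst (sub pcS23 ⟨false, true, true, true, true⟩) (strict (pcS23.m3 true))].all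
    (checkFour (boxS23.vC) 643 31 23 6 0)) = true := by decide +kernel
def chkS23_40 : Chk (boxS23.vC) (subst (sub pcS23 ⟨false, true, true, true, false⟩) (strict (pcS23.m3 false))) :=
  ⟨643, 31, 23, 6, 0, List.all_eq_true.1 grpS23_16 _ (.head _)⟩
def chkS23_41 : Chk (boxS23.vC) (subst (sub pcS23 ⟨false, true, true, true, true⟩) (strict (pcS23.m3 false))) :=
  ⟨643, 31, 23, 6, 0, List.all_eq_true.1 grpS23_16 _ (.tail _ (.head _))⟩
def chkS23_48 : Chk (boxS23.vC) (subst (sub pcS23 ⟨false, true, true, true, false⟩) (strict (pcS23.m3 true))) :=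
  ⟨643, 31, 23, 6, 0, List.all_eq_true.1 grpS23_16 _ (.tail _ (.tail _ (.head _)))⟩
def chkS23_49 : Chk (boxS23.vC) (subst (sub pcS23 ⟨false, true, true, true, true⟩) (strict (pcS23.m3 true))) :=
  ⟨643, 31, 23, 6, 0, List.all_eq_true.1 grpS23_16 _ (.tail _ (.tail _ (.tail _ (.head _))))⟩
def grpS23_17 : ([subst (sub pcS23 ⟨true, false, true, true, false⟩) (strict (pcS23.m3 false)),
    subst (sub pcS23 ⟨true, false, true, true, true⟩) (strict (pcS23.m3 false)),
    subst (sub pcS23 ⟨true, false, true, true, false⟩) (strict (pcS23.m3 true)),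
    subst (sub pcS23 ⟨true, false, true, true, true⟩) (strict (pcS23.m3 true))].all
    (checkFour (boxS23.vC) 628 31 23 6 0)) = true := by decide +kernel
def chkS23_42 : Chk (boxS23.vC) (subst (sub pcS23 ⟨true, false, true, true, false⟩) (strict (pcS23.m3 false))) :=
  ⟨628, 31, 23, 6, 0, List.all_eq_true.1 grpS23_17 _ (.head _)⟩
def chkS23_43 : Chk (boxS23.vC) (subst (sub pcS23 ⟨true, false, true, true, true⟩) (strict (pcS23.m3 false))) :=
  ⟨628, 31, 23, 6, 0, List.all_eq_true.1 grpS23_17 _ (.tail _ (.head _))⟩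
def chkS23_50 : Chk (boxS23.vC) (subst (sub pcS23 ⟨true, false, true, true, false⟩) (strict (pcS23.m3 true))) :=
  ⟨628, 31, 23, 6, 0, List.all_eq_true.1 grpS23_17 _ (.tail _ (.tail _ (.head _)))⟩
def chkS23_51 : Chk (boxS23.vC) (subst (sub pcS23 ⟨true, false, true, true, true⟩) (strict (pcS23.m3 true))) :=
  ⟨628, 31, 23, 6, 0, List.all_eq_true.1 grpS23_17 _ (.tail _ (.tail _ (.tail _ (.head _))))⟩
def grpS23_18 : ([subst (sub pcS23 ⟨true, true, true, true, false⟩) (strict (pcS23.m3 false)),
    subst (sub pcS23 ⟨true, true, true, true, true⟩) (strict (pcS23.m3 false)),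
    subst (sub pcS23 ⟨true, true, true, true, false⟩) (strict (pcS23.m3 true)),
    subst (sub pcS23 ⟨true, true, true, true, true⟩) (strict (pcS23.m3 true))].all
    (checkFour (boxS23.vC) 643 31 23 6 0)) = true := by decide +kernel
def chkS23_44 : Chk (boxS23.vC) (subst (sub pcS23 ⟨true, true, true, true, false⟩) (strict (pcS23.m3 false))) :=
  ⟨643, 31, 23, 6, 0, List.all_eq_true.1 grpS23_18 _ (.head _)⟩
def chkS23_45 : Chk (boxS23.vC) (subst (sub pcS23 ⟨true, true, true, true, true⟩) (strict (pcS23.m3 false))) :=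
  ⟨643, 31, 23, 6, 0, List.all_eq_true.1 grpS23_18 _ (.tail _ (.head _))⟩
def chkS23_52 : Chk (boxS23.vC) (subst (sub pcS23 ⟨true, true, true, true, false⟩) (strict (pcS23.m3 true))) :=
  ⟨643, 31, 23, 6, 0, List.all_eq_true.1 grpS23_18 _ (.tail _ (.tail _ (.head _)))⟩
def chkS23_53 : Chk (boxS23.vC) (subst (sub pcS23 ⟨true, true, true, true, true⟩) (strict (pcS23.m3 true))) :=
  ⟨643, 31, 23, 6, 0, List.all_eq_true.1 grpS23_18 _ (.tail _ (.tail _ (.tail _ (.head _))))⟩
def chkS23_54 : Chk (boxS23.vC) (subst (sub pcS23 ⟨false, false, true, true, false⟩) (negEx coMG12)) :=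
  ⟨133, 8, 5, 4, 0, by decide +kernel⟩
def grpS23_20 : ([subst (sub pcS23 ⟨false, false, true, true, false⟩) (negEx (pcS23.curve2 false)),
    subst (sub pcS23 ⟨false, false, true, true, false⟩) (negEx (pcS23.curve2 true))].all
    (checkFour (boxS23.vC) 145 9 5 4 0)) = true := by decide +kernel
def chkS23_55 : Chk (boxS23.vC) (subst (sub pcS23 ⟨false, false, true, true, false⟩) (negEx (pcS23.curve2 false))) :=
  ⟨145, 9, 5, 4, 0, List.all_eq_true.1 grpS23_20 _ (.head _)⟩
def chkS23_56 : Chk (boxS23.vC) (subst (sub pcS23 ⟨false, false, true, true, false⟩) (negEx (pcS23.curve2 true))) :=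
  ⟨145, 9, 5, 4, 0, List.all_eq_true.1 grpS23_20 _ (.tail _ (.head _))⟩
def grpS23_21 : ([subst (sub pcS23 ⟨false, false, true, true, false⟩) (negEx (pcS23.curve3 false)),
    subst (sub pcS23 ⟨false, false, true, true, false⟩) (negEx (pcS23.curve3 true))].all
    (checkFour (boxS23.vC) 155 9 6 4 0)) = true := by decide +kernel
def chkS23_57 : Chk (boxS23.vC) (subst (sub pcS23 ⟨false, false, true, true, false⟩) (negEx (pcS23.curve3 false))) :=
  ⟨155, 9, 6, 4, 0, List.all_eq_true.1 grpS23_21 _ (.head _)⟩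
def chkS23_58 : Chk (boxS23.vC) (subst (sub pcS23 ⟨false, false, true, true, false⟩) (negEx (pcS23.curve3 true))) :=
  ⟨155, 9, 6, 4, 0, List.all_eq_true.1 grpS23_21 _ (.tail _ (.head _))⟩
def grpS23_22 : ([subst (sub pcS23 ⟨false, false, true, true, false⟩) (slopeT),
    subst (sub pcS23 ⟨true, false, true, true, false⟩) (slopeT)].all
    (checkFour (boxS23.vC) 165 10 6 4 0)) = true := by decide +kernel
def chkS23_59 : Chk (boxS23.vC) (subst (sub pcS23 ⟨false, false, true, true, false⟩) (slopeT)) :=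
  ⟨165, 10, 6, 4, 0, List.all_eq_true.1 grpS23_22 _ (.head _)⟩
def chkS23_60 : Chk (boxS23.vC) (subst (sub pcS23 ⟨true, false, true, true, false⟩) (slopeT)) :=
  ⟨165, 10, 6, 4, 0, List.all_eq_true.1 grpS23_22 _ (.tail _ (.head _))⟩
def grpS23_23 : ([subst (gapSub pcS23 true false false) tplL,
    subst (gapSub pcS23 true false true) tplL,
    subst (gapSub pcS23 true true false) tplL,
    subst (gapSub pcS23 true true true) tplL].all
    (checkFour (boxS23.gC true) 417 25 16 5 2)) = true := by decide +kernel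
def chkS23_61 : Chk (boxS23.gC true) (subst (gapSub pcS23 true false false) tplL) :=
  ⟨417, 25, 16, 5, 2, List.all_eq_true.1 grpS23_23 _ (.head _)⟩
def chkS23_62 : Chk (boxS23.gC true) (subst (gapSub pcS23 true false true) tplL) :=
  ⟨417, 25, 16, 5, 2, List.all_eq_true.1 grpS23_23 _ (.tail _ (.head _))⟩
def chkS23_63 : Chk (boxS23.gC true) (subst (gapSub pcS23 true true false) tplL) :=
  ⟨417, 25, 16, 5, 2, List.all_eq_true.1 grpS23_23 _ (.tail _ (.tail _ (.head _)))⟩
def chkS23_64 : Chk (boxS23.gC true) (subst (gapSub pcS23 true true true) tplL) :=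
  ⟨417, 25, 16, 5, 2, List.all_eq_true.1 grpS23_23 _ (.tail _ (.tail _ (.tail _ (.head _))))⟩

/-- Piece 23 passes. -/
theorem certS23 : Cert pcS23 boxS23 true where
  pos := by
    refine ⟨⟨⟨?_, ?_, ?_, ?_, ?_, ?_, ?_⟩, ?_, ?_, ?_, ?_, ?_, ?_, ?_, ?_, ?_, ?_, ?_⟩, ?_, ?_⟩ <;>
      norm_num [fr, pcS23]
  gX := fun p l => match p, l with
    | false, false => chkS23_18
    | false, true => chkS23_19
    | true, false => chkS23_20
    | true, true => chkS23_21
  gMG := fun p l => match p, l with
    | false, false => chkS23_22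
    | false, true => chkS23_23
    | true, false => chkS23_24
    | true, true => chkS23_25
  g1 := fun p l => match p, l with
    | false, false => chkS23_26
    | false, true => chkS23_27
    | true, false => chkS23_28
    | true, true => chkS23_29
  g2 := fun s p t => match s, p, t with
    | false, false, false => chkS23_30
    | false, false, true => chkS23_31
    | false, true, false => chkS23_32
    | false, true, true => chkS23_33
    | true, false, false => chkS23_34
    | true, false, true => chkS23_35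
    | true, true, false => chkS23_36
    | true, true, true => chkS23_37
  g3 := fun s p l t => match s, p, l, t with
    | false, false, false, false => chkS23_38
    | false, false, false, true => chkS23_39
    | false, false, true, false => chkS23_40
    | false, false, true, true => chkS23_41
    | false, true, false, false => chkS23_42
    | false, true, false, true => chkS23_43
    | false, true, true, false => chkS23_44
    | false, true, true, true => chkS23_45
    | true, false, false, false => chkS23_46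
    | true, false, false, true => chkS23_47
    | true, false, true, false => chkS23_48
    | true, false, true, true => chkS23_49
    | true, true, false, false => chkS23_50
    | true, true, false, true => chkS23_51
    | true, true, true, false => chkS23_52
    | true, true, true, true => chkS23_53
  cMG := chkS23_54
  c2 := fun s => match s with
    | false => chkS23_55
    | true => chkS23_56
  c3 := fun s => match s with
    | false => chkS23_57
    | true => chkS23_58
  sT := fun p => match p with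
    | false => chkS23_59
    | true => chkS23_60
  bnd := fun ze b => match ze, b with
    | false, .l0 => chkS23_0
    | false, .l1 => chkS23_1
    | false, .r => chkS23_2
    | false, .g0 => chkS23_3
    | false, .g1 => chkS23_4
    | false, .t0 => chkS23_5
    | false, .t1 => chkS23_6
    | false, .w0 => chkS23_7
    | false, .w1 => chkS23_8
    | true, .l0 => chkS23_9
    | true, .l1 => chkS23_10
    | true, .r => chkS23_11
    | true, .g0 => chkS23_12
    | true, .g1 => chkS23_13
    | true, .t0 => chkS23_14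
    | true, .t1 => chkS23_15
    | true, .w0 => chkS23_16
    | true, .w1 => chkS23_17
  gap := fun ze t => match ze, t with
    | false, false => chkS23_61
    | false, true => chkS23_62
    | true, false => chkS23_63
    | true, true => chkS23_64

/-- A window of piece 23. -/
def winS23T : Win := ⟨.A, (5, 9, 100), (0, 237, 250), (-19, 82, 100), (41, 98, 50), (49, 875, 25), (153, 160, 200), true, true, (140, -143), (719, 1000)⟩

/-- The window passes. -/
theorem winS23T_ok : winS23T.Cert where
  fits := ⟨by norm_num [winS23T], by norm_num [winS23T, qLo], by norm_num [winS23T, qLo, qHi],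
    by norm_num [winS23T, qLo, qHi], by norm_num [winS23T, qLo], by norm_num [winS23T, qHi]⟩
  cross := ⟨260, 9, 6, 2, 7, by decide +kernel⟩
  exit := ⟨239, 12, 7, 3, 6, by decide +kernel⟩
  mix := ⟨337, 14, 9, 3, 10, by decide +kernel⟩

/-- The tight band is crossed one way on piece 23. -/
theorem bandS23 : Chk (winS23T.chart (153, 160, 200) winS23T.qc) (sBand winS23T.kind) :=
  ⟨446, 17, 11, 3, 14, by decide +kernel⟩

end Vale.Agent.P100.Calib.StripMid
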