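import Vale.Agent.P100.Calib.SlabStripMidSevWindow

/-!
# The checks of piece 24 below 153/200 for `N` between seven and twenty
-/

set_option linter.defProp false

namespace Vale.Agent.P100.Calib.StripMid

open Pack

/-- The numbers of piece 24. -/
def pcS24 : Piece := ⟨.A, (153, 200), (4, 5), (37, 50), (51, 50), (23, 10), (407, 1000), (51, 100), (116, 125), (981, -6150, 1000), (252, -1085, 250), 43, (72,-715,600,5), (199, 500), (289, 500), (13, 50), (3, 20), (3, 20)⟩

/-- The ranges of piece 24. -/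
def boxS24 : Box := ⟨(45, 61, 500), (0, 3, 10), (124, 439, 100), (51, 115, 50), (153, 160, 200)⟩

def grpS24_0 : ([bound pcS24 false .l0,
    bound pcS24 false .l1,
    bound pcS24 false .r,
    bound pcS24 true .l0,
    bound pcS24 true .l1,
    bound pcS24 true .r].all
    (checkFour (boxS24.cC) 247 14 9 2 3)) = true := by decide +kernel
def chkS24_0 : Chk (boxS24.cC) (bound pcS24 false .l0) :=
  ⟨247, 14, 9, 2, 3, List.all_eq_true.1 grpS24_0 _ (.head _)⟩
def chkS24_1 : Chk (boxS24.cC) (bound pcS24 false .l1) :=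
  ⟨247, 14, 9, 2, 3, List.all_eq_true.1 grpS24_0 _ (.tail _ (.head _))⟩
def chkS24_2 : Chk (boxS24.cC) (bound pcS24 false .r) :=
  ⟨247, 14, 9, 2, 3, List.all_eq_true.1 grpS24_0 _ (.tail _ (.tail _ (.head _)))⟩
def chkS24_9 : Chk (boxS24.cC) (bound pcS24 true .l0) :=
  ⟨247, 14, 9, 2, 3, List.all_eq_true.1 grpS24_0 _ (.tail _ (.tail _ (.tail _ (.head _))))⟩
def chkS24_10 : Chk (boxS24.cC) (bound pcS24 true .l1) :=
  ⟨247, 14, 9, 2, 3, List.all_eq_true.1 grpS24_0 _ (.tail _ (.tail _ (.tail _ (.tail _ (.head _)))))⟩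
def chkS24_11 : Chk (boxS24.cC) (bound pcS24 true .r) :=
  ⟨247, 14, 9, 2, 3, List.all_eq_true.1 grpS24_0 _ (.tail _ (.tail _ (.tail _ (.tail _ (.tail _ (.head _))))))⟩
def grpS24_1 : ([bound pcS24 false .g0,
    bound pcS24 false .g1,
    bound pcS24 true .g0,
    bound pcS24 true .g1].all
    (checkFour (boxS24.cC) 107 5 3 1 2)) = true := by decide +kernel
def chkS24_3 : Chk (boxS24.cC) (bound pcS24 false .g0) :=
  ⟨107, 5, 3, 1, 2, List.all_eq_true.1 grpS24_1 _ (.head _)⟩
def chkS24_4 : Chk (boxS24.cC) (bound pcS24 false .g1) :=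
  ⟨107, 5, 3, 1, 2, List.all_eq_true.1 grpS24_1 _ (.tail _ (.head _))⟩
def chkS24_12 : Chk (boxS24.cC) (bound pcS24 true .g0) :=
  ⟨107, 5, 3, 1, 2, List.all_eq_true.1 grpS24_1 _ (.tail _ (.tail _ (.head _)))⟩
def chkS24_13 : Chk (boxS24.cC) (bound pcS24 true .g1) :=
  ⟨107, 5, 3, 1, 2, List.all_eq_true.1 grpS24_1 _ (.tail _ (.tail _ (.tail _ (.head _))))⟩
def grpS24_2 : ([bound pcS24 false .t0,
    bound pcS24 false .t1,
    bound pcS24 true .t0,
    bound pcS24 true .t1].all
    (checkFour (boxS24.cC) 177 9 6 2 3)) = true := by decide +kernel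
def chkS24_5 : Chk (boxS24.cC) (bound pcS24 false .t0) :=
  ⟨177, 9, 6, 2, 3, List.all_eq_true.1 grpS24_2 _ (.head _)⟩
def chkS24_6 : Chk (boxS24.cC) (bound pcS24 false .t1) :=
  ⟨177, 9, 6, 2, 3, List.all_eq_true.1 grpS24_2 _ (.tail _ (.head _))⟩
def chkS24_14 : Chk (boxS24.cC) (bound pcS24 true .t0) :=
  ⟨177, 9, 6, 2, 3, List.all_eq_true.1 grpS24_2 _ (.tail _ (.tail _ (.head _)))⟩
def chkS24_15 : Chk (boxS24.cC) (bound pcS24 true .t1) :=
  ⟨177, 9, 6, 2, 3, List.all_eq_true.1 grpS24_2 _ (.tail _ (.tail _ (.tail _ (.head _))))⟩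
def grpS24_3 : ([bound pcS24 false .w0,
    bound pcS24 false .w1,
    bound pcS24 true .w0,
    bound pcS24 true .w1].all
    (checkFour (boxS24.cC) 224 12 7 3 4)) = true := by decide +kernel
def chkS24_7 : Chk (boxS24.cC) (bound pcS24 false .w0) :=
  ⟨224, 12, 7, 3, 4, List.all_eq_true.1 grpS24_3 _ (.head _)⟩
def chkS24_8 : Chk (boxS24.cC) (bound pcS24 false .w1) :=
  ⟨224, 12, 7, 3, 4, List.all_eq_true.1 grpS24_3 _ (.tail _ (.head _))⟩
def chkS24_16 : Chk (boxS24.cC) (bound pcS24 true .w0) :=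
  ⟨224, 12, 7, 3, 4, List.all_eq_true.1 grpS24_3 _ (.tail _ (.tail _ (.head _)))⟩
def chkS24_17 : Chk (boxS24.cC) (bound pcS24 true .w1) :=
  ⟨224, 12, 7, 3, 4, List.all_eq_true.1 grpS24_3 _ (.tail _ (.tail _ (.tail _ (.head _))))⟩
def grpS24_4 : ([subst (sub pcS24 ⟨false, false, true, true, false⟩) (condX),
    subst (sub pcS24 ⟨false, true, true, true, false⟩) (condX),
    subst (sub pcS24 ⟨true, false, true, true, false⟩) (condX),
    subst (sub pcS24 ⟨true, true, true, true, false⟩) (condX)].all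
    (checkFour (boxS24.vC) 268 15 10 4 0)) = true := by decide +kernel
def chkS24_18 : Chk (boxS24.vC) (subst (sub pcS24 ⟨false, false, true, true, false⟩) (condX)) :=
  ⟨268, 15, 10, 4, 0, List.all_eq_true.1 grpS24_4 _ (.head _)⟩
def chkS24_19 : Chk (boxS24.vC) (subst (sub pcS24 ⟨false, true, true, true, false⟩) (condX)) :=
  ⟨268, 15, 10, 4, 0, List.all_eq_true.1 grpS24_4 _ (.tail _ (.head _))⟩
def chkS24_20 : Chk (boxS24.vC) (subst (sub pcS24 ⟨true, false, true, true, false⟩) (condX)) :=
  ⟨268, 15, 10, 4, 0, List.all_eq_true.1 grpS24_4 _ (.tail _ (.tail _ (.head _)))⟩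
def chkS24_21 : Chk (boxS24.vC) (subst (sub pcS24 ⟨true, true, true, true, false⟩) (condX)) :=
  ⟨268, 15, 10, 4, 0, List.all_eq_true.1 grpS24_4 _ (.tail _ (.tail _ (.tail _ (.head _))))⟩
def grpS24_5 : ([subst (sub pcS24 ⟨false, false, true, false, false⟩) (tplMG),
    subst (sub pcS24 ⟨false, true, true, false, false⟩) (tplMG),
    subst (sub pcS24 ⟨true, false, true, false, false⟩) (tplMG),
    subst (sub pcS24 ⟨true, true, true, false, false⟩) (tplMG)].all
    (checkFour (boxS24.vC) 467 26 18 6 0)) = true := by decide +kernel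
def chkS24_22 : Chk (boxS24.vC) (subst (sub pcS24 ⟨false, false, true, false, false⟩) (tplMG)) :=
  ⟨467, 26, 18, 6, 0, List.all_eq_true.1 grpS24_5 _ (.head _)⟩
def chkS24_23 : Chk (boxS24.vC) (subst (sub pcS24 ⟨false, true, true, false, false⟩) (tplMG)) :=
  ⟨467, 26, 18, 6, 0, List.all_eq_true.1 grpS24_5 _ (.tail _ (.head _))⟩
def chkS24_24 : Chk (boxS24.vC) (subst (sub pcS24 ⟨true, false, true, false, false⟩) (tplMG)) :=
  ⟨467, 26, 18, 6, 0, List.all_eq_true.1 grpS24_5 _ (.tail _ (.tail _ (.head _)))⟩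
def chkS24_25 : Chk (boxS24.vC) (subst (sub pcS24 ⟨true, true, true, false, false⟩) (tplMG)) :=
  ⟨467, 26, 18, 6, 0, List.all_eq_true.1 grpS24_5 _ (.tail _ (.tail _ (.tail _ (.head _))))⟩
def grpS24_6 : ([subst (sub pcS24 ⟨false, false, false, false, false⟩) (pcS24.m1),
    subst (sub pcS24 ⟨false, true, false, false, false⟩) (pcS24.m1),
    subst (sub pcS24 ⟨true, false, false, false, false⟩) (pcS24.m1),
    subst (sub pcS24 ⟨true, true, false, false, false⟩) (pcS24.m1)].all
    (checkFour (boxS24.vC) 340 19 14 4 0)) = true := by decide +kernel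
def chkS24_26 : Chk (boxS24.vC) (subst (sub pcS24 ⟨false, false, false, false, false⟩) (pcS24.m1)) :=
  ⟨340, 19, 14, 4, 0, List.all_eq_true.1 grpS24_6 _ (.head _)⟩
def chkS24_27 : Chk (boxS24.vC) (subst (sub pcS24 ⟨false, true, false, false, false⟩) (pcS24.m1)) :=
  ⟨340, 19, 14, 4, 0, List.all_eq_true.1 grpS24_6 _ (.tail _ (.head _))⟩
def chkS24_28 : Chk (boxS24.vC) (subst (sub pcS24 ⟨true, false, false, false, false⟩) (pcS24.m1)) :=
  ⟨340, 19, 14, 4, 0, List.all_eq_true.1 grpS24_6 _ (.tail _ (.tail _ (.head _)))⟩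
def chkS24_29 : Chk (boxS24.vC) (subst (sub pcS24 ⟨true, true, false, false, false⟩) (pcS24.m1)) :=
  ⟨340, 19, 14, 4, 0, List.all_eq_true.1 grpS24_6 _ (.tail _ (.tail _ (.tail _ (.head _))))⟩
def chkS24_30 : Chk (boxS24.vC) (subst (sub pcS24 ⟨false, false, true, false, false⟩) (strict (pcS24.m2 false))) :=
  ⟨503, 24, 17, 6, 0, by decide +kernel⟩
def chkS24_31 : Chk (boxS24.vC) (subst (sub pcS24 ⟨false, false, true, false, true⟩) (strict (pcS24.m2 false))) :=
  ⟨499, 24, 17, 6, 0, by decide +kernel⟩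
def chkS24_32 : Chk (boxS24.vC) (subst (sub pcS24 ⟨true, false, true, false, false⟩) (strict (pcS24.m2 false))) :=
  ⟨503, 24, 17, 6, 0, by decide +kernel⟩
def chkS24_33 : Chk (boxS24.vC) (subst (sub pcS24 ⟨true, false, true, false, true⟩) (strict (pcS24.m2 false))) :=
  ⟨499, 24, 17, 6, 0, by decide +kernel⟩
def chkS24_34 : Chk (boxS24.vC) (subst (sub pcS24 ⟨false, true, true, false, false⟩) (strict (pcS24.m2 true))) :=
  ⟨500, 24, 17, 6, 0, by decide +kernel⟩
def chkS24_35 : Chk (boxS24.vC) (subst (sub pcS24 ⟨false, true, true, false, true⟩) (strict (pcS24.m2 true))) :=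
  ⟨496, 24, 17, 6, 0, by decide +kernel⟩
def chkS24_36 : Chk (boxS24.vC) (subst (sub pcS24 ⟨true, true, true, false, false⟩) (strict (pcS24.m2 true))) :=
  ⟨500, 24, 17, 6, 0, by decide +kernel⟩
def chkS24_37 : Chk (boxS24.vC) (subst (sub pcS24 ⟨true, true, true, false, true⟩) (strict (pcS24.m2 true))) :=
  ⟨496, 24, 17, 6, 0, by decide +kernel⟩
def grpS24_15 : ([subst (sub pcS24 ⟨false, false, true, true, false⟩) (strict (pcS24.m3 false)),
    subst (sub pcS24 ⟨false, false, true, true, true⟩) (strict (pcS24.m3 false)),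
    subst (sub pcS24 ⟨false, false, true, true, false⟩) (strict (pcS24.m3 true)),
    subst (sub pcS24 ⟨false, false, true, true, true⟩) (strict (pcS24.m3 true))].all
    (checkFour (boxS24.vC) 622 31 23 6 0)) = true := by decide +kernel
def chkS24_38 : Chk (boxS24.vC) (subst (sub pcS24 ⟨false, false, true, true, false⟩) (strict (pcS24.m3 false))) :=
  ⟨622, 31, 23, 6, 0, List.all_eq_true.1 grpS24_15 _ (.head _)⟩
def chkS24_39 : Chk (boxS24.vC) (subst (sub pcS24 ⟨false, false, true, true, true⟩) (strict (pcS24.m3 false))) :=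
  ⟨622, 31, 23, 6, 0, List.all_eq_true.1 grpS24_15 _ (.tail _ (.head _))⟩
def chkS24_46 : Chk (boxS24.vC) (subst (sub pcS24 ⟨false, false, true, true, false⟩) (strict (pcS24.m3 true))) :=
  ⟨622, 31, 23, 6, 0, List.all_eq_true.1 grpS24_15 _ (.tail _ (.tail _ (.head _)))⟩
def chkS24_47 : Chk (boxS24.vC) (subst (sub pcS24 ⟨false, false, true, true, true⟩) (strict (pcS24.m3 true))) :=
  ⟨622, 31, 23, 6, 0, List.all_eq_true.1 grpS24_15 _ (.tail _ (.tail _ (.tail _ (.head _))))⟩
def grpS24_16 : ([subst (sub pcS24 ⟨false, true, true, true, false⟩) (strict (pcS24.m3 false)),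
    subst (sub pcS24 ⟨false, true, true, true, true⟩) (strict (pcS24.m3 false)),
    subst (sub pcS24 ⟨false, true, true, true, false⟩) (strict (pcS24.m3 true)),
    subst (sub pcS24 ⟨false, true, true, true, true⟩) (strict (pcS24.m3 true))].all
    (checkFour (boxS24.vC) 616 31 23 6 0)) = true := by decide +kernel
def chkS24_40 : Chk (boxS24.vC) (subst (sub pcS24 ⟨false, true, true, true, false⟩) (strict (pcS24.m3 false))) :=
  ⟨616, 31, 23, 6, 0, List.all_eq_true.1 grpS24_16 _ (.head _)⟩
def chkS24_41 : Chk (boxS24.vC) (subst (sub pcS24 ⟨false, true, true, true, true⟩) (strict (pcS24.m3 false))) :=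
  ⟨616, 31, 23, 6, 0, List.all_eq_true.1 grpS24_16 _ (.tail _ (.head _))⟩
def chkS24_48 : Chk (boxS24.vC) (subst (sub pcS24 ⟨false, true, true, true, false⟩) (strict (pcS24.m3 true))) :=
  ⟨616, 31, 23, 6, 0, List.all_eq_true.1 grpS24_16 _ (.tail _ (.tail _ (.head _)))⟩
def chkS24_49 : Chk (boxS24.vC) (subst (sub pcS24 ⟨false, true, true, true, true⟩) (strict (pcS24.m3 true))) :=
  ⟨616, 31, 23, 6, 0, List.all_eq_true.1 grpS24_16 _ (.tail _ (.tail _ (.tail _ (.head _))))⟩
def grpS24_17 : ([subst (sub pcS24 ⟨true, false, true, true, false⟩) (strict (pcS24.m3 false)),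
    subst (sub pcS24 ⟨true, false, true, true, true⟩) (strict (pcS24.m3 false)),
    subst (sub pcS24 ⟨true, false, true, true, false⟩) (strict (pcS24.m3 true)),
    subst (sub pcS24 ⟨true, false, true, true, true⟩) (strict (pcS24.m3 true))].all
    (checkFour (boxS24.vC) 622 31 23 6 0)) = true := by decide +kernel
def chkS24_42 : Chk (boxS24.vC) (subst (sub pcS24 ⟨true, false, true, true, false⟩) (strict (pcS24.m3 false))) :=
  ⟨622, 31, 23, 6, 0, List.all_eq_true.1 grpS24_17 _ (.head _)⟩
def chkS24_43 : Chk (boxS24.vC) (subst (sub pcS24 ⟨true, false, true, true, true⟩) (strict (pcS24.m3 false))) :=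
  ⟨622, 31, 23, 6, 0, List.all_eq_true.1 grpS24_17 _ (.tail _ (.head _))⟩
def chkS24_50 : Chk (boxS24.vC) (subst (sub pcS24 ⟨true, false, true, true, false⟩) (strict (pcS24.m3 true))) :=
  ⟨622, 31, 23, 6, 0, List.all_eq_true.1 grpS24_17 _ (.tail _ (.tail _ (.head _)))⟩
def chkS24_51 : Chk (boxS24.vC) (subst (sub pcS24 ⟨true, false, true, true, true⟩) (strict (pcS24.m3 true))) :=
  ⟨622, 31, 23, 6, 0, List.all_eq_true.1 grpS24_17 _ (.tail _ (.tail _ (.tail _ (.head _))))⟩
def grpS24_18 : ([subst (sub pcS24 ⟨true, true, true, true, false⟩) (strict (pcS24.m3 false)),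
    subst (sub pcS24 ⟨true, true, true, true, true⟩) (strict (pcS24.m3 false)),
    subst (sub pcS24 ⟨true, true, true, true, false⟩) (strict (pcS24.m3 true)),
    subst (sub pcS24 ⟨true, true, true, true, true⟩) (strict (pcS24.m3 true))].all
    (checkFour (boxS24.vC) 616 31 23 6 0)) = true := by decide +kernel
def chkS24_44 : Chk (boxS24.vC) (subst (sub pcS24 ⟨true, true, true, true, false⟩) (strict (pcS24.m3 false))) :=
  ⟨616, 31, 23, 6, 0, List.all_eq_true.1 grpS24_18 _ (.head _)⟩
def chkS24_45 : Chk (boxS24.vC) (subst (sub pcS24 ⟨true, true, true, true, true⟩) (strict (pcS24.m3 false))) :=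
  ⟨616, 31, 23, 6, 0, List.all_eq_true.1 grpS24_18 _ (.tail _ (.head _))⟩
def chkS24_52 : Chk (boxS24.vC) (subst (sub pcS24 ⟨true, true, true, true, false⟩) (strict (pcS24.m3 true))) :=
  ⟨616, 31, 23, 6, 0, List.all_eq_true.1 grpS24_18 _ (.tail _ (.tail _ (.head _)))⟩
def chkS24_53 : Chk (boxS24.vC) (subst (sub pcS24 ⟨true, true, true, true, true⟩) (strict (pcS24.m3 true))) :=
  ⟨616, 31, 23, 6, 0, List.all_eq_true.1 grpS24_18 _ (.tail _ (.tail _ (.tail _ (.head _))))⟩
def chkS24_54 : Chk (boxS24.vC) (subst (sub pcS24 ⟨false, false, true, true, false⟩) (negEx coMG12)) :=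
  ⟨137, 8, 5, 4, 0, by decide +kernel⟩
def grpS24_20 : ([subst (sub pcS24 ⟨false, false, true, true, false⟩) (negEx (pcS24.curve2 false)),
    subst (sub pcS24 ⟨false, false, true, true, false⟩) (negEx (pcS24.curve2 true))].all
    (checkFour (boxS24.vC) 152 9 5 4 0)) = true := by decide +kernel
def chkS24_55 : Chk (boxS24.vC) (subst (sub pcS24 ⟨false, false, true, true, false⟩) (negEx (pcS24.curve2 false))) :=
  ⟨152, 9, 5, 4, 0, List.all_eq_true.1 grpS24_20 _ (.head _)⟩
def chkS24_56 : Chk (boxS24.vC) (subst (sub pcS24 ⟨false, false, true, true, false⟩) (negEx (pcS24.curve2 true))) :=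
  ⟨152, 9, 5, 4, 0, List.all_eq_true.1 grpS24_20 _ (.tail _ (.head _))⟩
def grpS24_21 : ([subst (sub pcS24 ⟨false, false, true, true, false⟩) (negEx (pcS24.curve3 false)),
    subst (sub pcS24 ⟨false, false, true, true, false⟩) (negEx (pcS24.curve3 true))].all
    (checkFour (boxS24.vC) 157 9 6 4 0)) = true := by decide +kernel
def chkS24_57 : Chk (boxS24.vC) (subst (sub pcS24 ⟨false, false, true, true, false⟩) (negEx (pcS24.curve3 false))) :=
  ⟨157, 9, 6, 4, 0, List.all_eq_true.1 grpS24_21 _ (.head _)⟩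
def chkS24_58 : Chk (boxS24.vC) (subst (sub pcS24 ⟨false, false, true, true, false⟩) (negEx (pcS24.curve3 true))) :=
  ⟨157, 9, 6, 4, 0, List.all_eq_true.1 grpS24_21 _ (.tail _ (.head _))⟩
def grpS24_22 : ([subst (sub pcS24 ⟨false, false, true, true, false⟩) (slopeT),
    subst (sub pcS24 ⟨true, false, true, true, false⟩) (slopeT)].all
    (checkFour (boxS24.vC) 169 10 6 4 0)) = true := by decide +kernel
def chkS24_59 : Chk (boxS24.vC) (subst (sub pcS24 ⟨false, false, true, true, false⟩) (slopeT)) :=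
  ⟨169, 10, 6, 4, 0, List.all_eq_true.1 grpS24_22 _ (.head _)⟩
def chkS24_60 : Chk (boxS24.vC) (subst (sub pcS24 ⟨true, false, true, true, false⟩) (slopeT)) :=
  ⟨169, 10, 6, 4, 0, List.all_eq_true.1 grpS24_22 _ (.tail _ (.head _))⟩
def grpS24_23 : ([subst (gapSub pcS24 true false false) tplL,
    subst (gapSub pcS24 true false true) tplL,
    subst (gapSub pcS24 true true false) tplL,
    subst (gapSub pcS24 true true true) tplL].all
    (checkFour (boxS24.gC true) 413 25 16 5 2)) = true := by decide +kernel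
def chkS24_61 : Chk (boxS24.gC true) (subst (gapSub pcS24 true false false) tplL) :=
  ⟨413, 25, 16, 5, 2, List.all_eq_true.1 grpS24_23 _ (.head _)⟩
def chkS24_62 : Chk (boxS24.gC true) (subst (gapSub pcS24 true false true) tplL) :=
  ⟨413, 25, 16, 5, 2, List.all_eq_true.1 grpS24_23 _ (.tail _ (.head _))⟩
def chkS24_63 : Chk (boxS24.gC true) (subst (gapSub pcS24 true true false) tplL) :=
  ⟨413, 25, 16, 5, 2, List.all_eq_true.1 grpS24_23 _ (.tail _ (.tail _ (.head _)))⟩
def chkS24_64 : Chk (boxS24.gC true) (subst (gapSub pcS24 true true true) tplL) :=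
  ⟨413, 25, 16, 5, 2, List.all_eq_true.1 grpS24_23 _ (.tail _ (.tail _ (.tail _ (.head _))))⟩

/-- Piece 24 passes. -/
theorem certS24 : Cert pcS24 boxS24 true where
  pos := by
    refine ⟨⟨⟨?_, ?_, ?_, ?_, ?_, ?_, ?_⟩, ?_, ?_, ?_, ?_, ?_, ?_, ?_, ?_, ?_, ?_, ?_⟩, ?_, ?_⟩ <;>
      norm_num [fr, pcS24]
  gX := fun p l => match p, l with
    | false, false => chkS24_18
    | false, true => chkS24_19
    | true, false => chkS24_20
    | true, true => chkS24_21
  gMG := fun p l => match p, l with
    | false, false => chkS24_22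
    | false, true => chkS24_23
    | true, false => chkS24_24
    | true, true => chkS24_25
  g1 := fun p l => match p, l with
    | false, false => chkS24_26
    | false, true => chkS24_27
    | true, false => chkS24_28
    | true, true => chkS24_29
  g2 := fun s p t => match s, p, t with
    | false, false, false => chkS24_30
    | false, false, true => chkS24_31
    | false, true, false => chkS24_32
    | false, true, true => chkS24_33
    | true, false, false => chkS24_34
    | true, false, true => chkS24_35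
    | true, true, false => chkS24_36
    | true, true, true => chkS24_37
  g3 := fun s p l t => match s, p, l, t with
    | false, false, false, false => chkS24_38
    | false, false, false, true => chkS24_39
    | false, false, true, false => chkS24_40
    | false, false, true, true => chkS24_41
    | false, true, false, false => chkS24_42
    | false, true, false, true => chkS24_43
    | false, true, true, false => chkS24_44
    | false, true, true, true => chkS24_45
    | true, false, false, false => chkS24_46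
    | true, false, false, true => chkS24_47
    | true, false, true, false => chkS24_48
    | true, false, true, true => chkS24_49
    | true, true, false, false => chkS24_50
    | true, true, false, true => chkS24_51
    | true, true, true, false => chkS24_52
    | true, true, true, true => chkS24_53
  cMG := chkS24_54
  c2 := fun s => match s with
    | false => chkS24_55
    | true => chkS24_56
  c3 := fun s => match s with
    | false => chkS24_57
    | true => chkS24_58
  sT := fun p => match p with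
    | false => chkS24_59
    | true => chkS24_60
  bnd := fun ze b => match ze, b with
    | false, .l0 => chkS24_0
    | false, .l1 => chkS24_1
    | false, .r => chkS24_2
    | false, .g0 => chkS24_3
    | false, .g1 => chkS24_4
    | false, .t0 => chkS24_5
    | false, .t1 => chkS24_6
    | false, .w0 => chkS24_7
    | false, .w1 => chkS24_8
    | true, .l0 => chkS24_9
    | true, .l1 => chkS24_10
    | true, .r => chkS24_11
    | true, .g0 => chkS24_12
    | true, .g1 => chkS24_13
    | true, .t0 => chkS24_14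
    | true, .t1 => chkS24_15
    | true, .w0 => chkS24_16
    | true, .w1 => chkS24_17
  gap := fun ze t => match ze, t with
    | false, false => chkS24_61
    | false, true => chkS24_62
    | true, false => chkS24_63
    | true, true => chkS24_64

/-- A window of piece 24. -/
def winS24T : Win := ⟨.A, (45, 61, 500), (0, 3, 10), (-19, 102, 100), (51, 115, 50), (23, 350, 10), (153, 160, 200), true, true, (31, 0), (691, 1000)⟩

/-- The window passes. -/
theorem winS24T_ok : winS24T.Cert where
  fits := ⟨by norm_num [winS24T], by norm_num [winS24T, qLo], by norm_num [winS24T, qLo, qHi],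
    by norm_num [winS24T, qLo, qHi], by norm_num [winS24T, qLo], by norm_num [winS24T, qHi]⟩
  cross := ⟨254, 9, 6, 2, 7, by decide +kernel⟩
  exit := ⟨231, 12, 7, 3, 6, by decide +kernel⟩
  mix := ⟨326, 14, 9, 3, 10, by decide +kernel⟩

/-- The tight band is crossed one way on piece 24. -/
theorem bandS24 : Chk (winS24T.chart (153, 160, 200) winS24T.qc) (sBand winS24T.kind) :=
  ⟨436, 17, 11, 3, 14, by decide +kernel⟩

end Vale.Agent.P100.Calib.StripMid
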