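import Vale.Agent.P100.Calib.SlabStripMidSevWindow

/-!
# The checks of piece 25 below 153/200 for `N` between seven and twenty
-/

set_option linter.defProp false

namespace Vale.Agent.P100.Calib.StripMid

open Pack

/-- The numbers of piece 25. -/
def pcS25 : Piece := ⟨.A, (153, 200), (4, 5), (63, 100), (111, 100), (123, 50), (207, 500), (107, 200), (917, 1000), (443, -1650, 500), (963, -2850, 1000), 40, (57,-425,600,5), (91, 200), (153, 200), (7, 20), (1, 4), (3, 20)⟩

/-- The ranges of piece 25. -/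
def boxS25 : Box := ⟨(45, 61, 500), (150, 451, 500), (108, 427, 100), (111, 246, 100), (153, 160, 200)⟩

def grpS25_0 : ([bound pcS25 false .l0,
    bound pcS25 false .l1,
    bound pcS25 false .r,
    bound pcS25 true .l0,
    bound pcS25 true .l1,
    bound pcS25 true .r].all
    (checkFour (boxS25.cC) 301 14 9 2 3)) = true := by decide +kernel
def chkS25_0 : Chk (boxS25.cC) (bound pcS25 false .l0) :=
  ⟨301, 14, 9, 2, 3, List.all_eq_true.1 grpS25_0 _ (.head _)⟩
def chkS25_1 : Chk (boxS25.cC) (bound pcS25 false .l1) :=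
  ⟨301, 14, 9, 2, 3, List.all_eq_true.1 grpS25_0 _ (.tail _ (.head _))⟩
def chkS25_2 : Chk (boxS25.cC) (bound pcS25 false .r) :=
  ⟨301, 14, 9, 2, 3, List.all_eq_true.1 grpS25_0 _ (.tail _ (.tail _ (.head _)))⟩
def chkS25_9 : Chk (boxS25.cC) (bound pcS25 true .l0) :=
  ⟨301, 14, 9, 2, 3, List.all_eq_true.1 grpS25_0 _ (.tail _ (.tail _ (.tail _ (.head _))))⟩
def chkS25_10 : Chk (boxS25.cC) (bound pcS25 true .l1) :=
  ⟨301, 14, 9, 2, 3, List.all_eq_true.1 grpS25_0 _ (.tail _ (.tail _ (.tail _ (.tail _ (.head _)))))⟩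
def chkS25_11 : Chk (boxS25.cC) (bound pcS25 true .r) :=
  ⟨301, 14, 9, 2, 3, List.all_eq_true.1 grpS25_0 _ (.tail _ (.tail _ (.tail _ (.tail _ (.tail _ (.head _))))))⟩
def grpS25_1 : ([bound pcS25 false .g0,
    bound pcS25 false .g1,
    bound pcS25 true .g0,
    bound pcS25 true .g1].all
    (checkFour (boxS25.cC) 125 5 3 1 2)) = true := by decide +kernel
def chkS25_3 : Chk (boxS25.cC) (bound pcS25 false .g0) :=
  ⟨125, 5, 3, 1, 2, List.all_eq_true.1 grpS25_1 _ (.head _)⟩
def chkS25_4 : Chk (boxS25.cC) (bound pcS25 false .g1) :=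
  ⟨125, 5, 3, 1, 2, List.all_eq_true.1 grpS25_1 _ (.tail _ (.head _))⟩
def chkS25_12 : Chk (boxS25.cC) (bound pcS25 true .g0) :=
  ⟨125, 5, 3, 1, 2, List.all_eq_true.1 grpS25_1 _ (.tail _ (.tail _ (.head _)))⟩
def chkS25_13 : Chk (boxS25.cC) (bound pcS25 true .g1) :=
  ⟨125, 5, 3, 1, 2, List.all_eq_true.1 grpS25_1 _ (.tail _ (.tail _ (.tail _ (.head _))))⟩
def grpS25_2 : ([bound pcS25 false .t0,
    bound pcS25 false .t1,
    bound pcS25 true .t0,
    bound pcS25 true .t1].all
    (checkFour (boxS25.cC) 214 9 6 2 3)) = true := by decide +kernel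
def chkS25_5 : Chk (boxS25.cC) (bound pcS25 false .t0) :=
  ⟨214, 9, 6, 2, 3, List.all_eq_true.1 grpS25_2 _ (.head _)⟩
def chkS25_6 : Chk (boxS25.cC) (bound pcS25 false .t1) :=
  ⟨214, 9, 6, 2, 3, List.all_eq_true.1 grpS25_2 _ (.tail _ (.head _))⟩
def chkS25_14 : Chk (boxS25.cC) (bound pcS25 true .t0) :=
  ⟨214, 9, 6, 2, 3, List.all_eq_true.1 grpS25_2 _ (.tail _ (.tail _ (.head _)))⟩
def chkS25_15 : Chk (boxS25.cC) (bound pcS25 true .t1) :=
  ⟨214, 9, 6, 2, 3, List.all_eq_true.1 grpS25_2 _ (.tail _ (.tail _ (.tail _ (.head _))))⟩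
def grpS25_3 : ([bound pcS25 false .w0,
    bound pcS25 false .w1,
    bound pcS25 true .w0,
    bound pcS25 true .w1].all
    (checkFour (boxS25.cC) 268 12 7 3 4)) = true := by decide +kernel
def chkS25_7 : Chk (boxS25.cC) (bound pcS25 false .w0) :=
  ⟨268, 12, 7, 3, 4, List.all_eq_true.1 grpS25_3 _ (.head _)⟩
def chkS25_8 : Chk (boxS25.cC) (bound pcS25 false .w1) :=
  ⟨268, 12, 7, 3, 4, List.all_eq_true.1 grpS25_3 _ (.tail _ (.head _))⟩
def chkS25_16 : Chk (boxS25.cC) (bound pcS25 true .w0) :=
  ⟨268, 12, 7, 3, 4, List.all_eq_true.1 grpS25_3 _ (.tail _ (.tail _ (.head _)))⟩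
def chkS25_17 : Chk (boxS25.cC) (bound pcS25 true .w1) :=
  ⟨268, 12, 7, 3, 4, List.all_eq_true.1 grpS25_3 _ (.tail _ (.tail _ (.tail _ (.head _))))⟩
def grpS25_4 : ([subst (sub pcS25 ⟨false, false, true, true, false⟩) (condX),
    subst (sub pcS25 ⟨false, true, true, true, false⟩) (condX),
    subst (sub pcS25 ⟨true, false, true, true, false⟩) (condX),
    subst (sub pcS25 ⟨true, true, true, true, false⟩) (condX)].all
    (checkFour (boxS25.vC) 327 15 10 4 0)) = true := by decide +kernel
def chkS25_18 : Chk (boxS25.vC) (subst (sub pcS25 ⟨false, false, true, true, false⟩) (condX)) :=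
  ⟨327, 15, 10, 4, 0, List.all_eq_true.1 grpS25_4 _ (.head _)⟩
def chkS25_19 : Chk (boxS25.vC) (subst (sub pcS25 ⟨false, true, true, true, false⟩) (condX)) :=
  ⟨327, 15, 10, 4, 0, List.all_eq_true.1 grpS25_4 _ (.tail _ (.head _))⟩
def chkS25_20 : Chk (boxS25.vC) (subst (sub pcS25 ⟨true, false, true, true, false⟩) (condX)) :=
  ⟨327, 15, 10, 4, 0, List.all_eq_true.1 grpS25_4 _ (.tail _ (.tail _ (.head _)))⟩
def chkS25_21 : Chk (boxS25.vC) (subst (sub pcS25 ⟨true, true, true, true, false⟩) (condX)) :=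
  ⟨327, 15, 10, 4, 0, List.all_eq_true.1 grpS25_4 _ (.tail _ (.tail _ (.tail _ (.head _))))⟩
def grpS25_5 : ([subst (sub pcS25 ⟨false, false, true, false, false⟩) (tplMG),
    subst (sub pcS25 ⟨false, true, true, false, false⟩) (tplMG),
    subst (sub pcS25 ⟨true, false, true, false, false⟩) (tplMG),
    subst (sub pcS25 ⟨true, true, true, false, false⟩) (tplMG)].all
    (checkFour (boxS25.vC) 575 26 18 6 0)) = true := by decide +kernel
def chkS25_22 : Chk (boxS25.vC) (subst (sub pcS25 ⟨false, false, true, false, false⟩) (tplMG)) :=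
  ⟨575, 26, 18, 6, 0, List.all_eq_true.1 grpS25_5 _ (.head _)⟩
def chkS25_23 : Chk (boxS25.vC) (subst (sub pcS25 ⟨false, true, true, false, false⟩) (tplMG)) :=
  ⟨575, 26, 18, 6, 0, List.all_eq_true.1 grpS25_5 _ (.tail _ (.head _))⟩
def chkS25_24 : Chk (boxS25.vC) (subst (sub pcS25 ⟨true, false, true, false, false⟩) (tplMG)) :=
  ⟨575, 26, 18, 6, 0, List.all_eq_true.1 grpS25_5 _ (.tail _ (.tail _ (.head _)))⟩
def chkS25_25 : Chk (boxS25.vC) (subst (sub pcS25 ⟨true, true, true, false, false⟩) (tplMG)) :=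
  ⟨575, 26, 18, 6, 0, List.all_eq_true.1 grpS25_5 _ (.tail _ (.tail _ (.tail _ (.head _))))⟩
def grpS25_6 : ([subst (sub pcS25 ⟨false, false, false, false, false⟩) (pcS25.m1),
    subst (sub pcS25 ⟨false, true, false, false, false⟩) (pcS25.m1),
    subst (sub pcS25 ⟨true, false, false, false, false⟩) (pcS25.m1),
    subst (sub pcS25 ⟨true, true, false, false, false⟩) (pcS25.m1)].all
    (checkFour (boxS25.vC) 421 19 14 4 0)) = true := by decide +kernel
def chkS25_26 : Chk (boxS25.vC) (subst (sub pcS25 ⟨false, false, false, false, false⟩) (pcS25.m1)) :=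
  ⟨421, 19, 14, 4, 0, List.all_eq_true.1 grpS25_6 _ (.head _)⟩
def chkS25_27 : Chk (boxS25.vC) (subst (sub pcS25 ⟨false, true, false, false, false⟩) (pcS25.m1)) :=
  ⟨421, 19, 14, 4, 0, List.all_eq_true.1 grpS25_6 _ (.tail _ (.head _))⟩
def chkS25_28 : Chk (boxS25.vC) (subst (sub pcS25 ⟨true, false, false, false, false⟩) (pcS25.m1)) :=
  ⟨421, 19, 14, 4, 0, List.all_eq_true.1 grpS25_6 _ (.tail _ (.tail _ (.head _)))⟩
def chkS25_29 : Chk (boxS25.vC) (subst (sub pcS25 ⟨true, true, false, false, false⟩) (pcS25.m1)) :=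
  ⟨421, 19, 14, 4, 0, List.all_eq_true.1 grpS25_6 _ (.tail _ (.tail _ (.tail _ (.head _))))⟩
def chkS25_30 : Chk (boxS25.vC) (subst (sub pcS25 ⟨false, false, true, false, false⟩) (strict (pcS25.m2 false))) :=
  ⟨603, 24, 17, 6, 0, by decide +kernel⟩
def chkS25_31 : Chk (boxS25.vC) (subst (sub pcS25 ⟨false, false, true, false, true⟩) (strict (pcS25.m2 false))) :=
  ⟨605, 24, 17, 6, 0, by decide +kernel⟩
def chkS25_32 : Chk (boxS25.vC) (subst (sub pcS25 ⟨true, false, true, false, false⟩) (strict (pcS25.m2 false))) :=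
  ⟨603, 24, 17, 6, 0, by decide +kernel⟩
def chkS25_33 : Chk (boxS25.vC) (subst (sub pcS25 ⟨true, false, true, false, true⟩) (strict (pcS25.m2 false))) :=
  ⟨605, 24, 17, 6, 0, by decide +kernel⟩
def chkS25_34 : Chk (boxS25.vC) (subst (sub pcS25 ⟨false, true, true, false, false⟩) (strict (pcS25.m2 true))) :=
  ⟨599, 24, 17, 6, 0, by decide +kernel⟩
def chkS25_35 : Chk (boxS25.vC) (subst (sub pcS25 ⟨false, true, true, false, true⟩) (strict (pcS25.m2 true))) :=
  ⟨601, 24, 17, 6, 0, by decide +kernel⟩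
def chkS25_36 : Chk (boxS25.vC) (subst (sub pcS25 ⟨true, true, true, false, false⟩) (strict (pcS25.m2 true))) :=
  ⟨599, 24, 17, 6, 0, by decide +kernel⟩
def chkS25_37 : Chk (boxS25.vC) (subst (sub pcS25 ⟨true, true, true, false, true⟩) (strict (pcS25.m2 true))) :=
  ⟨601, 24, 17, 6, 0, by decide +kernel⟩
def grpS25_15 : ([subst (sub pcS25 ⟨false, false, true, true, false⟩) (strict (pcS25.m3 false)),
    subst (sub pcS25 ⟨false, false, true, true, true⟩) (strict (pcS25.m3 false)),
    subst (sub pcS25 ⟨false, false, true, true, false⟩) (strict (pcS25.m3 true)),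
    subst (sub pcS25 ⟨false, false, true, true, true⟩) (strict (pcS25.m3 true))].all
    (checkFour (boxS25.vC) 758 31 23 6 0)) = true := by decide +kernel
def chkS25_38 : Chk (boxS25.vC) (subst (sub pcS25 ⟨false, false, true, true, false⟩) (strict (pcS25.m3 false))) :=
  ⟨758, 31, 23, 6, 0, List.all_eq_true.1 grpS25_15 _ (.head _)⟩
def chkS25_39 : Chk (boxS25.vC) (subst (sub pcS25 ⟨false, false, true, true, true⟩) (strict (pcS25.m3 false))) :=
  ⟨758, 31, 23, 6, 0, List.all_eq_true.1 grpS25_15 _ (.tail _ (.head _))⟩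
def chkS25_46 : Chk (boxS25.vC) (subst (sub pcS25 ⟨false, false, true, true, false⟩) (strict (pcS25.m3 true))) :=
  ⟨758, 31, 23, 6, 0, List.all_eq_true.1 grpS25_15 _ (.tail _ (.tail _ (.head _)))⟩
def chkS25_47 : Chk (boxS25.vC) (subst (sub pcS25 ⟨false, false, true, true, true⟩) (strict (pcS25.m3 true))) :=
  ⟨758, 31, 23, 6, 0, List.all_eq_true.1 grpS25_15 _ (.tail _ (.tail _ (.tail _ (.head _))))⟩
def grpS25_16 : ([subst (sub pcS25 ⟨false, true, true, true, false⟩) (strict (pcS25.m3 false)),
    subst (sub pcS25 ⟨false, true, true, true, true⟩) (strict (pcS25.m3 false)),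
    subst (sub pcS25 ⟨false, true, true, true, false⟩) (strict (pcS25.m3 true)),
    subst (sub pcS25 ⟨false, true, true, true, true⟩) (strict (pcS25.m3 true))].all
    (checkFour (boxS25.vC) 756 31 23 6 0)) = true := by decide +kernel
def chkS25_40 : Chk (boxS25.vC) (subst (sub pcS25 ⟨false, true, true, true, false⟩) (strict (pcS25.m3 false))) :=
  ⟨756, 31, 23, 6, 0, List.all_eq_true.1 grpS25_16 _ (.head _)⟩
def chkS25_41 : Chk (boxS25.vC) (subst (sub pcS25 ⟨false, true, true, true, true⟩) (strict (pcS25.m3 false))) :=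
  ⟨756, 31, 23, 6, 0, List.all_eq_true.1 grpS25_16 _ (.tail _ (.head _))⟩
def chkS25_48 : Chk (boxS25.vC) (subst (sub pcS25 ⟨false, true, true, true, false⟩) (strict (pcS25.m3 true))) :=
  ⟨756, 31, 23, 6, 0, List.all_eq_true.1 grpS25_16 _ (.tail _ (.tail _ (.head _)))⟩
def chkS25_49 : Chk (boxS25.vC) (subst (sub pcS25 ⟨false, true, true, true, true⟩) (strict (pcS25.m3 true))) :=
  ⟨756, 31, 23, 6, 0, List.all_eq_true.1 grpS25_16 _ (.tail _ (.tail _ (.tail _ (.head _))))⟩
def grpS25_17 : ([subst (sub pcS25 ⟨true, false, true, true, false⟩) (strict (pcS25.m3 false)),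
    subst (sub pcS25 ⟨true, false, true, true, true⟩) (strict (pcS25.m3 false)),
    subst (sub pcS25 ⟨true, false, true, true, false⟩) (strict (pcS25.m3 true)),
    subst (sub pcS25 ⟨true, false, true, true, true⟩) (strict (pcS25.m3 true))].all
    (checkFour (boxS25.vC) 758 31 23 6 0)) = true := by decide +kernel
def chkS25_42 : Chk (boxS25.vC) (subst (sub pcS25 ⟨true, false, true, true, false⟩) (strict (pcS25.m3 false))) :=
  ⟨758, 31, 23, 6, 0, List.all_eq_true.1 grpS25_17 _ (.head _)⟩
def chkS25_43 : Chk (boxS25.vC) (subst (sub pcS25 ⟨true, false, true, true, true⟩) (strict (pcS25.m3 false))) :=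
  ⟨758, 31, 23, 6, 0, List.all_eq_true.1 grpS25_17 _ (.tail _ (.head _))⟩
def chkS25_50 : Chk (boxS25.vC) (subst (sub pcS25 ⟨true, false, true, true, false⟩) (strict (pcS25.m3 true))) :=
  ⟨758, 31, 23, 6, 0, List.all_eq_true.1 grpS25_17 _ (.tail _ (.tail _ (.head _)))⟩
def chkS25_51 : Chk (boxS25.vC) (subst (sub pcS25 ⟨true, false, true, true, true⟩) (strict (pcS25.m3 true))) :=
  ⟨758, 31, 23, 6, 0, List.all_eq_true.1 grpS25_17 _ (.tail _ (.tail _ (.tail _ (.head _))))⟩
def grpS25_18 : ([subst (sub pcS25 ⟨true, true, true, true, false⟩) (strict (pcS25.m3 false)),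
    subst (sub pcS25 ⟨true, true, true, true, true⟩) (strict (pcS25.m3 false)),
    subst (sub pcS25 ⟨true, true, true, true, false⟩) (strict (pcS25.m3 true)),
    subst (sub pcS25 ⟨true, true, true, true, true⟩) (strict (pcS25.m3 true))].all
    (checkFour (boxS25.vC) 756 31 23 6 0)) = true := by decide +kernel
def chkS25_44 : Chk (boxS25.vC) (subst (sub pcS25 ⟨true, true, true, true, false⟩) (strict (pcS25.m3 false))) :=
  ⟨756, 31, 23, 6, 0, List.all_eq_true.1 grpS25_18 _ (.head _)⟩
def chkS25_45 : Chk (boxS25.vC) (subst (sub pcS25 ⟨true, true, true, true, true⟩) (strict (pcS25.m3 false))) :=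
  ⟨756, 31, 23, 6, 0, List.all_eq_true.1 grpS25_18 _ (.tail _ (.head _))⟩
def chkS25_52 : Chk (boxS25.vC) (subst (sub pcS25 ⟨true, true, true, true, false⟩) (strict (pcS25.m3 true))) :=
  ⟨756, 31, 23, 6, 0, List.all_eq_true.1 grpS25_18 _ (.tail _ (.tail _ (.head _)))⟩
def chkS25_53 : Chk (boxS25.vC) (subst (sub pcS25 ⟨true, true, true, true, true⟩) (strict (pcS25.m3 true))) :=
  ⟨756, 31, 23, 6, 0, List.all_eq_true.1 grpS25_18 _ (.tail _ (.tail _ (.tail _ (.head _))))⟩
def chkS25_54 : Chk (boxS25.vC) (subst (sub pcS25 ⟨false, false, true, true, false⟩) (negEx coMG12)) :=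
  ⟨166, 8, 5, 4, 0, by decide +kernel⟩
def grpS25_20 : ([subst (sub pcS25 ⟨false, false, true, true, false⟩) (negEx (pcS25.curve2 false)),
    subst (sub pcS25 ⟨false, false, true, true, false⟩) (negEx (pcS25.curve2 true))].all
    (checkFour (boxS25.vC) 181 9 5 4 0)) = true := by decide +kernel
def chkS25_55 : Chk (boxS25.vC) (subst (sub pcS25 ⟨false, false, true, true, false⟩) (negEx (pcS25.curve2 false))) :=
  ⟨181, 9, 5, 4, 0, List.all_eq_true.1 grpS25_20 _ (.head _)⟩
def chkS25_56 : Chk (boxS25.vC) (subst (sub pcS25 ⟨false, false, true, true, false⟩) (negEx (pcS25.curve2 true))) :=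
  ⟨181, 9, 5, 4, 0, List.all_eq_true.1 grpS25_20 _ (.tail _ (.head _))⟩
def grpS25_21 : ([subst (sub pcS25 ⟨false, false, true, true, false⟩) (negEx (pcS25.curve3 false)),
    subst (sub pcS25 ⟨false, false, true, true, false⟩) (negEx (pcS25.curve3 true))].all
    (checkFour (boxS25.vC) 191 9 6 4 0)) = true := by decide +kernel
def chkS25_57 : Chk (boxS25.vC) (subst (sub pcS25 ⟨false, false, true, true, false⟩) (negEx (pcS25.curve3 false))) :=
  ⟨191, 9, 6, 4, 0, List.all_eq_true.1 grpS25_21 _ (.head _)⟩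
def chkS25_58 : Chk (boxS25.vC) (subst (sub pcS25 ⟨false, false, true, true, false⟩) (negEx (pcS25.curve3 true))) :=
  ⟨191, 9, 6, 4, 0, List.all_eq_true.1 grpS25_21 _ (.tail _ (.head _))⟩
def grpS25_22 : ([subst (sub pcS25 ⟨false, false, true, true, false⟩) (slopeT),
    subst (sub pcS25 ⟨true, false, true, true, false⟩) (slopeT)].all
    (checkFour (boxS25.vC) 206 10 6 4 0)) = true := by decide +kernel
def chkS25_59 : Chk (boxS25.vC) (subst (sub pcS25 ⟨false, false, true, true, false⟩) (slopeT)) :=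
  ⟨206, 10, 6, 4, 0, List.all_eq_true.1 grpS25_22 _ (.head _)⟩
def chkS25_60 : Chk (boxS25.vC) (subst (sub pcS25 ⟨true, false, true, true, false⟩) (slopeT)) :=
  ⟨206, 10, 6, 4, 0, List.all_eq_true.1 grpS25_22 _ (.tail _ (.head _))⟩
def grpS25_23 : ([subst (gapSub pcS25 true false false) tplL,
    subst (gapSub pcS25 true false true) tplL,
    subst (gapSub pcS25 true true false) tplL,
    subst (gapSub pcS25 true true true) tplL].all
    (checkFour (boxS25.gC true) 505 25 16 5 2)) = true := by decide +kernel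
def chkS25_61 : Chk (boxS25.gC true) (subst (gapSub pcS25 true false false) tplL) :=
  ⟨505, 25, 16, 5, 2, List.all_eq_true.1 grpS25_23 _ (.head _)⟩
def chkS25_62 : Chk (boxS25.gC true) (subst (gapSub pcS25 true false true) tplL) :=
  ⟨505, 25, 16, 5, 2, List.all_eq_true.1 grpS25_23 _ (.tail _ (.head _))⟩
def chkS25_63 : Chk (boxS25.gC true) (subst (gapSub pcS25 true true false) tplL) :=
  ⟨505, 25, 16, 5, 2, List.all_eq_true.1 grpS25_23 _ (.tail _ (.tail _ (.head _)))⟩
def chkS25_64 : Chk (boxS25.gC true) (subst (gapSub pcS25 true true true) tplL) :=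
  ⟨505, 25, 16, 5, 2, List.all_eq_true.1 grpS25_23 _ (.tail _ (.tail _ (.tail _ (.head _))))⟩

/-- Piece 25 passes. -/
theorem certS25 : Cert pcS25 boxS25 true where
  pos := by
    refine ⟨⟨⟨?_, ?_, ?_, ?_, ?_, ?_, ?_⟩, ?_, ?_, ?_, ?_, ?_, ?_, ?_, ?_, ?_, ?_, ?_⟩, ?_, ?_⟩ <;>
      norm_num [fr, pcS25]
  gX := fun p l => match p, l with
    | false, false => chkS25_18
    | false, true => chkS25_19
    | true, false => chkS25_20
    | true, true => chkS25_21
  gMG := fun p l => match p, l with
    | false, false => chkS25_22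
    | false, true => chkS25_23
    | true, false => chkS25_24
    | true, true => chkS25_25
  g1 := fun p l => match p, l with
    | false, false => chkS25_26
    | false, true => chkS25_27
    | true, false => chkS25_28
    | true, true => chkS25_29
  g2 := fun s p t => match s, p, t with
    | false, false, false => chkS25_30
    | false, false, true => chkS25_31
    | false, true, false => chkS25_32
    | false, true, true => chkS25_33
    | true, false, false => chkS25_34
    | true, false, true => chkS25_35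
    | true, true, false => chkS25_36
    | true, true, true => chkS25_37
  g3 := fun s p l t => match s, p, l, t with
    | false, false, false, false => chkS25_38
    | false, false, false, true => chkS25_39
    | false, false, true, false => chkS25_40
    | false, false, true, true => chkS25_41
    | false, true, false, false => chkS25_42
    | false, true, false, true => chkS25_43
    | false, true, true, false => chkS25_44
    | false, true, true, true => chkS25_45
    | true, false, false, false => chkS25_46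
    | true, false, false, true => chkS25_47
    | true, false, true, false => chkS25_48
    | true, false, true, true => chkS25_49
    | true, true, false, false => chkS25_50
    | true, true, false, true => chkS25_51
    | true, true, true, false => chkS25_52
    | true, true, true, true => chkS25_53
  cMG := chkS25_54
  c2 := fun s => match s with
    | false => chkS25_55
    | true => chkS25_56
  c3 := fun s => match s with
    | false => chkS25_57
    | true => chkS25_58
  sT := fun p => match p with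
    | false => chkS25_59
    | true => chkS25_60
  bnd := fun ze b => match ze, b with
    | false, .l0 => chkS25_0
    | false, .l1 => chkS25_1
    | false, .r => chkS25_2
    | false, .g0 => chkS25_3
    | false, .g1 => chkS25_4
    | false, .t0 => chkS25_5
    | false, .t1 => chkS25_6
    | false, .w0 => chkS25_7
    | false, .w1 => chkS25_8
    | true, .l0 => chkS25_9
    | true, .l1 => chkS25_10
    | true, .r => chkS25_11
    | true, .g0 => chkS25_12
    | true, .g1 => chkS25_13
    | true, .t0 => chkS25_14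
    | true, .t1 => chkS25_15
    | true, .w0 => chkS25_16
    | true, .w1 => chkS25_17
  gap := fun ze t => match ze, t with
    | false, false => chkS25_61
    | false, true => chkS25_62
    | true, false => chkS25_63
    | true, true => chkS25_64

/-- A window of piece 25. -/
def winS25T : Win := ⟨.A, (45, 61, 500), (150, 451, 500), (-19, 111, 100), (111, 246, 100), (123, 1750, 50), (153, 160, 200), true, true, (34, 0), (589, 1000)⟩

/-- The window passes. -/
theorem winS25T_ok : winS25T.Cert where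
  fits := ⟨by norm_num [winS25T], by norm_num [winS25T, qLo], by norm_num [winS25T, qLo, qHi],
    by norm_num [winS25T, qLo, qHi], by norm_num [winS25T, qLo], by norm_num [winS25T, qHi]⟩
  cross := ⟨288, 9, 6, 2, 7, by decide +kernel⟩
  exit := ⟨278, 12, 7, 3, 6, by decide +kernel⟩
  mix := ⟨380, 14, 9, 3, 10, by decide +kernel⟩

/-- The tight band is crossed one way on piece 25. -/
theorem bandS25 : Chk (winS25T.chart (153, 160, 200) winS25T.qc) (sBand winS25T.kind) :=
  ⟨502, 17, 11, 3, 14, by decide +kernel⟩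

end Vale.Agent.P100.Calib.StripMid
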