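import Vale.Agent.P100.Calib.SlabStripMidSevWindow

/-!
# The checks of piece 26 below 153/200 for `N` between seven and twenty
-/

set_option linter.defProp false

namespace Vale.Agent.P100.Calib.StripMid

open Pack

/-- The numbers of piece 26. -/
def pcS26 : Piece := ⟨.A, (153, 200), (4, 5), (18, 25), (121, 100), (66, 25), (417, 1000), (521, 1000), (903, 1000), (489, -3000, 500), (126, -525, 125), 48, (25,-172,150,1), (199, 500), (149, 250), (11, 50), (3, 20), (3, 20)⟩

/-- The ranges of piece 26. -/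
def boxS26 : Box := ⟨(122, 143, 1000), (0, 3, 10), (127, 405, 100), (121, 264, 100), (153, 160, 200)⟩

def grpS26_0 : ([bound pcS26 false .l0,
    bound pcS26 false .l1,
    bound pcS26 false .r,
    bound pcS26 true .l0,
    bound pcS26 true .l1,
    bound pcS26 true .r].all
    (checkFour (boxS26.cC) 263 14 9 2 3)) = true := by decide +kernel
def chkS26_0 : Chk (boxS26.cC) (bound pcS26 false .l0) :=
  ⟨263, 14, 9, 2, 3, List.all_eq_true.1 grpS26_0 _ (.head _)⟩
def chkS26_1 : Chk (boxS26.cC) (bound pcS26 false .l1) :=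
  ⟨263, 14, 9, 2, 3, List.all_eq_true.1 grpS26_0 _ (.tail _ (.head _))⟩
def chkS26_2 : Chk (boxS26.cC) (bound pcS26 false .r) :=
  ⟨263, 14, 9, 2, 3, List.all_eq_true.1 grpS26_0 _ (.tail _ (.tail _ (.head _)))⟩
def chkS26_9 : Chk (boxS26.cC) (bound pcS26 true .l0) :=
  ⟨263, 14, 9, 2, 3, List.all_eq_true.1 grpS26_0 _ (.tail _ (.tail _ (.tail _ (.head _))))⟩
def chkS26_10 : Chk (boxS26.cC) (bound pcS26 true .l1) :=
  ⟨263, 14, 9, 2, 3, List.all_eq_true.1 grpS26_0 _ (.tail _ (.tail _ (.tail _ (.tail _ (.head _)))))⟩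
def chkS26_11 : Chk (boxS26.cC) (bound pcS26 true .r) :=
  ⟨263, 14, 9, 2, 3, List.all_eq_true.1 grpS26_0 _ (.tail _ (.tail _ (.tail _ (.tail _ (.tail _ (.head _))))))⟩
def grpS26_1 : ([bound pcS26 false .g0,
    bound pcS26 false .g1,
    bound pcS26 true .g0,
    bound pcS26 true .g1].all
    (checkFour (boxS26.cC) 112 5 3 1 2)) = true := by decide +kernel
def chkS26_3 : Chk (boxS26.cC) (bound pcS26 false .g0) :=
  ⟨112, 5, 3, 1, 2, List.all_eq_true.1 grpS26_1 _ (.head _)⟩
def chkS26_4 : Chk (boxS26.cC) (bound pcS26 false .g1) :=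
  ⟨112, 5, 3, 1, 2, List.all_eq_true.1 grpS26_1 _ (.tail _ (.head _))⟩
def chkS26_12 : Chk (boxS26.cC) (bound pcS26 true .g0) :=
  ⟨112, 5, 3, 1, 2, List.all_eq_true.1 grpS26_1 _ (.tail _ (.tail _ (.head _)))⟩
def chkS26_13 : Chk (boxS26.cC) (bound pcS26 true .g1) :=
  ⟨112, 5, 3, 1, 2, List.all_eq_true.1 grpS26_1 _ (.tail _ (.tail _ (.tail _ (.head _))))⟩
def grpS26_2 : ([bound pcS26 false .t0,
    bound pcS26 false .t1,
    bound pcS26 true .t0,
    bound pcS26 true .t1].all
    (checkFour (boxS26.cC) 186 9 6 2 3)) = true := by decide +kernel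
def chkS26_5 : Chk (boxS26.cC) (bound pcS26 false .t0) :=
  ⟨186, 9, 6, 2, 3, List.all_eq_true.1 grpS26_2 _ (.head _)⟩
def chkS26_6 : Chk (boxS26.cC) (bound pcS26 false .t1) :=
  ⟨186, 9, 6, 2, 3, List.all_eq_true.1 grpS26_2 _ (.tail _ (.head _))⟩
def chkS26_14 : Chk (boxS26.cC) (bound pcS26 true .t0) :=
  ⟨186, 9, 6, 2, 3, List.all_eq_true.1 grpS26_2 _ (.tail _ (.tail _ (.head _)))⟩
def chkS26_15 : Chk (boxS26.cC) (bound pcS26 true .t1) :=
  ⟨186, 9, 6, 2, 3, List.all_eq_true.1 grpS26_2 _ (.tail _ (.tail _ (.tail _ (.head _))))⟩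
def grpS26_3 : ([bound pcS26 false .w0,
    bound pcS26 false .w1,
    bound pcS26 true .w0,
    bound pcS26 true .w1].all
    (checkFour (boxS26.cC) 237 12 7 3 4)) = true := by decide +kernel
def chkS26_7 : Chk (boxS26.cC) (bound pcS26 false .w0) :=
  ⟨237, 12, 7, 3, 4, List.all_eq_true.1 grpS26_3 _ (.head _)⟩
def chkS26_8 : Chk (boxS26.cC) (bound pcS26 false .w1) :=
  ⟨237, 12, 7, 3, 4, List.all_eq_true.1 grpS26_3 _ (.tail _ (.head _))⟩
def chkS26_16 : Chk (boxS26.cC) (bound pcS26 true .w0) :=
  ⟨237, 12, 7, 3, 4, List.all_eq_true.1 grpS26_3 _ (.tail _ (.tail _ (.head _)))⟩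
def chkS26_17 : Chk (boxS26.cC) (bound pcS26 true .w1) :=
  ⟨237, 12, 7, 3, 4, List.all_eq_true.1 grpS26_3 _ (.tail _ (.tail _ (.tail _ (.head _))))⟩
def grpS26_4 : ([subst (sub pcS26 ⟨false, false, true, true, false⟩) (condX),
    subst (sub pcS26 ⟨false, true, true, true, false⟩) (condX),
    subst (sub pcS26 ⟨true, false, true, true, false⟩) (condX),
    subst (sub pcS26 ⟨true, true, true, true, false⟩) (condX)].all
    (checkFour (boxS26.vC) 283 15 10 4 0)) = true := by decide +kernel
def chkS26_18 : Chk (boxS26.vC) (subst (sub pcS26 ⟨false, false, true, true, false⟩) (condX)) :=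
  ⟨283, 15, 10, 4, 0, List.all_eq_true.1 grpS26_4 _ (.head _)⟩
def chkS26_19 : Chk (boxS26.vC) (subst (sub pcS26 ⟨false, true, true, true, false⟩) (condX)) :=
  ⟨283, 15, 10, 4, 0, List.all_eq_true.1 grpS26_4 _ (.tail _ (.head _))⟩
def chkS26_20 : Chk (boxS26.vC) (subst (sub pcS26 ⟨true, false, true, true, false⟩) (condX)) :=
  ⟨283, 15, 10, 4, 0, List.all_eq_true.1 grpS26_4 _ (.tail _ (.tail _ (.head _)))⟩
def chkS26_21 : Chk (boxS26.vC) (subst (sub pcS26 ⟨true, true, true, true, false⟩) (condX)) :=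
  ⟨283, 15, 10, 4, 0, List.all_eq_true.1 grpS26_4 _ (.tail _ (.tail _ (.tail _ (.head _))))⟩
def grpS26_5 : ([subst (sub pcS26 ⟨false, false, true, false, false⟩) (tplMG),
    subst (sub pcS26 ⟨false, true, true, false, false⟩) (tplMG),
    subst (sub pcS26 ⟨true, false, true, false, false⟩) (tplMG),
    subst (sub pcS26 ⟨true, true, true, false, false⟩) (tplMG)].all
    (checkFour (boxS26.vC) 496 26 18 6 0)) = true := by decide +kernel
def chkS26_22 : Chk (boxS26.vC) (subst (sub pcS26 ⟨false, false, true, false, false⟩) (tplMG)) :=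
  ⟨496, 26, 18, 6, 0, List.all_eq_true.1 grpS26_5 _ (.head _)⟩
def chkS26_23 : Chk (boxS26.vC) (subst (sub pcS26 ⟨false, true, true, false, false⟩) (tplMG)) :=
  ⟨496, 26, 18, 6, 0, List.all_eq_true.1 grpS26_5 _ (.tail _ (.head _))⟩
def chkS26_24 : Chk (boxS26.vC) (subst (sub pcS26 ⟨true, false, true, false, false⟩) (tplMG)) :=
  ⟨496, 26, 18, 6, 0, List.all_eq_true.1 grpS26_5 _ (.tail _ (.tail _ (.head _)))⟩
def chkS26_25 : Chk (boxS26.vC) (subst (sub pcS26 ⟨true, true, true, false, false⟩) (tplMG)) :=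
  ⟨496, 26, 18, 6, 0, List.all_eq_true.1 grpS26_5 _ (.tail _ (.tail _ (.tail _ (.head _))))⟩
def grpS26_6 : ([subst (sub pcS26 ⟨false, false, false, false, false⟩) (pcS26.m1),
    subst (sub pcS26 ⟨false, true, false, false, false⟩) (pcS26.m1),
    subst (sub pcS26 ⟨true, false, false, false, false⟩) (pcS26.m1),
    subst (sub pcS26 ⟨true, true, false, false, false⟩) (pcS26.m1)].all
    (checkFour (boxS26.vC) 359 19 14 4 0)) = true := by decide +kernel
def chkS26_26 : Chk (boxS26.vC) (subst (sub pcS26 ⟨false, false, false, false, false⟩) (pcS26.m1)) :=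
  ⟨359, 19, 14, 4, 0, List.all_eq_true.1 grpS26_6 _ (.head _)⟩
def chkS26_27 : Chk (boxS26.vC) (subst (sub pcS26 ⟨false, true, false, false, false⟩) (pcS26.m1)) :=
  ⟨359, 19, 14, 4, 0, List.all_eq_true.1 grpS26_6 _ (.tail _ (.head _))⟩
def chkS26_28 : Chk (boxS26.vC) (subst (sub pcS26 ⟨true, false, false, false, false⟩) (pcS26.m1)) :=
  ⟨359, 19, 14, 4, 0, List.all_eq_true.1 grpS26_6 _ (.tail _ (.tail _ (.head _)))⟩
def chkS26_29 : Chk (boxS26.vC) (subst (sub pcS26 ⟨true, true, false, false, false⟩) (pcS26.m1)) :=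
  ⟨359, 19, 14, 4, 0, List.all_eq_true.1 grpS26_6 _ (.tail _ (.tail _ (.tail _ (.head _))))⟩
def chkS26_30 : Chk (boxS26.vC) (subst (sub pcS26 ⟨false, false, true, false, false⟩) (strict (pcS26.m2 false))) :=
  ⟨527, 24, 17, 6, 0, by decide +kernel⟩
def chkS26_31 : Chk (boxS26.vC) (subst (sub pcS26 ⟨false, false, true, false, true⟩) (strict (pcS26.m2 false))) :=
  ⟨523, 24, 17, 6, 0, by decide +kernel⟩
def chkS26_32 : Chk (boxS26.vC) (subst (sub pcS26 ⟨true, false, true, false, false⟩) (strict (pcS26.m2 false))) :=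
  ⟨527, 24, 17, 6, 0, by decide +kernel⟩
def chkS26_33 : Chk (boxS26.vC) (subst (sub pcS26 ⟨true, false, true, false, true⟩) (strict (pcS26.m2 false))) :=
  ⟨523, 24, 17, 6, 0, by decide +kernel⟩
def chkS26_34 : Chk (boxS26.vC) (subst (sub pcS26 ⟨false, true, true, false, false⟩) (strict (pcS26.m2 true))) :=
  ⟨527, 24, 17, 6, 0, by decide +kernel⟩
def chkS26_35 : Chk (boxS26.vC) (subst (sub pcS26 ⟨false, true, true, false, true⟩) (strict (pcS26.m2 true))) :=
  ⟨523, 24, 17, 6, 0, by decide +kernel⟩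
def chkS26_36 : Chk (boxS26.vC) (subst (sub pcS26 ⟨true, true, true, false, false⟩) (strict (pcS26.m2 true))) :=
  ⟨528, 24, 17, 6, 0, by decide +kernel⟩
def chkS26_37 : Chk (boxS26.vC) (subst (sub pcS26 ⟨true, true, true, false, true⟩) (strict (pcS26.m2 true))) :=
  ⟨524, 24, 17, 6, 0, by decide +kernel⟩
def grpS26_15 : ([subst (sub pcS26 ⟨false, false, true, true, false⟩) (strict (pcS26.m3 false)),
    subst (sub pcS26 ⟨false, false, true, true, true⟩) (strict (pcS26.m3 false)),
    subst (sub pcS26 ⟨false, false, true, true, false⟩) (strict (pcS26.m3 true)),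
    subst (sub pcS26 ⟨false, false, true, true, true⟩) (strict (pcS26.m3 true))].all
    (checkFour (boxS26.vC) 656 31 23 6 0)) = true := by decide +kernel
def chkS26_38 : Chk (boxS26.vC) (subst (sub pcS26 ⟨false, false, true, true, false⟩) (strict (pcS26.m3 false))) :=
  ⟨656, 31, 23, 6, 0, List.all_eq_true.1 grpS26_15 _ (.head _)⟩
def chkS26_39 : Chk (boxS26.vC) (subst (sub pcS26 ⟨false, false, true, true, true⟩) (strict (pcS26.m3 false))) :=
  ⟨656, 31, 23, 6, 0, List.all_eq_true.1 grpS26_15 _ (.tail _ (.head _))⟩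
def chkS26_46 : Chk (boxS26.vC) (subst (sub pcS26 ⟨false, false, true, true, false⟩) (strict (pcS26.m3 true))) :=
  ⟨656, 31, 23, 6, 0, List.all_eq_true.1 grpS26_15 _ (.tail _ (.tail _ (.head _)))⟩
def chkS26_47 : Chk (boxS26.vC) (subst (sub pcS26 ⟨false, false, true, true, true⟩) (strict (pcS26.m3 true))) :=
  ⟨656, 31, 23, 6, 0, List.all_eq_true.1 grpS26_15 _ (.tail _ (.tail _ (.tail _ (.head _))))⟩
def grpS26_16 : ([subst (sub pcS26 ⟨false, true, true, true, false⟩) (strict (pcS26.m3 false)),
    subst (sub pcS26 ⟨false, true, true, true, true⟩) (strict (pcS26.m3 false)),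
    subst (sub pcS26 ⟨false, true, true, true, false⟩) (strict (pcS26.m3 true)),
    subst (sub pcS26 ⟨false, true, true, true, true⟩) (strict (pcS26.m3 true))].all
    (checkFour (boxS26.vC) 656 31 23 6 0)) = true := by decide +kernel
def chkS26_40 : Chk (boxS26.vC) (subst (sub pcS26 ⟨false, true, true, true, false⟩) (strict (pcS26.m3 false))) :=
  ⟨656, 31, 23, 6, 0, List.all_eq_true.1 grpS26_16 _ (.head _)⟩
def chkS26_41 : Chk (boxS26.vC) (subst (sub pcS26 ⟨false, true, true, true, true⟩) (strict (pcS26.m3 false))) :=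
  ⟨656, 31, 23, 6, 0, List.all_eq_true.1 grpS26_16 _ (.tail _ (.head _))⟩
def chkS26_48 : Chk (boxS26.vC) (subst (sub pcS26 ⟨false, true, true, true, false⟩) (strict (pcS26.m3 true))) :=
  ⟨656, 31, 23, 6, 0, List.all_eq_true.1 grpS26_16 _ (.tail _ (.tail _ (.head _)))⟩
def chkS26_49 : Chk (boxS26.vC) (subst (sub pcS26 ⟨false, true, true, true, true⟩) (strict (pcS26.m3 true))) :=
  ⟨656, 31, 23, 6, 0, List.all_eq_true.1 grpS26_16 _ (.tail _ (.tail _ (.tail _ (.head _))))⟩
def grpS26_17 : ([subst (sub pcS26 ⟨true, false, true, true, false⟩) (strict (pcS26.m3 false)),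
    subst (sub pcS26 ⟨true, false, true, true, true⟩) (strict (pcS26.m3 false)),
    subst (sub pcS26 ⟨true, false, true, true, false⟩) (strict (pcS26.m3 true)),
    subst (sub pcS26 ⟨true, false, true, true, true⟩) (strict (pcS26.m3 true))].all
    (checkFour (boxS26.vC) 656 31 23 6 0)) = true := by decide +kernel
def chkS26_42 : Chk (boxS26.vC) (subst (sub pcS26 ⟨true, false, true, true, false⟩) (strict (pcS26.m3 false))) :=
  ⟨656, 31, 23, 6, 0, List.all_eq_true.1 grpS26_17 _ (.head _)⟩
def chkS26_43 : Chk (boxS26.vC) (subst (sub pcS26 ⟨true, false, true, true, true⟩) (strict (pcS26.m3 false))) :=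
  ⟨656, 31, 23, 6, 0, List.all_eq_true.1 grpS26_17 _ (.tail _ (.head _))⟩
def chkS26_50 : Chk (boxS26.vC) (subst (sub pcS26 ⟨true, false, true, true, false⟩) (strict (pcS26.m3 true))) :=
  ⟨656, 31, 23, 6, 0, List.all_eq_true.1 grpS26_17 _ (.tail _ (.tail _ (.head _)))⟩
def chkS26_51 : Chk (boxS26.vC) (subst (sub pcS26 ⟨true, false, true, true, true⟩) (strict (pcS26.m3 true))) :=
  ⟨656, 31, 23, 6, 0, List.all_eq_true.1 grpS26_17 _ (.tail _ (.tail _ (.tail _ (.head _))))⟩
def grpS26_18 : ([subst (sub pcS26 ⟨true, true, true, true, false⟩) (strict (pcS26.m3 false)),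
    subst (sub pcS26 ⟨true, true, true, true, true⟩) (strict (pcS26.m3 false)),
    subst (sub pcS26 ⟨true, true, true, true, false⟩) (strict (pcS26.m3 true)),
    subst (sub pcS26 ⟨true, true, true, true, true⟩) (strict (pcS26.m3 true))].all
    (checkFour (boxS26.vC) 656 31 23 6 0)) = true := by decide +kernel
def chkS26_44 : Chk (boxS26.vC) (subst (sub pcS26 ⟨true, true, true, true, false⟩) (strict (pcS26.m3 false))) :=
  ⟨656, 31, 23, 6, 0, List.all_eq_true.1 grpS26_18 _ (.head _)⟩
def chkS26_45 : Chk (boxS26.vC) (subst (sub pcS26 ⟨true, true, true, true, true⟩) (strict (pcS26.m3 false))) :=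
  ⟨656, 31, 23, 6, 0, List.all_eq_true.1 grpS26_18 _ (.tail _ (.head _))⟩
def chkS26_52 : Chk (boxS26.vC) (subst (sub pcS26 ⟨true, true, true, true, false⟩) (strict (pcS26.m3 true))) :=
  ⟨656, 31, 23, 6, 0, List.all_eq_true.1 grpS26_18 _ (.tail _ (.tail _ (.head _)))⟩
def chkS26_53 : Chk (boxS26.vC) (subst (sub pcS26 ⟨true, true, true, true, true⟩) (strict (pcS26.m3 true))) :=
  ⟨656, 31, 23, 6, 0, List.all_eq_true.1 grpS26_18 _ (.tail _ (.tail _ (.tail _ (.head _))))⟩
def chkS26_54 : Chk (boxS26.vC) (subst (sub pcS26 ⟨false, false, true, true, false⟩) (negEx coMG12)) :=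
  ⟨145, 8, 5, 4, 0, by decide +kernel⟩
def grpS26_20 : ([subst (sub pcS26 ⟨false, false, true, true, false⟩) (negEx (pcS26.curve2 false)),
    subst (sub pcS26 ⟨false, false, true, true, false⟩) (negEx (pcS26.curve2 true))].all
    (checkFour (boxS26.vC) 161 9 5 4 0)) = true := by decide +kernel
def chkS26_55 : Chk (boxS26.vC) (subst (sub pcS26 ⟨false, false, true, true, false⟩) (negEx (pcS26.curve2 false))) :=
  ⟨161, 9, 5, 4, 0, List.all_eq_true.1 grpS26_20 _ (.head _)⟩
def chkS26_56 : Chk (boxS26.vC) (subst (sub pcS26 ⟨false, false, true, true, false⟩) (negEx (pcS26.curve2 true))) :=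
  ⟨161, 9, 5, 4, 0, List.all_eq_true.1 grpS26_20 _ (.tail _ (.head _))⟩
def grpS26_21 : ([subst (sub pcS26 ⟨false, false, true, true, false⟩) (negEx (pcS26.curve3 false)),
    subst (sub pcS26 ⟨false, false, true, true, false⟩) (negEx (pcS26.curve3 true))].all
    (checkFour (boxS26.vC) 166 9 6 4 0)) = true := by decide +kernel
def chkS26_57 : Chk (boxS26.vC) (subst (sub pcS26 ⟨false, false, true, true, false⟩) (negEx (pcS26.curve3 false))) :=
  ⟨166, 9, 6, 4, 0, List.all_eq_true.1 grpS26_21 _ (.head _)⟩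
def chkS26_58 : Chk (boxS26.vC) (subst (sub pcS26 ⟨false, false, true, true, false⟩) (negEx (pcS26.curve3 true))) :=
  ⟨166, 9, 6, 4, 0, List.all_eq_true.1 grpS26_21 _ (.tail _ (.head _))⟩
def grpS26_22 : ([subst (sub pcS26 ⟨false, false, true, true, false⟩) (slopeT),
    subst (sub pcS26 ⟨true, false, true, true, false⟩) (slopeT)].all
    (checkFour (boxS26.vC) 179 10 6 4 0)) = true := by decide +kernel
def chkS26_59 : Chk (boxS26.vC) (subst (sub pcS26 ⟨false, false, true, true, false⟩) (slopeT)) :=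
  ⟨179, 10, 6, 4, 0, List.all_eq_true.1 grpS26_22 _ (.head _)⟩
def chkS26_60 : Chk (boxS26.vC) (subst (sub pcS26 ⟨true, false, true, true, false⟩) (slopeT)) :=
  ⟨179, 10, 6, 4, 0, List.all_eq_true.1 grpS26_22 _ (.tail _ (.head _))⟩
def grpS26_23 : ([subst (gapSub pcS26 true false false) tplL,
    subst (gapSub pcS26 true false true) tplL,
    subst (gapSub pcS26 true true false) tplL,
    subst (gapSub pcS26 true true true) tplL].all
    (checkFour (boxS26.gC true) 437 25 16 5 2)) = true := by decide +kernel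
def chkS26_61 : Chk (boxS26.gC true) (subst (gapSub pcS26 true false false) tplL) :=
  ⟨437, 25, 16, 5, 2, List.all_eq_true.1 grpS26_23 _ (.head _)⟩
def chkS26_62 : Chk (boxS26.gC true) (subst (gapSub pcS26 true false true) tplL) :=
  ⟨437, 25, 16, 5, 2, List.all_eq_true.1 grpS26_23 _ (.tail _ (.head _))⟩
def chkS26_63 : Chk (boxS26.gC true) (subst (gapSub pcS26 true true false) tplL) :=
  ⟨437, 25, 16, 5, 2, List.all_eq_true.1 grpS26_23 _ (.tail _ (.tail _ (.head _)))⟩
def chkS26_64 : Chk (boxS26.gC true) (subst (gapSub pcS26 true true true) tplL) :=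
  ⟨437, 25, 16, 5, 2, List.all_eq_true.1 grpS26_23 _ (.tail _ (.tail _ (.tail _ (.head _))))⟩

/-- Piece 26 passes. -/
theorem certS26 : Cert pcS26 boxS26 true where
  pos := by
    refine ⟨⟨⟨?_, ?_, ?_, ?_, ?_, ?_, ?_⟩, ?_, ?_, ?_, ?_, ?_, ?_, ?_, ?_, ?_, ?_, ?_⟩, ?_, ?_⟩ <;>
      norm_num [fr, pcS26]
  gX := fun p l => match p, l with
    | false, false => chkS26_18
    | false, true => chkS26_19
    | true, false => chkS26_20
    | true, true => chkS26_21
  gMG := fun p l => match p, l with
    | false, false => chkS26_22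
    | false, true => chkS26_23
    | true, false => chkS26_24
    | true, true => chkS26_25
  g1 := fun p l => match p, l with
    | false, false => chkS26_26
    | false, true => chkS26_27
    | true, false => chkS26_28
    | true, true => chkS26_29
  g2 := fun s p t => match s, p, t with
    | false, false, false => chkS26_30
    | false, false, true => chkS26_31
    | false, true, false => chkS26_32
    | false, true, true => chkS26_33
    | true, false, false => chkS26_34
    | true, false, true => chkS26_35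
    | true, true, false => chkS26_36
    | true, true, true => chkS26_37
  g3 := fun s p l t => match s, p, l, t with
    | false, false, false, false => chkS26_38
    | false, false, false, true => chkS26_39
    | false, false, true, false => chkS26_40
    | false, false, true, true => chkS26_41
    | false, true, false, false => chkS26_42
    | false, true, false, true => chkS26_43
    | false, true, true, false => chkS26_44
    | false, true, true, true => chkS26_45
    | true, false, false, false => chkS26_46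
    | true, false, false, true => chkS26_47
    | true, false, true, false => chkS26_48
    | true, false, true, true => chkS26_49
    | true, true, false, false => chkS26_50
    | true, true, false, true => chkS26_51
    | true, true, true, false => chkS26_52
    | true, true, true, true => chkS26_53
  cMG := chkS26_54
  c2 := fun s => match s with
    | false => chkS26_55
    | true => chkS26_56
  c3 := fun s => match s with
    | false => chkS26_57
    | true => chkS26_58
  sT := fun p => match p with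
    | false => chkS26_59
    | true => chkS26_60
  bnd := fun ze b => match ze, b with
    | false, .l0 => chkS26_0
    | false, .l1 => chkS26_1
    | false, .r => chkS26_2
    | false, .g0 => chkS26_3
    | false, .g1 => chkS26_4
    | false, .t0 => chkS26_5
    | false, .t1 => chkS26_6
    | false, .w0 => chkS26_7
    | false, .w1 => chkS26_8
    | true, .l0 => chkS26_9
    | true, .l1 => chkS26_10
    | true, .r => chkS26_11
    | true, .g0 => chkS26_12
    | true, .g1 => chkS26_13
    | true, .t0 => chkS26_14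
    | true, .t1 => chkS26_15
    | true, .w0 => chkS26_16
    | true, .w1 => chkS26_17
  gap := fun ze t => match ze, t with
    | false, false => chkS26_61
    | false, true => chkS26_62
    | true, false => chkS26_63
    | true, true => chkS26_64

/-- A window of piece 26. -/
def winS26T : Win := ⟨.A, (122, 143, 1000), (0, 3, 10), (-19, 121, 100), (121, 264, 100), (66, 875, 25), (153, 160, 200), true, true, (34, 0), (673, 1000)⟩

/-- The window passes. -/
theorem winS26T_ok : winS26T.Cert where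
  fits := ⟨by norm_num [winS26T], by norm_num [winS26T, qLo], by norm_num [winS26T, qLo, qHi],
    by norm_num [winS26T, qLo, qHi], by norm_num [winS26T, qLo], by norm_num [winS26T, qHi]⟩
  cross := ⟨263, 9, 6, 2, 7, by decide +kernel⟩
  exit := ⟨248, 12, 7, 3, 6, by decide +kernel⟩
  mix := ⟨344, 14, 9, 3, 10, by decide +kernel⟩

/-- The tight band is crossed one way on piece 26. -/
theorem bandS26 : Chk (winS26T.chart (153, 160, 200) winS26T.qc) (sBand winS26T.kind) :=
  ⟨457, 17, 11, 3, 14, by decide +kernel⟩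

end Vale.Agent.P100.Calib.StripMid
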