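import Vale.Agent.P100.Calib.SlabStripMidSevWindow

/-!
# The checks of piece 27 below 153/200 for `N` between seven and twenty
-/

set_option linter.defProp false

namespace Vale.Agent.P100.Calib.StripMid

open Pack

/-- The numbers of piece 27. -/
def pcS27 : Piece := ⟨.A, (153, 200), (4, 5), (31, 50), (33, 25), (29, 10), (53, 125), (551, 1000), (903, 1000), (17, -57, 20), (953, -2700, 1000), 45, (28,-172,120,1), (47, 100), (799, 1000), (3, 10), (1, 4), (3, 20)⟩

/-- The ranges of piece 27. -/
def boxS27 : Box := ⟨(122, 143, 1000), (150, 431, 500), (119, 394, 100), (66, 145, 50), (153, 160, 200)⟩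

def grpS27_0 : ([bound pcS27 false .l0,
    bound pcS27 false .l1,
    bound pcS27 false .r,
    bound pcS27 true .l0,
    bound pcS27 true .l1,
    bound pcS27 true .r].all
    (checkFour (boxS27.cC) 313 14 9 2 3)) = true := by decide +kernel
def chkS27_0 : Chk (boxS27.cC) (bound pcS27 false .l0) :=
  ⟨313, 14, 9, 2, 3, List.all_eq_true.1 grpS27_0 _ (.head _)⟩
def chkS27_1 : Chk (boxS27.cC) (bound pcS27 false .l1) :=
  ⟨313, 14, 9, 2, 3, List.all_eq_true.1 grpS27_0 _ (.tail _ (.head _))⟩
def chkS27_2 : Chk (boxS27.cC) (bound pcS27 false .r) :=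
  ⟨313, 14, 9, 2, 3, List.all_eq_true.1 grpS27_0 _ (.tail _ (.tail _ (.head _)))⟩
def chkS27_9 : Chk (boxS27.cC) (bound pcS27 true .l0) :=
  ⟨313, 14, 9, 2, 3, List.all_eq_true.1 grpS27_0 _ (.tail _ (.tail _ (.tail _ (.head _))))⟩
def chkS27_10 : Chk (boxS27.cC) (bound pcS27 true .l1) :=
  ⟨313, 14, 9, 2, 3, List.all_eq_true.1 grpS27_0 _ (.tail _ (.tail _ (.tail _ (.tail _ (.head _)))))⟩
def chkS27_11 : Chk (boxS27.cC) (bound pcS27 true .r) :=
  ⟨313, 14, 9, 2, 3, List.all_eq_true.1 grpS27_0 _ (.tail _ (.tail _ (.tail _ (.tail _ (.tail _ (.head _))))))⟩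
def grpS27_1 : ([bound pcS27 false .g0,
    bound pcS27 false .g1,
    bound pcS27 true .g0,
    bound pcS27 true .g1].all
    (checkFour (boxS27.cC) 130 5 3 1 2)) = true := by decide +kernel
def chkS27_3 : Chk (boxS27.cC) (bound pcS27 false .g0) :=
  ⟨130, 5, 3, 1, 2, List.all_eq_true.1 grpS27_1 _ (.head _)⟩
def chkS27_4 : Chk (boxS27.cC) (bound pcS27 false .g1) :=
  ⟨130, 5, 3, 1, 2, List.all_eq_true.1 grpS27_1 _ (.tail _ (.head _))⟩
def chkS27_12 : Chk (boxS27.cC) (bound pcS27 true .g0) :=
  ⟨130, 5, 3, 1, 2, List.all_eq_true.1 grpS27_1 _ (.tail _ (.tail _ (.head _)))⟩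
def chkS27_13 : Chk (boxS27.cC) (bound pcS27 true .g1) :=
  ⟨130, 5, 3, 1, 2, List.all_eq_true.1 grpS27_1 _ (.tail _ (.tail _ (.tail _ (.head _))))⟩
def grpS27_2 : ([bound pcS27 false .t0,
    bound pcS27 false .t1,
    bound pcS27 true .t0,
    bound pcS27 true .t1].all
    (checkFour (boxS27.cC) 220 9 6 2 3)) = true := by decide +kernel
def chkS27_5 : Chk (boxS27.cC) (bound pcS27 false .t0) :=
  ⟨220, 9, 6, 2, 3, List.all_eq_true.1 grpS27_2 _ (.head _)⟩
def chkS27_6 : Chk (boxS27.cC) (bound pcS27 false .t1) :=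
  ⟨220, 9, 6, 2, 3, List.all_eq_true.1 grpS27_2 _ (.tail _ (.head _))⟩
def chkS27_14 : Chk (boxS27.cC) (bound pcS27 true .t0) :=
  ⟨220, 9, 6, 2, 3, List.all_eq_true.1 grpS27_2 _ (.tail _ (.tail _ (.head _)))⟩
def chkS27_15 : Chk (boxS27.cC) (bound pcS27 true .t1) :=
  ⟨220, 9, 6, 2, 3, List.all_eq_true.1 grpS27_2 _ (.tail _ (.tail _ (.tail _ (.head _))))⟩
def grpS27_3 : ([bound pcS27 false .w0,
    bound pcS27 false .w1,
    bound pcS27 true .w0,
    bound pcS27 true .w1].all
    (checkFour (boxS27.cC) 274 12 7 3 4)) = true := by decide +kernel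
def chkS27_7 : Chk (boxS27.cC) (bound pcS27 false .w0) :=
  ⟨274, 12, 7, 3, 4, List.all_eq_true.1 grpS27_3 _ (.head _)⟩
def chkS27_8 : Chk (boxS27.cC) (bound pcS27 false .w1) :=
  ⟨274, 12, 7, 3, 4, List.all_eq_true.1 grpS27_3 _ (.tail _ (.head _))⟩
def chkS27_16 : Chk (boxS27.cC) (bound pcS27 true .w0) :=
  ⟨274, 12, 7, 3, 4, List.all_eq_true.1 grpS27_3 _ (.tail _ (.tail _ (.head _)))⟩
def chkS27_17 : Chk (boxS27.cC) (bound pcS27 true .w1) :=
  ⟨274, 12, 7, 3, 4, List.all_eq_true.1 grpS27_3 _ (.tail _ (.tail _ (.tail _ (.head _))))⟩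
def grpS27_4 : ([subst (sub pcS27 ⟨false, false, true, true, false⟩) (condX),
    subst (sub pcS27 ⟨false, true, true, true, false⟩) (condX),
    subst (sub pcS27 ⟨true, false, true, true, false⟩) (condX),
    subst (sub pcS27 ⟨true, true, true, true, false⟩) (condX)].all
    (checkFour (boxS27.vC) 341 15 10 4 0)) = true := by decide +kernel
def chkS27_18 : Chk (boxS27.vC) (subst (sub pcS27 ⟨false, false, true, true, false⟩) (condX)) :=
  ⟨341, 15, 10, 4, 0, List.all_eq_true.1 grpS27_4 _ (.head _)⟩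
def chkS27_19 : Chk (boxS27.vC) (subst (sub pcS27 ⟨false, true, true, true, false⟩) (condX)) :=
  ⟨341, 15, 10, 4, 0, List.all_eq_true.1 grpS27_4 _ (.tail _ (.head _))⟩
def chkS27_20 : Chk (boxS27.vC) (subst (sub pcS27 ⟨true, false, true, true, false⟩) (condX)) :=
  ⟨341, 15, 10, 4, 0, List.all_eq_true.1 grpS27_4 _ (.tail _ (.tail _ (.head _)))⟩
def chkS27_21 : Chk (boxS27.vC) (subst (sub pcS27 ⟨true, true, true, true, false⟩) (condX)) :=
  ⟨341, 15, 10, 4, 0, List.all_eq_true.1 grpS27_4 _ (.tail _ (.tail _ (.tail _ (.head _))))⟩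
def grpS27_5 : ([subst (sub pcS27 ⟨false, false, true, false, false⟩) (tplMG),
    subst (sub pcS27 ⟨false, true, true, false, false⟩) (tplMG),
    subst (sub pcS27 ⟨true, false, true, false, false⟩) (tplMG),
    subst (sub pcS27 ⟨true, true, true, false, false⟩) (tplMG)].all
    (checkFour (boxS27.vC) 596 26 18 6 0)) = true := by decide +kernel
def chkS27_22 : Chk (boxS27.vC) (subst (sub pcS27 ⟨false, false, true, false, false⟩) (tplMG)) :=
  ⟨596, 26, 18, 6, 0, List.all_eq_true.1 grpS27_5 _ (.head _)⟩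
def chkS27_23 : Chk (boxS27.vC) (subst (sub pcS27 ⟨false, true, true, false, false⟩) (tplMG)) :=
  ⟨596, 26, 18, 6, 0, List.all_eq_true.1 grpS27_5 _ (.tail _ (.head _))⟩
def chkS27_24 : Chk (boxS27.vC) (subst (sub pcS27 ⟨true, false, true, false, false⟩) (tplMG)) :=
  ⟨596, 26, 18, 6, 0, List.all_eq_true.1 grpS27_5 _ (.tail _ (.tail _ (.head _)))⟩
def chkS27_25 : Chk (boxS27.vC) (subst (sub pcS27 ⟨true, true, true, false, false⟩) (tplMG)) :=
  ⟨596, 26, 18, 6, 0, List.all_eq_true.1 grpS27_5 _ (.tail _ (.tail _ (.tail _ (.head _))))⟩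
def grpS27_6 : ([subst (sub pcS27 ⟨false, false, false, false, false⟩) (pcS27.m1),
    subst (sub pcS27 ⟨false, true, false, false, false⟩) (pcS27.m1),
    subst (sub pcS27 ⟨true, false, false, false, false⟩) (pcS27.m1),
    subst (sub pcS27 ⟨true, true, false, false, false⟩) (pcS27.m1)].all
    (checkFour (boxS27.vC) 440 19 14 4 0)) = true := by decide +kernel
def chkS27_26 : Chk (boxS27.vC) (subst (sub pcS27 ⟨false, false, false, false, false⟩) (pcS27.m1)) :=
  ⟨440, 19, 14, 4, 0, List.all_eq_true.1 grpS27_6 _ (.head _)⟩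
def chkS27_27 : Chk (boxS27.vC) (subst (sub pcS27 ⟨false, true, false, false, false⟩) (pcS27.m1)) :=
  ⟨440, 19, 14, 4, 0, List.all_eq_true.1 grpS27_6 _ (.tail _ (.head _))⟩
def chkS27_28 : Chk (boxS27.vC) (subst (sub pcS27 ⟨true, false, false, false, false⟩) (pcS27.m1)) :=
  ⟨440, 19, 14, 4, 0, List.all_eq_true.1 grpS27_6 _ (.tail _ (.tail _ (.head _)))⟩
def chkS27_29 : Chk (boxS27.vC) (subst (sub pcS27 ⟨true, true, false, false, false⟩) (pcS27.m1)) :=
  ⟨440, 19, 14, 4, 0, List.all_eq_true.1 grpS27_6 _ (.tail _ (.tail _ (.tail _ (.head _))))⟩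
def chkS27_30 : Chk (boxS27.vC) (subst (sub pcS27 ⟨false, false, true, false, false⟩) (strict (pcS27.m2 false))) :=
  ⟨615, 24, 17, 6, 0, by decide +kernel⟩
def chkS27_31 : Chk (boxS27.vC) (subst (sub pcS27 ⟨false, false, true, false, true⟩) (strict (pcS27.m2 false))) :=
  ⟨626, 24, 17, 6, 0, by decide +kernel⟩
def chkS27_32 : Chk (boxS27.vC) (subst (sub pcS27 ⟨true, false, true, false, false⟩) (strict (pcS27.m2 false))) :=
  ⟨615, 24, 17, 6, 0, by decide +kernel⟩
def chkS27_33 : Chk (boxS27.vC) (subst (sub pcS27 ⟨true, false, true, false, true⟩) (strict (pcS27.m2 false))) :=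
  ⟨626, 24, 17, 6, 0, by decide +kernel⟩
def chkS27_34 : Chk (boxS27.vC) (subst (sub pcS27 ⟨false, true, true, false, false⟩) (strict (pcS27.m2 true))) :=
  ⟨616, 24, 17, 6, 0, by decide +kernel⟩
def chkS27_35 : Chk (boxS27.vC) (subst (sub pcS27 ⟨false, true, true, false, true⟩) (strict (pcS27.m2 true))) :=
  ⟨627, 24, 17, 6, 0, by decide +kernel⟩
def chkS27_36 : Chk (boxS27.vC) (subst (sub pcS27 ⟨true, true, true, false, false⟩) (strict (pcS27.m2 true))) :=
  ⟨616, 24, 17, 6, 0, by decide +kernel⟩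
def chkS27_37 : Chk (boxS27.vC) (subst (sub pcS27 ⟨true, true, true, false, true⟩) (strict (pcS27.m2 true))) :=
  ⟨627, 24, 17, 6, 0, by decide +kernel⟩
def grpS27_15 : ([subst (sub pcS27 ⟨false, false, true, true, false⟩) (strict (pcS27.m3 false)),
    subst (sub pcS27 ⟨false, false, true, true, true⟩) (strict (pcS27.m3 false)),
    subst (sub pcS27 ⟨false, false, true, true, false⟩) (strict (pcS27.m3 true)),
    subst (sub pcS27 ⟨false, false, true, true, true⟩) (strict (pcS27.m3 true))].all
    (checkFour (boxS27.vC) 781 31 23 6 0)) = true := by decide +kernel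
def chkS27_38 : Chk (boxS27.vC) (subst (sub pcS27 ⟨false, false, true, true, false⟩) (strict (pcS27.m3 false))) :=
  ⟨781, 31, 23, 6, 0, List.all_eq_true.1 grpS27_15 _ (.head _)⟩
def chkS27_39 : Chk (boxS27.vC) (subst (sub pcS27 ⟨false, false, true, true, true⟩) (strict (pcS27.m3 false))) :=
  ⟨781, 31, 23, 6, 0, List.all_eq_true.1 grpS27_15 _ (.tail _ (.head _))⟩
def chkS27_46 : Chk (boxS27.vC) (subst (sub pcS27 ⟨false, false, true, true, false⟩) (strict (pcS27.m3 true))) :=
  ⟨781, 31, 23, 6, 0, List.all_eq_true.1 grpS27_15 _ (.tail _ (.tail _ (.head _)))⟩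
def chkS27_47 : Chk (boxS27.vC) (subst (sub pcS27 ⟨false, false, true, true, true⟩) (strict (pcS27.m3 true))) :=
  ⟨781, 31, 23, 6, 0, List.all_eq_true.1 grpS27_15 _ (.tail _ (.tail _ (.tail _ (.head _))))⟩
def grpS27_16 : ([subst (sub pcS27 ⟨false, true, true, true, false⟩) (strict (pcS27.m3 false)),
    subst (sub pcS27 ⟨false, true, true, true, true⟩) (strict (pcS27.m3 false)),
    subst (sub pcS27 ⟨false, true, true, true, false⟩) (strict (pcS27.m3 true)),
    subst (sub pcS27 ⟨false, true, true, true, true⟩) (strict (pcS27.m3 true))].all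
    (checkFour (boxS27.vC) 787 31 23 6 0)) = true := by decide +kernel
def chkS27_40 : Chk (boxS27.vC) (subst (sub pcS27 ⟨false, true, true, true, false⟩) (strict (pcS27.m3 false))) :=
  ⟨787, 31, 23, 6, 0, List.all_eq_true.1 grpS27_16 _ (.head _)⟩
def chkS27_41 : Chk (boxS27.vC) (subst (sub pcS27 ⟨false, true, true, true, true⟩) (strict (pcS27.m3 false))) :=
  ⟨787, 31, 23, 6, 0, List.all_eq_true.1 grpS27_16 _ (.tail _ (.head _))⟩
def chkS27_48 : Chk (boxS27.vC) (subst (sub pcS27 ⟨false, true, true, true, false⟩) (strict (pcS27.m3 true))) :=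
  ⟨787, 31, 23, 6, 0, List.all_eq_true.1 grpS27_16 _ (.tail _ (.tail _ (.head _)))⟩
def chkS27_49 : Chk (boxS27.vC) (subst (sub pcS27 ⟨false, true, true, true, true⟩) (strict (pcS27.m3 true))) :=
  ⟨787, 31, 23, 6, 0, List.all_eq_true.1 grpS27_16 _ (.tail _ (.tail _ (.tail _ (.head _))))⟩
def grpS27_17 : ([subst (sub pcS27 ⟨true, false, true, true, false⟩) (strict (pcS27.m3 false)),
    subst (sub pcS27 ⟨true, false, true, true, true⟩) (strict (pcS27.m3 false)),
    subst (sub pcS27 ⟨true, false, true, true, false⟩) (strict (pcS27.m3 true)),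
    subst (sub pcS27 ⟨true, false, true, true, true⟩) (strict (pcS27.m3 true))].all
    (checkFour (boxS27.vC) 781 31 23 6 0)) = true := by decide +kernel
def chkS27_42 : Chk (boxS27.vC) (subst (sub pcS27 ⟨true, false, true, true, false⟩) (strict (pcS27.m3 false))) :=
  ⟨781, 31, 23, 6, 0, List.all_eq_true.1 grpS27_17 _ (.head _)⟩
def chkS27_43 : Chk (boxS27.vC) (subst (sub pcS27 ⟨true, false, true, true, true⟩) (strict (pcS27.m3 false))) :=
  ⟨781, 31, 23, 6, 0, List.all_eq_true.1 grpS27_17 _ (.tail _ (.head _))⟩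
def chkS27_50 : Chk (boxS27.vC) (subst (sub pcS27 ⟨true, false, true, true, false⟩) (strict (pcS27.m3 true))) :=
  ⟨781, 31, 23, 6, 0, List.all_eq_true.1 grpS27_17 _ (.tail _ (.tail _ (.head _)))⟩
def chkS27_51 : Chk (boxS27.vC) (subst (sub pcS27 ⟨true, false, true, true, true⟩) (strict (pcS27.m3 true))) :=
  ⟨781, 31, 23, 6, 0, List.all_eq_true.1 grpS27_17 _ (.tail _ (.tail _ (.tail _ (.head _))))⟩
def grpS27_18 : ([subst (sub pcS27 ⟨true, true, true, true, false⟩) (strict (pcS27.m3 false)),
    subst (sub pcS27 ⟨true, true, true, true, true⟩) (strict (pcS27.m3 false)),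
    subst (sub pcS27 ⟨true, true, true, true, false⟩) (strict (pcS27.m3 true)),
    subst (sub pcS27 ⟨true, true, true, true, true⟩) (strict (pcS27.m3 true))].all
    (checkFour (boxS27.vC) 787 31 23 6 0)) = true := by decide +kernel
def chkS27_44 : Chk (boxS27.vC) (subst (sub pcS27 ⟨true, true, true, true, false⟩) (strict (pcS27.m3 false))) :=
  ⟨787, 31, 23, 6, 0, List.all_eq_true.1 grpS27_18 _ (.head _)⟩
def chkS27_45 : Chk (boxS27.vC) (subst (sub pcS27 ⟨true, true, true, true, true⟩) (strict (pcS27.m3 false))) :=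
  ⟨787, 31, 23, 6, 0, List.all_eq_true.1 grpS27_18 _ (.tail _ (.head _))⟩
def chkS27_52 : Chk (boxS27.vC) (subst (sub pcS27 ⟨true, true, true, true, false⟩) (strict (pcS27.m3 true))) :=
  ⟨787, 31, 23, 6, 0, List.all_eq_true.1 grpS27_18 _ (.tail _ (.tail _ (.head _)))⟩
def chkS27_53 : Chk (boxS27.vC) (subst (sub pcS27 ⟨true, true, true, true, true⟩) (strict (pcS27.m3 true))) :=
  ⟨787, 31, 23, 6, 0, List.all_eq_true.1 grpS27_18 _ (.tail _ (.tail _ (.tail _ (.head _))))⟩
def chkS27_54 : Chk (boxS27.vC) (subst (sub pcS27 ⟨false, false, true, true, false⟩) (negEx coMG12)) :=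
  ⟨174, 8, 5, 4, 0, by decide +kernel⟩
def grpS27_20 : ([subst (sub pcS27 ⟨false, false, true, true, false⟩) (negEx (pcS27.curve2 false)),
    subst (sub pcS27 ⟨false, false, true, true, false⟩) (negEx (pcS27.curve2 true))].all
    (checkFour (boxS27.vC) 190 9 5 4 0)) = true := by decide +kernel
def chkS27_55 : Chk (boxS27.vC) (subst (sub pcS27 ⟨false, false, true, true, false⟩) (negEx (pcS27.curve2 false))) :=
  ⟨190, 9, 5, 4, 0, List.all_eq_true.1 grpS27_20 _ (.head _)⟩
def chkS27_56 : Chk (boxS27.vC) (subst (sub pcS27 ⟨false, false, true, true, false⟩) (negEx (pcS27.curve2 true))) :=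
  ⟨190, 9, 5, 4, 0, List.all_eq_true.1 grpS27_20 _ (.tail _ (.head _))⟩
def grpS27_21 : ([subst (sub pcS27 ⟨false, false, true, true, false⟩) (negEx (pcS27.curve3 false)),
    subst (sub pcS27 ⟨false, false, true, true, false⟩) (negEx (pcS27.curve3 true))].all
    (checkFour (boxS27.vC) 200 9 6 4 0)) = true := by decide +kernel
def chkS27_57 : Chk (boxS27.vC) (subst (sub pcS27 ⟨false, false, true, true, false⟩) (negEx (pcS27.curve3 false))) :=
  ⟨200, 9, 6, 4, 0, List.all_eq_true.1 grpS27_21 _ (.head _)⟩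
def chkS27_58 : Chk (boxS27.vC) (subst (sub pcS27 ⟨false, false, true, true, false⟩) (negEx (pcS27.curve3 true))) :=
  ⟨200, 9, 6, 4, 0, List.all_eq_true.1 grpS27_21 _ (.tail _ (.head _))⟩
def grpS27_22 : ([subst (sub pcS27 ⟨false, false, true, true, false⟩) (slopeT),
    subst (sub pcS27 ⟨true, false, true, true, false⟩) (slopeT)].all
    (checkFour (boxS27.vC) 215 10 6 4 0)) = true := by decide +kernel
def chkS27_59 : Chk (boxS27.vC) (subst (sub pcS27 ⟨false, false, true, true, false⟩) (slopeT)) :=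
  ⟨215, 10, 6, 4, 0, List.all_eq_true.1 grpS27_22 _ (.head _)⟩
def chkS27_60 : Chk (boxS27.vC) (subst (sub pcS27 ⟨true, false, true, true, false⟩) (slopeT)) :=
  ⟨215, 10, 6, 4, 0, List.all_eq_true.1 grpS27_22 _ (.tail _ (.head _))⟩
def grpS27_23 : ([subst (gapSub pcS27 true false false) tplL,
    subst (gapSub pcS27 true false true) tplL,
    subst (gapSub pcS27 true true false) tplL,
    subst (gapSub pcS27 true true true) tplL].all
    (checkFour (boxS27.gC true) 530 25 16 5 2)) = true := by decide +kernel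
def chkS27_61 : Chk (boxS27.gC true) (subst (gapSub pcS27 true false false) tplL) :=
  ⟨530, 25, 16, 5, 2, List.all_eq_true.1 grpS27_23 _ (.head _)⟩
def chkS27_62 : Chk (boxS27.gC true) (subst (gapSub pcS27 true false true) tplL) :=
  ⟨530, 25, 16, 5, 2, List.all_eq_true.1 grpS27_23 _ (.tail _ (.head _))⟩
def chkS27_63 : Chk (boxS27.gC true) (subst (gapSub pcS27 true true false) tplL) :=
  ⟨530, 25, 16, 5, 2, List.all_eq_true.1 grpS27_23 _ (.tail _ (.tail _ (.head _)))⟩
def chkS27_64 : Chk (boxS27.gC true) (subst (gapSub pcS27 true true true) tplL) :=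
  ⟨530, 25, 16, 5, 2, List.all_eq_true.1 grpS27_23 _ (.tail _ (.tail _ (.tail _ (.head _))))⟩

/-- Piece 27 passes. -/
theorem certS27 : Cert pcS27 boxS27 true where
  pos := by
    refine ⟨⟨⟨?_, ?_, ?_, ?_, ?_, ?_, ?_⟩, ?_, ?_, ?_, ?_, ?_, ?_, ?_, ?_, ?_, ?_, ?_⟩, ?_, ?_⟩ <;>
      norm_num [fr, pcS27]
  gX := fun p l => match p, l with
    | false, false => chkS27_18
    | false, true => chkS27_19
    | true, false => chkS27_20
    | true, true => chkS27_21
  gMG := fun p l => match p, l with
    | false, false => chkS27_22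
    | false, true => chkS27_23
    | true, false => chkS27_24
    | true, true => chkS27_25
  g1 := fun p l => match p, l with
    | false, false => chkS27_26
    | false, true => chkS27_27
    | true, false => chkS27_28
    | true, true => chkS27_29
  g2 := fun s p t => match s, p, t with
    | false, false, false => chkS27_30
    | false, false, true => chkS27_31
    | false, true, false => chkS27_32
    | false, true, true => chkS27_33
    | true, false, false => chkS27_34
    | true, false, true => chkS27_35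
    | true, true, false => chkS27_36
    | true, true, true => chkS27_37
  g3 := fun s p l t => match s, p, l, t with
    | false, false, false, false => chkS27_38
    | false, false, false, true => chkS27_39
    | false, false, true, false => chkS27_40
    | false, false, true, true => chkS27_41
    | false, true, false, false => chkS27_42
    | false, true, false, true => chkS27_43
    | false, true, true, false => chkS27_44
    | false, true, true, true => chkS27_45
    | true, false, false, false => chkS27_46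
    | true, false, false, true => chkS27_47
    | true, false, true, false => chkS27_48
    | true, false, true, true => chkS27_49
    | true, true, false, false => chkS27_50
    | true, true, false, true => chkS27_51
    | true, true, true, false => chkS27_52
    | true, true, true, true => chkS27_53
  cMG := chkS27_54
  c2 := fun s => match s with
    | false => chkS27_55
    | true => chkS27_56
  c3 := fun s => match s with
    | false => chkS27_57
    | true => chkS27_58
  sT := fun p => match p with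
    | false => chkS27_59
    | true => chkS27_60
  bnd := fun ze b => match ze, b with
    | false, .l0 => chkS27_0
    | false, .l1 => chkS27_1
    | false, .r => chkS27_2
    | false, .g0 => chkS27_3
    | false, .g1 => chkS27_4
    | false, .t0 => chkS27_5
    | false, .t1 => chkS27_6
    | false, .w0 => chkS27_7
    | false, .w1 => chkS27_8
    | true, .l0 => chkS27_9
    | true, .l1 => chkS27_10
    | true, .r => chkS27_11
    | true, .g0 => chkS27_12
    | true, .g1 => chkS27_13
    | true, .t0 => chkS27_14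
    | true, .t1 => chkS27_15
    | true, .w0 => chkS27_16
    | true, .w1 => chkS27_17
  gap := fun ze t => match ze, t with
    | false, false => chkS27_61
    | false, true => chkS27_62
    | true, false => chkS27_63
    | true, true => chkS27_64

/-- A window of piece 27. -/
def winS27T : Win := ⟨.A, (122, 143, 1000), (150, 431, 500), (-19, 132, 100), (66, 145, 50), (29, 350, 10), (153, 160, 200), true, true, (37, 0), (579, 1000)⟩

/-- The window passes. -/
theorem winS27T_ok : winS27T.Cert where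
  fits := ⟨by norm_num [winS27T], by norm_num [winS27T, qLo], by norm_num [winS27T, qLo, qHi],
    by norm_num [winS27T, qLo, qHi], by norm_num [winS27T, qLo], by norm_num [winS27T, qHi]⟩
  cross := ⟨298, 9, 6, 2, 7, by decide +kernel⟩
  exit := ⟨284, 12, 7, 3, 6, by decide +kernel⟩
  mix := ⟨392, 14, 9, 3, 10, by decide +kernel⟩

/-- The tight band is crossed one way on piece 27. -/
theorem bandS27 : Chk (winS27T.chart (153, 160, 200) winS27T.qc) (sBand winS27T.kind) :=
  ⟨517, 17, 11, 3, 14, by decide +kernel⟩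

end Vale.Agent.P100.Calib.StripMid
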