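import Vale.Agent.P100.Calib.SlabStripMidSevWindow

/-!
# The checks of piece 28 below 153/200 for `N` between seven and twenty
-/

set_option linter.defProp false

namespace Vale.Agent.P100.Calib.StripMid

open Pack

/-- The numbers of piece 28. -/
def pcS28 : Piece := ⟨.B, (153, 200), (4, 5), (17, 25), (43, 50), (56, 25), (403, 1000), (21, 40), (463, 500), (35, -126, 40), (233, -675, 250), 41, (63,-850,900,10), (507, 1000), (29, 40), (9, 20), (1, 4), (1, 4)⟩

/-- The ranges of piece 28. -/
def boxS28 : Box := ⟨(93, 184, 2000), (27, 60, 50), (95, 577, 100), (43, 112, 50), (153, 160, 200)⟩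

def grpS28_0 : ([bound pcS28 false .l0,
    bound pcS28 false .l1,
    bound pcS28 false .r,
    bound pcS28 true .l0,
    bound pcS28 true .l1,
    bound pcS28 true .r].all
    (checkFour (boxS28.cC) 322 14 13 2 3)) = true := by decide +kernel
def chkS28_0 : Chk (boxS28.cC) (bound pcS28 false .l0) :=
  ⟨322, 14, 13, 2, 3, List.all_eq_true.1 grpS28_0 _ (.head _)⟩
def chkS28_1 : Chk (boxS28.cC) (bound pcS28 false .l1) :=
  ⟨322, 14, 13, 2, 3, List.all_eq_true.1 grpS28_0 _ (.tail _ (.head _))⟩
def chkS28_2 : Chk (boxS28.cC) (bound pcS28 false .r) :=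
  ⟨322, 14, 13, 2, 3, List.all_eq_true.1 grpS28_0 _ (.tail _ (.tail _ (.head _)))⟩
def chkS28_9 : Chk (boxS28.cC) (bound pcS28 true .l0) :=
  ⟨322, 14, 13, 2, 3, List.all_eq_true.1 grpS28_0 _ (.tail _ (.tail _ (.tail _ (.head _))))⟩
def chkS28_10 : Chk (boxS28.cC) (bound pcS28 true .l1) :=
  ⟨322, 14, 13, 2, 3, List.all_eq_true.1 grpS28_0 _ (.tail _ (.tail _ (.tail _ (.tail _ (.head _)))))⟩
def chkS28_11 : Chk (boxS28.cC) (bound pcS28 true .r) :=
  ⟨322, 14, 13, 2, 3, List.all_eq_true.1 grpS28_0 _ (.tail _ (.tail _ (.tail _ (.tail _ (.tail _ (.head _))))))⟩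
def grpS28_1 : ([bound pcS28 false .g0,
    bound pcS28 false .g1,
    bound pcS28 true .g0,
    bound pcS28 true .g1].all
    (checkFour (boxS28.cC) 131 5 4 1 2)) = true := by decide +kernel
def chkS28_3 : Chk (boxS28.cC) (bound pcS28 false .g0) :=
  ⟨131, 5, 4, 1, 2, List.all_eq_true.1 grpS28_1 _ (.head _)⟩
def chkS28_4 : Chk (boxS28.cC) (bound pcS28 false .g1) :=
  ⟨131, 5, 4, 1, 2, List.all_eq_true.1 grpS28_1 _ (.tail _ (.head _))⟩
def chkS28_12 : Chk (boxS28.cC) (bound pcS28 true .g0) :=
  ⟨131, 5, 4, 1, 2, List.all_eq_true.1 grpS28_1 _ (.tail _ (.tail _ (.head _)))⟩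
def chkS28_13 : Chk (boxS28.cC) (bound pcS28 true .g1) :=
  ⟨131, 5, 4, 1, 2, List.all_eq_true.1 grpS28_1 _ (.tail _ (.tail _ (.tail _ (.head _))))⟩
def grpS28_2 : ([bound pcS28 false .t0,
    bound pcS28 false .t1,
    bound pcS28 true .t0,
    bound pcS28 true .t1].all
    (checkFour (boxS28.cC) 206 9 6 2 3)) = true := by decide +kernel
def chkS28_5 : Chk (boxS28.cC) (bound pcS28 false .t0) :=
  ⟨206, 9, 6, 2, 3, List.all_eq_true.1 grpS28_2 _ (.head _)⟩
def chkS28_6 : Chk (boxS28.cC) (bound pcS28 false .t1) :=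
  ⟨206, 9, 6, 2, 3, List.all_eq_true.1 grpS28_2 _ (.tail _ (.head _))⟩
def chkS28_14 : Chk (boxS28.cC) (bound pcS28 true .t0) :=
  ⟨206, 9, 6, 2, 3, List.all_eq_true.1 grpS28_2 _ (.tail _ (.tail _ (.head _)))⟩
def chkS28_15 : Chk (boxS28.cC) (bound pcS28 true .t1) :=
  ⟨206, 9, 6, 2, 3, List.all_eq_true.1 grpS28_2 _ (.tail _ (.tail _ (.tail _ (.head _))))⟩
def grpS28_3 : ([bound pcS28 false .w0,
    bound pcS28 false .w1,
    bound pcS28 true .w0,
    bound pcS28 true .w1].all
    (checkFour (boxS28.cC) 284 12 10 3 4)) = true := by decide +kernel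
def chkS28_7 : Chk (boxS28.cC) (bound pcS28 false .w0) :=
  ⟨284, 12, 10, 3, 4, List.all_eq_true.1 grpS28_3 _ (.head _)⟩
def chkS28_8 : Chk (boxS28.cC) (bound pcS28 false .w1) :=
  ⟨284, 12, 10, 3, 4, List.all_eq_true.1 grpS28_3 _ (.tail _ (.head _))⟩
def chkS28_16 : Chk (boxS28.cC) (bound pcS28 true .w0) :=
  ⟨284, 12, 10, 3, 4, List.all_eq_true.1 grpS28_3 _ (.tail _ (.tail _ (.head _)))⟩
def chkS28_17 : Chk (boxS28.cC) (bound pcS28 true .w1) :=
  ⟨284, 12, 10, 3, 4, List.all_eq_true.1 grpS28_3 _ (.tail _ (.tail _ (.tail _ (.head _))))⟩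
def grpS28_4 : ([subst (sub pcS28 ⟨false, false, true, true, false⟩) (condX),
    subst (sub pcS28 ⟨false, true, true, true, false⟩) (condX),
    subst (sub pcS28 ⟨true, false, true, true, false⟩) (condX),
    subst (sub pcS28 ⟨true, true, true, true, false⟩) (condX)].all
    (checkFour (boxS28.vC) 342 15 13 4 0)) = true := by decide +kernel
def chkS28_18 : Chk (boxS28.vC) (subst (sub pcS28 ⟨false, false, true, true, false⟩) (condX)) :=
  ⟨342, 15, 13, 4, 0, List.all_eq_true.1 grpS28_4 _ (.head _)⟩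
def chkS28_19 : Chk (boxS28.vC) (subst (sub pcS28 ⟨false, true, true, true, false⟩) (condX)) :=
  ⟨342, 15, 13, 4, 0, List.all_eq_true.1 grpS28_4 _ (.tail _ (.head _))⟩
def chkS28_20 : Chk (boxS28.vC) (subst (sub pcS28 ⟨true, false, true, true, false⟩) (condX)) :=
  ⟨342, 15, 13, 4, 0, List.all_eq_true.1 grpS28_4 _ (.tail _ (.tail _ (.head _)))⟩
def chkS28_21 : Chk (boxS28.vC) (subst (sub pcS28 ⟨true, true, true, true, false⟩) (condX)) :=
  ⟨342, 15, 13, 4, 0, List.all_eq_true.1 grpS28_4 _ (.tail _ (.tail _ (.tail _ (.head _))))⟩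
def grpS28_5 : ([subst (sub pcS28 ⟨false, false, true, false, false⟩) (tplMG),
    subst (sub pcS28 ⟨false, true, true, false, false⟩) (tplMG),
    subst (sub pcS28 ⟨true, false, true, false, false⟩) (tplMG),
    subst (sub pcS28 ⟨true, true, true, false, false⟩) (tplMG)].all
    (checkFour (boxS28.vC) 661 30 26 6 0)) = true := by decide +kernel
def chkS28_22 : Chk (boxS28.vC) (subst (sub pcS28 ⟨false, false, true, false, false⟩) (tplMG)) :=
  ⟨661, 30, 26, 6, 0, List.all_eq_true.1 grpS28_5 _ (.head _)⟩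
def chkS28_23 : Chk (boxS28.vC) (subst (sub pcS28 ⟨false, true, true, false, false⟩) (tplMG)) :=
  ⟨661, 30, 26, 6, 0, List.all_eq_true.1 grpS28_5 _ (.tail _ (.head _))⟩
def chkS28_24 : Chk (boxS28.vC) (subst (sub pcS28 ⟨true, false, true, false, false⟩) (tplMG)) :=
  ⟨661, 30, 26, 6, 0, List.all_eq_true.1 grpS28_5 _ (.tail _ (.tail _ (.head _)))⟩
def chkS28_25 : Chk (boxS28.vC) (subst (sub pcS28 ⟨true, true, true, false, false⟩) (tplMG)) :=
  ⟨661, 30, 26, 6, 0, List.all_eq_true.1 grpS28_5 _ (.tail _ (.tail _ (.tail _ (.head _))))⟩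
def grpS28_6 : ([subst (sub pcS28 ⟨false, false, false, false, false⟩) (pcS28.m1),
    subst (sub pcS28 ⟨false, true, false, false, false⟩) (pcS28.m1),
    subst (sub pcS28 ⟨true, false, false, false, false⟩) (pcS28.m1),
    subst (sub pcS28 ⟨true, true, false, false, false⟩) (pcS28.m1)].all
    (checkFour (boxS28.vC) 428 19 17 4 0)) = true := by decide +kernel
def chkS28_26 : Chk (boxS28.vC) (subst (sub pcS28 ⟨false, false, false, false, false⟩) (pcS28.m1)) :=
  ⟨428, 19, 17, 4, 0, List.all_eq_true.1 grpS28_6 _ (.head _)⟩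
def chkS28_27 : Chk (boxS28.vC) (subst (sub pcS28 ⟨false, true, false, false, false⟩) (pcS28.m1)) :=
  ⟨428, 19, 17, 4, 0, List.all_eq_true.1 grpS28_6 _ (.tail _ (.head _))⟩
def chkS28_28 : Chk (boxS28.vC) (subst (sub pcS28 ⟨true, false, false, false, false⟩) (pcS28.m1)) :=
  ⟨428, 19, 17, 4, 0, List.all_eq_true.1 grpS28_6 _ (.tail _ (.tail _ (.head _)))⟩
def chkS28_29 : Chk (boxS28.vC) (subst (sub pcS28 ⟨true, true, false, false, false⟩) (pcS28.m1)) :=
  ⟨428, 19, 17, 4, 0, List.all_eq_true.1 grpS28_6 _ (.tail _ (.tail _ (.tail _ (.head _))))⟩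
def chkS28_30 : Chk (boxS28.vC) (subst (sub pcS28 ⟨false, false, true, false, false⟩) (strict (pcS28.m2 false))) :=
  ⟨675, 28, 24, 6, 0, by decide +kernel⟩
def chkS28_31 : Chk (boxS28.vC) (subst (sub pcS28 ⟨false, false, true, false, true⟩) (strict (pcS28.m2 false))) :=
  ⟨681, 28, 24, 6, 0, by decide +kernel⟩
def chkS28_32 : Chk (boxS28.vC) (subst (sub pcS28 ⟨true, false, true, false, false⟩) (strict (pcS28.m2 false))) :=
  ⟨675, 28, 24, 6, 0, by decide +kernel⟩
def chkS28_33 : Chk (boxS28.vC) (subst (sub pcS28 ⟨true, false, true, false, true⟩) (strict (pcS28.m2 false))) :=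
  ⟨681, 28, 24, 6, 0, by decide +kernel⟩
def chkS28_34 : Chk (boxS28.vC) (subst (sub pcS28 ⟨false, true, true, false, false⟩) (strict (pcS28.m2 true))) :=
  ⟨671, 28, 24, 6, 0, by decide +kernel⟩
def chkS28_35 : Chk (boxS28.vC) (subst (sub pcS28 ⟨false, true, true, false, true⟩) (strict (pcS28.m2 true))) :=
  ⟨676, 28, 24, 6, 0, by decide +kernel⟩
def chkS28_36 : Chk (boxS28.vC) (subst (sub pcS28 ⟨true, true, true, false, false⟩) (strict (pcS28.m2 true))) :=
  ⟨671, 28, 24, 6, 0, by decide +kernel⟩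
def chkS28_37 : Chk (boxS28.vC) (subst (sub pcS28 ⟨true, true, true, false, true⟩) (strict (pcS28.m2 true))) :=
  ⟨676, 28, 24, 6, 0, by decide +kernel⟩
def grpS28_15 : ([subst (sub pcS28 ⟨false, false, true, true, false⟩) (strict (pcS28.m3 false)),
    subst (sub pcS28 ⟨false, false, true, true, true⟩) (strict (pcS28.m3 false)),
    subst (sub pcS28 ⟨false, false, true, true, false⟩) (strict (pcS28.m3 true)),
    subst (sub pcS28 ⟨false, false, true, true, true⟩) (strict (pcS28.m3 true))].all
    (checkFour (boxS28.vC) 839 35 31 6 0)) = true := by decide +kernel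
def chkS28_38 : Chk (boxS28.vC) (subst (sub pcS28 ⟨false, false, true, true, false⟩) (strict (pcS28.m3 false))) :=
  ⟨839, 35, 31, 6, 0, List.all_eq_true.1 grpS28_15 _ (.head _)⟩
def chkS28_39 : Chk (boxS28.vC) (subst (sub pcS28 ⟨false, false, true, true, true⟩) (strict (pcS28.m3 false))) :=
  ⟨839, 35, 31, 6, 0, List.all_eq_true.1 grpS28_15 _ (.tail _ (.head _))⟩
def chkS28_46 : Chk (boxS28.vC) (subst (sub pcS28 ⟨false, false, true, true, false⟩) (strict (pcS28.m3 true))) :=
  ⟨839, 35, 31, 6, 0, List.all_eq_true.1 grpS28_15 _ (.tail _ (.tail _ (.head _)))⟩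
def chkS28_47 : Chk (boxS28.vC) (subst (sub pcS28 ⟨false, false, true, true, true⟩) (strict (pcS28.m3 true))) :=
  ⟨839, 35, 31, 6, 0, List.all_eq_true.1 grpS28_15 _ (.tail _ (.tail _ (.tail _ (.head _))))⟩
def grpS28_16 : ([subst (sub pcS28 ⟨false, true, true, true, false⟩) (strict (pcS28.m3 false)),
    subst (sub pcS28 ⟨false, true, true, true, true⟩) (strict (pcS28.m3 false)),
    subst (sub pcS28 ⟨false, true, true, true, false⟩) (strict (pcS28.m3 true)),
    subst (sub pcS28 ⟨false, true, true, true, true⟩) (strict (pcS28.m3 true))].all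
    (checkFour (boxS28.vC) 830 35 31 6 0)) = true := by decide +kernel
def chkS28_40 : Chk (boxS28.vC) (subst (sub pcS28 ⟨false, true, true, true, false⟩) (strict (pcS28.m3 false))) :=
  ⟨830, 35, 31, 6, 0, List.all_eq_true.1 grpS28_16 _ (.head _)⟩
def chkS28_41 : Chk (boxS28.vC) (subst (sub pcS28 ⟨false, true, true, true, true⟩) (strict (pcS28.m3 false))) :=
  ⟨830, 35, 31, 6, 0, List.all_eq_true.1 grpS28_16 _ (.tail _ (.head _))⟩
def chkS28_48 : Chk (boxS28.vC) (subst (sub pcS28 ⟨false, true, true, true, false⟩) (strict (pcS28.m3 true))) :=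
  ⟨830, 35, 31, 6, 0, List.all_eq_true.1 grpS28_16 _ (.tail _ (.tail _ (.head _)))⟩
def chkS28_49 : Chk (boxS28.vC) (subst (sub pcS28 ⟨false, true, true, true, true⟩) (strict (pcS28.m3 true))) :=
  ⟨830, 35, 31, 6, 0, List.all_eq_true.1 grpS28_16 _ (.tail _ (.tail _ (.tail _ (.head _))))⟩
def grpS28_17 : ([subst (sub pcS28 ⟨true, false, true, true, false⟩) (strict (pcS28.m3 false)),
    subst (sub pcS28 ⟨true, false, true, true, true⟩) (strict (pcS28.m3 false)),
    subst (sub pcS28 ⟨true, false, true, true, false⟩) (strict (pcS28.m3 true)),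
    subst (sub pcS28 ⟨true, false, true, true, true⟩) (strict (pcS28.m3 true))].all
    (checkFour (boxS28.vC) 839 35 31 6 0)) = true := by decide +kernel
def chkS28_42 : Chk (boxS28.vC) (subst (sub pcS28 ⟨true, false, true, true, false⟩) (strict (pcS28.m3 false))) :=
  ⟨839, 35, 31, 6, 0, List.all_eq_true.1 grpS28_17 _ (.head _)⟩
def chkS28_43 : Chk (boxS28.vC) (subst (sub pcS28 ⟨true, false, true, true, true⟩) (strict (pcS28.m3 false))) :=
  ⟨839, 35, 31, 6, 0, List.all_eq_true.1 grpS28_17 _ (.tail _ (.head _))⟩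
def chkS28_50 : Chk (boxS28.vC) (subst (sub pcS28 ⟨true, false, true, true, false⟩) (strict (pcS28.m3 true))) :=
  ⟨839, 35, 31, 6, 0, List.all_eq_true.1 grpS28_17 _ (.tail _ (.tail _ (.head _)))⟩
def chkS28_51 : Chk (boxS28.vC) (subst (sub pcS28 ⟨true, false, true, true, true⟩) (strict (pcS28.m3 true))) :=
  ⟨839, 35, 31, 6, 0, List.all_eq_true.1 grpS28_17 _ (.tail _ (.tail _ (.tail _ (.head _))))⟩
def grpS28_18 : ([subst (sub pcS28 ⟨true, true, true, true, false⟩) (strict (pcS28.m3 false)),
    subst (sub pcS28 ⟨true, true, true, true, true⟩) (strict (pcS28.m3 false)),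
    subst (sub pcS28 ⟨true, true, true, true, false⟩) (strict (pcS28.m3 true)),
    subst (sub pcS28 ⟨true, true, true, true, true⟩) (strict (pcS28.m3 true))].all
    (checkFour (boxS28.vC) 830 35 31 6 0)) = true := by decide +kernel
def chkS28_44 : Chk (boxS28.vC) (subst (sub pcS28 ⟨true, true, true, true, false⟩) (strict (pcS28.m3 false))) :=
  ⟨830, 35, 31, 6, 0, List.all_eq_true.1 grpS28_18 _ (.head _)⟩
def chkS28_45 : Chk (boxS28.vC) (subst (sub pcS28 ⟨true, true, true, true, true⟩) (strict (pcS28.m3 false))) :=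
  ⟨830, 35, 31, 6, 0, List.all_eq_true.1 grpS28_18 _ (.tail _ (.head _))⟩
def chkS28_52 : Chk (boxS28.vC) (subst (sub pcS28 ⟨true, true, true, true, false⟩) (strict (pcS28.m3 true))) :=
  ⟨830, 35, 31, 6, 0, List.all_eq_true.1 grpS28_18 _ (.tail _ (.tail _ (.head _)))⟩
def chkS28_53 : Chk (boxS28.vC) (subst (sub pcS28 ⟨true, true, true, true, true⟩) (strict (pcS28.m3 true))) :=
  ⟨830, 35, 31, 6, 0, List.all_eq_true.1 grpS28_18 _ (.tail _ (.tail _ (.tail _ (.head _))))⟩
def chkS28_54 : Chk (boxS28.vC) (subst (sub pcS28 ⟨false, false, true, true, false⟩) (negEx coMG12)) :=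
  ⟨165, 8, 5, 4, 0, by decide +kernel⟩
def grpS28_20 : ([subst (sub pcS28 ⟨false, false, true, true, false⟩) (negEx (pcS28.curve2 false)),
    subst (sub pcS28 ⟨false, false, true, true, false⟩) (negEx (pcS28.curve2 true))].all
    (checkFour (boxS28.vC) 180 9 5 4 0)) = true := by decide +kernel
def chkS28_55 : Chk (boxS28.vC) (subst (sub pcS28 ⟨false, false, true, true, false⟩) (negEx (pcS28.curve2 false))) :=
  ⟨180, 9, 5, 4, 0, List.all_eq_true.1 grpS28_20 _ (.head _)⟩
def chkS28_56 : Chk (boxS28.vC) (subst (sub pcS28 ⟨false, false, true, true, false⟩) (negEx (pcS28.curve2 true))) :=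
  ⟨180, 9, 5, 4, 0, List.all_eq_true.1 grpS28_20 _ (.tail _ (.head _))⟩
def grpS28_21 : ([subst (sub pcS28 ⟨false, false, true, true, false⟩) (negEx (pcS28.curve3 false)),
    subst (sub pcS28 ⟨false, false, true, true, false⟩) (negEx (pcS28.curve3 true))].all
    (checkFour (boxS28.vC) 187 9 6 4 0)) = true := by decide +kernel
def chkS28_57 : Chk (boxS28.vC) (subst (sub pcS28 ⟨false, false, true, true, false⟩) (negEx (pcS28.curve3 false))) :=
  ⟨187, 9, 6, 4, 0, List.all_eq_true.1 grpS28_21 _ (.head _)⟩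
def chkS28_58 : Chk (boxS28.vC) (subst (sub pcS28 ⟨false, false, true, true, false⟩) (negEx (pcS28.curve3 true))) :=
  ⟨187, 9, 6, 4, 0, List.all_eq_true.1 grpS28_21 _ (.tail _ (.head _))⟩
def grpS28_22 : ([subst (sub pcS28 ⟨false, false, true, true, false⟩) (slopeT),
    subst (sub pcS28 ⟨true, false, true, true, false⟩) (slopeT)].all
    (checkFour (boxS28.vC) 209 10 7 4 0)) = true := by decide +kernel
def chkS28_59 : Chk (boxS28.vC) (subst (sub pcS28 ⟨false, false, true, true, false⟩) (slopeT)) :=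
  ⟨209, 10, 7, 4, 0, List.all_eq_true.1 grpS28_22 _ (.head _)⟩
def chkS28_60 : Chk (boxS28.vC) (subst (sub pcS28 ⟨true, false, true, true, false⟩) (slopeT)) :=
  ⟨209, 10, 7, 4, 0, List.all_eq_true.1 grpS28_22 _ (.tail _ (.head _))⟩
def grpS28_23 : ([subst (gapSub pcS28 true false false) tplL,
    subst (gapSub pcS28 true false true) tplL,
    subst (gapSub pcS28 true true false) tplL,
    subst (gapSub pcS28 true true true) tplL].all
    (checkFour (boxS28.gC true) 549 26 22 5 2)) = true := by decide +kernel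
def chkS28_61 : Chk (boxS28.gC true) (subst (gapSub pcS28 true false false) tplL) :=
  ⟨549, 26, 22, 5, 2, List.all_eq_true.1 grpS28_23 _ (.head _)⟩
def chkS28_62 : Chk (boxS28.gC true) (subst (gapSub pcS28 true false true) tplL) :=
  ⟨549, 26, 22, 5, 2, List.all_eq_true.1 grpS28_23 _ (.tail _ (.head _))⟩
def chkS28_63 : Chk (boxS28.gC true) (subst (gapSub pcS28 true true false) tplL) :=
  ⟨549, 26, 22, 5, 2, List.all_eq_true.1 grpS28_23 _ (.tail _ (.tail _ (.head _)))⟩
def chkS28_64 : Chk (boxS28.gC true) (subst (gapSub pcS28 true true true) tplL) :=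
  ⟨549, 26, 22, 5, 2, List.all_eq_true.1 grpS28_23 _ (.tail _ (.tail _ (.tail _ (.head _))))⟩

/-- Piece 28 passes. -/
theorem certS28 : Cert pcS28 boxS28 true where
  pos := by
    refine ⟨⟨⟨?_, ?_, ?_, ?_, ?_, ?_, ?_⟩, ?_, ?_, ?_, ?_, ?_, ?_, ?_, ?_, ?_, ?_, ?_⟩, ?_, ?_⟩ <;>
      norm_num [fr, pcS28]
  gX := fun p l => match p, l with
    | false, false => chkS28_18
    | false, true => chkS28_19
    | true, false => chkS28_20
    | true, true => chkS28_21
  gMG := fun p l => match p, l with
    | false, false => chkS28_22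
    | false, true => chkS28_23
    | true, false => chkS28_24
    | true, true => chkS28_25
  g1 := fun p l => match p, l with
    | false, false => chkS28_26
    | false, true => chkS28_27
    | true, false => chkS28_28
    | true, true => chkS28_29
  g2 := fun s p t => match s, p, t with
    | false, false, false => chkS28_30
    | false, false, true => chkS28_31
    | false, true, false => chkS28_32
    | false, true, true => chkS28_33
    | true, false, false => chkS28_34
    | true, false, true => chkS28_35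
    | true, true, false => chkS28_36
    | true, true, true => chkS28_37
  g3 := fun s p l t => match s, p, l, t with
    | false, false, false, false => chkS28_38
    | false, false, false, true => chkS28_39
    | false, false, true, false => chkS28_40
    | false, false, true, true => chkS28_41
    | false, true, false, false => chkS28_42
    | false, true, false, true => chkS28_43
    | false, true, true, false => chkS28_44
    | false, true, true, true => chkS28_45
    | true, false, false, false => chkS28_46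
    | true, false, false, true => chkS28_47
    | true, false, true, false => chkS28_48
    | true, false, true, true => chkS28_49
    | true, true, false, false => chkS28_50
    | true, true, false, true => chkS28_51
    | true, true, true, false => chkS28_52
    | true, true, true, true => chkS28_53
  cMG := chkS28_54
  c2 := fun s => match s with
    | false => chkS28_55
    | true => chkS28_56
  c3 := fun s => match s with
    | false => chkS28_57
    | true => chkS28_58
  sT := fun p => match p with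
    | false => chkS28_59
    | true => chkS28_60
  bnd := fun ze b => match ze, b with
    | false, .l0 => chkS28_0
    | false, .l1 => chkS28_1
    | false, .r => chkS28_2
    | false, .g0 => chkS28_3
    | false, .g1 => chkS28_4
    | false, .t0 => chkS28_5
    | false, .t1 => chkS28_6
    | false, .w0 => chkS28_7
    | false, .w1 => chkS28_8
    | true, .l0 => chkS28_9
    | true, .l1 => chkS28_10
    | true, .r => chkS28_11
    | true, .g0 => chkS28_12
    | true, .g1 => chkS28_13
    | true, .t0 => chkS28_14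
    | true, .t1 => chkS28_15
    | true, .w0 => chkS28_16
    | true, .w1 => chkS28_17
  gap := fun ze t => match ze, t with
    | false, false => chkS28_61
    | false, true => chkS28_62
    | true, false => chkS28_63
    | true, true => chkS28_64

/-- A window of piece 28. -/
def winS28T : Win := ⟨.B, (93, 184, 2000), (27, 60, 50), (-19, 86, 100), (43, 112, 50), (56, 875, 25), (153, 160, 200), true, true, (28, 0), (635, 1000)⟩

/-- The window passes. -/
theorem winS28T_ok : winS28T.Cert where
  fits := ⟨by norm_num [winS28T], by norm_num [winS28T, qLo], by norm_num [winS28T, qLo, qHi],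
    by norm_num [winS28T, qLo, qHi], by norm_num [winS28T, qLo], by norm_num [winS28T, qHi]⟩
  cross := ⟨298, 9, 8, 2, 7, by decide +kernel⟩
  exit := ⟨294, 12, 10, 3, 6, by decide +kernel⟩
  mix := ⟨394, 14, 12, 3, 10, by decide +kernel⟩

/-- The tight band is crossed one way on piece 28. -/
theorem bandS28 : Chk (winS28T.chart (153, 160, 200) winS28T.qc) (sBand winS28T.kind) :=
  ⟨521, 17, 15, 3, 14, by decide +kernel⟩

end Vale.Agent.P100.Calib.StripMid
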