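import Vale.Agent.P100.Calib.SlabStripMidSevWindow

/-!
# The checks of piece 29 below 153/200 for `N` between seven and twenty
-/

set_option linter.defProp false

namespace Vale.Agent.P100.Calib.StripMid

open Pack

/-- The numbers of piece 29. -/
def pcS29 : Piece := ⟨.B, (153, 200), (4, 5), (63, 100), (49, 50), (66, 25), (409, 1000), (271, 500), (911, 1000), (414, -1275, 500), (893, -2250, 1000), 45, (69,-570,450,5), (593, 1000), (773, 1000), (9, 20), (1, 4), (1, 4)⟩

/-- The ranges of piece 29. -/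
def boxS29 : Box := ⟨(46, 55, 500), (9, 24, 20), (90, 513, 100), (49, 132, 50), (153, 160, 200)⟩

def grpS29_0 : ([bound pcS29 false .l0,
    bound pcS29 false .l1,
    bound pcS29 false .r,
    bound pcS29 true .l0,
    bound pcS29 true .l1,
    bound pcS29 true .r].all
    (checkFour (boxS29.cC) 279 14 13 2 3)) = true := by decide +kernel
def chkS29_0 : Chk (boxS29.cC) (bound pcS29 false .l0) :=
  ⟨279, 14, 13, 2, 3, List.all_eq_true.1 grpS29_0 _ (.head _)⟩
def chkS29_1 : Chk (boxS29.cC) (bound pcS29 false .l1) :=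
  ⟨279, 14, 13, 2, 3, List.all_eq_true.1 grpS29_0 _ (.tail _ (.head _))⟩
def chkS29_2 : Chk (boxS29.cC) (bound pcS29 false .r) :=
  ⟨279, 14, 13, 2, 3, List.all_eq_true.1 grpS29_0 _ (.tail _ (.tail _ (.head _)))⟩
def chkS29_9 : Chk (boxS29.cC) (bound pcS29 true .l0) :=
  ⟨279, 14, 13, 2, 3, List.all_eq_true.1 grpS29_0 _ (.tail _ (.tail _ (.tail _ (.head _))))⟩
def chkS29_10 : Chk (boxS29.cC) (bound pcS29 true .l1) :=
  ⟨279, 14, 13, 2, 3, List.all_eq_true.1 grpS29_0 _ (.tail _ (.tail _ (.tail _ (.tail _ (.head _)))))⟩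
def chkS29_11 : Chk (boxS29.cC) (bound pcS29 true .r) :=
  ⟨279, 14, 13, 2, 3, List.all_eq_true.1 grpS29_0 _ (.tail _ (.tail _ (.tail _ (.tail _ (.tail _ (.head _))))))⟩
def grpS29_1 : ([bound pcS29 false .g0,
    bound pcS29 false .g1,
    bound pcS29 true .g0,
    bound pcS29 true .g1].all
    (checkFour (boxS29.cC) 118 5 4 1 2)) = true := by decide +kernel
def chkS29_3 : Chk (boxS29.cC) (bound pcS29 false .g0) :=
  ⟨118, 5, 4, 1, 2, List.all_eq_true.1 grpS29_1 _ (.head _)⟩
def chkS29_4 : Chk (boxS29.cC) (bound pcS29 false .g1) :=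
  ⟨118, 5, 4, 1, 2, List.all_eq_true.1 grpS29_1 _ (.tail _ (.head _))⟩
def chkS29_12 : Chk (boxS29.cC) (bound pcS29 true .g0) :=
  ⟨118, 5, 4, 1, 2, List.all_eq_true.1 grpS29_1 _ (.tail _ (.tail _ (.head _)))⟩
def chkS29_13 : Chk (boxS29.cC) (bound pcS29 true .g1) :=
  ⟨118, 5, 4, 1, 2, List.all_eq_true.1 grpS29_1 _ (.tail _ (.tail _ (.tail _ (.head _))))⟩
def grpS29_2 : ([bound pcS29 false .t0,
    bound pcS29 false .t1,
    bound pcS29 true .t0,
    bound pcS29 true .t1].all
    (checkFour (boxS29.cC) 184 9 6 2 3)) = true := by decide +kernel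
def chkS29_5 : Chk (boxS29.cC) (bound pcS29 false .t0) :=
  ⟨184, 9, 6, 2, 3, List.all_eq_true.1 grpS29_2 _ (.head _)⟩
def chkS29_6 : Chk (boxS29.cC) (bound pcS29 false .t1) :=
  ⟨184, 9, 6, 2, 3, List.all_eq_true.1 grpS29_2 _ (.tail _ (.head _))⟩
def chkS29_14 : Chk (boxS29.cC) (bound pcS29 true .t0) :=
  ⟨184, 9, 6, 2, 3, List.all_eq_true.1 grpS29_2 _ (.tail _ (.tail _ (.head _)))⟩
def chkS29_15 : Chk (boxS29.cC) (bound pcS29 true .t1) :=
  ⟨184, 9, 6, 2, 3, List.all_eq_true.1 grpS29_2 _ (.tail _ (.tail _ (.tail _ (.head _))))⟩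
def grpS29_3 : ([bound pcS29 false .w0,
    bound pcS29 false .w1,
    bound pcS29 true .w0,
    bound pcS29 true .w1].all
    (checkFour (boxS29.cC) 248 12 10 3 4)) = true := by decide +kernel
def chkS29_7 : Chk (boxS29.cC) (bound pcS29 false .w0) :=
  ⟨248, 12, 10, 3, 4, List.all_eq_true.1 grpS29_3 _ (.head _)⟩
def chkS29_8 : Chk (boxS29.cC) (bound pcS29 false .w1) :=
  ⟨248, 12, 10, 3, 4, List.all_eq_true.1 grpS29_3 _ (.tail _ (.head _))⟩
def chkS29_16 : Chk (boxS29.cC) (bound pcS29 true .w0) :=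
  ⟨248, 12, 10, 3, 4, List.all_eq_true.1 grpS29_3 _ (.tail _ (.tail _ (.head _)))⟩
def chkS29_17 : Chk (boxS29.cC) (bound pcS29 true .w1) :=
  ⟨248, 12, 10, 3, 4, List.all_eq_true.1 grpS29_3 _ (.tail _ (.tail _ (.tail _ (.head _))))⟩
def grpS29_4 : ([subst (sub pcS29 ⟨false, false, true, true, false⟩) (condX),
    subst (sub pcS29 ⟨false, true, true, true, false⟩) (condX),
    subst (sub pcS29 ⟨true, false, true, true, false⟩) (condX),
    subst (sub pcS29 ⟨true, true, true, true, false⟩) (condX)].all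
    (checkFour (boxS29.vC) 298 15 13 4 0)) = true := by decide +kernel
def chkS29_18 : Chk (boxS29.vC) (subst (sub pcS29 ⟨false, false, true, true, false⟩) (condX)) :=
  ⟨298, 15, 13, 4, 0, List.all_eq_true.1 grpS29_4 _ (.head _)⟩
def chkS29_19 : Chk (boxS29.vC) (subst (sub pcS29 ⟨false, true, true, true, false⟩) (condX)) :=
  ⟨298, 15, 13, 4, 0, List.all_eq_true.1 grpS29_4 _ (.tail _ (.head _))⟩
def chkS29_20 : Chk (boxS29.vC) (subst (sub pcS29 ⟨true, false, true, true, false⟩) (condX)) :=
  ⟨298, 15, 13, 4, 0, List.all_eq_true.1 grpS29_4 _ (.tail _ (.tail _ (.head _)))⟩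
def chkS29_21 : Chk (boxS29.vC) (subst (sub pcS29 ⟨true, true, true, true, false⟩) (condX)) :=
  ⟨298, 15, 13, 4, 0, List.all_eq_true.1 grpS29_4 _ (.tail _ (.tail _ (.tail _ (.head _))))⟩
def grpS29_5 : ([subst (sub pcS29 ⟨false, false, true, false, false⟩) (tplMG),
    subst (sub pcS29 ⟨false, true, true, false, false⟩) (tplMG),
    subst (sub pcS29 ⟨true, false, true, false, false⟩) (tplMG),
    subst (sub pcS29 ⟨true, true, true, false, false⟩) (tplMG)].all
    (checkFour (boxS29.vC) 578 30 26 6 0)) = true := by decide +kernel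
def chkS29_22 : Chk (boxS29.vC) (subst (sub pcS29 ⟨false, false, true, false, false⟩) (tplMG)) :=
  ⟨578, 30, 26, 6, 0, List.all_eq_true.1 grpS29_5 _ (.head _)⟩
def chkS29_23 : Chk (boxS29.vC) (subst (sub pcS29 ⟨false, true, true, false, false⟩) (tplMG)) :=
  ⟨578, 30, 26, 6, 0, List.all_eq_true.1 grpS29_5 _ (.tail _ (.head _))⟩
def chkS29_24 : Chk (boxS29.vC) (subst (sub pcS29 ⟨true, false, true, false, false⟩) (tplMG)) :=
  ⟨578, 30, 26, 6, 0, List.all_eq_true.1 grpS29_5 _ (.tail _ (.tail _ (.head _)))⟩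
def chkS29_25 : Chk (boxS29.vC) (subst (sub pcS29 ⟨true, true, true, false, false⟩) (tplMG)) :=
  ⟨578, 30, 26, 6, 0, List.all_eq_true.1 grpS29_5 _ (.tail _ (.tail _ (.tail _ (.head _))))⟩
def grpS29_6 : ([subst (sub pcS29 ⟨false, false, false, false, false⟩) (pcS29.m1),
    subst (sub pcS29 ⟨false, true, false, false, false⟩) (pcS29.m1),
    subst (sub pcS29 ⟨true, false, false, false, false⟩) (pcS29.m1),
    subst (sub pcS29 ⟨true, true, false, false, false⟩) (pcS29.m1)].all
    (checkFour (boxS29.vC) 375 19 17 4 0)) = true := by decide +kernel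
def chkS29_26 : Chk (boxS29.vC) (subst (sub pcS29 ⟨false, false, false, false, false⟩) (pcS29.m1)) :=
  ⟨375, 19, 17, 4, 0, List.all_eq_true.1 grpS29_6 _ (.head _)⟩
def chkS29_27 : Chk (boxS29.vC) (subst (sub pcS29 ⟨false, true, false, false, false⟩) (pcS29.m1)) :=
  ⟨375, 19, 17, 4, 0, List.all_eq_true.1 grpS29_6 _ (.tail _ (.head _))⟩
def chkS29_28 : Chk (boxS29.vC) (subst (sub pcS29 ⟨true, false, false, false, false⟩) (pcS29.m1)) :=
  ⟨375, 19, 17, 4, 0, List.all_eq_true.1 grpS29_6 _ (.tail _ (.tail _ (.head _)))⟩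
def chkS29_29 : Chk (boxS29.vC) (subst (sub pcS29 ⟨true, true, false, false, false⟩) (pcS29.m1)) :=
  ⟨375, 19, 17, 4, 0, List.all_eq_true.1 grpS29_6 _ (.tail _ (.tail _ (.tail _ (.head _))))⟩
def chkS29_30 : Chk (boxS29.vC) (subst (sub pcS29 ⟨false, false, true, false, false⟩) (strict (pcS29.m2 false))) :=
  ⟨602, 28, 24, 6, 0, by decide +kernel⟩
def chkS29_31 : Chk (boxS29.vC) (subst (sub pcS29 ⟨false, false, true, false, true⟩) (strict (pcS29.m2 false))) :=
  ⟨604, 28, 24, 6, 0, by decide +kernel⟩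
def chkS29_32 : Chk (boxS29.vC) (subst (sub pcS29 ⟨true, false, true, false, false⟩) (strict (pcS29.m2 false))) :=
  ⟨602, 28, 24, 6, 0, by decide +kernel⟩
def chkS29_33 : Chk (boxS29.vC) (subst (sub pcS29 ⟨true, false, true, false, true⟩) (strict (pcS29.m2 false))) :=
  ⟨604, 28, 24, 6, 0, by decide +kernel⟩
def chkS29_34 : Chk (boxS29.vC) (subst (sub pcS29 ⟨false, true, true, false, false⟩) (strict (pcS29.m2 true))) :=
  ⟨601, 28, 24, 6, 0, by decide +kernel⟩
def chkS29_35 : Chk (boxS29.vC) (subst (sub pcS29 ⟨false, true, true, false, true⟩) (strict (pcS29.m2 true))) :=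
  ⟨603, 28, 24, 6, 0, by decide +kernel⟩
def chkS29_36 : Chk (boxS29.vC) (subst (sub pcS29 ⟨true, true, true, false, false⟩) (strict (pcS29.m2 true))) :=
  ⟨601, 28, 24, 6, 0, by decide +kernel⟩
def chkS29_37 : Chk (boxS29.vC) (subst (sub pcS29 ⟨true, true, true, false, true⟩) (strict (pcS29.m2 true))) :=
  ⟨603, 28, 24, 6, 0, by decide +kernel⟩
def grpS29_15 : ([subst (sub pcS29 ⟨false, false, true, true, false⟩) (strict (pcS29.m3 false)),
    subst (sub pcS29 ⟨false, false, true, true, true⟩) (strict (pcS29.m3 false)),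
    subst (sub pcS29 ⟨false, false, true, true, false⟩) (strict (pcS29.m3 true)),
    subst (sub pcS29 ⟨false, false, true, true, true⟩) (strict (pcS29.m3 true))].all
    (checkFour (boxS29.vC) 738 35 31 6 0)) = true := by decide +kernel
def chkS29_38 : Chk (boxS29.vC) (subst (sub pcS29 ⟨false, false, true, true, false⟩) (strict (pcS29.m3 false))) :=
  ⟨738, 35, 31, 6, 0, List.all_eq_true.1 grpS29_15 _ (.head _)⟩
def chkS29_39 : Chk (boxS29.vC) (subst (sub pcS29 ⟨false, false, true, true, true⟩) (strict (pcS29.m3 false))) :=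
  ⟨738, 35, 31, 6, 0, List.all_eq_true.1 grpS29_15 _ (.tail _ (.head _))⟩
def chkS29_46 : Chk (boxS29.vC) (subst (sub pcS29 ⟨false, false, true, true, false⟩) (strict (pcS29.m3 true))) :=
  ⟨738, 35, 31, 6, 0, List.all_eq_true.1 grpS29_15 _ (.tail _ (.tail _ (.head _)))⟩
def chkS29_47 : Chk (boxS29.vC) (subst (sub pcS29 ⟨false, false, true, true, true⟩) (strict (pcS29.m3 true))) :=
  ⟨738, 35, 31, 6, 0, List.all_eq_true.1 grpS29_15 _ (.tail _ (.tail _ (.tail _ (.head _))))⟩
def grpS29_16 : ([subst (sub pcS29 ⟨false, true, true, true, false⟩) (strict (pcS29.m3 false)),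
    subst (sub pcS29 ⟨false, true, true, true, true⟩) (strict (pcS29.m3 false)),
    subst (sub pcS29 ⟨false, true, true, true, false⟩) (strict (pcS29.m3 true)),
    subst (sub pcS29 ⟨false, true, true, true, true⟩) (strict (pcS29.m3 true))].all
    (checkFour (boxS29.vC) 736 35 31 6 0)) = true := by decide +kernel
def chkS29_40 : Chk (boxS29.vC) (subst (sub pcS29 ⟨false, true, true, true, false⟩) (strict (pcS29.m3 false))) :=
  ⟨736, 35, 31, 6, 0, List.all_eq_true.1 grpS29_16 _ (.head _)⟩
def chkS29_41 : Chk (boxS29.vC) (subst (sub pcS29 ⟨false, true, true, true, true⟩) (strict (pcS29.m3 false))) :=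
  ⟨736, 35, 31, 6, 0, List.all_eq_true.1 grpS29_16 _ (.tail _ (.head _))⟩
def chkS29_48 : Chk (boxS29.vC) (subst (sub pcS29 ⟨false, true, true, true, false⟩) (strict (pcS29.m3 true))) :=
  ⟨736, 35, 31, 6, 0, List.all_eq_true.1 grpS29_16 _ (.tail _ (.tail _ (.head _)))⟩
def chkS29_49 : Chk (boxS29.vC) (subst (sub pcS29 ⟨false, true, true, true, true⟩) (strict (pcS29.m3 true))) :=
  ⟨736, 35, 31, 6, 0, List.all_eq_true.1 grpS29_16 _ (.tail _ (.tail _ (.tail _ (.head _))))⟩
def grpS29_17 : ([subst (sub pcS29 ⟨true, false, true, true, false⟩) (strict (pcS29.m3 false)),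
    subst (sub pcS29 ⟨true, false, true, true, true⟩) (strict (pcS29.m3 false)),
    subst (sub pcS29 ⟨true, false, true, true, false⟩) (strict (pcS29.m3 true)),
    subst (sub pcS29 ⟨true, false, true, true, true⟩) (strict (pcS29.m3 true))].all
    (checkFour (boxS29.vC) 738 35 31 6 0)) = true := by decide +kernel
def chkS29_42 : Chk (boxS29.vC) (subst (sub pcS29 ⟨true, false, true, true, false⟩) (strict (pcS29.m3 false))) :=
  ⟨738, 35, 31, 6, 0, List.all_eq_true.1 grpS29_17 _ (.head _)⟩
def chkS29_43 : Chk (boxS29.vC) (subst (sub pcS29 ⟨true, false, true, true, true⟩) (strict (pcS29.m3 false))) :=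
  ⟨738, 35, 31, 6, 0, List.all_eq_true.1 grpS29_17 _ (.tail _ (.head _))⟩
def chkS29_50 : Chk (boxS29.vC) (subst (sub pcS29 ⟨true, false, true, true, false⟩) (strict (pcS29.m3 true))) :=
  ⟨738, 35, 31, 6, 0, List.all_eq_true.1 grpS29_17 _ (.tail _ (.tail _ (.head _)))⟩
def chkS29_51 : Chk (boxS29.vC) (subst (sub pcS29 ⟨true, false, true, true, true⟩) (strict (pcS29.m3 true))) :=
  ⟨738, 35, 31, 6, 0, List.all_eq_true.1 grpS29_17 _ (.tail _ (.tail _ (.tail _ (.head _))))⟩
def grpS29_18 : ([subst (sub pcS29 ⟨true, true, true, true, false⟩) (strict (pcS29.m3 false)),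
    subst (sub pcS29 ⟨true, true, true, true, true⟩) (strict (pcS29.m3 false)),
    subst (sub pcS29 ⟨true, true, true, true, false⟩) (strict (pcS29.m3 true)),
    subst (sub pcS29 ⟨true, true, true, true, true⟩) (strict (pcS29.m3 true))].all
    (checkFour (boxS29.vC) 736 35 31 6 0)) = true := by decide +kernel
def chkS29_44 : Chk (boxS29.vC) (subst (sub pcS29 ⟨true, true, true, true, false⟩) (strict (pcS29.m3 false))) :=
  ⟨736, 35, 31, 6, 0, List.all_eq_true.1 grpS29_18 _ (.head _)⟩
def chkS29_45 : Chk (boxS29.vC) (subst (sub pcS29 ⟨true, true, true, true, true⟩) (strict (pcS29.m3 false))) :=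
  ⟨736, 35, 31, 6, 0, List.all_eq_true.1 grpS29_18 _ (.tail _ (.head _))⟩
def chkS29_52 : Chk (boxS29.vC) (subst (sub pcS29 ⟨true, true, true, true, false⟩) (strict (pcS29.m3 true))) :=
  ⟨736, 35, 31, 6, 0, List.all_eq_true.1 grpS29_18 _ (.tail _ (.tail _ (.head _)))⟩
def chkS29_53 : Chk (boxS29.vC) (subst (sub pcS29 ⟨true, true, true, true, true⟩) (strict (pcS29.m3 true))) :=
  ⟨736, 35, 31, 6, 0, List.all_eq_true.1 grpS29_18 _ (.tail _ (.tail _ (.tail _ (.head _))))⟩
def chkS29_54 : Chk (boxS29.vC) (subst (sub pcS29 ⟨false, false, true, true, false⟩) (negEx coMG12)) :=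
  ⟨143, 8, 5, 4, 0, by decide +kernel⟩
def grpS29_20 : ([subst (sub pcS29 ⟨false, false, true, true, false⟩) (negEx (pcS29.curve2 false)),
    subst (sub pcS29 ⟨false, false, true, true, false⟩) (negEx (pcS29.curve2 true))].all
    (checkFour (boxS29.vC) 156 9 5 4 0)) = true := by decide +kernel
def chkS29_55 : Chk (boxS29.vC) (subst (sub pcS29 ⟨false, false, true, true, false⟩) (negEx (pcS29.curve2 false))) :=
  ⟨156, 9, 5, 4, 0, List.all_eq_true.1 grpS29_20 _ (.head _)⟩
def chkS29_56 : Chk (boxS29.vC) (subst (sub pcS29 ⟨false, false, true, true, false⟩) (negEx (pcS29.curve2 true))) :=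
  ⟨156, 9, 5, 4, 0, List.all_eq_true.1 grpS29_20 _ (.tail _ (.head _))⟩
def grpS29_21 : ([subst (sub pcS29 ⟨false, false, true, true, false⟩) (negEx (pcS29.curve3 false)),
    subst (sub pcS29 ⟨false, false, true, true, false⟩) (negEx (pcS29.curve3 true))].all
    (checkFour (boxS29.vC) 161 9 6 4 0)) = true := by decide +kernel
def chkS29_57 : Chk (boxS29.vC) (subst (sub pcS29 ⟨false, false, true, true, false⟩) (negEx (pcS29.curve3 false))) :=
  ⟨161, 9, 6, 4, 0, List.all_eq_true.1 grpS29_21 _ (.head _)⟩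
def chkS29_58 : Chk (boxS29.vC) (subst (sub pcS29 ⟨false, false, true, true, false⟩) (negEx (pcS29.curve3 true))) :=
  ⟨161, 9, 6, 4, 0, List.all_eq_true.1 grpS29_21 _ (.tail _ (.head _))⟩
def grpS29_22 : ([subst (sub pcS29 ⟨false, false, true, true, false⟩) (slopeT),
    subst (sub pcS29 ⟨true, false, true, true, false⟩) (slopeT)].all
    (checkFour (boxS29.vC) 183 10 7 4 0)) = true := by decide +kernel
def chkS29_59 : Chk (boxS29.vC) (subst (sub pcS29 ⟨false, false, true, true, false⟩) (slopeT)) :=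
  ⟨183, 10, 7, 4, 0, List.all_eq_true.1 grpS29_22 _ (.head _)⟩
def chkS29_60 : Chk (boxS29.vC) (subst (sub pcS29 ⟨true, false, true, true, false⟩) (slopeT)) :=
  ⟨183, 10, 7, 4, 0, List.all_eq_true.1 grpS29_22 _ (.tail _ (.head _))⟩
def grpS29_23 : ([subst (gapSub pcS29 true false false) tplL,
    subst (gapSub pcS29 true false true) tplL,
    subst (gapSub pcS29 true true false) tplL,
    subst (gapSub pcS29 true true true) tplL].all
    (checkFour (boxS29.gC true) 473 26 22 5 2)) = true := by decide +kernel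
def chkS29_61 : Chk (boxS29.gC true) (subst (gapSub pcS29 true false false) tplL) :=
  ⟨473, 26, 22, 5, 2, List.all_eq_true.1 grpS29_23 _ (.head _)⟩
def chkS29_62 : Chk (boxS29.gC true) (subst (gapSub pcS29 true false true) tplL) :=
  ⟨473, 26, 22, 5, 2, List.all_eq_true.1 grpS29_23 _ (.tail _ (.head _))⟩
def chkS29_63 : Chk (boxS29.gC true) (subst (gapSub pcS29 true true false) tplL) :=
  ⟨473, 26, 22, 5, 2, List.all_eq_true.1 grpS29_23 _ (.tail _ (.tail _ (.head _)))⟩
def chkS29_64 : Chk (boxS29.gC true) (subst (gapSub pcS29 true true true) tplL) :=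
  ⟨473, 26, 22, 5, 2, List.all_eq_true.1 grpS29_23 _ (.tail _ (.tail _ (.tail _ (.head _))))⟩

/-- Piece 29 passes. -/
theorem certS29 : Cert pcS29 boxS29 true where
  pos := by
    refine ⟨⟨⟨?_, ?_, ?_, ?_, ?_, ?_, ?_⟩, ?_, ?_, ?_, ?_, ?_, ?_, ?_, ?_, ?_, ?_, ?_⟩, ?_, ?_⟩ <;>
      norm_num [fr, pcS29]
  gX := fun p l => match p, l with
    | false, false => chkS29_18
    | false, true => chkS29_19
    | true, false => chkS29_20
    | true, true => chkS29_21
  gMG := fun p l => match p, l with
    | false, false => chkS29_22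
    | false, true => chkS29_23
    | true, false => chkS29_24
    | true, true => chkS29_25
  g1 := fun p l => match p, l with
    | false, false => chkS29_26
    | false, true => chkS29_27
    | true, false => chkS29_28
    | true, true => chkS29_29
  g2 := fun s p t => match s, p, t with
    | false, false, false => chkS29_30
    | false, false, true => chkS29_31
    | false, true, false => chkS29_32
    | false, true, true => chkS29_33
    | true, false, false => chkS29_34
    | true, false, true => chkS29_35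
    | true, true, false => chkS29_36
    | true, true, true => chkS29_37
  g3 := fun s p l t => match s, p, l, t with
    | false, false, false, false => chkS29_38
    | false, false, false, true => chkS29_39
    | false, false, true, false => chkS29_40
    | false, false, true, true => chkS29_41
    | false, true, false, false => chkS29_42
    | false, true, false, true => chkS29_43
    | false, true, true, false => chkS29_44
    | false, true, true, true => chkS29_45
    | true, false, false, false => chkS29_46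
    | true, false, false, true => chkS29_47
    | true, false, true, false => chkS29_48
    | true, false, true, true => chkS29_49
    | true, true, false, false => chkS29_50
    | true, true, false, true => chkS29_51
    | true, true, true, false => chkS29_52
    | true, true, true, true => chkS29_53
  cMG := chkS29_54
  c2 := fun s => match s with
    | false => chkS29_55
    | true => chkS29_56
  c3 := fun s => match s with
    | false => chkS29_57
    | true => chkS29_58
  sT := fun p => match p with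
    | false => chkS29_59
    | true => chkS29_60
  bnd := fun ze b => match ze, b with
    | false, .l0 => chkS29_0
    | false, .l1 => chkS29_1
    | false, .r => chkS29_2
    | false, .g0 => chkS29_3
    | false, .g1 => chkS29_4
    | false, .t0 => chkS29_5
    | false, .t1 => chkS29_6
    | false, .w0 => chkS29_7
    | false, .w1 => chkS29_8
    | true, .l0 => chkS29_9
    | true, .l1 => chkS29_10
    | true, .r => chkS29_11
    | true, .g0 => chkS29_12
    | true, .g1 => chkS29_13
    | true, .t0 => chkS29_14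
    | true, .t1 => chkS29_15
    | true, .w0 => chkS29_16
    | true, .w1 => chkS29_17
  gap := fun ze t => match ze, t with
    | false, false => chkS29_61
    | false, true => chkS29_62
    | true, false => chkS29_63
    | true, true => chkS29_64

/-- A window of piece 29. -/
def winS29T : Win := ⟨.B, (46, 55, 500), (9, 24, 20), (-19, 98, 100), (49, 132, 50), (66, 875, 25), (153, 160, 200), true, true, (34, 0), (589, 1000)⟩

/-- The window passes. -/
theorem winS29T_ok : winS29T.Cert where
  fits := ⟨by norm_num [winS29T], by norm_num [winS29T, qLo], by norm_num [winS29T, qLo, qHi],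
    by norm_num [winS29T, qLo, qHi], by norm_num [winS29T, qLo], by norm_num [winS29T, qHi]⟩
  cross := ⟨270, 9, 8, 2, 7, by decide +kernel⟩
  exit := ⟨258, 12, 10, 3, 6, by decide +kernel⟩
  mix := ⟨351, 14, 12, 3, 10, by decide +kernel⟩

/-- The tight band is crossed one way on piece 29. -/
theorem bandS29 : Chk (winS29T.chart (153, 160, 200) winS29T.qc) (sBand winS29T.kind) :=
  ⟨468, 17, 15, 3, 14, by decide +kernel⟩

end Vale.Agent.P100.Calib.StripMid
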