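import Vale.Agent.P100.Calib.SlabStripMidSevWindow

/-!
# The checks of piece 30 below 153/200 for `N` between seven and twenty
-/

set_option linter.defProp false

namespace Vale.Agent.P100.Calib.StripMid

open Pack

/-- The numbers of piece 30. -/
def pcS30 : Piece := ⟨.D, (153, 200), (4, 5), (3, 5), (51, 50), (139, 50), (103, 250), (277, 500), (903, 1000), (763, -1950, 1000), (422, -895, 500), 45, (76,-570,450,5), (627, 1000), (211, 250), (9, 20), (1, 4), (2, 5)⟩

/-- The ranges of piece 30. -/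
def boxS30 : Box := ⟨(10, 27, 200), (11, 14, 100), (46, 239, 50), (51, 139, 50), (153, 160, 200)⟩

def grpS30_0 : ([bound pcS30 false .l0,
    bound pcS30 false .l1,
    bound pcS30 false .r,
    bound pcS30 true .l0,
    bound pcS30 true .l1,
    bound pcS30 true .r].all
    (checkFour (boxS30.cC) 247 13 9 2 3)) = true := by decide +kernel
def chkS30_0 : Chk (boxS30.cC) (bound pcS30 false .l0) :=
  ⟨247, 13, 9, 2, 3, List.all_eq_true.1 grpS30_0 _ (.head _)⟩
def chkS30_1 : Chk (boxS30.cC) (bound pcS30 false .l1) :=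
  ⟨247, 13, 9, 2, 3, List.all_eq_true.1 grpS30_0 _ (.tail _ (.head _))⟩
def chkS30_2 : Chk (boxS30.cC) (bound pcS30 false .r) :=
  ⟨247, 13, 9, 2, 3, List.all_eq_true.1 grpS30_0 _ (.tail _ (.tail _ (.head _)))⟩
def chkS30_9 : Chk (boxS30.cC) (bound pcS30 true .l0) :=
  ⟨247, 13, 9, 2, 3, List.all_eq_true.1 grpS30_0 _ (.tail _ (.tail _ (.tail _ (.head _))))⟩
def chkS30_10 : Chk (boxS30.cC) (bound pcS30 true .l1) :=
  ⟨247, 13, 9, 2, 3, List.all_eq_true.1 grpS30_0 _ (.tail _ (.tail _ (.tail _ (.tail _ (.head _)))))⟩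
def chkS30_11 : Chk (boxS30.cC) (bound pcS30 true .r) :=
  ⟨247, 13, 9, 2, 3, List.all_eq_true.1 grpS30_0 _ (.tail _ (.tail _ (.tail _ (.tail _ (.tail _ (.head _))))))⟩
def grpS30_1 : ([bound pcS30 false .g0,
    bound pcS30 false .g1,
    bound pcS30 true .g0,
    bound pcS30 true .g1].all
    (checkFour (boxS30.cC) 100 4 3 1 2)) = true := by decide +kernel
def chkS30_3 : Chk (boxS30.cC) (bound pcS30 false .g0) :=
  ⟨100, 4, 3, 1, 2, List.all_eq_true.1 grpS30_1 _ (.head _)⟩
def chkS30_4 : Chk (boxS30.cC) (bound pcS30 false .g1) :=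
  ⟨100, 4, 3, 1, 2, List.all_eq_true.1 grpS30_1 _ (.tail _ (.head _))⟩
def chkS30_12 : Chk (boxS30.cC) (bound pcS30 true .g0) :=
  ⟨100, 4, 3, 1, 2, List.all_eq_true.1 grpS30_1 _ (.tail _ (.tail _ (.head _)))⟩
def chkS30_13 : Chk (boxS30.cC) (bound pcS30 true .g1) :=
  ⟨100, 4, 3, 1, 2, List.all_eq_true.1 grpS30_1 _ (.tail _ (.tail _ (.tail _ (.head _))))⟩
def grpS30_2 : ([bound pcS30 false .t0,
    bound pcS30 false .t1,
    bound pcS30 true .t0,
    bound pcS30 true .t1].all
    (checkFour (boxS30.cC) 156 6 6 2 3)) = true := by decide +kernel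
def chkS30_5 : Chk (boxS30.cC) (bound pcS30 false .t0) :=
  ⟨156, 6, 6, 2, 3, List.all_eq_true.1 grpS30_2 _ (.head _)⟩
def chkS30_6 : Chk (boxS30.cC) (bound pcS30 false .t1) :=
  ⟨156, 6, 6, 2, 3, List.all_eq_true.1 grpS30_2 _ (.tail _ (.head _))⟩
def chkS30_14 : Chk (boxS30.cC) (bound pcS30 true .t0) :=
  ⟨156, 6, 6, 2, 3, List.all_eq_true.1 grpS30_2 _ (.tail _ (.tail _ (.head _)))⟩
def chkS30_15 : Chk (boxS30.cC) (bound pcS30 true .t1) :=
  ⟨156, 6, 6, 2, 3, List.all_eq_true.1 grpS30_2 _ (.tail _ (.tail _ (.tail _ (.head _))))⟩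
def grpS30_3 : ([bound pcS30 false .w0,
    bound pcS30 false .w1,
    bound pcS30 true .w0,
    bound pcS30 true .w1].all
    (checkFour (boxS30.cC) 211 10 7 3 4)) = true := by decide +kernel
def chkS30_7 : Chk (boxS30.cC) (bound pcS30 false .w0) :=
  ⟨211, 10, 7, 3, 4, List.all_eq_true.1 grpS30_3 _ (.head _)⟩
def chkS30_8 : Chk (boxS30.cC) (bound pcS30 false .w1) :=
  ⟨211, 10, 7, 3, 4, List.all_eq_true.1 grpS30_3 _ (.tail _ (.head _))⟩
def chkS30_16 : Chk (boxS30.cC) (bound pcS30 true .w0) :=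
  ⟨211, 10, 7, 3, 4, List.all_eq_true.1 grpS30_3 _ (.tail _ (.tail _ (.head _)))⟩
def chkS30_17 : Chk (boxS30.cC) (bound pcS30 true .w1) :=
  ⟨211, 10, 7, 3, 4, List.all_eq_true.1 grpS30_3 _ (.tail _ (.tail _ (.tail _ (.head _))))⟩
def grpS30_4 : ([subst (sub pcS30 ⟨false, false, true, true, false⟩) (condX),
    subst (sub pcS30 ⟨false, true, true, true, false⟩) (condX),
    subst (sub pcS30 ⟨true, false, true, true, false⟩) (condX),
    subst (sub pcS30 ⟨true, true, true, true, false⟩) (condX)].all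
    (checkFour (boxS30.vC) 259 13 10 4 0)) = true := by decide +kernel
def chkS30_18 : Chk (boxS30.vC) (subst (sub pcS30 ⟨false, false, true, true, false⟩) (condX)) :=
  ⟨259, 13, 10, 4, 0, List.all_eq_true.1 grpS30_4 _ (.head _)⟩
def chkS30_19 : Chk (boxS30.vC) (subst (sub pcS30 ⟨false, true, true, true, false⟩) (condX)) :=
  ⟨259, 13, 10, 4, 0, List.all_eq_true.1 grpS30_4 _ (.tail _ (.head _))⟩
def chkS30_20 : Chk (boxS30.vC) (subst (sub pcS30 ⟨true, false, true, true, false⟩) (condX)) :=
  ⟨259, 13, 10, 4, 0, List.all_eq_true.1 grpS30_4 _ (.tail _ (.tail _ (.head _)))⟩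
def chkS30_21 : Chk (boxS30.vC) (subst (sub pcS30 ⟨true, true, true, true, false⟩) (condX)) :=
  ⟨259, 13, 10, 4, 0, List.all_eq_true.1 grpS30_4 _ (.tail _ (.tail _ (.tail _ (.head _))))⟩
def grpS30_5 : ([subst (sub pcS30 ⟨false, false, true, false, false⟩) (tplMG),
    subst (sub pcS30 ⟨false, true, true, false, false⟩) (tplMG),
    subst (sub pcS30 ⟨true, false, true, false, false⟩) (tplMG),
    subst (sub pcS30 ⟨true, true, true, false, false⟩) (tplMG)].all
    (checkFour (boxS30.vC) 498 26 20 6 0)) = true := by decide +kernel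
def chkS30_22 : Chk (boxS30.vC) (subst (sub pcS30 ⟨false, false, true, false, false⟩) (tplMG)) :=
  ⟨498, 26, 20, 6, 0, List.all_eq_true.1 grpS30_5 _ (.head _)⟩
def chkS30_23 : Chk (boxS30.vC) (subst (sub pcS30 ⟨false, true, true, false, false⟩) (tplMG)) :=
  ⟨498, 26, 20, 6, 0, List.all_eq_true.1 grpS30_5 _ (.tail _ (.head _))⟩
def chkS30_24 : Chk (boxS30.vC) (subst (sub pcS30 ⟨true, false, true, false, false⟩) (tplMG)) :=
  ⟨498, 26, 20, 6, 0, List.all_eq_true.1 grpS30_5 _ (.tail _ (.tail _ (.head _)))⟩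
def chkS30_25 : Chk (boxS30.vC) (subst (sub pcS30 ⟨true, true, true, false, false⟩) (tplMG)) :=
  ⟨498, 26, 20, 6, 0, List.all_eq_true.1 grpS30_5 _ (.tail _ (.tail _ (.tail _ (.head _))))⟩
def grpS30_6 : ([subst (sub pcS30 ⟨false, false, false, false, false⟩) (pcS30.m1),
    subst (sub pcS30 ⟨false, true, false, false, false⟩) (pcS30.m1),
    subst (sub pcS30 ⟨true, false, false, false, false⟩) (pcS30.m1),
    subst (sub pcS30 ⟨true, true, false, false, false⟩) (pcS30.m1)].all
    (checkFour (boxS30.vC) 339 17 14 4 0)) = true := by decide +kernel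
def chkS30_26 : Chk (boxS30.vC) (subst (sub pcS30 ⟨false, false, false, false, false⟩) (pcS30.m1)) :=
  ⟨339, 17, 14, 4, 0, List.all_eq_true.1 grpS30_6 _ (.head _)⟩
def chkS30_27 : Chk (boxS30.vC) (subst (sub pcS30 ⟨false, true, false, false, false⟩) (pcS30.m1)) :=
  ⟨339, 17, 14, 4, 0, List.all_eq_true.1 grpS30_6 _ (.tail _ (.head _))⟩
def chkS30_28 : Chk (boxS30.vC) (subst (sub pcS30 ⟨true, false, false, false, false⟩) (pcS30.m1)) :=
  ⟨339, 17, 14, 4, 0, List.all_eq_true.1 grpS30_6 _ (.tail _ (.tail _ (.head _)))⟩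
def chkS30_29 : Chk (boxS30.vC) (subst (sub pcS30 ⟨true, true, false, false, false⟩) (pcS30.m1)) :=
  ⟨339, 17, 14, 4, 0, List.all_eq_true.1 grpS30_6 _ (.tail _ (.tail _ (.tail _ (.head _))))⟩
def chkS30_30 : Chk (boxS30.vC) (subst (sub pcS30 ⟨false, false, true, false, false⟩) (strict (pcS30.m2 false))) :=
  ⟨529, 24, 19, 6, 0, by decide +kernel⟩
def chkS30_31 : Chk (boxS30.vC) (subst (sub pcS30 ⟨false, false, true, false, true⟩) (strict (pcS30.m2 false))) :=
  ⟨527, 24, 19, 6, 0, by decide +kernel⟩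
def chkS30_32 : Chk (boxS30.vC) (subst (sub pcS30 ⟨true, false, true, false, false⟩) (strict (pcS30.m2 false))) :=
  ⟨529, 24, 19, 6, 0, by decide +kernel⟩
def chkS30_33 : Chk (boxS30.vC) (subst (sub pcS30 ⟨true, false, true, false, true⟩) (strict (pcS30.m2 false))) :=
  ⟨527, 24, 19, 6, 0, by decide +kernel⟩
def chkS30_34 : Chk (boxS30.vC) (subst (sub pcS30 ⟨false, true, true, false, false⟩) (strict (pcS30.m2 true))) :=
  ⟨529, 24, 19, 6, 0, by decide +kernel⟩
def chkS30_35 : Chk (boxS30.vC) (subst (sub pcS30 ⟨false, true, true, false, true⟩) (strict (pcS30.m2 true))) :=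
  ⟨527, 24, 19, 6, 0, by decide +kernel⟩
def chkS30_36 : Chk (boxS30.vC) (subst (sub pcS30 ⟨true, true, true, false, false⟩) (strict (pcS30.m2 true))) :=
  ⟨529, 24, 19, 6, 0, by decide +kernel⟩
def chkS30_37 : Chk (boxS30.vC) (subst (sub pcS30 ⟨true, true, true, false, true⟩) (strict (pcS30.m2 true))) :=
  ⟨527, 24, 19, 6, 0, by decide +kernel⟩
def grpS30_15 : ([subst (sub pcS30 ⟨false, false, true, true, false⟩) (strict (pcS30.m3 false)),
    subst (sub pcS30 ⟨false, false, true, true, true⟩) (strict (pcS30.m3 false)),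
    subst (sub pcS30 ⟨false, false, true, true, false⟩) (strict (pcS30.m3 true)),
    subst (sub pcS30 ⟨false, false, true, true, true⟩) (strict (pcS30.m3 true))].all
    (checkFour (boxS30.vC) 660 31 25 6 0)) = true := by decide +kernel
def chkS30_38 : Chk (boxS30.vC) (subst (sub pcS30 ⟨false, false, true, true, false⟩) (strict (pcS30.m3 false))) :=
  ⟨660, 31, 25, 6, 0, List.all_eq_true.1 grpS30_15 _ (.head _)⟩
def chkS30_39 : Chk (boxS30.vC) (subst (sub pcS30 ⟨false, false, true, true, true⟩) (strict (pcS30.m3 false))) :=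
  ⟨660, 31, 25, 6, 0, List.all_eq_true.1 grpS30_15 _ (.tail _ (.head _))⟩
def chkS30_46 : Chk (boxS30.vC) (subst (sub pcS30 ⟨false, false, true, true, false⟩) (strict (pcS30.m3 true))) :=
  ⟨660, 31, 25, 6, 0, List.all_eq_true.1 grpS30_15 _ (.tail _ (.tail _ (.head _)))⟩
def chkS30_47 : Chk (boxS30.vC) (subst (sub pcS30 ⟨false, false, true, true, true⟩) (strict (pcS30.m3 true))) :=
  ⟨660, 31, 25, 6, 0, List.all_eq_true.1 grpS30_15 _ (.tail _ (.tail _ (.tail _ (.head _))))⟩
def grpS30_16 : ([subst (sub pcS30 ⟨false, true, true, true, false⟩) (strict (pcS30.m3 false)),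
    subst (sub pcS30 ⟨false, true, true, true, true⟩) (strict (pcS30.m3 false)),
    subst (sub pcS30 ⟨false, true, true, true, false⟩) (strict (pcS30.m3 true)),
    subst (sub pcS30 ⟨false, true, true, true, true⟩) (strict (pcS30.m3 true))].all
    (checkFour (boxS30.vC) 662 31 25 6 0)) = true := by decide +kernel
def chkS30_40 : Chk (boxS30.vC) (subst (sub pcS30 ⟨false, true, true, true, false⟩) (strict (pcS30.m3 false))) :=
  ⟨662, 31, 25, 6, 0, List.all_eq_true.1 grpS30_16 _ (.head _)⟩
def chkS30_41 : Chk (boxS30.vC) (subst (sub pcS30 ⟨false, true, true, true, true⟩) (strict (pcS30.m3 false))) :=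
  ⟨662, 31, 25, 6, 0, List.all_eq_true.1 grpS30_16 _ (.tail _ (.head _))⟩
def chkS30_48 : Chk (boxS30.vC) (subst (sub pcS30 ⟨false, true, true, true, false⟩) (strict (pcS30.m3 true))) :=
  ⟨662, 31, 25, 6, 0, List.all_eq_true.1 grpS30_16 _ (.tail _ (.tail _ (.head _)))⟩
def chkS30_49 : Chk (boxS30.vC) (subst (sub pcS30 ⟨false, true, true, true, true⟩) (strict (pcS30.m3 true))) :=
  ⟨662, 31, 25, 6, 0, List.all_eq_true.1 grpS30_16 _ (.tail _ (.tail _ (.tail _ (.head _))))⟩
def grpS30_17 : ([subst (sub pcS30 ⟨true, false, true, true, false⟩) (strict (pcS30.m3 false)),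
    subst (sub pcS30 ⟨true, false, true, true, true⟩) (strict (pcS30.m3 false)),
    subst (sub pcS30 ⟨true, false, true, true, false⟩) (strict (pcS30.m3 true)),
    subst (sub pcS30 ⟨true, false, true, true, true⟩) (strict (pcS30.m3 true))].all
    (checkFour (boxS30.vC) 660 31 25 6 0)) = true := by decide +kernel
def chkS30_42 : Chk (boxS30.vC) (subst (sub pcS30 ⟨true, false, true, true, false⟩) (strict (pcS30.m3 false))) :=
  ⟨660, 31, 25, 6, 0, List.all_eq_true.1 grpS30_17 _ (.head _)⟩
def chkS30_43 : Chk (boxS30.vC) (subst (sub pcS30 ⟨true, false, true, true, true⟩) (strict (pcS30.m3 false))) :=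
  ⟨660, 31, 25, 6, 0, List.all_eq_true.1 grpS30_17 _ (.tail _ (.head _))⟩
def chkS30_50 : Chk (boxS30.vC) (subst (sub pcS30 ⟨true, false, true, true, false⟩) (strict (pcS30.m3 true))) :=
  ⟨660, 31, 25, 6, 0, List.all_eq_true.1 grpS30_17 _ (.tail _ (.tail _ (.head _)))⟩
def chkS30_51 : Chk (boxS30.vC) (subst (sub pcS30 ⟨true, false, true, true, true⟩) (strict (pcS30.m3 true))) :=
  ⟨660, 31, 25, 6, 0, List.all_eq_true.1 grpS30_17 _ (.tail _ (.tail _ (.tail _ (.head _))))⟩
def grpS30_18 : ([subst (sub pcS30 ⟨true, true, true, true, false⟩) (strict (pcS30.m3 false)),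
    subst (sub pcS30 ⟨true, true, true, true, true⟩) (strict (pcS30.m3 false)),
    subst (sub pcS30 ⟨true, true, true, true, false⟩) (strict (pcS30.m3 true)),
    subst (sub pcS30 ⟨true, true, true, true, true⟩) (strict (pcS30.m3 true))].all
    (checkFour (boxS30.vC) 662 31 25 6 0)) = true := by decide +kernel
def chkS30_44 : Chk (boxS30.vC) (subst (sub pcS30 ⟨true, true, true, true, false⟩) (strict (pcS30.m3 false))) :=
  ⟨662, 31, 25, 6, 0, List.all_eq_true.1 grpS30_18 _ (.head _)⟩
def chkS30_45 : Chk (boxS30.vC) (subst (sub pcS30 ⟨true, true, true, true, true⟩) (strict (pcS30.m3 false))) :=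
  ⟨662, 31, 25, 6, 0, List.all_eq_true.1 grpS30_18 _ (.tail _ (.head _))⟩
def chkS30_52 : Chk (boxS30.vC) (subst (sub pcS30 ⟨true, true, true, true, false⟩) (strict (pcS30.m3 true))) :=
  ⟨662, 31, 25, 6, 0, List.all_eq_true.1 grpS30_18 _ (.tail _ (.tail _ (.head _)))⟩
def chkS30_53 : Chk (boxS30.vC) (subst (sub pcS30 ⟨true, true, true, true, true⟩) (strict (pcS30.m3 true))) :=
  ⟨662, 31, 25, 6, 0, List.all_eq_true.1 grpS30_18 _ (.tail _ (.tail _ (.tail _ (.head _))))⟩
def grpS30_19 : ([subst (sub pcS30 ⟨false, false, true, true, false⟩) (negEx coMG12),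
    subst (sub pcS30 ⟨false, false, true, true, false⟩) (negEx (pcS30.curve2 false)),
    subst (sub pcS30 ⟨false, false, true, true, false⟩) (negEx (pcS30.curve2 true))].all
    (checkFour (boxS30.vC) 118 5 5 4 0)) = true := by decide +kernel
def chkS30_54 : Chk (boxS30.vC) (subst (sub pcS30 ⟨false, false, true, true, false⟩) (negEx coMG12)) :=
  ⟨118, 5, 5, 4, 0, List.all_eq_true.1 grpS30_19 _ (.head _)⟩
def chkS30_55 : Chk (boxS30.vC) (subst (sub pcS30 ⟨false, false, true, true, false⟩) (negEx (pcS30.curve2 false))) :=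
  ⟨118, 5, 5, 4, 0, List.all_eq_true.1 grpS30_19 _ (.tail _ (.head _))⟩
def chkS30_56 : Chk (boxS30.vC) (subst (sub pcS30 ⟨false, false, true, true, false⟩) (negEx (pcS30.curve2 true))) :=
  ⟨118, 5, 5, 4, 0, List.all_eq_true.1 grpS30_19 _ (.tail _ (.tail _ (.head _)))⟩
def grpS30_20 : ([subst (sub pcS30 ⟨false, false, true, true, false⟩) (negEx (pcS30.curve3 false)),
    subst (sub pcS30 ⟨false, false, true, true, false⟩) (negEx (pcS30.curve3 true))].all
    (checkFour (boxS30.vC) 134 6 6 4 0)) = true := by decide +kernel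
def chkS30_57 : Chk (boxS30.vC) (subst (sub pcS30 ⟨false, false, true, true, false⟩) (negEx (pcS30.curve3 false))) :=
  ⟨134, 6, 6, 4, 0, List.all_eq_true.1 grpS30_20 _ (.head _)⟩
def chkS30_58 : Chk (boxS30.vC) (subst (sub pcS30 ⟨false, false, true, true, false⟩) (negEx (pcS30.curve3 true))) :=
  ⟨134, 6, 6, 4, 0, List.all_eq_true.1 grpS30_20 _ (.tail _ (.head _))⟩
def grpS30_21 : ([subst (sub pcS30 ⟨false, false, true, true, false⟩) (slopeT),
    subst (sub pcS30 ⟨true, false, true, true, false⟩) (slopeT)].all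
    (checkFour (boxS30.vC) 145 7 6 4 0)) = true := by decide +kernel
def chkS30_59 : Chk (boxS30.vC) (subst (sub pcS30 ⟨false, false, true, true, false⟩) (slopeT)) :=
  ⟨145, 7, 6, 4, 0, List.all_eq_true.1 grpS30_21 _ (.head _)⟩
def chkS30_60 : Chk (boxS30.vC) (subst (sub pcS30 ⟨true, false, true, true, false⟩) (slopeT)) :=
  ⟨145, 7, 6, 4, 0, List.all_eq_true.1 grpS30_21 _ (.tail _ (.head _))⟩
def grpS30_22 : ([subst (gapSub pcS30 true false false) tplL,
    subst (gapSub pcS30 true false true) tplL,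
    subst (gapSub pcS30 true true false) tplL,
    subst (gapSub pcS30 true true true) tplL].all
    (checkFour (boxS30.gC true) 405 22 17 5 2)) = true := by decide +kernel
def chkS30_61 : Chk (boxS30.gC true) (subst (gapSub pcS30 true false false) tplL) :=
  ⟨405, 22, 17, 5, 2, List.all_eq_true.1 grpS30_22 _ (.head _)⟩
def chkS30_62 : Chk (boxS30.gC true) (subst (gapSub pcS30 true false true) tplL) :=
  ⟨405, 22, 17, 5, 2, List.all_eq_true.1 grpS30_22 _ (.tail _ (.head _))⟩
def chkS30_63 : Chk (boxS30.gC true) (subst (gapSub pcS30 true true false) tplL) :=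
  ⟨405, 22, 17, 5, 2, List.all_eq_true.1 grpS30_22 _ (.tail _ (.tail _ (.head _)))⟩
def chkS30_64 : Chk (boxS30.gC true) (subst (gapSub pcS30 true true true) tplL) :=
  ⟨405, 22, 17, 5, 2, List.all_eq_true.1 grpS30_22 _ (.tail _ (.tail _ (.tail _ (.head _))))⟩

/-- Piece 30 passes. -/
theorem certS30 : Cert pcS30 boxS30 true where
  pos := by
    refine ⟨⟨⟨?_, ?_, ?_, ?_, ?_, ?_, ?_⟩, ?_, ?_, ?_, ?_, ?_, ?_, ?_, ?_, ?_, ?_, ?_⟩, ?_, ?_⟩ <;>
      norm_num [fr, pcS30]
  gX := fun p l => match p, l with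
    | false, false => chkS30_18
    | false, true => chkS30_19
    | true, false => chkS30_20
    | true, true => chkS30_21
  gMG := fun p l => match p, l with
    | false, false => chkS30_22
    | false, true => chkS30_23
    | true, false => chkS30_24
    | true, true => chkS30_25
  g1 := fun p l => match p, l with
    | false, false => chkS30_26
    | false, true => chkS30_27
    | true, false => chkS30_28
    | true, true => chkS30_29
  g2 := fun s p t => match s, p, t with
    | false, false, false => chkS30_30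
    | false, false, true => chkS30_31
    | false, true, false => chkS30_32
    | false, true, true => chkS30_33
    | true, false, false => chkS30_34
    | true, false, true => chkS30_35
    | true, true, false => chkS30_36
    | true, true, true => chkS30_37
  g3 := fun s p l t => match s, p, l, t with
    | false, false, false, false => chkS30_38
    | false, false, false, true => chkS30_39
    | false, false, true, false => chkS30_40
    | false, false, true, true => chkS30_41
    | false, true, false, false => chkS30_42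
    | false, true, false, true => chkS30_43
    | false, true, true, false => chkS30_44
    | false, true, true, true => chkS30_45
    | true, false, false, false => chkS30_46
    | true, false, false, true => chkS30_47
    | true, false, true, false => chkS30_48
    | true, false, true, true => chkS30_49
    | true, true, false, false => chkS30_50
    | true, true, false, true => chkS30_51
    | true, true, true, false => chkS30_52
    | true, true, true, true => chkS30_53
  cMG := chkS30_54
  c2 := fun s => match s with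
    | false => chkS30_55
    | true => chkS30_56
  c3 := fun s => match s with
    | false => chkS30_57
    | true => chkS30_58
  sT := fun p => match p with
    | false => chkS30_59
    | true => chkS30_60
  bnd := fun ze b => match ze, b with
    | false, .l0 => chkS30_0
    | false, .l1 => chkS30_1
    | false, .r => chkS30_2
    | false, .g0 => chkS30_3
    | false, .g1 => chkS30_4
    | false, .t0 => chkS30_5
    | false, .t1 => chkS30_6
    | false, .w0 => chkS30_7
    | false, .w1 => chkS30_8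
    | true, .l0 => chkS30_9
    | true, .l1 => chkS30_10
    | true, .r => chkS30_11
    | true, .g0 => chkS30_12
    | true, .g1 => chkS30_13
    | true, .t0 => chkS30_14
    | true, .t1 => chkS30_15
    | true, .w0 => chkS30_16
    | true, .w1 => chkS30_17
  gap := fun ze t => match ze, t with
    | false, false => chkS30_61
    | false, true => chkS30_62
    | true, false => chkS30_63
    | true, true => chkS30_64

/-- A window of piece 30. -/
def winS30T : Win := ⟨.D, (10, 27, 200), (11, 14, 100), (-19, 102, 100), (51, 139, 50), (139, 1750, 50), (153, 160, 200), true, true, (37, 0), (561, 1000)⟩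

/-- The window passes. -/
theorem winS30T_ok : winS30T.Cert where
  fits := ⟨by norm_num [winS30T], by norm_num [winS30T, qLo], by norm_num [winS30T, qLo, qHi],
    by norm_num [winS30T, qLo, qHi], by norm_num [winS30T, qLo], by norm_num [winS30T, qHi]⟩
  cross := ⟨253, 8, 6, 2, 7, by decide +kernel⟩
  exit := ⟨229, 10, 7, 3, 6, by decide +kernel⟩
  mix := ⟨321, 12, 9, 3, 10, by decide +kernel⟩

/-- The tight band is crossed one way on piece 30. -/
theorem bandS30 : Chk (winS30T.chart (153, 160, 200) winS30T.qc) (sBand winS30T.kind) :=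
  ⟨434, 15, 11, 3, 14, by decide +kernel⟩

end Vale.Agent.P100.Calib.StripMid
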