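import Vale.Agent.P100.Calib.SlabStripMidSevWindow

/-!
# The checks of piece 31 below 153/200 for `N` between seven and twenty
-/

set_option linter.defProp false

namespace Vale.Agent.P100.Calib.StripMid

open Pack

/-- The numbers of piece 31. -/
def pcS31 : Piece := ⟨.D, (153, 200), (4, 5), (29, 50), (101, 100), (64, 25), (207, 500), (553, 1000), (903, 1000), (363, -825, 500), (389, -675, 500), 40, (33,-425,300,5), (7, 10), (229, 250), (9, 20), (1, 4), (3, 5)⟩

/-- The ranges of piece 31. -/
def boxS31 : Box := ⟨(5, 12, 100), (28, 35, 200), (91, 398, 100), (101, 256, 100), (153, 160, 200)⟩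

def grpS31_0 : ([bound pcS31 false .l0,
    bound pcS31 false .l1,
    bound pcS31 false .r,
    bound pcS31 true .l0,
    bound pcS31 true .l1,
    bound pcS31 true .r].all
    (checkFour (boxS31.cC) 249 13 9 2 3)) = true := by decide +kernel
def chkS31_0 : Chk (boxS31.cC) (bound pcS31 false .l0) :=
  ⟨249, 13, 9, 2, 3, List.all_eq_true.1 grpS31_0 _ (.head _)⟩
def chkS31_1 : Chk (boxS31.cC) (bound pcS31 false .l1) :=
  ⟨249, 13, 9, 2, 3, List.all_eq_true.1 grpS31_0 _ (.tail _ (.head _))⟩
def chkS31_2 : Chk (boxS31.cC) (bound pcS31 false .r) :=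
  ⟨249, 13, 9, 2, 3, List.all_eq_true.1 grpS31_0 _ (.tail _ (.tail _ (.head _)))⟩
def chkS31_9 : Chk (boxS31.cC) (bound pcS31 true .l0) :=
  ⟨249, 13, 9, 2, 3, List.all_eq_true.1 grpS31_0 _ (.tail _ (.tail _ (.tail _ (.head _))))⟩
def chkS31_10 : Chk (boxS31.cC) (bound pcS31 true .l1) :=
  ⟨249, 13, 9, 2, 3, List.all_eq_true.1 grpS31_0 _ (.tail _ (.tail _ (.tail _ (.tail _ (.head _)))))⟩
def chkS31_11 : Chk (boxS31.cC) (bound pcS31 true .r) :=
  ⟨249, 13, 9, 2, 3, List.all_eq_true.1 grpS31_0 _ (.tail _ (.tail _ (.tail _ (.tail _ (.tail _ (.head _))))))⟩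
def grpS31_1 : ([bound pcS31 false .g0,
    bound pcS31 false .g1,
    bound pcS31 true .g0,
    bound pcS31 true .g1].all
    (checkFour (boxS31.cC) 101 4 3 1 2)) = true := by decide +kernel
def chkS31_3 : Chk (boxS31.cC) (bound pcS31 false .g0) :=
  ⟨101, 4, 3, 1, 2, List.all_eq_true.1 grpS31_1 _ (.head _)⟩
def chkS31_4 : Chk (boxS31.cC) (bound pcS31 false .g1) :=
  ⟨101, 4, 3, 1, 2, List.all_eq_true.1 grpS31_1 _ (.tail _ (.head _))⟩
def chkS31_12 : Chk (boxS31.cC) (bound pcS31 true .g0) :=
  ⟨101, 4, 3, 1, 2, List.all_eq_true.1 grpS31_1 _ (.tail _ (.tail _ (.head _)))⟩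
def chkS31_13 : Chk (boxS31.cC) (bound pcS31 true .g1) :=
  ⟨101, 4, 3, 1, 2, List.all_eq_true.1 grpS31_1 _ (.tail _ (.tail _ (.tail _ (.head _))))⟩
def grpS31_2 : ([bound pcS31 false .t0,
    bound pcS31 false .t1,
    bound pcS31 true .t0,
    bound pcS31 true .t1].all
    (checkFour (boxS31.cC) 161 6 6 2 3)) = true := by decide +kernel
def chkS31_5 : Chk (boxS31.cC) (bound pcS31 false .t0) :=
  ⟨161, 6, 6, 2, 3, List.all_eq_true.1 grpS31_2 _ (.head _)⟩
def chkS31_6 : Chk (boxS31.cC) (bound pcS31 false .t1) :=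
  ⟨161, 6, 6, 2, 3, List.all_eq_true.1 grpS31_2 _ (.tail _ (.head _))⟩
def chkS31_14 : Chk (boxS31.cC) (bound pcS31 true .t0) :=
  ⟨161, 6, 6, 2, 3, List.all_eq_true.1 grpS31_2 _ (.tail _ (.tail _ (.head _)))⟩
def chkS31_15 : Chk (boxS31.cC) (bound pcS31 true .t1) :=
  ⟨161, 6, 6, 2, 3, List.all_eq_true.1 grpS31_2 _ (.tail _ (.tail _ (.tail _ (.head _))))⟩
def grpS31_3 : ([bound pcS31 false .w0,
    bound pcS31 false .w1,
    bound pcS31 true .w0,
    bound pcS31 true .w1].all
    (checkFour (boxS31.cC) 215 10 7 3 4)) = true := by decide +kernel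
def chkS31_7 : Chk (boxS31.cC) (bound pcS31 false .w0) :=
  ⟨215, 10, 7, 3, 4, List.all_eq_true.1 grpS31_3 _ (.head _)⟩
def chkS31_8 : Chk (boxS31.cC) (bound pcS31 false .w1) :=
  ⟨215, 10, 7, 3, 4, List.all_eq_true.1 grpS31_3 _ (.tail _ (.head _))⟩
def chkS31_16 : Chk (boxS31.cC) (bound pcS31 true .w0) :=
  ⟨215, 10, 7, 3, 4, List.all_eq_true.1 grpS31_3 _ (.tail _ (.tail _ (.head _)))⟩
def chkS31_17 : Chk (boxS31.cC) (bound pcS31 true .w1) :=
  ⟨215, 10, 7, 3, 4, List.all_eq_true.1 grpS31_3 _ (.tail _ (.tail _ (.tail _ (.head _))))⟩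
def grpS31_4 : ([subst (sub pcS31 ⟨false, false, true, true, false⟩) (condX),
    subst (sub pcS31 ⟨false, true, true, true, false⟩) (condX),
    subst (sub pcS31 ⟨true, false, true, true, false⟩) (condX),
    subst (sub pcS31 ⟨true, true, true, true, false⟩) (condX)].all
    (checkFour (boxS31.vC) 265 13 10 4 0)) = true := by decide +kernel
def chkS31_18 : Chk (boxS31.vC) (subst (sub pcS31 ⟨false, false, true, true, false⟩) (condX)) :=
  ⟨265, 13, 10, 4, 0, List.all_eq_true.1 grpS31_4 _ (.head _)⟩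
def chkS31_19 : Chk (boxS31.vC) (subst (sub pcS31 ⟨false, true, true, true, false⟩) (condX)) :=
  ⟨265, 13, 10, 4, 0, List.all_eq_true.1 grpS31_4 _ (.tail _ (.head _))⟩
def chkS31_20 : Chk (boxS31.vC) (subst (sub pcS31 ⟨true, false, true, true, false⟩) (condX)) :=
  ⟨265, 13, 10, 4, 0, List.all_eq_true.1 grpS31_4 _ (.tail _ (.tail _ (.head _)))⟩
def chkS31_21 : Chk (boxS31.vC) (subst (sub pcS31 ⟨true, true, true, true, false⟩) (condX)) :=
  ⟨265, 13, 10, 4, 0, List.all_eq_true.1 grpS31_4 _ (.tail _ (.tail _ (.tail _ (.head _))))⟩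
def grpS31_5 : ([subst (sub pcS31 ⟨false, false, true, false, false⟩) (tplMG),
    subst (sub pcS31 ⟨false, true, true, false, false⟩) (tplMG),
    subst (sub pcS31 ⟨true, false, true, false, false⟩) (tplMG),
    subst (sub pcS31 ⟨true, true, true, false, false⟩) (tplMG)].all
    (checkFour (boxS31.vC) 506 26 20 6 0)) = true := by decide +kernel
def chkS31_22 : Chk (boxS31.vC) (subst (sub pcS31 ⟨false, false, true, false, false⟩) (tplMG)) :=
  ⟨506, 26, 20, 6, 0, List.all_eq_true.1 grpS31_5 _ (.head _)⟩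
def chkS31_23 : Chk (boxS31.vC) (subst (sub pcS31 ⟨false, true, true, false, false⟩) (tplMG)) :=
  ⟨506, 26, 20, 6, 0, List.all_eq_true.1 grpS31_5 _ (.tail _ (.head _))⟩
def chkS31_24 : Chk (boxS31.vC) (subst (sub pcS31 ⟨true, false, true, false, false⟩) (tplMG)) :=
  ⟨506, 26, 20, 6, 0, List.all_eq_true.1 grpS31_5 _ (.tail _ (.tail _ (.head _)))⟩
def chkS31_25 : Chk (boxS31.vC) (subst (sub pcS31 ⟨true, true, true, false, false⟩) (tplMG)) :=
  ⟨506, 26, 20, 6, 0, List.all_eq_true.1 grpS31_5 _ (.tail _ (.tail _ (.tail _ (.head _))))⟩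
def grpS31_6 : ([subst (sub pcS31 ⟨false, false, false, false, false⟩) (pcS31.m1),
    subst (sub pcS31 ⟨false, true, false, false, false⟩) (pcS31.m1),
    subst (sub pcS31 ⟨true, false, false, false, false⟩) (pcS31.m1),
    subst (sub pcS31 ⟨true, true, false, false, false⟩) (pcS31.m1)].all
    (checkFour (boxS31.vC) 344 17 14 4 0)) = true := by decide +kernel
def chkS31_26 : Chk (boxS31.vC) (subst (sub pcS31 ⟨false, false, false, false, false⟩) (pcS31.m1)) :=
  ⟨344, 17, 14, 4, 0, List.all_eq_true.1 grpS31_6 _ (.head _)⟩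
def chkS31_27 : Chk (boxS31.vC) (subst (sub pcS31 ⟨false, true, false, false, false⟩) (pcS31.m1)) :=
  ⟨344, 17, 14, 4, 0, List.all_eq_true.1 grpS31_6 _ (.tail _ (.head _))⟩
def chkS31_28 : Chk (boxS31.vC) (subst (sub pcS31 ⟨true, false, false, false, false⟩) (pcS31.m1)) :=
  ⟨344, 17, 14, 4, 0, List.all_eq_true.1 grpS31_6 _ (.tail _ (.tail _ (.head _)))⟩
def chkS31_29 : Chk (boxS31.vC) (subst (sub pcS31 ⟨true, true, false, false, false⟩) (pcS31.m1)) :=
  ⟨344, 17, 14, 4, 0, List.all_eq_true.1 grpS31_6 _ (.tail _ (.tail _ (.tail _ (.head _))))⟩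
def chkS31_30 : Chk (boxS31.vC) (subst (sub pcS31 ⟨false, false, true, false, false⟩) (strict (pcS31.m2 false))) :=
  ⟨536, 24, 19, 6, 0, by decide +kernel⟩
def chkS31_31 : Chk (boxS31.vC) (subst (sub pcS31 ⟨false, false, true, false, true⟩) (strict (pcS31.m2 false))) :=
  ⟨536, 24, 19, 6, 0, by decide +kernel⟩
def chkS31_32 : Chk (boxS31.vC) (subst (sub pcS31 ⟨true, false, true, false, false⟩) (strict (pcS31.m2 false))) :=
  ⟨536, 24, 19, 6, 0, by decide +kernel⟩
def chkS31_33 : Chk (boxS31.vC) (subst (sub pcS31 ⟨true, false, true, false, true⟩) (strict (pcS31.m2 false))) :=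
  ⟨536, 24, 19, 6, 0, by decide +kernel⟩
def chkS31_34 : Chk (boxS31.vC) (subst (sub pcS31 ⟨false, true, true, false, false⟩) (strict (pcS31.m2 true))) :=
  ⟨537, 24, 19, 6, 0, by decide +kernel⟩
def chkS31_35 : Chk (boxS31.vC) (subst (sub pcS31 ⟨false, true, true, false, true⟩) (strict (pcS31.m2 true))) :=
  ⟨537, 24, 19, 6, 0, by decide +kernel⟩
def chkS31_36 : Chk (boxS31.vC) (subst (sub pcS31 ⟨true, true, true, false, false⟩) (strict (pcS31.m2 true))) :=
  ⟨537, 24, 19, 6, 0, by decide +kernel⟩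
def chkS31_37 : Chk (boxS31.vC) (subst (sub pcS31 ⟨true, true, true, false, true⟩) (strict (pcS31.m2 true))) :=
  ⟨537, 24, 19, 6, 0, by decide +kernel⟩
def grpS31_15 : ([subst (sub pcS31 ⟨false, false, true, true, false⟩) (strict (pcS31.m3 false)),
    subst (sub pcS31 ⟨false, false, true, true, true⟩) (strict (pcS31.m3 false)),
    subst (sub pcS31 ⟨false, false, true, true, false⟩) (strict (pcS31.m3 true)),
    subst (sub pcS31 ⟨false, false, true, true, true⟩) (strict (pcS31.m3 true))].all
    (checkFour (boxS31.vC) 662 31 25 6 0)) = true := by decide +kernel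
def chkS31_38 : Chk (boxS31.vC) (subst (sub pcS31 ⟨false, false, true, true, false⟩) (strict (pcS31.m3 false))) :=
  ⟨662, 31, 25, 6, 0, List.all_eq_true.1 grpS31_15 _ (.head _)⟩
def chkS31_39 : Chk (boxS31.vC) (subst (sub pcS31 ⟨false, false, true, true, true⟩) (strict (pcS31.m3 false))) :=
  ⟨662, 31, 25, 6, 0, List.all_eq_true.1 grpS31_15 _ (.tail _ (.head _))⟩
def chkS31_46 : Chk (boxS31.vC) (subst (sub pcS31 ⟨false, false, true, true, false⟩) (strict (pcS31.m3 true))) :=
  ⟨662, 31, 25, 6, 0, List.all_eq_true.1 grpS31_15 _ (.tail _ (.tail _ (.head _)))⟩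
def chkS31_47 : Chk (boxS31.vC) (subst (sub pcS31 ⟨false, false, true, true, true⟩) (strict (pcS31.m3 true))) :=
  ⟨662, 31, 25, 6, 0, List.all_eq_true.1 grpS31_15 _ (.tail _ (.tail _ (.tail _ (.head _))))⟩
def grpS31_16 : ([subst (sub pcS31 ⟨false, true, true, true, false⟩) (strict (pcS31.m3 false)),
    subst (sub pcS31 ⟨false, true, true, true, true⟩) (strict (pcS31.m3 false)),
    subst (sub pcS31 ⟨false, true, true, true, false⟩) (strict (pcS31.m3 true)),
    subst (sub pcS31 ⟨false, true, true, true, true⟩) (strict (pcS31.m3 true))].all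
    (checkFour (boxS31.vC) 664 31 25 6 0)) = true := by decide +kernel
def chkS31_40 : Chk (boxS31.vC) (subst (sub pcS31 ⟨false, true, true, true, false⟩) (strict (pcS31.m3 false))) :=
  ⟨664, 31, 25, 6, 0, List.all_eq_true.1 grpS31_16 _ (.head _)⟩
def chkS31_41 : Chk (boxS31.vC) (subst (sub pcS31 ⟨false, true, true, true, true⟩) (strict (pcS31.m3 false))) :=
  ⟨664, 31, 25, 6, 0, List.all_eq_true.1 grpS31_16 _ (.tail _ (.head _))⟩
def chkS31_48 : Chk (boxS31.vC) (subst (sub pcS31 ⟨false, true, true, true, false⟩) (strict (pcS31.m3 true))) :=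
  ⟨664, 31, 25, 6, 0, List.all_eq_true.1 grpS31_16 _ (.tail _ (.tail _ (.head _)))⟩
def chkS31_49 : Chk (boxS31.vC) (subst (sub pcS31 ⟨false, true, true, true, true⟩) (strict (pcS31.m3 true))) :=
  ⟨664, 31, 25, 6, 0, List.all_eq_true.1 grpS31_16 _ (.tail _ (.tail _ (.tail _ (.head _))))⟩
def grpS31_17 : ([subst (sub pcS31 ⟨true, false, true, true, false⟩) (strict (pcS31.m3 false)),
    subst (sub pcS31 ⟨true, false, true, true, true⟩) (strict (pcS31.m3 false)),
    subst (sub pcS31 ⟨true, false, true, true, false⟩) (strict (pcS31.m3 true)),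
    subst (sub pcS31 ⟨true, false, true, true, true⟩) (strict (pcS31.m3 true))].all
    (checkFour (boxS31.vC) 662 31 25 6 0)) = true := by decide +kernel
def chkS31_42 : Chk (boxS31.vC) (subst (sub pcS31 ⟨true, false, true, true, false⟩) (strict (pcS31.m3 false))) :=
  ⟨662, 31, 25, 6, 0, List.all_eq_true.1 grpS31_17 _ (.head _)⟩
def chkS31_43 : Chk (boxS31.vC) (subst (sub pcS31 ⟨true, false, true, true, true⟩) (strict (pcS31.m3 false))) :=
  ⟨662, 31, 25, 6, 0, List.all_eq_true.1 grpS31_17 _ (.tail _ (.head _))⟩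
def chkS31_50 : Chk (boxS31.vC) (subst (sub pcS31 ⟨true, false, true, true, false⟩) (strict (pcS31.m3 true))) :=
  ⟨662, 31, 25, 6, 0, List.all_eq_true.1 grpS31_17 _ (.tail _ (.tail _ (.head _)))⟩
def chkS31_51 : Chk (boxS31.vC) (subst (sub pcS31 ⟨true, false, true, true, true⟩) (strict (pcS31.m3 true))) :=
  ⟨662, 31, 25, 6, 0, List.all_eq_true.1 grpS31_17 _ (.tail _ (.tail _ (.tail _ (.head _))))⟩
def grpS31_18 : ([subst (sub pcS31 ⟨true, true, true, true, false⟩) (strict (pcS31.m3 false)),
    subst (sub pcS31 ⟨true, true, true, true, true⟩) (strict (pcS31.m3 false)),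
    subst (sub pcS31 ⟨true, true, true, true, false⟩) (strict (pcS31.m3 true)),
    subst (sub pcS31 ⟨true, true, true, true, true⟩) (strict (pcS31.m3 true))].all
    (checkFour (boxS31.vC) 664 31 25 6 0)) = true := by decide +kernel
def chkS31_44 : Chk (boxS31.vC) (subst (sub pcS31 ⟨true, true, true, true, false⟩) (strict (pcS31.m3 false))) :=
  ⟨664, 31, 25, 6, 0, List.all_eq_true.1 grpS31_18 _ (.head _)⟩
def chkS31_45 : Chk (boxS31.vC) (subst (sub pcS31 ⟨true, true, true, true, true⟩) (strict (pcS31.m3 false))) :=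
  ⟨664, 31, 25, 6, 0, List.all_eq_true.1 grpS31_18 _ (.tail _ (.head _))⟩
def chkS31_52 : Chk (boxS31.vC) (subst (sub pcS31 ⟨true, true, true, true, false⟩) (strict (pcS31.m3 true))) :=
  ⟨664, 31, 25, 6, 0, List.all_eq_true.1 grpS31_18 _ (.tail _ (.tail _ (.head _)))⟩
def chkS31_53 : Chk (boxS31.vC) (subst (sub pcS31 ⟨true, true, true, true, true⟩) (strict (pcS31.m3 true))) :=
  ⟨664, 31, 25, 6, 0, List.all_eq_true.1 grpS31_18 _ (.tail _ (.tail _ (.tail _ (.head _))))⟩
def grpS31_19 : ([subst (sub pcS31 ⟨false, false, true, true, false⟩) (negEx coMG12),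
    subst (sub pcS31 ⟨false, false, true, true, false⟩) (negEx (pcS31.curve2 false)),
    subst (sub pcS31 ⟨false, false, true, true, false⟩) (negEx (pcS31.curve2 true))].all
    (checkFour (boxS31.vC) 123 5 5 4 0)) = true := by decide +kernel
def chkS31_54 : Chk (boxS31.vC) (subst (sub pcS31 ⟨false, false, true, true, false⟩) (negEx coMG12)) :=
  ⟨123, 5, 5, 4, 0, List.all_eq_true.1 grpS31_19 _ (.head _)⟩
def chkS31_55 : Chk (boxS31.vC) (subst (sub pcS31 ⟨false, false, true, true, false⟩) (negEx (pcS31.curve2 false))) :=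
  ⟨123, 5, 5, 4, 0, List.all_eq_true.1 grpS31_19 _ (.tail _ (.head _))⟩
def chkS31_56 : Chk (boxS31.vC) (subst (sub pcS31 ⟨false, false, true, true, false⟩) (negEx (pcS31.curve2 true))) :=
  ⟨123, 5, 5, 4, 0, List.all_eq_true.1 grpS31_19 _ (.tail _ (.tail _ (.head _)))⟩
def grpS31_20 : ([subst (sub pcS31 ⟨false, false, true, true, false⟩) (negEx (pcS31.curve3 false)),
    subst (sub pcS31 ⟨false, false, true, true, false⟩) (negEx (pcS31.curve3 true))].all
    (checkFour (boxS31.vC) 138 6 6 4 0)) = true := by decide +kernel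
def chkS31_57 : Chk (boxS31.vC) (subst (sub pcS31 ⟨false, false, true, true, false⟩) (negEx (pcS31.curve3 false))) :=
  ⟨138, 6, 6, 4, 0, List.all_eq_true.1 grpS31_20 _ (.head _)⟩
def chkS31_58 : Chk (boxS31.vC) (subst (sub pcS31 ⟨false, false, true, true, false⟩) (negEx (pcS31.curve3 true))) :=
  ⟨138, 6, 6, 4, 0, List.all_eq_true.1 grpS31_20 _ (.tail _ (.head _))⟩
def grpS31_21 : ([subst (sub pcS31 ⟨false, false, true, true, false⟩) (slopeT),
    subst (sub pcS31 ⟨true, false, true, true, false⟩) (slopeT)].all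
    (checkFour (boxS31.vC) 151 7 6 4 0)) = true := by decide +kernel
def chkS31_59 : Chk (boxS31.vC) (subst (sub pcS31 ⟨false, false, true, true, false⟩) (slopeT)) :=
  ⟨151, 7, 6, 4, 0, List.all_eq_true.1 grpS31_21 _ (.head _)⟩
def chkS31_60 : Chk (boxS31.vC) (subst (sub pcS31 ⟨true, false, true, true, false⟩) (slopeT)) :=
  ⟨151, 7, 6, 4, 0, List.all_eq_true.1 grpS31_21 _ (.tail _ (.head _))⟩
def grpS31_22 : ([subst (gapSub pcS31 true false false) tplL,
    subst (gapSub pcS31 true false true) tplL,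
    subst (gapSub pcS31 true true false) tplL,
    subst (gapSub pcS31 true true true) tplL].all
    (checkFour (boxS31.gC true) 408 22 17 5 2)) = true := by decide +kernel
def chkS31_61 : Chk (boxS31.gC true) (subst (gapSub pcS31 true false false) tplL) :=
  ⟨408, 22, 17, 5, 2, List.all_eq_true.1 grpS31_22 _ (.head _)⟩
def chkS31_62 : Chk (boxS31.gC true) (subst (gapSub pcS31 true false true) tplL) :=
  ⟨408, 22, 17, 5, 2, List.all_eq_true.1 grpS31_22 _ (.tail _ (.head _))⟩
def chkS31_63 : Chk (boxS31.gC true) (subst (gapSub pcS31 true true false) tplL) :=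
  ⟨408, 22, 17, 5, 2, List.all_eq_true.1 grpS31_22 _ (.tail _ (.tail _ (.head _)))⟩
def chkS31_64 : Chk (boxS31.gC true) (subst (gapSub pcS31 true true true) tplL) :=
  ⟨408, 22, 17, 5, 2, List.all_eq_true.1 grpS31_22 _ (.tail _ (.tail _ (.tail _ (.head _))))⟩

/-- Piece 31 passes. -/
theorem certS31 : Cert pcS31 boxS31 true where
  pos := by
    refine ⟨⟨⟨?_, ?_, ?_, ?_, ?_, ?_, ?_⟩, ?_, ?_, ?_, ?_, ?_, ?_, ?_, ?_, ?_, ?_, ?_⟩, ?_, ?_⟩ <;>
      norm_num [fr, pcS31]
  gX := fun p l => match p, l with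
    | false, false => chkS31_18
    | false, true => chkS31_19
    | true, false => chkS31_20
    | true, true => chkS31_21
  gMG := fun p l => match p, l with
    | false, false => chkS31_22
    | false, true => chkS31_23
    | true, false => chkS31_24
    | true, true => chkS31_25
  g1 := fun p l => match p, l with
    | false, false => chkS31_26
    | false, true => chkS31_27
    | true, false => chkS31_28
    | true, true => chkS31_29
  g2 := fun s p t => match s, p, t with
    | false, false, false => chkS31_30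
    | false, false, true => chkS31_31
    | false, true, false => chkS31_32
    | false, true, true => chkS31_33
    | true, false, false => chkS31_34
    | true, false, true => chkS31_35
    | true, true, false => chkS31_36
    | true, true, true => chkS31_37
  g3 := fun s p l t => match s, p, l, t with
    | false, false, false, false => chkS31_38
    | false, false, false, true => chkS31_39
    | false, false, true, false => chkS31_40
    | false, false, true, true => chkS31_41
    | false, true, false, false => chkS31_42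
    | false, true, false, true => chkS31_43
    | false, true, true, false => chkS31_44
    | false, true, true, true => chkS31_45
    | true, false, false, false => chkS31_46
    | true, false, false, true => chkS31_47
    | true, false, true, false => chkS31_48
    | true, false, true, true => chkS31_49
    | true, true, false, false => chkS31_50
    | true, true, false, true => chkS31_51
    | true, true, true, false => chkS31_52
    | true, true, true, true => chkS31_53
  cMG := chkS31_54
  c2 := fun s => match s with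
    | false => chkS31_55
    | true => chkS31_56
  c3 := fun s => match s with
    | false => chkS31_57
    | true => chkS31_58
  sT := fun p => match p with
    | false => chkS31_59
    | true => chkS31_60
  bnd := fun ze b => match ze, b with
    | false, .l0 => chkS31_0
    | false, .l1 => chkS31_1
    | false, .r => chkS31_2
    | false, .g0 => chkS31_3
    | false, .g1 => chkS31_4
    | false, .t0 => chkS31_5
    | false, .t1 => chkS31_6
    | false, .w0 => chkS31_7
    | false, .w1 => chkS31_8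
    | true, .l0 => chkS31_9
    | true, .l1 => chkS31_10
    | true, .r => chkS31_11
    | true, .g0 => chkS31_12
    | true, .g1 => chkS31_13
    | true, .t0 => chkS31_14
    | true, .t1 => chkS31_15
    | true, .w0 => chkS31_16
    | true, .w1 => chkS31_17
  gap := fun ze t => match ze, t with
    | false, false => chkS31_61
    | false, true => chkS31_62
    | true, false => chkS31_63
    | true, true => chkS31_64

/-- A window of piece 31. -/
def winS31T : Win := ⟨.D, (5, 12, 100), (28, 35, 200), (-19, 101, 100), (101, 256, 100), (64, 875, 25), (153, 160, 200), true, true, (37, 0), (542, 1000)⟩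

/-- The window passes. -/
theorem winS31T_ok : winS31T.Cert where
  fits := ⟨by norm_num [winS31T], by norm_num [winS31T, qLo], by norm_num [winS31T, qLo, qHi],
    by norm_num [winS31T, qLo, qHi], by norm_num [winS31T, qLo], by norm_num [winS31T, qHi]⟩
  cross := ⟨251, 8, 6, 2, 7, by decide +kernel⟩
  exit := ⟨223, 10, 7, 3, 6, by decide +kernel⟩
  mix := ⟨321, 12, 9, 3, 10, by decide +kernel⟩

/-- The tight band is crossed one way on piece 31. -/
theorem bandS31 : Chk (winS31T.chart (153, 160, 200) winS31T.qc) (sBand winS31T.kind) :=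
  ⟨433, 15, 11, 3, 14, by decide +kernel⟩

end Vale.Agent.P100.Calib.StripMid
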