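import Vale.Agent.P100.Calib.SlabStripMidSevWindow

/-!
# The checks of piece 32 below 153/200 for `N` between seven and twenty
-/

set_option linter.defProp false

namespace Vale.Agent.P100.Calib.StripMid

open Pack

/-- The numbers of piece 32. -/
def pcS32 : Piece := ⟨.D, (153, 200), (4, 5), (53, 100), (99, 100), (233, 100), (52, 125), (11, 20), (903, 1000), (163, -300, 250), (72, -105, 100), 35, (26,-425,300,5), (98, 125), (251, 250), (11, 20), (1, 4), (4, 5)⟩

/-- The ranges of piece 32. -/
def boxS32 : Box := ⟨(50, 103, 1000), (35, 44, 200), (89, 322, 100), (99, 233, 100), (153, 160, 200)⟩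

def grpS32_0 : ([bound pcS32 false .l0,
    bound pcS32 false .l1,
    bound pcS32 false .r,
    bound pcS32 true .l0,
    bound pcS32 true .l1,
    bound pcS32 true .r].all
    (checkFour (boxS32.cC) 293 13 9 2 3)) = true := by decide +kernel
def chkS32_0 : Chk (boxS32.cC) (bound pcS32 false .l0) :=
  ⟨293, 13, 9, 2, 3, List.all_eq_true.1 grpS32_0 _ (.head _)⟩
def chkS32_1 : Chk (boxS32.cC) (bound pcS32 false .l1) :=
  ⟨293, 13, 9, 2, 3, List.all_eq_true.1 grpS32_0 _ (.tail _ (.head _))⟩
def chkS32_2 : Chk (boxS32.cC) (bound pcS32 false .r) :=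
  ⟨293, 13, 9, 2, 3, List.all_eq_true.1 grpS32_0 _ (.tail _ (.tail _ (.head _)))⟩
def chkS32_9 : Chk (boxS32.cC) (bound pcS32 true .l0) :=
  ⟨293, 13, 9, 2, 3, List.all_eq_true.1 grpS32_0 _ (.tail _ (.tail _ (.tail _ (.head _))))⟩
def chkS32_10 : Chk (boxS32.cC) (bound pcS32 true .l1) :=
  ⟨293, 13, 9, 2, 3, List.all_eq_true.1 grpS32_0 _ (.tail _ (.tail _ (.tail _ (.tail _ (.head _)))))⟩
def chkS32_11 : Chk (boxS32.cC) (bound pcS32 true .r) :=
  ⟨293, 13, 9, 2, 3, List.all_eq_true.1 grpS32_0 _ (.tail _ (.tail _ (.tail _ (.tail _ (.tail _ (.head _))))))⟩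
def grpS32_1 : ([bound pcS32 false .g0,
    bound pcS32 false .g1,
    bound pcS32 true .g0,
    bound pcS32 true .g1].all
    (checkFour (boxS32.cC) 116 4 3 1 2)) = true := by decide +kernel
def chkS32_3 : Chk (boxS32.cC) (bound pcS32 false .g0) :=
  ⟨116, 4, 3, 1, 2, List.all_eq_true.1 grpS32_1 _ (.head _)⟩
def chkS32_4 : Chk (boxS32.cC) (bound pcS32 false .g1) :=
  ⟨116, 4, 3, 1, 2, List.all_eq_true.1 grpS32_1 _ (.tail _ (.head _))⟩
def chkS32_12 : Chk (boxS32.cC) (bound pcS32 true .g0) :=
  ⟨116, 4, 3, 1, 2, List.all_eq_true.1 grpS32_1 _ (.tail _ (.tail _ (.head _)))⟩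
def chkS32_13 : Chk (boxS32.cC) (bound pcS32 true .g1) :=
  ⟨116, 4, 3, 1, 2, List.all_eq_true.1 grpS32_1 _ (.tail _ (.tail _ (.tail _ (.head _))))⟩
def grpS32_2 : ([bound pcS32 false .t0,
    bound pcS32 false .t1,
    bound pcS32 true .t0,
    bound pcS32 true .t1].all
    (checkFour (boxS32.cC) 181 6 6 2 3)) = true := by decide +kernel
def chkS32_5 : Chk (boxS32.cC) (bound pcS32 false .t0) :=
  ⟨181, 6, 6, 2, 3, List.all_eq_true.1 grpS32_2 _ (.head _)⟩
def chkS32_6 : Chk (boxS32.cC) (bound pcS32 false .t1) :=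
  ⟨181, 6, 6, 2, 3, List.all_eq_true.1 grpS32_2 _ (.tail _ (.head _))⟩
def chkS32_14 : Chk (boxS32.cC) (bound pcS32 true .t0) :=
  ⟨181, 6, 6, 2, 3, List.all_eq_true.1 grpS32_2 _ (.tail _ (.tail _ (.head _)))⟩
def chkS32_15 : Chk (boxS32.cC) (bound pcS32 true .t1) :=
  ⟨181, 6, 6, 2, 3, List.all_eq_true.1 grpS32_2 _ (.tail _ (.tail _ (.tail _ (.head _))))⟩
def grpS32_3 : ([bound pcS32 false .w0,
    bound pcS32 false .w1,
    bound pcS32 true .w0,
    bound pcS32 true .w1].all
    (checkFour (boxS32.cC) 249 10 7 3 4)) = true := by decide +kernel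
def chkS32_7 : Chk (boxS32.cC) (bound pcS32 false .w0) :=
  ⟨249, 10, 7, 3, 4, List.all_eq_true.1 grpS32_3 _ (.head _)⟩
def chkS32_8 : Chk (boxS32.cC) (bound pcS32 false .w1) :=
  ⟨249, 10, 7, 3, 4, List.all_eq_true.1 grpS32_3 _ (.tail _ (.head _))⟩
def chkS32_16 : Chk (boxS32.cC) (bound pcS32 true .w0) :=
  ⟨249, 10, 7, 3, 4, List.all_eq_true.1 grpS32_3 _ (.tail _ (.tail _ (.head _)))⟩
def chkS32_17 : Chk (boxS32.cC) (bound pcS32 true .w1) :=
  ⟨249, 10, 7, 3, 4, List.all_eq_true.1 grpS32_3 _ (.tail _ (.tail _ (.tail _ (.head _))))⟩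
def grpS32_4 : ([subst (sub pcS32 ⟨false, false, true, true, false⟩) (condX),
    subst (sub pcS32 ⟨false, true, true, true, false⟩) (condX),
    subst (sub pcS32 ⟨true, false, true, true, false⟩) (condX),
    subst (sub pcS32 ⟨true, true, true, true, false⟩) (condX)].all
    (checkFour (boxS32.vC) 305 13 10 4 0)) = true := by decide +kernel
def chkS32_18 : Chk (boxS32.vC) (subst (sub pcS32 ⟨false, false, true, true, false⟩) (condX)) :=
  ⟨305, 13, 10, 4, 0, List.all_eq_true.1 grpS32_4 _ (.head _)⟩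
def chkS32_19 : Chk (boxS32.vC) (subst (sub pcS32 ⟨false, true, true, true, false⟩) (condX)) :=
  ⟨305, 13, 10, 4, 0, List.all_eq_true.1 grpS32_4 _ (.tail _ (.head _))⟩
def chkS32_20 : Chk (boxS32.vC) (subst (sub pcS32 ⟨true, false, true, true, false⟩) (condX)) :=
  ⟨305, 13, 10, 4, 0, List.all_eq_true.1 grpS32_4 _ (.tail _ (.tail _ (.head _)))⟩
def chkS32_21 : Chk (boxS32.vC) (subst (sub pcS32 ⟨true, true, true, true, false⟩) (condX)) :=
  ⟨305, 13, 10, 4, 0, List.all_eq_true.1 grpS32_4 _ (.tail _ (.tail _ (.tail _ (.head _))))⟩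
def grpS32_5 : ([subst (sub pcS32 ⟨false, false, true, false, false⟩) (tplMG),
    subst (sub pcS32 ⟨false, true, true, false, false⟩) (tplMG),
    subst (sub pcS32 ⟨true, false, true, false, false⟩) (tplMG),
    subst (sub pcS32 ⟨true, true, true, false, false⟩) (tplMG)].all
    (checkFour (boxS32.vC) 588 26 20 6 0)) = true := by decide +kernel
def chkS32_22 : Chk (boxS32.vC) (subst (sub pcS32 ⟨false, false, true, false, false⟩) (tplMG)) :=
  ⟨588, 26, 20, 6, 0, List.all_eq_true.1 grpS32_5 _ (.head _)⟩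
def chkS32_23 : Chk (boxS32.vC) (subst (sub pcS32 ⟨false, true, true, false, false⟩) (tplMG)) :=
  ⟨588, 26, 20, 6, 0, List.all_eq_true.1 grpS32_5 _ (.tail _ (.head _))⟩
def chkS32_24 : Chk (boxS32.vC) (subst (sub pcS32 ⟨true, false, true, false, false⟩) (tplMG)) :=
  ⟨588, 26, 20, 6, 0, List.all_eq_true.1 grpS32_5 _ (.tail _ (.tail _ (.head _)))⟩
def chkS32_25 : Chk (boxS32.vC) (subst (sub pcS32 ⟨true, true, true, false, false⟩) (tplMG)) :=
  ⟨588, 26, 20, 6, 0, List.all_eq_true.1 grpS32_5 _ (.tail _ (.tail _ (.tail _ (.head _))))⟩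
def grpS32_6 : ([subst (sub pcS32 ⟨false, false, false, false, false⟩) (pcS32.m1),
    subst (sub pcS32 ⟨false, true, false, false, false⟩) (pcS32.m1),
    subst (sub pcS32 ⟨true, false, false, false, false⟩) (pcS32.m1),
    subst (sub pcS32 ⟨true, true, false, false, false⟩) (pcS32.m1)].all
    (checkFour (boxS32.vC) 399 17 14 4 0)) = true := by decide +kernel
def chkS32_26 : Chk (boxS32.vC) (subst (sub pcS32 ⟨false, false, false, false, false⟩) (pcS32.m1)) :=
  ⟨399, 17, 14, 4, 0, List.all_eq_true.1 grpS32_6 _ (.head _)⟩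
def chkS32_27 : Chk (boxS32.vC) (subst (sub pcS32 ⟨false, true, false, false, false⟩) (pcS32.m1)) :=
  ⟨399, 17, 14, 4, 0, List.all_eq_true.1 grpS32_6 _ (.tail _ (.head _))⟩
def chkS32_28 : Chk (boxS32.vC) (subst (sub pcS32 ⟨true, false, false, false, false⟩) (pcS32.m1)) :=
  ⟨399, 17, 14, 4, 0, List.all_eq_true.1 grpS32_6 _ (.tail _ (.tail _ (.head _)))⟩
def chkS32_29 : Chk (boxS32.vC) (subst (sub pcS32 ⟨true, true, false, false, false⟩) (pcS32.m1)) :=
  ⟨399, 17, 14, 4, 0, List.all_eq_true.1 grpS32_6 _ (.tail _ (.tail _ (.tail _ (.head _))))⟩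
def chkS32_30 : Chk (boxS32.vC) (subst (sub pcS32 ⟨false, false, true, false, false⟩) (strict (pcS32.m2 false))) :=
  ⟨615, 24, 19, 6, 0, by decide +kernel⟩
def chkS32_31 : Chk (boxS32.vC) (subst (sub pcS32 ⟨false, false, true, false, true⟩) (strict (pcS32.m2 false))) :=
  ⟨612, 24, 19, 6, 0, by decide +kernel⟩
def chkS32_32 : Chk (boxS32.vC) (subst (sub pcS32 ⟨true, false, true, false, false⟩) (strict (pcS32.m2 false))) :=
  ⟨615, 24, 19, 6, 0, by decide +kernel⟩
def chkS32_33 : Chk (boxS32.vC) (subst (sub pcS32 ⟨true, false, true, false, true⟩) (strict (pcS32.m2 false))) :=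
  ⟨612, 24, 19, 6, 0, by decide +kernel⟩
def chkS32_34 : Chk (boxS32.vC) (subst (sub pcS32 ⟨false, true, true, false, false⟩) (strict (pcS32.m2 true))) :=
  ⟨611, 24, 19, 6, 0, by decide +kernel⟩
def chkS32_35 : Chk (boxS32.vC) (subst (sub pcS32 ⟨false, true, true, false, true⟩) (strict (pcS32.m2 true))) :=
  ⟨609, 24, 19, 6, 0, by decide +kernel⟩
def chkS32_36 : Chk (boxS32.vC) (subst (sub pcS32 ⟨true, true, true, false, false⟩) (strict (pcS32.m2 true))) :=
  ⟨611, 24, 19, 6, 0, by decide +kernel⟩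
def chkS32_37 : Chk (boxS32.vC) (subst (sub pcS32 ⟨true, true, true, false, true⟩) (strict (pcS32.m2 true))) :=
  ⟨609, 24, 19, 6, 0, by decide +kernel⟩
def grpS32_15 : ([subst (sub pcS32 ⟨false, false, true, true, false⟩) (strict (pcS32.m3 false)),
    subst (sub pcS32 ⟨false, false, true, true, true⟩) (strict (pcS32.m3 false)),
    subst (sub pcS32 ⟨false, false, true, true, false⟩) (strict (pcS32.m3 true)),
    subst (sub pcS32 ⟨false, false, true, true, true⟩) (strict (pcS32.m3 true))].all
    (checkFour (boxS32.vC) 767 31 25 6 0)) = true := by decide +kernel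
def chkS32_38 : Chk (boxS32.vC) (subst (sub pcS32 ⟨false, false, true, true, false⟩) (strict (pcS32.m3 false))) :=
  ⟨767, 31, 25, 6, 0, List.all_eq_true.1 grpS32_15 _ (.head _)⟩
def chkS32_39 : Chk (boxS32.vC) (subst (sub pcS32 ⟨false, false, true, true, true⟩) (strict (pcS32.m3 false))) :=
  ⟨767, 31, 25, 6, 0, List.all_eq_true.1 grpS32_15 _ (.tail _ (.head _))⟩
def chkS32_46 : Chk (boxS32.vC) (subst (sub pcS32 ⟨false, false, true, true, false⟩) (strict (pcS32.m3 true))) :=
  ⟨767, 31, 25, 6, 0, List.all_eq_true.1 grpS32_15 _ (.tail _ (.tail _ (.head _)))⟩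
def chkS32_47 : Chk (boxS32.vC) (subst (sub pcS32 ⟨false, false, true, true, true⟩) (strict (pcS32.m3 true))) :=
  ⟨767, 31, 25, 6, 0, List.all_eq_true.1 grpS32_15 _ (.tail _ (.tail _ (.tail _ (.head _))))⟩
def grpS32_16 : ([subst (sub pcS32 ⟨false, true, true, true, false⟩) (strict (pcS32.m3 false)),
    subst (sub pcS32 ⟨false, true, true, true, true⟩) (strict (pcS32.m3 false)),
    subst (sub pcS32 ⟨false, true, true, true, false⟩) (strict (pcS32.m3 true)),
    subst (sub pcS32 ⟨false, true, true, true, true⟩) (strict (pcS32.m3 true))].all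
    (checkFour (boxS32.vC) 762 31 25 6 0)) = true := by decide +kernel
def chkS32_40 : Chk (boxS32.vC) (subst (sub pcS32 ⟨false, true, true, true, false⟩) (strict (pcS32.m3 false))) :=
  ⟨762, 31, 25, 6, 0, List.all_eq_true.1 grpS32_16 _ (.head _)⟩
def chkS32_41 : Chk (boxS32.vC) (subst (sub pcS32 ⟨false, true, true, true, true⟩) (strict (pcS32.m3 false))) :=
  ⟨762, 31, 25, 6, 0, List.all_eq_true.1 grpS32_16 _ (.tail _ (.head _))⟩
def chkS32_48 : Chk (boxS32.vC) (subst (sub pcS32 ⟨false, true, true, true, false⟩) (strict (pcS32.m3 true))) :=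
  ⟨762, 31, 25, 6, 0, List.all_eq_true.1 grpS32_16 _ (.tail _ (.tail _ (.head _)))⟩
def chkS32_49 : Chk (boxS32.vC) (subst (sub pcS32 ⟨false, true, true, true, true⟩) (strict (pcS32.m3 true))) :=
  ⟨762, 31, 25, 6, 0, List.all_eq_true.1 grpS32_16 _ (.tail _ (.tail _ (.tail _ (.head _))))⟩
def grpS32_17 : ([subst (sub pcS32 ⟨true, false, true, true, false⟩) (strict (pcS32.m3 false)),
    subst (sub pcS32 ⟨true, false, true, true, true⟩) (strict (pcS32.m3 false)),
    subst (sub pcS32 ⟨true, false, true, true, false⟩) (strict (pcS32.m3 true)),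
    subst (sub pcS32 ⟨true, false, true, true, true⟩) (strict (pcS32.m3 true))].all
    (checkFour (boxS32.vC) 767 31 25 6 0)) = true := by decide +kernel
def chkS32_42 : Chk (boxS32.vC) (subst (sub pcS32 ⟨true, false, true, true, false⟩) (strict (pcS32.m3 false))) :=
  ⟨767, 31, 25, 6, 0, List.all_eq_true.1 grpS32_17 _ (.head _)⟩
def chkS32_43 : Chk (boxS32.vC) (subst (sub pcS32 ⟨true, false, true, true, true⟩) (strict (pcS32.m3 false))) :=
  ⟨767, 31, 25, 6, 0, List.all_eq_true.1 grpS32_17 _ (.tail _ (.head _))⟩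
def chkS32_50 : Chk (boxS32.vC) (subst (sub pcS32 ⟨true, false, true, true, false⟩) (strict (pcS32.m3 true))) :=
  ⟨767, 31, 25, 6, 0, List.all_eq_true.1 grpS32_17 _ (.tail _ (.tail _ (.head _)))⟩
def chkS32_51 : Chk (boxS32.vC) (subst (sub pcS32 ⟨true, false, true, true, true⟩) (strict (pcS32.m3 true))) :=
  ⟨767, 31, 25, 6, 0, List.all_eq_true.1 grpS32_17 _ (.tail _ (.tail _ (.tail _ (.head _))))⟩
def grpS32_18 : ([subst (sub pcS32 ⟨true, true, true, true, false⟩) (strict (pcS32.m3 false)),
    subst (sub pcS32 ⟨true, true, true, true, true⟩) (strict (pcS32.m3 false)),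
    subst (sub pcS32 ⟨true, true, true, true, false⟩) (strict (pcS32.m3 true)),
    subst (sub pcS32 ⟨true, true, true, true, true⟩) (strict (pcS32.m3 true))].all
    (checkFour (boxS32.vC) 762 31 25 6 0)) = true := by decide +kernel
def chkS32_44 : Chk (boxS32.vC) (subst (sub pcS32 ⟨true, true, true, true, false⟩) (strict (pcS32.m3 false))) :=
  ⟨762, 31, 25, 6, 0, List.all_eq_true.1 grpS32_18 _ (.head _)⟩
def chkS32_45 : Chk (boxS32.vC) (subst (sub pcS32 ⟨true, true, true, true, true⟩) (strict (pcS32.m3 false))) :=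
  ⟨762, 31, 25, 6, 0, List.all_eq_true.1 grpS32_18 _ (.tail _ (.head _))⟩
def chkS32_52 : Chk (boxS32.vC) (subst (sub pcS32 ⟨true, true, true, true, false⟩) (strict (pcS32.m3 true))) :=
  ⟨762, 31, 25, 6, 0, List.all_eq_true.1 grpS32_18 _ (.tail _ (.tail _ (.head _)))⟩
def chkS32_53 : Chk (boxS32.vC) (subst (sub pcS32 ⟨true, true, true, true, true⟩) (strict (pcS32.m3 true))) :=
  ⟨762, 31, 25, 6, 0, List.all_eq_true.1 grpS32_18 _ (.tail _ (.tail _ (.tail _ (.head _))))⟩
def grpS32_19 : ([subst (sub pcS32 ⟨false, false, true, true, false⟩) (negEx coMG12),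
    subst (sub pcS32 ⟨false, false, true, true, false⟩) (negEx (pcS32.curve2 false)),
    subst (sub pcS32 ⟨false, false, true, true, false⟩) (negEx (pcS32.curve2 true))].all
    (checkFour (boxS32.vC) 140 5 5 4 0)) = true := by decide +kernel
def chkS32_54 : Chk (boxS32.vC) (subst (sub pcS32 ⟨false, false, true, true, false⟩) (negEx coMG12)) :=
  ⟨140, 5, 5, 4, 0, List.all_eq_true.1 grpS32_19 _ (.head _)⟩
def chkS32_55 : Chk (boxS32.vC) (subst (sub pcS32 ⟨false, false, true, true, false⟩) (negEx (pcS32.curve2 false))) :=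
  ⟨140, 5, 5, 4, 0, List.all_eq_true.1 grpS32_19 _ (.tail _ (.head _))⟩
def chkS32_56 : Chk (boxS32.vC) (subst (sub pcS32 ⟨false, false, true, true, false⟩) (negEx (pcS32.curve2 true))) :=
  ⟨140, 5, 5, 4, 0, List.all_eq_true.1 grpS32_19 _ (.tail _ (.tail _ (.head _)))⟩
def grpS32_20 : ([subst (sub pcS32 ⟨false, false, true, true, false⟩) (negEx (pcS32.curve3 false)),
    subst (sub pcS32 ⟨false, false, true, true, false⟩) (negEx (pcS32.curve3 true))].all
    (checkFour (boxS32.vC) 158 6 6 4 0)) = true := by decide +kernel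
def chkS32_57 : Chk (boxS32.vC) (subst (sub pcS32 ⟨false, false, true, true, false⟩) (negEx (pcS32.curve3 false))) :=
  ⟨158, 6, 6, 4, 0, List.all_eq_true.1 grpS32_20 _ (.head _)⟩
def chkS32_58 : Chk (boxS32.vC) (subst (sub pcS32 ⟨false, false, true, true, false⟩) (negEx (pcS32.curve3 true))) :=
  ⟨158, 6, 6, 4, 0, List.all_eq_true.1 grpS32_20 _ (.tail _ (.head _))⟩
def grpS32_21 : ([subst (sub pcS32 ⟨false, false, true, true, false⟩) (slopeT),
    subst (sub pcS32 ⟨true, false, true, true, false⟩) (slopeT)].all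
    (checkFour (boxS32.vC) 176 7 6 4 0)) = true := by decide +kernel
def chkS32_59 : Chk (boxS32.vC) (subst (sub pcS32 ⟨false, false, true, true, false⟩) (slopeT)) :=
  ⟨176, 7, 6, 4, 0, List.all_eq_true.1 grpS32_21 _ (.head _)⟩
def chkS32_60 : Chk (boxS32.vC) (subst (sub pcS32 ⟨true, false, true, true, false⟩) (slopeT)) :=
  ⟨176, 7, 6, 4, 0, List.all_eq_true.1 grpS32_21 _ (.tail _ (.head _))⟩
def grpS32_22 : ([subst (gapSub pcS32 true false false) tplL,
    subst (gapSub pcS32 true false true) tplL,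
    subst (gapSub pcS32 true true false) tplL,
    subst (gapSub pcS32 true true true) tplL].all
    (checkFour (boxS32.gC true) 482 22 17 5 2)) = true := by decide +kernel
def chkS32_61 : Chk (boxS32.gC true) (subst (gapSub pcS32 true false false) tplL) :=
  ⟨482, 22, 17, 5, 2, List.all_eq_true.1 grpS32_22 _ (.head _)⟩
def chkS32_62 : Chk (boxS32.gC true) (subst (gapSub pcS32 true false true) tplL) :=
  ⟨482, 22, 17, 5, 2, List.all_eq_true.1 grpS32_22 _ (.tail _ (.head _))⟩
def chkS32_63 : Chk (boxS32.gC true) (subst (gapSub pcS32 true true false) tplL) :=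
  ⟨482, 22, 17, 5, 2, List.all_eq_true.1 grpS32_22 _ (.tail _ (.tail _ (.head _)))⟩
def chkS32_64 : Chk (boxS32.gC true) (subst (gapSub pcS32 true true true) tplL) :=
  ⟨482, 22, 17, 5, 2, List.all_eq_true.1 grpS32_22 _ (.tail _ (.tail _ (.tail _ (.head _))))⟩

/-- Piece 32 passes. -/
theorem certS32 : Cert pcS32 boxS32 true where
  pos := by
    refine ⟨⟨⟨?_, ?_, ?_, ?_, ?_, ?_, ?_⟩, ?_, ?_, ?_, ?_, ?_, ?_, ?_, ?_, ?_, ?_, ?_⟩, ?_, ?_⟩ <;>
      norm_num [fr, pcS32]
  gX := fun p l => match p, l with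
    | false, false => chkS32_18
    | false, true => chkS32_19
    | true, false => chkS32_20
    | true, true => chkS32_21
  gMG := fun p l => match p, l with
    | false, false => chkS32_22
    | false, true => chkS32_23
    | true, false => chkS32_24
    | true, true => chkS32_25
  g1 := fun p l => match p, l with
    | false, false => chkS32_26
    | false, true => chkS32_27
    | true, false => chkS32_28
    | true, true => chkS32_29
  g2 := fun s p t => match s, p, t with
    | false, false, false => chkS32_30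
    | false, false, true => chkS32_31
    | false, true, false => chkS32_32
    | false, true, true => chkS32_33
    | true, false, false => chkS32_34
    | true, false, true => chkS32_35
    | true, true, false => chkS32_36
    | true, true, true => chkS32_37
  g3 := fun s p l t => match s, p, l, t with
    | false, false, false, false => chkS32_38
    | false, false, false, true => chkS32_39
    | false, false, true, false => chkS32_40
    | false, false, true, true => chkS32_41
    | false, true, false, false => chkS32_42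
    | false, true, false, true => chkS32_43
    | false, true, true, false => chkS32_44
    | false, true, true, true => chkS32_45
    | true, false, false, false => chkS32_46
    | true, false, false, true => chkS32_47
    | true, false, true, false => chkS32_48
    | true, false, true, true => chkS32_49
    | true, true, false, false => chkS32_50
    | true, true, false, true => chkS32_51
    | true, true, true, false => chkS32_52
    | true, true, true, true => chkS32_53
  cMG := chkS32_54
  c2 := fun s => match s with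
    | false => chkS32_55
    | true => chkS32_56
  c3 := fun s => match s with
    | false => chkS32_57
    | true => chkS32_58
  sT := fun p => match p with
    | false => chkS32_59
    | true => chkS32_60
  bnd := fun ze b => match ze, b with
    | false, .l0 => chkS32_0
    | false, .l1 => chkS32_1
    | false, .r => chkS32_2
    | false, .g0 => chkS32_3
    | false, .g1 => chkS32_4
    | false, .t0 => chkS32_5
    | false, .t1 => chkS32_6
    | false, .w0 => chkS32_7
    | false, .w1 => chkS32_8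
    | true, .l0 => chkS32_9
    | true, .l1 => chkS32_10
    | true, .r => chkS32_11
    | true, .g0 => chkS32_12
    | true, .g1 => chkS32_13
    | true, .t0 => chkS32_14
    | true, .t1 => chkS32_15
    | true, .w0 => chkS32_16
    | true, .w1 => chkS32_17
  gap := fun ze t => match ze, t with
    | false, false => chkS32_61
    | false, true => chkS32_62
    | true, false => chkS32_63
    | true, true => chkS32_64

/-- A window of piece 32. -/
def winS32T : Win := ⟨.D, (50, 103, 1000), (35, 44, 200), (-19, 99, 100), (99, 233, 100), (233, 3500, 100), (153, 160, 200), true, true, (40, 0), (495, 1000)⟩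

/-- The window passes. -/
theorem winS32T_ok : winS32T.Cert where
  fits := ⟨by norm_num [winS32T], by norm_num [winS32T, qLo], by norm_num [winS32T, qLo, qHi],
    by norm_num [winS32T, qLo, qHi], by norm_num [winS32T, qLo], by norm_num [winS32T, qHi]⟩
  cross := ⟨278, 8, 6, 2, 7, by decide +kernel⟩
  exit := ⟨262, 10, 7, 3, 6, by decide +kernel⟩
  mix := ⟨361, 12, 9, 3, 10, by decide +kernel⟩

/-- The tight band is crossed one way on piece 32. -/
theorem bandS32 : Chk (winS32T.chart (153, 160, 200) winS32T.qc) (sBand winS32T.kind) :=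
  ⟨482, 15, 11, 3, 14, by decide +kernel⟩

end Vale.Agent.P100.Calib.StripMid
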