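import Vale.Agent.P100.Calib.SlabStripMidSevWindow

/-!
# The checks of piece 33 below 153/200 for `N` between seven and twenty
-/

set_option linter.defProp false

namespace Vale.Agent.P100.Calib.StripMid

open Pack

/-- The numbers of piece 33. -/
def pcS33 : Piece := ⟨.D, (153, 200), (4, 5), (1, 2), (97, 100), (201, 100), (21, 50), (27, 50), (907, 1000), (148, -225, 250), (683, -890, 1000), 31, (-41,-850,300,10), (891, 1000), (1117, 1000), (11, 20), (2, 5), (7, 5)⟩

/-- The ranges of piece 33. -/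
def boxS33 : Box := ⟨(5, 8, 100), (11, 14, 50), (87, 240, 100), (97, 201, 100), (153, 160, 200)⟩

def grpS33_0 : ([bound pcS33 false .l0,
    bound pcS33 false .l1,
    bound pcS33 false .r,
    bound pcS33 true .l0,
    bound pcS33 true .l1,
    bound pcS33 true .r].all
    (checkFour (boxS33.cC) 226 13 9 2 3)) = true := by decide +kernel
def chkS33_0 : Chk (boxS33.cC) (bound pcS33 false .l0) :=
  ⟨226, 13, 9, 2, 3, List.all_eq_true.1 grpS33_0 _ (.head _)⟩
def chkS33_1 : Chk (boxS33.cC) (bound pcS33 false .l1) :=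
  ⟨226, 13, 9, 2, 3, List.all_eq_true.1 grpS33_0 _ (.tail _ (.head _))⟩
def chkS33_2 : Chk (boxS33.cC) (bound pcS33 false .r) :=
  ⟨226, 13, 9, 2, 3, List.all_eq_true.1 grpS33_0 _ (.tail _ (.tail _ (.head _)))⟩
def chkS33_9 : Chk (boxS33.cC) (bound pcS33 true .l0) :=
  ⟨226, 13, 9, 2, 3, List.all_eq_true.1 grpS33_0 _ (.tail _ (.tail _ (.tail _ (.head _))))⟩
def chkS33_10 : Chk (boxS33.cC) (bound pcS33 true .l1) :=
  ⟨226, 13, 9, 2, 3, List.all_eq_true.1 grpS33_0 _ (.tail _ (.tail _ (.tail _ (.tail _ (.head _)))))⟩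
def chkS33_11 : Chk (boxS33.cC) (bound pcS33 true .r) :=
  ⟨226, 13, 9, 2, 3, List.all_eq_true.1 grpS33_0 _ (.tail _ (.tail _ (.tail _ (.tail _ (.tail _ (.head _))))))⟩
def grpS33_1 : ([bound pcS33 false .g0,
    bound pcS33 false .g1,
    bound pcS33 true .g0,
    bound pcS33 true .g1].all
    (checkFour (boxS33.cC) 93 4 3 1 2)) = true := by decide +kernel
def chkS33_3 : Chk (boxS33.cC) (bound pcS33 false .g0) :=
  ⟨93, 4, 3, 1, 2, List.all_eq_true.1 grpS33_1 _ (.head _)⟩
def chkS33_4 : Chk (boxS33.cC) (bound pcS33 false .g1) :=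
  ⟨93, 4, 3, 1, 2, List.all_eq_true.1 grpS33_1 _ (.tail _ (.head _))⟩
def chkS33_12 : Chk (boxS33.cC) (bound pcS33 true .g0) :=
  ⟨93, 4, 3, 1, 2, List.all_eq_true.1 grpS33_1 _ (.tail _ (.tail _ (.head _)))⟩
def chkS33_13 : Chk (boxS33.cC) (bound pcS33 true .g1) :=
  ⟨93, 4, 3, 1, 2, List.all_eq_true.1 grpS33_1 _ (.tail _ (.tail _ (.tail _ (.head _))))⟩
def grpS33_2 : ([bound pcS33 false .t0,
    bound pcS33 false .t1,
    bound pcS33 true .t0,
    bound pcS33 true .t1].all
    (checkFour (boxS33.cC) 145 6 6 2 3)) = true := by decide +kernel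
def chkS33_5 : Chk (boxS33.cC) (bound pcS33 false .t0) :=
  ⟨145, 6, 6, 2, 3, List.all_eq_true.1 grpS33_2 _ (.head _)⟩
def chkS33_6 : Chk (boxS33.cC) (bound pcS33 false .t1) :=
  ⟨145, 6, 6, 2, 3, List.all_eq_true.1 grpS33_2 _ (.tail _ (.head _))⟩
def chkS33_14 : Chk (boxS33.cC) (bound pcS33 true .t0) :=
  ⟨145, 6, 6, 2, 3, List.all_eq_true.1 grpS33_2 _ (.tail _ (.tail _ (.head _)))⟩
def chkS33_15 : Chk (boxS33.cC) (bound pcS33 true .t1) :=
  ⟨145, 6, 6, 2, 3, List.all_eq_true.1 grpS33_2 _ (.tail _ (.tail _ (.tail _ (.head _))))⟩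
def grpS33_3 : ([bound pcS33 false .w0,
    bound pcS33 false .w1,
    bound pcS33 true .w0,
    bound pcS33 true .w1].all
    (checkFour (boxS33.cC) 197 10 7 3 4)) = true := by decide +kernel
def chkS33_7 : Chk (boxS33.cC) (bound pcS33 false .w0) :=
  ⟨197, 10, 7, 3, 4, List.all_eq_true.1 grpS33_3 _ (.head _)⟩
def chkS33_8 : Chk (boxS33.cC) (bound pcS33 false .w1) :=
  ⟨197, 10, 7, 3, 4, List.all_eq_true.1 grpS33_3 _ (.tail _ (.head _))⟩
def chkS33_16 : Chk (boxS33.cC) (bound pcS33 true .w0) :=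
  ⟨197, 10, 7, 3, 4, List.all_eq_true.1 grpS33_3 _ (.tail _ (.tail _ (.head _)))⟩
def chkS33_17 : Chk (boxS33.cC) (bound pcS33 true .w1) :=
  ⟨197, 10, 7, 3, 4, List.all_eq_true.1 grpS33_3 _ (.tail _ (.tail _ (.tail _ (.head _))))⟩
def grpS33_4 : ([subst (sub pcS33 ⟨false, false, true, true, false⟩) (condX),
    subst (sub pcS33 ⟨false, true, true, true, false⟩) (condX),
    subst (sub pcS33 ⟨true, false, true, true, false⟩) (condX),
    subst (sub pcS33 ⟨true, true, true, true, false⟩) (condX)].all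
    (checkFour (boxS33.vC) 236 13 10 4 0)) = true := by decide +kernel
def chkS33_18 : Chk (boxS33.vC) (subst (sub pcS33 ⟨false, false, true, true, false⟩) (condX)) :=
  ⟨236, 13, 10, 4, 0, List.all_eq_true.1 grpS33_4 _ (.head _)⟩
def chkS33_19 : Chk (boxS33.vC) (subst (sub pcS33 ⟨false, true, true, true, false⟩) (condX)) :=
  ⟨236, 13, 10, 4, 0, List.all_eq_true.1 grpS33_4 _ (.tail _ (.head _))⟩
def chkS33_20 : Chk (boxS33.vC) (subst (sub pcS33 ⟨true, false, true, true, false⟩) (condX)) :=
  ⟨236, 13, 10, 4, 0, List.all_eq_true.1 grpS33_4 _ (.tail _ (.tail _ (.head _)))⟩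
def chkS33_21 : Chk (boxS33.vC) (subst (sub pcS33 ⟨true, true, true, true, false⟩) (condX)) :=
  ⟨236, 13, 10, 4, 0, List.all_eq_true.1 grpS33_4 _ (.tail _ (.tail _ (.tail _ (.head _))))⟩
def grpS33_5 : ([subst (sub pcS33 ⟨false, false, true, false, false⟩) (tplMG),
    subst (sub pcS33 ⟨false, true, true, false, false⟩) (tplMG),
    subst (sub pcS33 ⟨true, false, true, false, false⟩) (tplMG),
    subst (sub pcS33 ⟨true, true, true, false, false⟩) (tplMG)].all
    (checkFour (boxS33.vC) 450 26 20 6 0)) = true := by decide +kernel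
def chkS33_22 : Chk (boxS33.vC) (subst (sub pcS33 ⟨false, false, true, false, false⟩) (tplMG)) :=
  ⟨450, 26, 20, 6, 0, List.all_eq_true.1 grpS33_5 _ (.head _)⟩
def chkS33_23 : Chk (boxS33.vC) (subst (sub pcS33 ⟨false, true, true, false, false⟩) (tplMG)) :=
  ⟨450, 26, 20, 6, 0, List.all_eq_true.1 grpS33_5 _ (.tail _ (.head _))⟩
def chkS33_24 : Chk (boxS33.vC) (subst (sub pcS33 ⟨true, false, true, false, false⟩) (tplMG)) :=
  ⟨450, 26, 20, 6, 0, List.all_eq_true.1 grpS33_5 _ (.tail _ (.tail _ (.head _)))⟩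
def chkS33_25 : Chk (boxS33.vC) (subst (sub pcS33 ⟨true, true, true, false, false⟩) (tplMG)) :=
  ⟨450, 26, 20, 6, 0, List.all_eq_true.1 grpS33_5 _ (.tail _ (.tail _ (.tail _ (.head _))))⟩
def grpS33_6 : ([subst (sub pcS33 ⟨false, false, false, false, false⟩) (pcS33.m1),
    subst (sub pcS33 ⟨false, true, false, false, false⟩) (pcS33.m1),
    subst (sub pcS33 ⟨true, false, false, false, false⟩) (pcS33.m1),
    subst (sub pcS33 ⟨true, true, false, false, false⟩) (pcS33.m1)].all
    (checkFour (boxS33.vC) 311 17 14 4 0)) = true := by decide +kernel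
def chkS33_26 : Chk (boxS33.vC) (subst (sub pcS33 ⟨false, false, false, false, false⟩) (pcS33.m1)) :=
  ⟨311, 17, 14, 4, 0, List.all_eq_true.1 grpS33_6 _ (.head _)⟩
def chkS33_27 : Chk (boxS33.vC) (subst (sub pcS33 ⟨false, true, false, false, false⟩) (pcS33.m1)) :=
  ⟨311, 17, 14, 4, 0, List.all_eq_true.1 grpS33_6 _ (.tail _ (.head _))⟩
def chkS33_28 : Chk (boxS33.vC) (subst (sub pcS33 ⟨true, false, false, false, false⟩) (pcS33.m1)) :=
  ⟨311, 17, 14, 4, 0, List.all_eq_true.1 grpS33_6 _ (.tail _ (.tail _ (.head _)))⟩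
def chkS33_29 : Chk (boxS33.vC) (subst (sub pcS33 ⟨true, true, false, false, false⟩) (pcS33.m1)) :=
  ⟨311, 17, 14, 4, 0, List.all_eq_true.1 grpS33_6 _ (.tail _ (.tail _ (.tail _ (.head _))))⟩
def chkS33_30 : Chk (boxS33.vC) (subst (sub pcS33 ⟨false, false, true, false, false⟩) (strict (pcS33.m2 false))) :=
  ⟨486, 24, 19, 6, 0, by decide +kernel⟩
def chkS33_31 : Chk (boxS33.vC) (subst (sub pcS33 ⟨false, false, true, false, true⟩) (strict (pcS33.m2 false))) :=
  ⟨490, 24, 19, 6, 0, by decide +kernel⟩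
def chkS33_32 : Chk (boxS33.vC) (subst (sub pcS33 ⟨true, false, true, false, false⟩) (strict (pcS33.m2 false))) :=
  ⟨486, 24, 19, 6, 0, by decide +kernel⟩
def chkS33_33 : Chk (boxS33.vC) (subst (sub pcS33 ⟨true, false, true, false, true⟩) (strict (pcS33.m2 false))) :=
  ⟨490, 24, 19, 6, 0, by decide +kernel⟩
def chkS33_34 : Chk (boxS33.vC) (subst (sub pcS33 ⟨false, true, true, false, false⟩) (strict (pcS33.m2 true))) :=
  ⟨485, 24, 19, 6, 0, by decide +kernel⟩
def chkS33_35 : Chk (boxS33.vC) (subst (sub pcS33 ⟨false, true, true, false, true⟩) (strict (pcS33.m2 true))) :=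
  ⟨489, 24, 19, 6, 0, by decide +kernel⟩
def chkS33_36 : Chk (boxS33.vC) (subst (sub pcS33 ⟨true, true, true, false, false⟩) (strict (pcS33.m2 true))) :=
  ⟨485, 24, 19, 6, 0, by decide +kernel⟩
def chkS33_37 : Chk (boxS33.vC) (subst (sub pcS33 ⟨true, true, true, false, true⟩) (strict (pcS33.m2 true))) :=
  ⟨489, 24, 19, 6, 0, by decide +kernel⟩
def grpS33_15 : ([subst (sub pcS33 ⟨false, false, true, true, false⟩) (strict (pcS33.m3 false)),
    subst (sub pcS33 ⟨false, false, true, true, true⟩) (strict (pcS33.m3 false)),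
    subst (sub pcS33 ⟨false, false, true, true, false⟩) (strict (pcS33.m3 true)),
    subst (sub pcS33 ⟨false, false, true, true, true⟩) (strict (pcS33.m3 true))].all
    (checkFour (boxS33.vC) 608 31 25 6 0)) = true := by decide +kernel
def chkS33_38 : Chk (boxS33.vC) (subst (sub pcS33 ⟨false, false, true, true, false⟩) (strict (pcS33.m3 false))) :=
  ⟨608, 31, 25, 6, 0, List.all_eq_true.1 grpS33_15 _ (.head _)⟩
def chkS33_39 : Chk (boxS33.vC) (subst (sub pcS33 ⟨false, false, true, true, true⟩) (strict (pcS33.m3 false))) :=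
  ⟨608, 31, 25, 6, 0, List.all_eq_true.1 grpS33_15 _ (.tail _ (.head _))⟩
def chkS33_46 : Chk (boxS33.vC) (subst (sub pcS33 ⟨false, false, true, true, false⟩) (strict (pcS33.m3 true))) :=
  ⟨608, 31, 25, 6, 0, List.all_eq_true.1 grpS33_15 _ (.tail _ (.tail _ (.head _)))⟩
def chkS33_47 : Chk (boxS33.vC) (subst (sub pcS33 ⟨false, false, true, true, true⟩) (strict (pcS33.m3 true))) :=
  ⟨608, 31, 25, 6, 0, List.all_eq_true.1 grpS33_15 _ (.tail _ (.tail _ (.tail _ (.head _))))⟩
def grpS33_16 : ([subst (sub pcS33 ⟨false, true, true, true, false⟩) (strict (pcS33.m3 false)),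
    subst (sub pcS33 ⟨false, true, true, true, true⟩) (strict (pcS33.m3 false)),
    subst (sub pcS33 ⟨false, true, true, true, false⟩) (strict (pcS33.m3 true)),
    subst (sub pcS33 ⟨false, true, true, true, true⟩) (strict (pcS33.m3 true))].all
    (checkFour (boxS33.vC) 608 31 25 6 0)) = true := by decide +kernel
def chkS33_40 : Chk (boxS33.vC) (subst (sub pcS33 ⟨false, true, true, true, false⟩) (strict (pcS33.m3 false))) :=
  ⟨608, 31, 25, 6, 0, List.all_eq_true.1 grpS33_16 _ (.head _)⟩
def chkS33_41 : Chk (boxS33.vC) (subst (sub pcS33 ⟨false, true, true, true, true⟩) (strict (pcS33.m3 false))) :=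
  ⟨608, 31, 25, 6, 0, List.all_eq_true.1 grpS33_16 _ (.tail _ (.head _))⟩
def chkS33_48 : Chk (boxS33.vC) (subst (sub pcS33 ⟨false, true, true, true, false⟩) (strict (pcS33.m3 true))) :=
  ⟨608, 31, 25, 6, 0, List.all_eq_true.1 grpS33_16 _ (.tail _ (.tail _ (.head _)))⟩
def chkS33_49 : Chk (boxS33.vC) (subst (sub pcS33 ⟨false, true, true, true, true⟩) (strict (pcS33.m3 true))) :=
  ⟨608, 31, 25, 6, 0, List.all_eq_true.1 grpS33_16 _ (.tail _ (.tail _ (.tail _ (.head _))))⟩
def grpS33_17 : ([subst (sub pcS33 ⟨true, false, true, true, false⟩) (strict (pcS33.m3 false)),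
    subst (sub pcS33 ⟨true, false, true, true, true⟩) (strict (pcS33.m3 false)),
    subst (sub pcS33 ⟨true, false, true, true, false⟩) (strict (pcS33.m3 true)),
    subst (sub pcS33 ⟨true, false, true, true, true⟩) (strict (pcS33.m3 true))].all
    (checkFour (boxS33.vC) 608 31 25 6 0)) = true := by decide +kernel
def chkS33_42 : Chk (boxS33.vC) (subst (sub pcS33 ⟨true, false, true, true, false⟩) (strict (pcS33.m3 false))) :=
  ⟨608, 31, 25, 6, 0, List.all_eq_true.1 grpS33_17 _ (.head _)⟩
def chkS33_43 : Chk (boxS33.vC) (subst (sub pcS33 ⟨true, false, true, true, true⟩) (strict (pcS33.m3 false))) :=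
  ⟨608, 31, 25, 6, 0, List.all_eq_true.1 grpS33_17 _ (.tail _ (.head _))⟩
def chkS33_50 : Chk (boxS33.vC) (subst (sub pcS33 ⟨true, false, true, true, false⟩) (strict (pcS33.m3 true))) :=
  ⟨608, 31, 25, 6, 0, List.all_eq_true.1 grpS33_17 _ (.tail _ (.tail _ (.head _)))⟩
def chkS33_51 : Chk (boxS33.vC) (subst (sub pcS33 ⟨true, false, true, true, true⟩) (strict (pcS33.m3 true))) :=
  ⟨608, 31, 25, 6, 0, List.all_eq_true.1 grpS33_17 _ (.tail _ (.tail _ (.tail _ (.head _))))⟩
def grpS33_18 : ([subst (sub pcS33 ⟨true, true, true, true, false⟩) (strict (pcS33.m3 false)),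
    subst (sub pcS33 ⟨true, true, true, true, true⟩) (strict (pcS33.m3 false)),
    subst (sub pcS33 ⟨true, true, true, true, false⟩) (strict (pcS33.m3 true)),
    subst (sub pcS33 ⟨true, true, true, true, true⟩) (strict (pcS33.m3 true))].all
    (checkFour (boxS33.vC) 608 31 25 6 0)) = true := by decide +kernel
def chkS33_44 : Chk (boxS33.vC) (subst (sub pcS33 ⟨true, true, true, true, false⟩) (strict (pcS33.m3 false))) :=
  ⟨608, 31, 25, 6, 0, List.all_eq_true.1 grpS33_18 _ (.head _)⟩
def chkS33_45 : Chk (boxS33.vC) (subst (sub pcS33 ⟨true, true, true, true, true⟩) (strict (pcS33.m3 false))) :=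
  ⟨608, 31, 25, 6, 0, List.all_eq_true.1 grpS33_18 _ (.tail _ (.head _))⟩
def chkS33_52 : Chk (boxS33.vC) (subst (sub pcS33 ⟨true, true, true, true, false⟩) (strict (pcS33.m3 true))) :=
  ⟨608, 31, 25, 6, 0, List.all_eq_true.1 grpS33_18 _ (.tail _ (.tail _ (.head _)))⟩
def chkS33_53 : Chk (boxS33.vC) (subst (sub pcS33 ⟨true, true, true, true, true⟩) (strict (pcS33.m3 true))) :=
  ⟨608, 31, 25, 6, 0, List.all_eq_true.1 grpS33_18 _ (.tail _ (.tail _ (.tail _ (.head _))))⟩
def grpS33_19 : ([subst (sub pcS33 ⟨false, false, true, true, false⟩) (negEx coMG12),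
    subst (sub pcS33 ⟨false, false, true, true, false⟩) (negEx (pcS33.curve2 false)),
    subst (sub pcS33 ⟨false, false, true, true, false⟩) (negEx (pcS33.curve2 true))].all
    (checkFour (boxS33.vC) 114 5 5 4 0)) = true := by decide +kernel
def chkS33_54 : Chk (boxS33.vC) (subst (sub pcS33 ⟨false, false, true, true, false⟩) (negEx coMG12)) :=
  ⟨114, 5, 5, 4, 0, List.all_eq_true.1 grpS33_19 _ (.head _)⟩
def chkS33_55 : Chk (boxS33.vC) (subst (sub pcS33 ⟨false, false, true, true, false⟩) (negEx (pcS33.curve2 false))) :=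
  ⟨114, 5, 5, 4, 0, List.all_eq_true.1 grpS33_19 _ (.tail _ (.head _))⟩
def chkS33_56 : Chk (boxS33.vC) (subst (sub pcS33 ⟨false, false, true, true, false⟩) (negEx (pcS33.curve2 true))) :=
  ⟨114, 5, 5, 4, 0, List.all_eq_true.1 grpS33_19 _ (.tail _ (.tail _ (.head _)))⟩
def grpS33_20 : ([subst (sub pcS33 ⟨false, false, true, true, false⟩) (negEx (pcS33.curve3 false)),
    subst (sub pcS33 ⟨false, false, true, true, false⟩) (negEx (pcS33.curve3 true))].all
    (checkFour (boxS33.vC) 126 6 6 4 0)) = true := by decide +kernel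
def chkS33_57 : Chk (boxS33.vC) (subst (sub pcS33 ⟨false, false, true, true, false⟩) (negEx (pcS33.curve3 false))) :=
  ⟨126, 6, 6, 4, 0, List.all_eq_true.1 grpS33_20 _ (.head _)⟩
def chkS33_58 : Chk (boxS33.vC) (subst (sub pcS33 ⟨false, false, true, true, false⟩) (negEx (pcS33.curve3 true))) :=
  ⟨126, 6, 6, 4, 0, List.all_eq_true.1 grpS33_20 _ (.tail _ (.head _))⟩
def grpS33_21 : ([subst (sub pcS33 ⟨false, false, true, true, false⟩) (slopeT),
    subst (sub pcS33 ⟨true, false, true, true, false⟩) (slopeT)].all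
    (checkFour (boxS33.vC) 134 7 6 4 0)) = true := by decide +kernel
def chkS33_59 : Chk (boxS33.vC) (subst (sub pcS33 ⟨false, false, true, true, false⟩) (slopeT)) :=
  ⟨134, 7, 6, 4, 0, List.all_eq_true.1 grpS33_21 _ (.head _)⟩
def chkS33_60 : Chk (boxS33.vC) (subst (sub pcS33 ⟨true, false, true, true, false⟩) (slopeT)) :=
  ⟨134, 7, 6, 4, 0, List.all_eq_true.1 grpS33_21 _ (.tail _ (.head _))⟩
def grpS33_22 : ([subst (gapSub pcS33 true false false) tplL,
    subst (gapSub pcS33 true false true) tplL,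
    subst (gapSub pcS33 true true false) tplL,
    subst (gapSub pcS33 true true true) tplL].all
    (checkFour (boxS33.gC true) 372 22 17 5 2)) = true := by decide +kernel
def chkS33_61 : Chk (boxS33.gC true) (subst (gapSub pcS33 true false false) tplL) :=
  ⟨372, 22, 17, 5, 2, List.all_eq_true.1 grpS33_22 _ (.head _)⟩
def chkS33_62 : Chk (boxS33.gC true) (subst (gapSub pcS33 true false true) tplL) :=
  ⟨372, 22, 17, 5, 2, List.all_eq_true.1 grpS33_22 _ (.tail _ (.head _))⟩
def chkS33_63 : Chk (boxS33.gC true) (subst (gapSub pcS33 true true false) tplL) :=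
  ⟨372, 22, 17, 5, 2, List.all_eq_true.1 grpS33_22 _ (.tail _ (.tail _ (.head _)))⟩
def chkS33_64 : Chk (boxS33.gC true) (subst (gapSub pcS33 true true true) tplL) :=
  ⟨372, 22, 17, 5, 2, List.all_eq_true.1 grpS33_22 _ (.tail _ (.tail _ (.tail _ (.head _))))⟩

/-- Piece 33 passes. -/
theorem certS33 : Cert pcS33 boxS33 true where
  pos := by
    refine ⟨⟨⟨?_, ?_, ?_, ?_, ?_, ?_, ?_⟩, ?_, ?_, ?_, ?_, ?_, ?_, ?_, ?_, ?_, ?_, ?_⟩, ?_, ?_⟩ <;>
      norm_num [fr, pcS33]
  gX := fun p l => match p, l with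
    | false, false => chkS33_18
    | false, true => chkS33_19
    | true, false => chkS33_20
    | true, true => chkS33_21
  gMG := fun p l => match p, l with
    | false, false => chkS33_22
    | false, true => chkS33_23
    | true, false => chkS33_24
    | true, true => chkS33_25
  g1 := fun p l => match p, l with
    | false, false => chkS33_26
    | false, true => chkS33_27
    | true, false => chkS33_28
    | true, true => chkS33_29
  g2 := fun s p t => match s, p, t with
    | false, false, false => chkS33_30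
    | false, false, true => chkS33_31
    | false, true, false => chkS33_32
    | false, true, true => chkS33_33
    | true, false, false => chkS33_34
    | true, false, true => chkS33_35
    | true, true, false => chkS33_36
    | true, true, true => chkS33_37
  g3 := fun s p l t => match s, p, l, t with
    | false, false, false, false => chkS33_38
    | false, false, false, true => chkS33_39
    | false, false, true, false => chkS33_40
    | false, false, true, true => chkS33_41
    | false, true, false, false => chkS33_42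
    | false, true, false, true => chkS33_43
    | false, true, true, false => chkS33_44
    | false, true, true, true => chkS33_45
    | true, false, false, false => chkS33_46
    | true, false, false, true => chkS33_47
    | true, false, true, false => chkS33_48
    | true, false, true, true => chkS33_49
    | true, true, false, false => chkS33_50
    | true, true, false, true => chkS33_51
    | true, true, true, false => chkS33_52
    | true, true, true, true => chkS33_53
  cMG := chkS33_54
  c2 := fun s => match s with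
    | false => chkS33_55
    | true => chkS33_56
  c3 := fun s => match s with
    | false => chkS33_57
    | true => chkS33_58
  sT := fun p => match p with
    | false => chkS33_59
    | true => chkS33_60
  bnd := fun ze b => match ze, b with
    | false, .l0 => chkS33_0
    | false, .l1 => chkS33_1
    | false, .r => chkS33_2
    | false, .g0 => chkS33_3
    | false, .g1 => chkS33_4
    | false, .t0 => chkS33_5
    | false, .t1 => chkS33_6
    | false, .w0 => chkS33_7
    | false, .w1 => chkS33_8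
    | true, .l0 => chkS33_9
    | true, .l1 => chkS33_10
    | true, .r => chkS33_11
    | true, .g0 => chkS33_12
    | true, .g1 => chkS33_13
    | true, .t0 => chkS33_14
    | true, .t1 => chkS33_15
    | true, .w0 => chkS33_16
    | true, .w1 => chkS33_17
  gap := fun ze t => match ze, t with
    | false, false => chkS33_61
    | false, true => chkS33_62
    | true, false => chkS33_63
    | true, true => chkS33_64

/-- A window of piece 33. -/
def winS33T : Win := ⟨.D, (5, 8, 100), (11, 14, 50), (-19, 97, 100), (97, 201, 100), (201, 3500, 100), (153, 160, 200), true, true, (40, 0), (467, 1000)⟩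

/-- The window passes. -/
theorem winS33T_ok : winS33T.Cert where
  fits := ⟨by norm_num [winS33T], by norm_num [winS33T, qLo], by norm_num [winS33T, qLo, qHi],
    by norm_num [winS33T, qLo, qHi], by norm_num [winS33T, qLo], by norm_num [winS33T, qHi]⟩
  cross := ⟨239, 8, 6, 2, 7, by decide +kernel⟩
  exit := ⟨215, 10, 7, 3, 6, by decide +kernel⟩
  mix := ⟨303, 12, 9, 3, 10, by decide +kernel⟩

/-- The tight band is crossed one way on piece 33. -/
theorem bandS33 : Chk (winS33T.chart (153, 160, 200) winS33T.qc) (sBand winS33T.kind) :=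
  ⟨411, 15, 11, 3, 14, by decide +kernel⟩

end Vale.Agent.P100.Calib.StripMid
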