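import Vale.Agent.P100.Calib.SlabStripMidSevWindow

/-!
# The checks of piece 8 below 153/200 for `N` between seven and twenty
-/

set_option linter.defProp false

namespace Vale.Agent.P100.Calib.StripMid

open Pack

/-- The numbers of piece 8. -/
def pcS8 : Piece := ⟨.A, (17, 25), (153, 200), (3, 5), (123, 100), (71, 25), (99, 200), (717, 1000), (229, 250), (903, -3000, 1000), (241, -525, 250), 46, (133,-715,600,5), (541, 1000), (471, 500), (3, 10), (2, 5), (3, 20)⟩

/-- The ranges of piece 8. -/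
def boxS8 : Box := ⟨(122, 143, 1000), (150, 431, 500), (89, 348, 100), (123, 284, 100), (136, 153, 200)⟩

def grpS8_0 : ([bound pcS8 false .l0,
    bound pcS8 false .l1,
    bound pcS8 false .r,
    bound pcS8 true .l0,
    bound pcS8 true .l1,
    bound pcS8 true .r].all
    (checkFour (boxS8.cC) 311 14 9 2 3)) = true := by decide +kernel
def chkS8_0 : Chk (boxS8.cC) (bound pcS8 false .l0) :=
  ⟨311, 14, 9, 2, 3, List.all_eq_true.1 grpS8_0 _ (.head _)⟩
def chkS8_1 : Chk (boxS8.cC) (bound pcS8 false .l1) :=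
  ⟨311, 14, 9, 2, 3, List.all_eq_true.1 grpS8_0 _ (.tail _ (.head _))⟩
def chkS8_2 : Chk (boxS8.cC) (bound pcS8 false .r) :=
  ⟨311, 14, 9, 2, 3, List.all_eq_true.1 grpS8_0 _ (.tail _ (.tail _ (.head _)))⟩
def chkS8_9 : Chk (boxS8.cC) (bound pcS8 true .l0) :=
  ⟨311, 14, 9, 2, 3, List.all_eq_true.1 grpS8_0 _ (.tail _ (.tail _ (.tail _ (.head _))))⟩
def chkS8_10 : Chk (boxS8.cC) (bound pcS8 true .l1) :=
  ⟨311, 14, 9, 2, 3, List.all_eq_true.1 grpS8_0 _ (.tail _ (.tail _ (.tail _ (.tail _ (.head _)))))⟩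
def chkS8_11 : Chk (boxS8.cC) (bound pcS8 true .r) :=
  ⟨311, 14, 9, 2, 3, List.all_eq_true.1 grpS8_0 _ (.tail _ (.tail _ (.tail _ (.tail _ (.tail _ (.head _))))))⟩
def grpS8_1 : ([bound pcS8 false .g0,
    bound pcS8 false .g1,
    bound pcS8 true .g0,
    bound pcS8 true .g1].all
    (checkFour (boxS8.cC) 128 5 3 1 2)) = true := by decide +kernel
def chkS8_3 : Chk (boxS8.cC) (bound pcS8 false .g0) :=
  ⟨128, 5, 3, 1, 2, List.all_eq_true.1 grpS8_1 _ (.head _)⟩
def chkS8_4 : Chk (boxS8.cC) (bound pcS8 false .g1) :=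
  ⟨128, 5, 3, 1, 2, List.all_eq_true.1 grpS8_1 _ (.tail _ (.head _))⟩
def chkS8_12 : Chk (boxS8.cC) (bound pcS8 true .g0) :=
  ⟨128, 5, 3, 1, 2, List.all_eq_true.1 grpS8_1 _ (.tail _ (.tail _ (.head _)))⟩
def chkS8_13 : Chk (boxS8.cC) (bound pcS8 true .g1) :=
  ⟨128, 5, 3, 1, 2, List.all_eq_true.1 grpS8_1 _ (.tail _ (.tail _ (.tail _ (.head _))))⟩
def grpS8_2 : ([bound pcS8 false .t0,
    bound pcS8 false .t1,
    bound pcS8 true .t0,
    bound pcS8 true .t1].all
    (checkFour (boxS8.cC) 219 9 6 2 3)) = true := by decide +kernel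
def chkS8_5 : Chk (boxS8.cC) (bound pcS8 false .t0) :=
  ⟨219, 9, 6, 2, 3, List.all_eq_true.1 grpS8_2 _ (.head _)⟩
def chkS8_6 : Chk (boxS8.cC) (bound pcS8 false .t1) :=
  ⟨219, 9, 6, 2, 3, List.all_eq_true.1 grpS8_2 _ (.tail _ (.head _))⟩
def chkS8_14 : Chk (boxS8.cC) (bound pcS8 true .t0) :=
  ⟨219, 9, 6, 2, 3, List.all_eq_true.1 grpS8_2 _ (.tail _ (.tail _ (.head _)))⟩
def chkS8_15 : Chk (boxS8.cC) (bound pcS8 true .t1) :=
  ⟨219, 9, 6, 2, 3, List.all_eq_true.1 grpS8_2 _ (.tail _ (.tail _ (.tail _ (.head _))))⟩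
def grpS8_3 : ([bound pcS8 false .w0,
    bound pcS8 false .w1,
    bound pcS8 true .w0,
    bound pcS8 true .w1].all
    (checkFour (boxS8.cC) 276 12 7 3 4)) = true := by decide +kernel
def chkS8_7 : Chk (boxS8.cC) (bound pcS8 false .w0) :=
  ⟨276, 12, 7, 3, 4, List.all_eq_true.1 grpS8_3 _ (.head _)⟩
def chkS8_8 : Chk (boxS8.cC) (bound pcS8 false .w1) :=
  ⟨276, 12, 7, 3, 4, List.all_eq_true.1 grpS8_3 _ (.tail _ (.head _))⟩
def chkS8_16 : Chk (boxS8.cC) (bound pcS8 true .w0) :=
  ⟨276, 12, 7, 3, 4, List.all_eq_true.1 grpS8_3 _ (.tail _ (.tail _ (.head _)))⟩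
def chkS8_17 : Chk (boxS8.cC) (bound pcS8 true .w1) :=
  ⟨276, 12, 7, 3, 4, List.all_eq_true.1 grpS8_3 _ (.tail _ (.tail _ (.tail _ (.head _))))⟩
def grpS8_4 : ([subst (sub pcS8 ⟨false, false, true, true, false⟩) (condX),
    subst (sub pcS8 ⟨false, true, true, true, false⟩) (condX),
    subst (sub pcS8 ⟨true, false, true, true, false⟩) (condX),
    subst (sub pcS8 ⟨true, true, true, true, false⟩) (condX)].all
    (checkFour (boxS8.vC) 338 15 10 4 0)) = true := by decide +kernel
def chkS8_18 : Chk (boxS8.vC) (subst (sub pcS8 ⟨false, false, true, true, false⟩) (condX)) :=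
  ⟨338, 15, 10, 4, 0, List.all_eq_true.1 grpS8_4 _ (.head _)⟩
def chkS8_19 : Chk (boxS8.vC) (subst (sub pcS8 ⟨false, true, true, true, false⟩) (condX)) :=
  ⟨338, 15, 10, 4, 0, List.all_eq_true.1 grpS8_4 _ (.tail _ (.head _))⟩
def chkS8_20 : Chk (boxS8.vC) (subst (sub pcS8 ⟨true, false, true, true, false⟩) (condX)) :=
  ⟨338, 15, 10, 4, 0, List.all_eq_true.1 grpS8_4 _ (.tail _ (.tail _ (.head _)))⟩
def chkS8_21 : Chk (boxS8.vC) (subst (sub pcS8 ⟨true, true, true, true, false⟩) (condX)) :=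
  ⟨338, 15, 10, 4, 0, List.all_eq_true.1 grpS8_4 _ (.tail _ (.tail _ (.tail _ (.head _))))⟩
def grpS8_5 : ([subst (sub pcS8 ⟨false, false, true, false, false⟩) (tplMG),
    subst (sub pcS8 ⟨false, true, true, false, false⟩) (tplMG),
    subst (sub pcS8 ⟨true, false, true, false, false⟩) (tplMG),
    subst (sub pcS8 ⟨true, true, true, false, false⟩) (tplMG)].all
    (checkFour (boxS8.vC) 594 26 18 6 0)) = true := by decide +kernel
def chkS8_22 : Chk (boxS8.vC) (subst (sub pcS8 ⟨false, false, true, false, false⟩) (tplMG)) :=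
  ⟨594, 26, 18, 6, 0, List.all_eq_true.1 grpS8_5 _ (.head _)⟩
def chkS8_23 : Chk (boxS8.vC) (subst (sub pcS8 ⟨false, true, true, false, false⟩) (tplMG)) :=
  ⟨594, 26, 18, 6, 0, List.all_eq_true.1 grpS8_5 _ (.tail _ (.head _))⟩
def chkS8_24 : Chk (boxS8.vC) (subst (sub pcS8 ⟨true, false, true, false, false⟩) (tplMG)) :=
  ⟨594, 26, 18, 6, 0, List.all_eq_true.1 grpS8_5 _ (.tail _ (.tail _ (.head _)))⟩
def chkS8_25 : Chk (boxS8.vC) (subst (sub pcS8 ⟨true, true, true, false, false⟩) (tplMG)) :=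
  ⟨594, 26, 18, 6, 0, List.all_eq_true.1 grpS8_5 _ (.tail _ (.tail _ (.tail _ (.head _))))⟩
def grpS8_6 : ([subst (sub pcS8 ⟨false, false, false, false, false⟩) (pcS8.m1),
    subst (sub pcS8 ⟨false, true, false, false, false⟩) (pcS8.m1),
    subst (sub pcS8 ⟨true, false, false, false, false⟩) (pcS8.m1),
    subst (sub pcS8 ⟨true, true, false, false, false⟩) (pcS8.m1)].all
    (checkFour (boxS8.vC) 436 19 14 4 0)) = true := by decide +kernel
def chkS8_26 : Chk (boxS8.vC) (subst (sub pcS8 ⟨false, false, false, false, false⟩) (pcS8.m1)) :=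
  ⟨436, 19, 14, 4, 0, List.all_eq_true.1 grpS8_6 _ (.head _)⟩
def chkS8_27 : Chk (boxS8.vC) (subst (sub pcS8 ⟨false, true, false, false, false⟩) (pcS8.m1)) :=
  ⟨436, 19, 14, 4, 0, List.all_eq_true.1 grpS8_6 _ (.tail _ (.head _))⟩
def chkS8_28 : Chk (boxS8.vC) (subst (sub pcS8 ⟨true, false, false, false, false⟩) (pcS8.m1)) :=
  ⟨436, 19, 14, 4, 0, List.all_eq_true.1 grpS8_6 _ (.tail _ (.tail _ (.head _)))⟩
def chkS8_29 : Chk (boxS8.vC) (subst (sub pcS8 ⟨true, true, false, false, false⟩) (pcS8.m1)) :=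
  ⟨436, 19, 14, 4, 0, List.all_eq_true.1 grpS8_6 _ (.tail _ (.tail _ (.tail _ (.head _))))⟩
def chkS8_30 : Chk (boxS8.vC) (subst (sub pcS8 ⟨false, false, true, false, false⟩) (strict (pcS8.m2 false))) :=
  ⟨618, 24, 17, 6, 0, by decide +kernel⟩
def chkS8_31 : Chk (boxS8.vC) (subst (sub pcS8 ⟨false, false, true, false, true⟩) (strict (pcS8.m2 false))) :=
  ⟨614, 24, 17, 6, 0, by decide +kernel⟩
def chkS8_32 : Chk (boxS8.vC) (subst (sub pcS8 ⟨true, false, true, false, false⟩) (strict (pcS8.m2 false))) :=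
  ⟨618, 24, 17, 6, 0, by decide +kernel⟩
def chkS8_33 : Chk (boxS8.vC) (subst (sub pcS8 ⟨true, false, true, false, true⟩) (strict (pcS8.m2 false))) :=
  ⟨614, 24, 17, 6, 0, by decide +kernel⟩
def chkS8_34 : Chk (boxS8.vC) (subst (sub pcS8 ⟨false, true, true, false, false⟩) (strict (pcS8.m2 true))) :=
  ⟨619, 24, 17, 6, 0, by decide +kernel⟩
def chkS8_35 : Chk (boxS8.vC) (subst (sub pcS8 ⟨false, true, true, false, true⟩) (strict (pcS8.m2 true))) :=
  ⟨615, 24, 17, 6, 0, by decide +kernel⟩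
def chkS8_36 : Chk (boxS8.vC) (subst (sub pcS8 ⟨true, true, true, false, false⟩) (strict (pcS8.m2 true))) :=
  ⟨619, 24, 17, 6, 0, by decide +kernel⟩
def chkS8_37 : Chk (boxS8.vC) (subst (sub pcS8 ⟨true, true, true, false, true⟩) (strict (pcS8.m2 true))) :=
  ⟨615, 24, 17, 6, 0, by decide +kernel⟩
def grpS8_15 : ([subst (sub pcS8 ⟨false, false, true, true, false⟩) (strict (pcS8.m3 false)),
    subst (sub pcS8 ⟨false, false, true, true, true⟩) (strict (pcS8.m3 false)),
    subst (sub pcS8 ⟨false, false, true, true, false⟩) (strict (pcS8.m3 true)),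
    subst (sub pcS8 ⟨false, false, true, true, true⟩) (strict (pcS8.m3 true))].all
    (checkFour (boxS8.vC) 777 31 23 6 0)) = true := by decide +kernel
def chkS8_38 : Chk (boxS8.vC) (subst (sub pcS8 ⟨false, false, true, true, false⟩) (strict (pcS8.m3 false))) :=
  ⟨777, 31, 23, 6, 0, List.all_eq_true.1 grpS8_15 _ (.head _)⟩
def chkS8_39 : Chk (boxS8.vC) (subst (sub pcS8 ⟨false, false, true, true, true⟩) (strict (pcS8.m3 false))) :=
  ⟨777, 31, 23, 6, 0, List.all_eq_true.1 grpS8_15 _ (.tail _ (.head _))⟩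
def chkS8_46 : Chk (boxS8.vC) (subst (sub pcS8 ⟨false, false, true, true, false⟩) (strict (pcS8.m3 true))) :=
  ⟨777, 31, 23, 6, 0, List.all_eq_true.1 grpS8_15 _ (.tail _ (.tail _ (.head _)))⟩
def chkS8_47 : Chk (boxS8.vC) (subst (sub pcS8 ⟨false, false, true, true, true⟩) (strict (pcS8.m3 true))) :=
  ⟨777, 31, 23, 6, 0, List.all_eq_true.1 grpS8_15 _ (.tail _ (.tail _ (.tail _ (.head _))))⟩
def grpS8_16 : ([subst (sub pcS8 ⟨false, true, true, true, false⟩) (strict (pcS8.m3 false)),
    subst (sub pcS8 ⟨false, true, true, true, true⟩) (strict (pcS8.m3 false)),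
    subst (sub pcS8 ⟨false, true, true, true, false⟩) (strict (pcS8.m3 true)),
    subst (sub pcS8 ⟨false, true, true, true, true⟩) (strict (pcS8.m3 true))].all
    (checkFour (boxS8.vC) 782 31 23 6 0)) = true := by decide +kernel
def chkS8_40 : Chk (boxS8.vC) (subst (sub pcS8 ⟨false, true, true, true, false⟩) (strict (pcS8.m3 false))) :=
  ⟨782, 31, 23, 6, 0, List.all_eq_true.1 grpS8_16 _ (.head _)⟩
def chkS8_41 : Chk (boxS8.vC) (subst (sub pcS8 ⟨false, true, true, true, true⟩) (strict (pcS8.m3 false))) :=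
  ⟨782, 31, 23, 6, 0, List.all_eq_true.1 grpS8_16 _ (.tail _ (.head _))⟩
def chkS8_48 : Chk (boxS8.vC) (subst (sub pcS8 ⟨false, true, true, true, false⟩) (strict (pcS8.m3 true))) :=
  ⟨782, 31, 23, 6, 0, List.all_eq_true.1 grpS8_16 _ (.tail _ (.tail _ (.head _)))⟩
def chkS8_49 : Chk (boxS8.vC) (subst (sub pcS8 ⟨false, true, true, true, true⟩) (strict (pcS8.m3 true))) :=
  ⟨782, 31, 23, 6, 0, List.all_eq_true.1 grpS8_16 _ (.tail _ (.tail _ (.tail _ (.head _))))⟩
def grpS8_17 : ([subst (sub pcS8 ⟨true, false, true, true, false⟩) (strict (pcS8.m3 false)),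
    subst (sub pcS8 ⟨true, false, true, true, true⟩) (strict (pcS8.m3 false)),
    subst (sub pcS8 ⟨true, false, true, true, false⟩) (strict (pcS8.m3 true)),
    subst (sub pcS8 ⟨true, false, true, true, true⟩) (strict (pcS8.m3 true))].all
    (checkFour (boxS8.vC) 777 31 23 6 0)) = true := by decide +kernel
def chkS8_42 : Chk (boxS8.vC) (subst (sub pcS8 ⟨true, false, true, true, false⟩) (strict (pcS8.m3 false))) :=
  ⟨777, 31, 23, 6, 0, List.all_eq_true.1 grpS8_17 _ (.head _)⟩
def chkS8_43 : Chk (boxS8.vC) (subst (sub pcS8 ⟨true, false, true, true, true⟩) (strict (pcS8.m3 false))) :=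
  ⟨777, 31, 23, 6, 0, List.all_eq_true.1 grpS8_17 _ (.tail _ (.head _))⟩
def chkS8_50 : Chk (boxS8.vC) (subst (sub pcS8 ⟨true, false, true, true, false⟩) (strict (pcS8.m3 true))) :=
  ⟨777, 31, 23, 6, 0, List.all_eq_true.1 grpS8_17 _ (.tail _ (.tail _ (.head _)))⟩
def chkS8_51 : Chk (boxS8.vC) (subst (sub pcS8 ⟨true, false, true, true, true⟩) (strict (pcS8.m3 true))) :=
  ⟨777, 31, 23, 6, 0, List.all_eq_true.1 grpS8_17 _ (.tail _ (.tail _ (.tail _ (.head _))))⟩
def grpS8_18 : ([subst (sub pcS8 ⟨true, true, true, true, false⟩) (strict (pcS8.m3 false)),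
    subst (sub pcS8 ⟨true, true, true, true, true⟩) (strict (pcS8.m3 false)),
    subst (sub pcS8 ⟨true, true, true, true, false⟩) (strict (pcS8.m3 true)),
    subst (sub pcS8 ⟨true, true, true, true, true⟩) (strict (pcS8.m3 true))].all
    (checkFour (boxS8.vC) 782 31 23 6 0)) = true := by decide +kernel
def chkS8_44 : Chk (boxS8.vC) (subst (sub pcS8 ⟨true, true, true, true, false⟩) (strict (pcS8.m3 false))) :=
  ⟨782, 31, 23, 6, 0, List.all_eq_true.1 grpS8_18 _ (.head _)⟩
def chkS8_45 : Chk (boxS8.vC) (subst (sub pcS8 ⟨true, true, true, true, true⟩) (strict (pcS8.m3 false))) :=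
  ⟨782, 31, 23, 6, 0, List.all_eq_true.1 grpS8_18 _ (.tail _ (.head _))⟩
def chkS8_52 : Chk (boxS8.vC) (subst (sub pcS8 ⟨true, true, true, true, false⟩) (strict (pcS8.m3 true))) :=
  ⟨782, 31, 23, 6, 0, List.all_eq_true.1 grpS8_18 _ (.tail _ (.tail _ (.head _)))⟩
def chkS8_53 : Chk (boxS8.vC) (subst (sub pcS8 ⟨true, true, true, true, true⟩) (strict (pcS8.m3 true))) :=
  ⟨782, 31, 23, 6, 0, List.all_eq_true.1 grpS8_18 _ (.tail _ (.tail _ (.tail _ (.head _))))⟩
def chkS8_54 : Chk (boxS8.vC) (subst (sub pcS8 ⟨false, false, true, true, false⟩) (negEx coMG12)) :=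
  ⟨174, 8, 5, 4, 0, by decide +kernel⟩
def grpS8_20 : ([subst (sub pcS8 ⟨false, false, true, true, false⟩) (negEx (pcS8.curve2 false)),
    subst (sub pcS8 ⟨false, false, true, true, false⟩) (negEx (pcS8.curve2 true))].all
    (checkFour (boxS8.vC) 190 9 5 4 0)) = true := by decide +kernel
def chkS8_55 : Chk (boxS8.vC) (subst (sub pcS8 ⟨false, false, true, true, false⟩) (negEx (pcS8.curve2 false))) :=
  ⟨190, 9, 5, 4, 0, List.all_eq_true.1 grpS8_20 _ (.head _)⟩
def chkS8_56 : Chk (boxS8.vC) (subst (sub pcS8 ⟨false, false, true, true, false⟩) (negEx (pcS8.curve2 true))) :=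
  ⟨190, 9, 5, 4, 0, List.all_eq_true.1 grpS8_20 _ (.tail _ (.head _))⟩
def grpS8_21 : ([subst (sub pcS8 ⟨false, false, true, true, false⟩) (negEx (pcS8.curve3 false)),
    subst (sub pcS8 ⟨false, false, true, true, false⟩) (negEx (pcS8.curve3 true))].all
    (checkFour (boxS8.vC) 200 9 6 4 0)) = true := by decide +kernel
def chkS8_57 : Chk (boxS8.vC) (subst (sub pcS8 ⟨false, false, true, true, false⟩) (negEx (pcS8.curve3 false))) :=
  ⟨200, 9, 6, 4, 0, List.all_eq_true.1 grpS8_21 _ (.head _)⟩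
def chkS8_58 : Chk (boxS8.vC) (subst (sub pcS8 ⟨false, false, true, true, false⟩) (negEx (pcS8.curve3 true))) :=
  ⟨200, 9, 6, 4, 0, List.all_eq_true.1 grpS8_21 _ (.tail _ (.head _))⟩
def grpS8_22 : ([subst (sub pcS8 ⟨false, false, true, true, false⟩) (slopeT),
    subst (sub pcS8 ⟨true, false, true, true, false⟩) (slopeT)].all
    (checkFour (boxS8.vC) 212 10 6 4 0)) = true := by decide +kernel
def chkS8_59 : Chk (boxS8.vC) (subst (sub pcS8 ⟨false, false, true, true, false⟩) (slopeT)) :=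
  ⟨212, 10, 6, 4, 0, List.all_eq_true.1 grpS8_22 _ (.head _)⟩
def chkS8_60 : Chk (boxS8.vC) (subst (sub pcS8 ⟨true, false, true, true, false⟩) (slopeT)) :=
  ⟨212, 10, 6, 4, 0, List.all_eq_true.1 grpS8_22 _ (.tail _ (.head _))⟩
def grpS8_23 : ([subst (gapSub pcS8 true false false) tplL,
    subst (gapSub pcS8 true false true) tplL,
    subst (gapSub pcS8 true true false) tplL,
    subst (gapSub pcS8 true true true) tplL].all
    (checkFour (boxS8.gC true) 526 25 16 5 2)) = true := by decide +kernel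
def chkS8_61 : Chk (boxS8.gC true) (subst (gapSub pcS8 true false false) tplL) :=
  ⟨526, 25, 16, 5, 2, List.all_eq_true.1 grpS8_23 _ (.head _)⟩
def chkS8_62 : Chk (boxS8.gC true) (subst (gapSub pcS8 true false true) tplL) :=
  ⟨526, 25, 16, 5, 2, List.all_eq_true.1 grpS8_23 _ (.tail _ (.head _))⟩
def chkS8_63 : Chk (boxS8.gC true) (subst (gapSub pcS8 true true false) tplL) :=
  ⟨526, 25, 16, 5, 2, List.all_eq_true.1 grpS8_23 _ (.tail _ (.tail _ (.head _)))⟩
def chkS8_64 : Chk (boxS8.gC true) (subst (gapSub pcS8 true true true) tplL) :=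
  ⟨526, 25, 16, 5, 2, List.all_eq_true.1 grpS8_23 _ (.tail _ (.tail _ (.tail _ (.head _))))⟩

/-- Piece 8 passes. -/
theorem certS8 : Cert pcS8 boxS8 true where
  pos := by
    refine ⟨⟨⟨?_, ?_, ?_, ?_, ?_, ?_, ?_⟩, ?_, ?_, ?_, ?_, ?_, ?_, ?_, ?_, ?_, ?_, ?_⟩, ?_, ?_⟩ <;>
      norm_num [fr, pcS8]
  gX := fun p l => match p, l with
    | false, false => chkS8_18
    | false, true => chkS8_19
    | true, false => chkS8_20
    | true, true => chkS8_21
  gMG := fun p l => match p, l with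
    | false, false => chkS8_22
    | false, true => chkS8_23
    | true, false => chkS8_24
    | true, true => chkS8_25
  g1 := fun p l => match p, l with
    | false, false => chkS8_26
    | false, true => chkS8_27
    | true, false => chkS8_28
    | true, true => chkS8_29
  g2 := fun s p t => match s, p, t with
    | false, false, false => chkS8_30
    | false, false, true => chkS8_31
    | false, true, false => chkS8_32
    | false, true, true => chkS8_33
    | true, false, false => chkS8_34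
    | true, false, true => chkS8_35
    | true, true, false => chkS8_36
    | true, true, true => chkS8_37
  g3 := fun s p l t => match s, p, l, t with
    | false, false, false, false => chkS8_38
    | false, false, false, true => chkS8_39
    | false, false, true, false => chkS8_40
    | false, false, true, true => chkS8_41
    | false, true, false, false => chkS8_42
    | false, true, false, true => chkS8_43
    | false, true, true, false => chkS8_44
    | false, true, true, true => chkS8_45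
    | true, false, false, false => chkS8_46
    | true, false, false, true => chkS8_47
    | true, false, true, false => chkS8_48
    | true, false, true, true => chkS8_49
    | true, true, false, false => chkS8_50
    | true, true, false, true => chkS8_51
    | true, true, true, false => chkS8_52
    | true, true, true, true => chkS8_53
  cMG := chkS8_54
  c2 := fun s => match s with
    | false => chkS8_55
    | true => chkS8_56
  c3 := fun s => match s with
    | false => chkS8_57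
    | true => chkS8_58
  sT := fun p => match p with
    | false => chkS8_59
    | true => chkS8_60
  bnd := fun ze b => match ze, b with
    | false, .l0 => chkS8_0
    | false, .l1 => chkS8_1
    | false, .r => chkS8_2
    | false, .g0 => chkS8_3
    | false, .g1 => chkS8_4
    | false, .t0 => chkS8_5
    | false, .t1 => chkS8_6
    | false, .w0 => chkS8_7
    | false, .w1 => chkS8_8
    | true, .l0 => chkS8_9
    | true, .l1 => chkS8_10
    | true, .r => chkS8_11
    | true, .g0 => chkS8_12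
    | true, .g1 => chkS8_13
    | true, .t0 => chkS8_14
    | true, .t1 => chkS8_15
    | true, .w0 => chkS8_16
    | true, .w1 => chkS8_17
  gap := fun ze t => match ze, t with
    | false, false => chkS8_61
    | false, true => chkS8_62
    | true, false => chkS8_63
    | true, true => chkS8_64

/-- A window of piece 8. -/
def winS8T : Win := ⟨.A, (122, 143, 1000), (150, 431, 500), (-22, 123, 100), (123, 284, 100), (71, 1075, 25), (136, 153, 200), true, true, (40, 0), (561, 1000)⟩

/-- The window passes. -/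
theorem winS8T_ok : winS8T.Cert where
  fits := ⟨by norm_num [winS8T], by norm_num [winS8T, qLo], by norm_num [winS8T, qLo, qHi],
    by norm_num [winS8T, qLo, qHi], by norm_num [winS8T, qLo], by norm_num [winS8T, qHi]⟩
  cross := ⟨297, 9, 6, 2, 7, by decide +kernel⟩
  exit := ⟨288, 12, 7, 3, 6, by decide +kernel⟩
  mix := ⟨395, 14, 9, 3, 10, by decide +kernel⟩

/-- The tight band is crossed one way on piece 8. -/
theorem bandS8 : Chk (winS8T.chart (136, 153, 200) winS8T.qc) (sBand winS8T.kind) :=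
  ⟨519, 17, 11, 3, 14, by decide +kernel⟩

end Vale.Agent.P100.Calib.StripMid
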