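import Vale.Agent.P100.Calib.SlabStripMidBoundExpr

/-!
# The bands of the strip for `N` between seven and twenty in the variables of a piece

`x₂` is the constant `c` of the window of `v` and `x₃` is `u`, as for the bounds of a piece. The
tight band lowers the upper band from `u = 9/20` on.
-/

namespace Vale.Agent.P100.Calib.StripMid

open Pack Pack.Ex

local instance sevExprAdd : Add Ex := ⟨Ex.add⟩
local instance sevExprSub : Sub Ex := ⟨Ex.sub⟩
local instance sevExprMul : Mul Ex := ⟨Ex.mul⟩

/-- `2 e (1 - a v)`. -/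
def sK1 (K : Kind) : Ex := num 2 * uE K - kA K * uV K

/-- `2 e Qn`. -/
def sQn (K : Kind) : Ex := kB K * uP K - num 2 * kS K * var 3 * uQ K

/-- The coefficient of `H`, times `2 e q`. -/
def sF1 (K : Kind) (p q : ℤ) : Ex := num q * (sQn K + kS K * var 3 * kD K * sK1 K) + num (2 * p) * kI K * var 3 * kD K * uE K

/-- The rest, times `2 e² q`. -/
def sR1 (K : Kind) (p q : ℤ) : Ex := (num q * kS K * sK1 K + num (2 * p) * kI K * uE K) * uP K

/-- `100 (b - u a)`. -/
def sW (K : Kind) : Ex := num 50 * (kB K - var 3 * kA K)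

/-- `4 P0`. -/
def sP0 (K : Kind) : Ex := num 2612 * kI K + num 378 * kA K * kI K - num 3312 * kI K * kI K - num 1592

/-- `4 P1`. -/
def sP1 (K : Kind) : Ex := num 1856 - num 3352 * kA K + num 1565 * kA K * kA K + kI K * (num 11580 * kA K + num 1661 * kA K * kA K - num 10480)

/-- `4 P2`. -/
def sP2 (K : Kind) : Ex := num 17960 * kA K - num 6012 - num 13330 * kA K * kA K + kI K * (num 19360 - num 31740 * kA K + num 1947 * kA K * kA K)

/-- `20 u - 9`. -/
def sT : Ex := num 20 * var 3 - num 9

/-- Four times the step down from `u = 9/20`. -/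
def sDel (K : Kind) : Ex := (num 1 - num 3 * kD K) * sT * (num 20 + num 3 * sT)

/-- `4 psi`. -/
def sPsi (K : Kind) : Ex := sP0 K + num 12 + var 3 * (sP1 K + var 3 * (sP2 K + num 240 * var 3 * var 3))

/-- The coefficient of `v`. -/
def sKv (K : Kind) : Ex := num 50 * kB K - kA K * var 3 * (num 65 - num 40 * var 3)

/-- `4 e N`. -/
def sN (K : Kind) (t : Bool) : Ex := num 400 * uE K + num 4 * sKv K * uV K + kI K * (cond t (sPsi K - sDel K) (sPsi K)) * uE K

/-- `2 e P`. -/
def sPe (K : Kind) : Ex := kB K * uE K - kA K * var 3 * uQ K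

/-- `4 e² (1 - a v) (I - S d v/2)`. -/
def sKI (K : Kind) : Ex := sK1 K * (num 2 * kI K * uE K - kS K * kD K * uV K)

/-- `80 e²` times the right hand side of an exit band. -/
def sM (K : Kind) (k : Ex) : Ex := num 40 * uE K * sK1 K - (num 1 - var 3) * (num 80 * kS K * uV K * uQ K - k * sKI K)

/-- The lower band. -/
def sLowM (K : Kind) : Ex := num 40 * uE K * sK1 K - (num 1 - var 3) * (num 80 * kS K * uV K * uQ K + (num 4 + num 80 * kI K) * sKI K)

/-- The left exit band. -/
def sLeftM (K : Kind) : Ex := num 2000 * var 3 * sM K (num 13 - num 4 * var 3 + num 18 * var 3 * var 3) + num 52 * uE K * (num 67 - num 100 * var 3) * (num 2 * kI K * (num 23 + num 6 * var 3 + num 48 * var 3 * var 3) * uE K - num 20 * uV K)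

/-- The exit band of a side. -/
def sExM (K : Kind) (top : Bool) : Ex := cond top (sM K (num 14 + num 6 * var 3)) (sLeftM K)

/-- Its denominator. -/
def sExD (K : Kind) (top : Bool) : Ex := cond top (num 40 * sPe K) (num 80000 * var 3 * sPe K)

/-- `I d e`. -/
def sPos (K : Kind) : Ex := kI K * kD K * uE K

/-- The upper band below the lower one, strictly. -/
def sCross (K : Kind) (t : Bool) : Ex := num (2 ^ 40) * (num 4 * sW K * sLowM K - num 40 * sN K t * sPe K) - pow (sPos K) 2

/-- The Flow is not positive below the exit band. -/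
def sExit (K : Kind) (top : Bool) : Ex := sExD K top * sR1 K 0 1 - sF1 K 0 1 * sExM K top

/-- A weight out of a hundred. -/
def sLam (m : ℤ × ℤ) : Ex := num m.1 + num m.2 * var 3

/-- The Flow below both bands. -/
def sMix (K : Kind) (t top : Bool) (m : ℤ × ℤ) (p q : ℤ) : Ex := num 100 * (num 4 * sW K) * sExD K top * sR1 K p q - sF1 K p q * (sLam m * sN K t * sExD K top + (num 100 - sLam m) * (num 4 * sW K) * sExM K top)

/-- `4 e` times the derivative of the band in `u`. -/
def sNu (K : Kind) : Ex := num (-4) * kA K * (num 65 - num 80 * var 3) * uV K + kI K * (sP1 K + var 3 * (num 2 * sP2 K + num 960 * var 3 * var 3) - (num 1 - num 3 * kD K) * num 20 * (num 20 + num 6 * sT)) * uE K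

/-- `Den` on the band, scaled. -/
def sDen (K : Kind) : Ex := num 4 * sW K * uP K - var 3 * kD K * sN K true

/-- `1 - u d H` on the band, scaled. -/
def sOm (K : Kind) : Ex := num 4 * uE K * sW K - var 3 * kD K * sN K true

/-- `En` on the band, scaled. -/
def sEn (K : Kind) : Ex := sOm K * sQn K - kS K * (num 1 - var 3) * kB K * uE K * sDen K

/-- The Flow on the band, scaled. -/
def sFl (K : Kind) : Ex := sQn K * sN K true - kS K * sK1 K * sDen K

/-- `Fh` on the band, scaled. -/
def sFh (K : Kind) : Ex := num 0 - sOm K * (sFl K - num 2 * kS K * uV K * sDen K) - sN K true * sEn K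

/-- The flow through the band, scaled. -/
def sDot (K : Kind) : Ex := (sNu K * sW K + sN K true * num 50 * kA K) * var 3 * sEn K + sW K * (num 4 * sKv K * uQ K * var 3 * sFl K - sFh K)

/-- The band is crossed one way, strictly. -/
def sBand (K : Kind) : Ex := num (2 ^ 40) * sDot K - pow (sPos K) 4

end Vale.Agent.P100.Calib.StripMid
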