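import Vale.Agent.P100.Calib.SlabStripMidSevCells
import Vale.Agent.P100.Calib.SlabStripMidSevCheck23
import Vale.Agent.P100.Calib.SlabStripMidSevCheck24
import Vale.Agent.P100.Calib.SlabStripMidSevCheck25
import Vale.Agent.P100.Calib.SlabStripMidSevCheck26
import Vale.Agent.P100.Calib.SlabStripMidSevCheck27
import Vale.Agent.P100.Calib.SlabStripMidSevCheck28
import Vale.Agent.P100.Calib.SlabStripMidSevCheck29
import Vale.Agent.P100.Calib.SlabStripMidSevCheck30
import Vale.Agent.P100.Calib.SlabStripMidSevCheck31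
import Vale.Agent.P100.Calib.SlabStripMidSevCheck32
import Vale.Agent.P100.Calib.SlabStripMidSevCheck33

/-!
# Every point with 153/200 < u <= 4/5 for `N` between seven and twenty has a cell
-/

set_option linter.unusedVariables false

namespace Vale.Agent.P100.Calib.StripMid

open Pack Band Bubble Chart

theorem cellS23T {a b u : ℝ} (ha : 31 / 100 < a) (hd : 0 < b - a) (hI : 1 / 20 < allStabI a b)
    (hI7 : allStabI a b ≤ 1 / 7) (hu0 : (153 / 200 : ℝ) < u) (hu1 : u ≤ (4 / 5 : ℝ))
    (h00 : (1 / 20 : ℝ) ≤ allStabI a b) (h01 : allStabI a b < (9 / 100 : ℝ))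
    (h10 : (0 : ℝ) ≤ (b - a) / (allStabI a b)) (h11 : (b - a) / (allStabI a b) < (237 / 250 : ℝ))
    (hk : (b - a) * (1 - allStabI a b) ≤ (a + b) * allStabI a b) : Cell a b u := by
  have hI0 : 0 < allStabI a b := by linarith
  have e : a + b = 1 - 2 * allStabI a b := by simp only [allStabI]; ring
  have hxl := (le_div_iff₀ hI0).1 h10
  have hxh := (div_lt_iff₀ hI0).1 h11
  exact ⟨pcS23, boxS23, winS23T, (18367 / 25000 : ℝ), (9 / 10 : ℝ), certS23, winS23T_ok,
    ⟨rfl, rfl, rfl, rfl, by norm_num [fr, winS23T, pcS23], by norm_num [fr, pcS23], by norm_num [boxS23],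
      by norm_num [fr, pcS23]⟩,
    { r₀ := ⟨by norm_num [boxS23], by norm_num [mkPt, pcS23, boxS23] <;> linarith, by norm_num [mkPt, pcS23, boxS23] <;> linarith⟩
      r₁ := ⟨by norm_num [boxS23], by norm_num [mkPt, pcS23, boxS23] <;> linarith, by norm_num [mkPt, pcS23, boxS23] <;> linarith⟩
      ru := ⟨by norm_num [boxS23], by norm_num [boxS23] <;> linarith, by norm_num [boxS23] <;> linarith⟩
      rw' := ⟨by norm_num [winS23T], by norm_num [winS23T] <;> linarith, by norm_num [winS23T] <;> linarith⟩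
      kap := hk
      low := ⟨by norm_num, by linarith⟩
      high := by linarith
      y₀ := by norm_num [qLo, qHi, boxS23]
      y₁ := by norm_num [qLo, qHi, boxS23]
      tight := fun _ => (by linarith)
      exit := by show 67 / 100 ≤ u; linarith
      band := fun h => ⟨(153, 160, 200), ⟨by norm_num, (show _ < u by norm_num <;> linarith), (show u ≤ _ by norm_num <;> linarith)⟩, bandS23⟩ }⟩

theorem cellS24T {a b u : ℝ} (ha : 31 / 100 < a) (hd : 0 < b - a) (hI : 1 / 20 < allStabI a b)
    (hI7 : allStabI a b ≤ 1 / 7) (hu0 : (153 / 200 : ℝ) < u) (hu1 : u ≤ (4 / 5 : ℝ))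
    (h00 : (9 / 100 : ℝ) ≤ allStabI a b) (h01 : allStabI a b < (61 / 500 : ℝ))
    (h10 : (0 : ℝ) ≤ (b - a) / (allStabI a b)) (h11 : (b - a) / (allStabI a b) < (3 / 10 : ℝ))
    (hk : (b - a) * (1 - allStabI a b) ≤ (a + b) * allStabI a b) : Cell a b u := by
  have hI0 : 0 < allStabI a b := by linarith
  have e : a + b = 1 - 2 * allStabI a b := by simp only [allStabI]; ring
  have hxl := (le_div_iff₀ hI0).1 h10
  have hxh := (div_lt_iff₀ hI0).1 h11
  exact ⟨pcS24, boxS24, winS24T, (3597 / 5000 : ℝ), (41 / 50 : ℝ), certS24, winS24T_ok,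
    ⟨rfl, rfl, rfl, rfl, by norm_num [fr, winS24T, pcS24], by norm_num [fr, pcS24], by norm_num [boxS24],
      by norm_num [fr, pcS24]⟩,
    { r₀ := ⟨by norm_num [boxS24], by norm_num [mkPt, pcS24, boxS24] <;> linarith, by norm_num [mkPt, pcS24, boxS24] <;> linarith⟩
      r₁ := ⟨by norm_num [boxS24], by norm_num [mkPt, pcS24, boxS24] <;> linarith, by norm_num [mkPt, pcS24, boxS24] <;> linarith⟩
      ru := ⟨by norm_num [boxS24], by norm_num [boxS24] <;> linarith, by norm_num [boxS24] <;> linarith⟩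
      rw' := ⟨by norm_num [winS24T], by norm_num [winS24T] <;> linarith, by norm_num [winS24T] <;> linarith⟩
      kap := hk
      low := ⟨by norm_num, by linarith⟩
      high := by linarith
      y₀ := by norm_num [qLo, qHi, boxS24]
      y₁ := by norm_num [qLo, qHi, boxS24]
      tight := fun _ => (by linarith)
      exit := by show 67 / 100 ≤ u; linarith
      band := fun h => ⟨(153, 160, 200), ⟨by norm_num, (show _ < u by norm_num <;> linarith), (show u ≤ _ by norm_num <;> linarith)⟩, bandS24⟩ }⟩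

theorem cellS25T {a b u : ℝ} (ha : 31 / 100 < a) (hd : 0 < b - a) (hI : 1 / 20 < allStabI a b)
    (hI7 : allStabI a b ≤ 1 / 7) (hu0 : (153 / 200 : ℝ) < u) (hu1 : u ≤ (4 / 5 : ℝ))
    (h00 : (9 / 100 : ℝ) ≤ allStabI a b) (h01 : allStabI a b < (61 / 500 : ℝ))
    (h10 : (3 / 10 : ℝ) ≤ (b - a) / (allStabI a b)) (h11 : (b - a) / (allStabI a b) < (451 / 500 : ℝ))
    (hk : (b - a) * (1 - allStabI a b) ≤ (a + b) * allStabI a b) : Cell a b u := by
  have hI0 : 0 < allStabI a b := by linarith
  have e : a + b = 1 - 2 * allStabI a b := by simp only [allStabI]; ring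
  have hxl := (le_div_iff₀ hI0).1 h10
  have hxh := (div_lt_iff₀ hI0).1 h11
  exact ⟨pcS25, boxS25, winS25T, (161489 / 250000 : ℝ), (793 / 1000 : ℝ), certS25, winS25T_ok,
    ⟨rfl, rfl, rfl, rfl, by norm_num [fr, winS25T, pcS25], by norm_num [fr, pcS25], by norm_num [boxS25],
      by norm_num [fr, pcS25]⟩,
    { r₀ := ⟨by norm_num [boxS25], by norm_num [mkPt, pcS25, boxS25] <;> linarith, by norm_num [mkPt, pcS25, boxS25] <;> linarith⟩
      r₁ := ⟨by norm_num [boxS25], by norm_num [mkPt, pcS25, boxS25] <;> linarith, by norm_num [mkPt, pcS25, boxS25] <;> linarith⟩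
      ru := ⟨by norm_num [boxS25], by norm_num [boxS25] <;> linarith, by norm_num [boxS25] <;> linarith⟩
      rw' := ⟨by norm_num [winS25T], by norm_num [winS25T] <;> linarith, by norm_num [winS25T] <;> linarith⟩
      kap := hk
      low := ⟨by norm_num, by linarith⟩
      high := by linarith
      y₀ := by norm_num [qLo, qHi, boxS25]
      y₁ := by norm_num [qLo, qHi, boxS25]
      tight := fun _ => (by linarith)
      exit := by show 67 / 100 ≤ u; linarith
      band := fun h => ⟨(153, 160, 200), ⟨by norm_num, (show _ < u by norm_num <;> linarith), (show u ≤ _ by norm_num <;> linarith)⟩, bandS25⟩ }⟩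

theorem cellS26T {a b u : ℝ} (ha : 31 / 100 < a) (hd : 0 < b - a) (hI : 1 / 20 < allStabI a b)
    (hI7 : allStabI a b ≤ 1 / 7) (hu0 : (153 / 200 : ℝ) < u) (hu1 : u ≤ (4 / 5 : ℝ))
    (h00 : (61 / 500 : ℝ) ≤ allStabI a b) (h01 : allStabI a b < (143 / 1000 : ℝ))
    (h10 : (0 : ℝ) ≤ (b - a) / (allStabI a b)) (h11 : (b - a) / (allStabI a b) < (3 / 10 : ℝ))
    (hk : (b - a) * (1 - allStabI a b) ≤ (a + b) * allStabI a b) : Cell a b u := by
  have hI0 : 0 < allStabI a b := by linarith
  have e : a + b = 1 - 2 * allStabI a b := by simp only [allStabI]; ring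
  have hxl := (le_div_iff₀ hI0).1 h10
  have hxh := (div_lt_iff₀ hI0).1 h11
  exact ⟨pcS26, boxS26, winS26T, (6711 / 10000 : ℝ), (189 / 250 : ℝ), certS26, winS26T_ok,
    ⟨rfl, rfl, rfl, rfl, by norm_num [fr, winS26T, pcS26], by norm_num [fr, pcS26], by norm_num [boxS26],
      by norm_num [fr, pcS26]⟩,
    { r₀ := ⟨by norm_num [boxS26], by norm_num [mkPt, pcS26, boxS26] <;> linarith, by norm_num [mkPt, pcS26, boxS26] <;> linarith⟩
      r₁ := ⟨by norm_num [boxS26], by norm_num [mkPt, pcS26, boxS26] <;> linarith, by norm_num [mkPt, pcS26, boxS26] <;> linarith⟩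
      ru := ⟨by norm_num [boxS26], by norm_num [boxS26] <;> linarith, by norm_num [boxS26] <;> linarith⟩
      rw' := ⟨by norm_num [winS26T], by norm_num [winS26T] <;> linarith, by norm_num [winS26T] <;> linarith⟩
      kap := hk
      low := ⟨by norm_num, by linarith⟩
      high := by linarith
      y₀ := by norm_num [qLo, qHi, boxS26]
      y₁ := by norm_num [qLo, qHi, boxS26]
      tight := fun _ => (by linarith)
      exit := by show 67 / 100 ≤ u; linarith
      band := fun h => ⟨(153, 160, 200), ⟨by norm_num, (show _ < u by norm_num <;> linarith), (show u ≤ _ by norm_num <;> linarith)⟩, bandS26⟩ }⟩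

theorem cellS27T {a b u : ℝ} (ha : 31 / 100 < a) (hd : 0 < b - a) (hI : 1 / 20 < allStabI a b)
    (hI7 : allStabI a b ≤ 1 / 7) (hu0 : (153 / 200 : ℝ) < u) (hu1 : u ≤ (4 / 5 : ℝ))
    (h00 : (61 / 500 : ℝ) ≤ allStabI a b) (h01 : allStabI a b < (143 / 1000 : ℝ))
    (h10 : (3 / 10 : ℝ) ≤ (b - a) / (allStabI a b)) (h11 : (b - a) / (allStabI a b) < (431 / 500 : ℝ))
    (hk : (b - a) * (1 - allStabI a b) ≤ (a + b) * allStabI a b) : Cell a b u := by
  have hI0 : 0 < allStabI a b := by linarith
  have e : a + b = 1 - 2 * allStabI a b := by simp only [allStabI]; ring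
  have hxl := (le_div_iff₀ hI0).1 h10
  have hxh := (div_lt_iff₀ hI0).1 h11
  exact ⟨pcS27, boxS27, winS27T, (31 / 50 : ℝ), (3597 / 5000 : ℝ), certS27, winS27T_ok,
    ⟨rfl, rfl, rfl, rfl, by norm_num [fr, winS27T, pcS27], by norm_num [fr, pcS27], by norm_num [boxS27],
      by norm_num [fr, pcS27]⟩,
    { r₀ := ⟨by norm_num [boxS27], by norm_num [mkPt, pcS27, boxS27] <;> linarith, by norm_num [mkPt, pcS27, boxS27] <;> linarith⟩
      r₁ := ⟨by norm_num [boxS27], by norm_num [mkPt, pcS27, boxS27] <;> linarith, by norm_num [mkPt, pcS27, boxS27] <;> linarith⟩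
      ru := ⟨by norm_num [boxS27], by norm_num [boxS27] <;> linarith, by norm_num [boxS27] <;> linarith⟩
      rw' := ⟨by norm_num [winS27T], by norm_num [winS27T] <;> linarith, by norm_num [winS27T] <;> linarith⟩
      kap := hk
      low := ⟨by norm_num, by linarith⟩
      high := by linarith
      y₀ := by norm_num [qLo, qHi, boxS27]
      y₁ := by norm_num [qLo, qHi, boxS27]
      tight := fun _ => (by linarith)
      exit := by show 67 / 100 ≤ u; linarith
      band := fun h => ⟨(153, 160, 200), ⟨by norm_num, (show _ < u by norm_num <;> linarith), (show u ≤ _ by norm_num <;> linarith)⟩, bandS27⟩ }⟩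

theorem cellS28T {a b u : ℝ} (ha : 31 / 100 < a) (hd : 0 < b - a) (hI : 1 / 20 < allStabI a b)
    (hI7 : allStabI a b ≤ 1 / 7) (hu0 : (153 / 200 : ℝ) < u) (hu1 : u ≤ (4 / 5 : ℝ))
    (h00 : (93 / 2000 : ℝ) ≤ (b - a)) (h01 : (b - a) < (23 / 250 : ℝ))
    (h10 : (27 / 50 : ℝ) ≤ allStabI a b / (b - a)) (h11 : allStabI a b / (b - a) < (6 / 5 : ℝ))
    (hk : (a + b) * allStabI a b ≤ (b - a) * (1 - allStabI a b)) : Cell a b u := by
  have hI0 : 0 < allStabI a b := by linarith
  have e : a + b = 1 - 2 * allStabI a b := by simp only [allStabI]; ring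
  have hxl := (le_div_iff₀ hd).1 h10
  have hxh := (div_lt_iff₀ hd).1 h11
  exact ⟨pcS28, boxS28, winS28T, (859 / 1250 : ℝ), (9 / 10 : ℝ), certS28, winS28T_ok,
    ⟨rfl, rfl, rfl, rfl, by norm_num [fr, winS28T, pcS28], by norm_num [fr, pcS28], by norm_num [boxS28],
      by norm_num [fr, pcS28]⟩,
    { r₀ := ⟨by norm_num [boxS28], by norm_num [mkPt, pcS28, boxS28] <;> linarith, by norm_num [mkPt, pcS28, boxS28] <;> linarith⟩
      r₁ := ⟨by norm_num [boxS28], by norm_num [mkPt, pcS28, boxS28] <;> linarith, by norm_num [mkPt, pcS28, boxS28] <;> linarith⟩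
      ru := ⟨by norm_num [boxS28], by norm_num [boxS28] <;> linarith, by norm_num [boxS28] <;> linarith⟩
      rw' := ⟨by norm_num [winS28T], by norm_num [winS28T] <;> linarith, by norm_num [winS28T] <;> linarith⟩
      kap := hk
      low := ⟨by norm_num, by linarith⟩
      high := by linarith
      y₀ := by norm_num [qLo, qHi, boxS28]
      y₁ := by norm_num [qLo, qHi, boxS28]
      tight := fun _ => (by linarith)
      exit := by show 67 / 100 ≤ u; linarith
      band := fun h => ⟨(153, 160, 200), ⟨by norm_num, (show _ < u by norm_num <;> linarith), (show u ≤ _ by norm_num <;> linarith)⟩, bandS28⟩ }⟩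

theorem cellS29T {a b u : ℝ} (ha : 31 / 100 < a) (hd : 0 < b - a) (hI : 1 / 20 < allStabI a b)
    (hI7 : allStabI a b ≤ 1 / 7) (hu0 : (153 / 200 : ℝ) < u) (hu1 : u ≤ (4 / 5 : ℝ))
    (h00 : (23 / 250 : ℝ) ≤ (b - a)) (h01 : (b - a) < (11 / 100 : ℝ))
    (h10 : (9 / 20 : ℝ) ≤ allStabI a b / (b - a)) (h11 : allStabI a b / (b - a) < (6 / 5 : ℝ))
    (hk : (a + b) * allStabI a b ≤ (b - a) * (1 - allStabI a b)) : Cell a b u := by
  have hI0 : 0 < allStabI a b := by linarith
  have e : a + b = 1 - 2 * allStabI a b := by simp only [allStabI]; ring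
  have hxl := (le_div_iff₀ hd).1 h10
  have hxh := (div_lt_iff₀ hd).1 h11
  exact ⟨pcS29, boxS29, winS29T, (313 / 500 : ℝ), (2063 / 2500 : ℝ), certS29, winS29T_ok,
    ⟨rfl, rfl, rfl, rfl, by norm_num [fr, winS29T, pcS29], by norm_num [fr, pcS29], by norm_num [boxS29],
      by norm_num [fr, pcS29]⟩,
    { r₀ := ⟨by norm_num [boxS29], by norm_num [mkPt, pcS29, boxS29] <;> linarith, by norm_num [mkPt, pcS29, boxS29] <;> linarith⟩
      r₁ := ⟨by norm_num [boxS29], by norm_num [mkPt, pcS29, boxS29] <;> linarith, by norm_num [mkPt, pcS29, boxS29] <;> linarith⟩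
      ru := ⟨by norm_num [boxS29], by norm_num [boxS29] <;> linarith, by norm_num [boxS29] <;> linarith⟩
      rw' := ⟨by norm_num [winS29T], by norm_num [winS29T] <;> linarith, by norm_num [winS29T] <;> linarith⟩
      kap := hk
      low := ⟨by norm_num, by linarith⟩
      high := by linarith
      y₀ := by norm_num [qLo, qHi, boxS29]
      y₁ := by norm_num [qLo, qHi, boxS29]
      tight := fun _ => (by linarith)
      exit := by show 67 / 100 ≤ u; linarith
      band := fun h => ⟨(153, 160, 200), ⟨by norm_num, (show _ < u by norm_num <;> linarith), (show u ≤ _ by norm_num <;> linarith)⟩, bandS29⟩ }⟩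

theorem cellS30T {a b u : ℝ} (ha : 31 / 100 < a) (hd : 0 < b - a) (hI : 1 / 20 < allStabI a b)
    (hI7 : allStabI a b ≤ 1 / 7) (hu0 : (153 / 200 : ℝ) < u) (hu1 : u ≤ (4 / 5 : ℝ))
    (h00 : (1 / 20 : ℝ) ≤ allStabI a b) (h01 : allStabI a b < (27 / 200 : ℝ))
    (h10 : (11 / 100 : ℝ) ≤ (b - a)) (h11 : (b - a) < (7 / 50 : ℝ))
    (hk : (a + b) * allStabI a b ≤ (b - a) * (1 - allStabI a b)) : Cell a b u := by
  have hI0 : 0 < allStabI a b := by linarith
  have e : a + b = 1 - 2 * allStabI a b := by simp only [allStabI]; ring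
  exact ⟨pcS30, boxS30, winS30T, (31 / 50 : ℝ), (79 / 100 : ℝ), certS30, winS30T_ok,
    ⟨rfl, rfl, rfl, rfl, by norm_num [fr, winS30T, pcS30], by norm_num [fr, pcS30], by norm_num [boxS30],
      by norm_num [fr, pcS30]⟩,
    { r₀ := ⟨by norm_num [boxS30], by norm_num [mkPt, pcS30, boxS30] <;> linarith, by norm_num [mkPt, pcS30, boxS30] <;> linarith⟩
      r₁ := ⟨by norm_num [boxS30], by norm_num [mkPt, pcS30, boxS30] <;> linarith, by norm_num [mkPt, pcS30, boxS30] <;> linarith⟩
      ru := ⟨by norm_num [boxS30], by norm_num [boxS30] <;> linarith, by norm_num [boxS30] <;> linarith⟩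
      rw' := ⟨by norm_num [winS30T], by norm_num [winS30T] <;> linarith, by norm_num [winS30T] <;> linarith⟩
      kap := hk
      low := ⟨by norm_num, by linarith⟩
      high := by linarith
      y₀ := by norm_num [qLo, qHi, boxS30]
      y₁ := by norm_num [qLo, qHi, boxS30]
      tight := fun _ => (by linarith)
      exit := by show 67 / 100 ≤ u; linarith
      band := fun h => ⟨(153, 160, 200), ⟨by norm_num, (show _ < u by norm_num <;> linarith), (show u ≤ _ by norm_num <;> linarith)⟩, bandS30⟩ }⟩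

theorem cellS31T {a b u : ℝ} (ha : 31 / 100 < a) (hd : 0 < b - a) (hI : 1 / 20 < allStabI a b)
    (hI7 : allStabI a b ≤ 1 / 7) (hu0 : (153 / 200 : ℝ) < u) (hu1 : u ≤ (4 / 5 : ℝ))
    (h00 : (1 / 20 : ℝ) ≤ allStabI a b) (h01 : allStabI a b < (3 / 25 : ℝ))
    (h10 : (7 / 50 : ℝ) ≤ (b - a)) (h11 : (b - a) < (7 / 40 : ℝ))
    (hk : (a + b) * allStabI a b ≤ (b - a) * (1 - allStabI a b)) : Cell a b u := by
  have hI0 : 0 < allStabI a b := by linarith
  have e : a + b = 1 - 2 * allStabI a b := by simp only [allStabI]; ring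
  exact ⟨pcS31, boxS31, winS31T, (31 / 50 : ℝ), (19 / 25 : ℝ), certS31, winS31T_ok,
    ⟨rfl, rfl, rfl, rfl, by norm_num [fr, winS31T, pcS31], by norm_num [fr, pcS31], by norm_num [boxS31],
      by norm_num [fr, pcS31]⟩,
    { r₀ := ⟨by norm_num [boxS31], by norm_num [mkPt, pcS31, boxS31] <;> linarith, by norm_num [mkPt, pcS31, boxS31] <;> linarith⟩
      r₁ := ⟨by norm_num [boxS31], by norm_num [mkPt, pcS31, boxS31] <;> linarith, by norm_num [mkPt, pcS31, boxS31] <;> linarith⟩
      ru := ⟨by norm_num [boxS31], by norm_num [boxS31] <;> linarith, by norm_num [boxS31] <;> linarith⟩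
      rw' := ⟨by norm_num [winS31T], by norm_num [winS31T] <;> linarith, by norm_num [winS31T] <;> linarith⟩
      kap := hk
      low := ⟨by norm_num, by linarith⟩
      high := by linarith
      y₀ := by norm_num [qLo, qHi, boxS31]
      y₁ := by norm_num [qLo, qHi, boxS31]
      tight := fun _ => (by linarith)
      exit := by show 67 / 100 ≤ u; linarith
      band := fun h => ⟨(153, 160, 200), ⟨by norm_num, (show _ < u by norm_num <;> linarith), (show u ≤ _ by norm_num <;> linarith)⟩, bandS31⟩ }⟩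

theorem cellS32T {a b u : ℝ} (ha : 31 / 100 < a) (hd : 0 < b - a) (hI : 1 / 20 < allStabI a b)
    (hI7 : allStabI a b ≤ 1 / 7) (hu0 : (153 / 200 : ℝ) < u) (hu1 : u ≤ (4 / 5 : ℝ))
    (h00 : (1 / 20 : ℝ) ≤ allStabI a b) (h01 : allStabI a b < (103 / 1000 : ℝ))
    (h10 : (7 / 40 : ℝ) ≤ (b - a)) (h11 : (b - a) < (11 / 50 : ℝ))
    (hk : (a + b) * allStabI a b ≤ (b - a) * (1 - allStabI a b)) : Cell a b u := by
  have hI0 : 0 < allStabI a b := by linarith
  have e : a + b = 1 - 2 * allStabI a b := by simp only [allStabI]; ring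
  exact ⟨pcS32, boxS32, winS32T, (31 / 50 : ℝ), (29 / 40 : ℝ), certS32, winS32T_ok,
    ⟨rfl, rfl, rfl, rfl, by norm_num [fr, winS32T, pcS32], by norm_num [fr, pcS32], by norm_num [boxS32],
      by norm_num [fr, pcS32]⟩,
    { r₀ := ⟨by norm_num [boxS32], by norm_num [mkPt, pcS32, boxS32] <;> linarith, by norm_num [mkPt, pcS32, boxS32] <;> linarith⟩
      r₁ := ⟨by norm_num [boxS32], by norm_num [mkPt, pcS32, boxS32] <;> linarith, by norm_num [mkPt, pcS32, boxS32] <;> linarith⟩
      ru := ⟨by norm_num [boxS32], by norm_num [boxS32] <;> linarith, by norm_num [boxS32] <;> linarith⟩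
      rw' := ⟨by norm_num [winS32T], by norm_num [winS32T] <;> linarith, by norm_num [winS32T] <;> linarith⟩
      kap := hk
      low := ⟨by norm_num, by linarith⟩
      high := by linarith
      y₀ := by norm_num [qLo, qHi, boxS32]
      y₁ := by norm_num [qLo, qHi, boxS32]
      tight := fun _ => (by linarith)
      exit := by show 67 / 100 ≤ u; linarith
      band := fun h => ⟨(153, 160, 200), ⟨by norm_num, (show _ < u by norm_num <;> linarith), (show u ≤ _ by norm_num <;> linarith)⟩, bandS32⟩ }⟩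

theorem cellS33T {a b u : ℝ} (ha : 31 / 100 < a) (hd : 0 < b - a) (hI : 1 / 20 < allStabI a b)
    (hI7 : allStabI a b ≤ 1 / 7) (hu0 : (153 / 200 : ℝ) < u) (hu1 : u ≤ (4 / 5 : ℝ))
    (h00 : (1 / 20 : ℝ) ≤ allStabI a b) (h01 : allStabI a b < (2 / 25 : ℝ))
    (h10 : (11 / 50 : ℝ) ≤ (b - a)) (h11 : (b - a) < (7 / 25 : ℝ))
    (hk : (a + b) * allStabI a b ≤ (b - a) * (1 - allStabI a b)) : Cell a b u := by
  have hI0 : 0 < allStabI a b := by linarith
  have e : a + b = 1 - 2 * allStabI a b := by simp only [allStabI]; ring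
  exact ⟨pcS33, boxS33, winS33T, (31 / 50 : ℝ), (17 / 25 : ℝ), certS33, winS33T_ok,
    ⟨rfl, rfl, rfl, rfl, by norm_num [fr, winS33T, pcS33], by norm_num [fr, pcS33], by norm_num [boxS33],
      by norm_num [fr, pcS33]⟩,
    { r₀ := ⟨by norm_num [boxS33], by norm_num [mkPt, pcS33, boxS33] <;> linarith, by norm_num [mkPt, pcS33, boxS33] <;> linarith⟩
      r₁ := ⟨by norm_num [boxS33], by norm_num [mkPt, pcS33, boxS33] <;> linarith, by norm_num [mkPt, pcS33, boxS33] <;> linarith⟩
      ru := ⟨by norm_num [boxS33], by norm_num [boxS33] <;> linarith, by norm_num [boxS33] <;> linarith⟩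
      rw' := ⟨by norm_num [winS33T], by norm_num [winS33T] <;> linarith, by norm_num [winS33T] <;> linarith⟩
      kap := hk
      low := ⟨by norm_num, by linarith⟩
      high := by linarith
      y₀ := by norm_num [qLo, qHi, boxS33]
      y₁ := by norm_num [qLo, qHi, boxS33]
      tight := fun _ => (by linarith)
      exit := by show 67 / 100 ≤ u; linarith
      band := fun h => ⟨(153, 160, 200), ⟨by norm_num, (show _ < u by norm_num <;> linarith), (show u ≤ _ by norm_num <;> linarith)⟩, bandS33⟩ }⟩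

theorem cover_farA {a b u : ℝ} (ha : 31 / 100 < a) (hd : 0 < b - a) (hI : 1 / 20 < allStabI a b)
    (hI7 : allStabI a b ≤ 1 / 7) (hu0 : 153 / 200 < u) (hu1 : u ≤ 4 / 5) (hk : (b - a) * (1 - allStabI a b) ≤ (a + b) * allStabI a b) : Cell a b u := by
  have hI0 : 0 < allStabI a b := by linarith
  have e : a + b = 1 - 2 * allStabI a b := by simp only [allStabI]; ring
  have hkA : (b - a) * (1 - allStabI a b) ≤ (1 - 2 * allStabI a b) * allStabI a b := e ▸ hk
  rcases lt_or_ge (allStabI a b) (9 / 100 : ℝ) with g2 | g2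
  · exact cellS23T ha hd hI hI7 (by linarith) (by linarith) (by linarith) (by linarith) (div_nonneg hd.le hI0.le) (ratio_A hkA (l := (1 / 20 : ℝ)) (by linarith) hI0 (by linarith) (by norm_num) (by norm_num)) hk
  · rcases lt_or_ge (allStabI a b) (61 / 500 : ℝ) with g4 | g4
    · rcases lt_or_ge ((b - a) / allStabI a b) (3 / 10) with gx | gx
      · exact cellS24T ha hd hI hI7 (by linarith) (by linarith) (by linarith) (by linarith) (div_nonneg hd.le hI0.le) gx hk
      · exact cellS25T ha hd hI hI7 (by linarith) (by linarith) (by linarith) (by linarith) (by linarith) (ratio_A hkA (l := (9 / 100 : ℝ)) (by linarith) hI0 (by linarith) (by norm_num) (by norm_num)) hk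
    · rcases lt_or_ge ((b - a) / allStabI a b) (3 / 10) with gx | gx
      · exact cellS26T ha hd hI hI7 (by linarith) (by linarith) (by linarith) (by linarith) (div_nonneg hd.le hI0.le) gx hk
      · exact cellS27T ha hd hI hI7 (by linarith) (by linarith) (by linarith) (by linarith) (by linarith) (ratio_A hkA (l := (61 / 500 : ℝ)) (by linarith) hI0 (by linarith) (by norm_num) (by norm_num)) hk

theorem cover_farB {a b u : ℝ} (ha : 31 / 100 < a) (hd : 0 < b - a) (hI : 1 / 20 < allStabI a b)
    (hI7 : allStabI a b ≤ 1 / 7) (hu0 : 153 / 200 < u) (hu1 : u ≤ 4 / 5) (hk : (a + b) * allStabI a b < (b - a) * (1 - allStabI a b)) : Cell a b u := by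
  have hI0 : 0 < allStabI a b := by linarith
  have e : a + b = 1 - 2 * allStabI a b := by simp only [allStabI]; ring
  have hkB : (1 - 2 * allStabI a b) * allStabI a b < (b - a) * (1 - allStabI a b) := e ▸ hk
  have hdl := d_low hkB hI hI7
  rcases lt_or_ge (b - a) (23 / 250 : ℝ) with g2 | g2
  · exact cellS28T ha hd hI hI7 (by linarith) (by linarith) (by linarith) (by linarith) (by rw [le_div_iff₀ hd]; linarith) (ratio_B hkB hI0 hI7 hd) hk.le
  · rcases lt_or_ge (b - a) (11 / 100 : ℝ) with g4 | g4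
    · exact cellS29T ha hd hI hI7 (by linarith) (by linarith) (by linarith) (by linarith) (by rw [le_div_iff₀ hd]; linarith) (ratio_B hkB hI0 hI7 hd) hk.le
    · rcases lt_or_ge (b - a) (7 / 50 : ℝ) with g6 | g6
      · exact cellS30T ha hd hI hI7 (by linarith) (by linarith) (by linarith) (by linarith) (by linarith) (by linarith) hk.le
      · rcases lt_or_ge (b - a) (7 / 40 : ℝ) with g8 | g8
        · exact cellS31T ha hd hI hI7 (by linarith) (by linarith) (by linarith) (by linarith) (by linarith) (by linarith) hk.le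
        · rcases lt_or_ge (b - a) (11 / 50 : ℝ) with g10 | g10
          · exact cellS32T ha hd hI hI7 (by linarith) (by linarith) (by linarith) (by linarith) (by linarith) (by linarith) hk.le
          · exact cellS33T ha hd hI hI7 (by linarith) (by linarith) (by linarith) (by linarith) (by linarith) (by linarith) hk.le

/-- **Every point of the band up to `u = 4/5` has a cell.** -/
theorem cellsCoverFar : CellsCover (4 / 5) := by
  intro a b u ha hd hI hI7 hu0 hu1
  rcases le_or_gt u (153 / 200) with hu | hu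
  · exact cellsCover a b u ha hd hI hI7 hu0 hu
  rcases le_or_gt ((b - a) * (1 - allStabI a b)) ((a + b) * allStabI a b) with hk | hk
  · exact cover_farA ha hd hI hI7 hu hu1 hk
  · exact cover_farB ha hd hI hI7 hu hu1 hk

end Vale.Agent.P100.Calib.StripMid
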