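import Vale.Agent.P100.Calib.SlabStripMidSevCells
import Vale.Agent.P100.Calib.SlabStripMidOrbit

/-!
# The closed signs of the strip along orbits on `1/10 < u ≤ 153/200`, from dimension seven on
-/

set_option linter.unusedVariables false

open Set

namespace Vale.Agent.P100.Calib.StripMid

open Pack Band Bubble Chart

/-- **The closed signs of the strip on `1/10 < u ≤ 153/200`** in every dimension from seven on. -/
theorem orbit_signs_strip_mid7 {n : ℕ} (hn : 7 ≤ n) :
    OrbitSignsStrip n (fun r u => 0 < r ∧ 1 / 10 < u ∧ u ≤ 153 / 200) := by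
  rcases le_or_gt 20 n with h20 | h20
  · exact orbit_signs_strip_mid h20
  intro N p q R₀ R x y s dx dy hc hf hb hcb ha z hz hκ hZ
  obtain ⟨hR, hu0, hu1⟩ := hZ
  have hn7 : (7 : ℝ) ≤ n := by exact_mod_cast hn
  have hn19 : (n : ℝ) ≤ 19 := by exact_mod_cast (show n ≤ 19 by omega)
  have hlo := hcb.dim_low
  have hhi := hcb.dim_high (by omega)
  rw [← hb.dim_eq] at hlo hhi
  exact orbit_signs_sev (by norm_num) cellsCover hc hf hb (by linarith) (by linarith) ha hcb hz hR hu0 hu1

end Vale.Agent.P100.Calib.StripMid
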