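import Vale.Agent.P100.Calib.SlabStripMidSevWindow
import Vale.Agent.P100.Calib.SlabStripSevWindow
import Vale.Agent.P100.Calib.SlabMainOrbit

/-!
# The cells for `N` between seven and twenty and the tight band along orbits

A cell is a piece with a window that covers a point. If every point with `9/20 <= u <= 153/200` has
a cell, the tight band bounds `H` from above there.
-/

set_option linter.unusedVariables false

namespace Vale.Agent.P100.Calib.StripMid

open Set Pack Band Bubble Chart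

/-- The numbers of a piece and of one of its windows fit together. -/
structure CellFit (P : Piece) (B : Box) (w : Win) : Prop where
  kind : w.kind = P.kind
  q₀ : w.q₀ = B.q₀
  q₁ : w.q₁ = B.q₁
  qc : w.qc = B.qc
  z : fr w.z ≤ 47 / 50 * fr P.z
  z₀ : 0 ≤ fr P.z
  den : 0 < B.qY.2.2
  lin : 0 ≤ fr P.k₁ ∧ fr P.k₁ * (1 / 7) ≤ 4 / 25 * fr P.g₀

/-- A point lies in a piece and in one of its windows. -/
structure CellAt (P : Piece) (B : Box) (w : Win) (a b u m M : ℝ) : Prop where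
  r₀ : InR B.q₀ (mkPt P.kind (b - a) (allStabI a b) 0 u 0)
  r₁ : InR B.q₁ (mkPt P.kind (b - a) (allStabI a b) 0 u 1)
  ru : InU B.qu u
  rw' : InU w.qu u
  kap : match P.kind with
    | .A => (b - a) * (1 - allStabI a b) ≤ (a + b) * allStabI a b
    | _ => (a + b) * allStabI a b ≤ (b - a) * (1 - allStabI a b)
  low : 0 ≤ m ∧ m ≤ 2 * a
  high : 2 * a ≤ M
  y₀ : qLo B.qY * (1 - m * qLo B.qu) ≤ qLo B.qc * (m * qLo B.qu) ∧
    qLo B.qY * (1 - M * qHi B.qu) ≤ qLo B.qc * (M * qHi B.qu)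
  y₁ : qHi B.qc * (m * qLo B.qu) ≤ qHi B.qY * (1 - m * qLo B.qu) ∧
    qHi B.qc * (M * qHi B.qu) ≤ qHi B.qY * (1 - M * qHi B.qu)
  tight : w.tight = true → 9 / 20 ≤ u
  exit : cond w.top (67 / 100 ≤ u) (u ≤ 67 / 100)
  band : 9 / 20 ≤ u → ∃ qb, InU qb u ∧ Chk (w.chart qb w.qc) (sBand w.kind)

/-- Some piece covers the point. -/
def Cell (a b u : ℝ) : Prop :=
  ∃ (P : Piece) (B : Box) (w : Win) (m M : ℝ),
    Cert P B true ∧ w.Cert ∧ CellFit P B w ∧ CellAt P B w a b u m M

/-- Every point of the band up to `U` has a cell. -/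
def CellsCover (U : ℝ) : Prop :=
  ∀ a b u : ℝ, 31 / 100 < a → 0 < b - a → 1 / 20 < allStabI a b → allStabI a b ≤ 1 / 7 →
    1 / 10 < u → u ≤ U → Cell a b u

/-- A linear condition at both ends of a range holds on it. -/
theorem lin_range {p q w w₀ w₁ : ℝ} (h0 : 0 ≤ p + q * w₀) (h1 : 0 ≤ p + q * w₁) (g0 : w₀ ≤ w)
    (g1 : w ≤ w₁) : 0 ≤ p + q * w := by
  rcases le_total 0 q with hq | hq
  · linarith [mul_le_mul_of_nonneg_left g0 hq]
  · linarith [mul_le_mul_of_nonpos_left g1 hq]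

/-- The flow through the tight band at a point with a cell. -/
theorem tight_dot {a b u v H : ℝ} (hc : Cell a b u) (hu : 9 / 20 ≤ u) (hP : SevPlace a b u v)
    (hfl : 0 < allFlow a b u v H) (hs : H * (100 * (b - u * a)) ≤ stripSevN a b u v)
    (hl : 0 ≤ stripSevLow a b u v H) (hL : u ≤ 67 / 100 → 0 ≤ stripSevLeft a b u v H)
    (hT : 67 / 100 ≤ u → 0 ≤ stripTop a b u v H) (hF : stripTight7 a b u v H = 0) :
    0 < allDot a b u v H (tightNu a b u v + H * (100 * a)) (tightK a b u)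
      (-(100 * (b - u * a))) := by
  obtain ⟨P, B, w, m, M, -, C, hf, ha⟩ := hc
  obtain ⟨qb, hqb, K⟩ := ha.band hu
  have he : H * (100 * (b - u * a)) ≤ bandN w.tight a b u v := by
    cases w.tight
    · exact hs
    · simp only [stripTight7, sub_eq_zero] at hF
      exact hF.ge
  have hX : 0 ≤ exitBand w.top a b u v H := by
    have := ha.exit
    cases hw : w.top <;> rw [hw] at this
    · exact hL this
    · exact hT this
  exact C.band K hP (hf.q₀ ▸ hf.kind ▸ ha.r₀) (hf.q₁ ▸ hf.kind ▸ ha.r₁) ha.rw' hqb he hX hl hfl hF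

/-- The signs at a point with a cell. -/
theorem signs_cell {n : ℕ} {a b u v t : ℝ} (hc : Cell a b u) (hP : SevPlace a b u v)
    (hcb : Closed.All.ChartBox n (b - a) (a + b))
    (hfa : Closed.All.ChartFacts (b - a) (a + b) u v t) {H : ℝ}
    (eH : Closed.chH (b - a) (a + b) u v t = H)
    (hfl : 0 < allFlow a b u v H) (hden : 0 < allDen a b u v H)
    (hs : H * (100 * (b - u * a)) ≤ stripSevN a b u v)
    (ht : 9 / 20 ≤ u → H * (100 * (b - u * a)) ≤ tightN a b u v)
    (hl : 0 ≤ stripSevLow a b u v H) (hL : u ≤ 67 / 100 → 0 ≤ stripSevLeft a b u v H)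
    (hT : 67 / 100 ≤ u → 0 ≤ stripTop a b u v H) :
    Closed.Strip.ChartSigns (b - a) (a + b) u v t := by
  obtain ⟨P, B, w, m, M, K, C, hf, ha⟩ := hc
  have he : H * (100 * (b - u * a)) ≤ bandN w.tight a b u v := by
    have := ha.tight
    cases hw : w.tight
    · exact hs
    · exact ht (this hw)
  have hX : 0 ≤ exitBand w.top a b u v H := by
    have := ha.exit
    cases hw : w.top <;> rw [hw] at this
    · exact hL this
    · exact hT this
  obtain ⟨c, hcr, hrel, hflow⟩ :=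
    C.window hP (hf.q₀ ▸ hf.kind ▸ ha.r₀) (hf.q₁ ▸ hf.kind ▸ ha.r₁) ha.rw' he hX hl hfl
  rw [hf.qc] at hcr
  obtain ⟨hI20, hI7, ha31, hd, hu0, hu1, -, -, -, -⟩ := hP
  have eI : (1 - (a + b)) / 2 = allStabI a b := by simp only [allStabI]
  have eA : a + b - (b - a) = 2 * a := by ring
  have eB : (a + b + (b - a)) / 2 = b := by ring
  have eA' : (a + b - (b - a)) / 2 = a := by ring
  obtain ⟨ω, hω⟩ : ∃ ω, ω = 2 * a * u := ⟨_, rfl⟩
  have hω1 : 0 < 1 - ω := by
    have : 2 * a < 1 := by simp only [allStabI] at hI20; linarith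
    have := mul_lt_mul_of_pos_right this hu0
    linarith
  have hω0 : 0 < ω := by rw [hω]; positivity
  obtain ⟨Y, hY⟩ : ∃ Y, Y = c * ω / (1 - ω) := ⟨_, rfl⟩
  have eY : Y * (1 - ω) = c * ω := by rw [hY, div_mul_cancel₀ _ hω1.ne']
  have hum : m * qLo B.qu ≤ ω := by
    rw [hω]
    exact (mul_le_mul_of_nonneg_left ha.ru.2.1.le ha.low.1).trans
      (mul_le_mul_of_nonneg_right ha.low.2 hu0.le)
  have huM : ω ≤ M * qHi B.qu := by
    rw [hω]
    exact mul_le_mul ha.high ha.ru.2.2 hu0.le (by linarith [ha.high])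
  refine chartSigns_of_cert_sev K hcb ⟨hfa, hd, ?_, ?_, ?_, ?_, ⟨c, Y, hcr, ⟨hf.den, ?_, ?_⟩, ?_, ?_⟩,
    ?_, ?_, ha.ru, ?_, ?_, ?_⟩
  · simp only [allStabI] at hI20; linarith
  · rw [eI]; exact hI20.le
  · rw [eI]; exact hI7
  · rw [eA']; exact ha31
  · show qLo B.qY ≤ Y
    have h1 := lin_range (p := -qLo B.qY) (q := qLo B.qY + qLo B.qc) (w := ω)
      (by linarith [ha.y₀.1]) (by linarith [ha.y₀.2]) hum huM
    have h2 := mul_le_mul_of_nonneg_right (show qLo B.qc ≤ c from hcr.2.1) hω0.le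
    rw [hY, le_div_iff₀ hω1]
    linarith
  · show Y < qHi B.qY
    have h1 := lin_range (p := qHi B.qY) (q := -(qHi B.qY + qHi B.qc)) (w := ω)
      (by linarith [ha.y₁.1]) (by linarith [ha.y₁.2]) hum huM
    have h2 := mul_lt_mul_of_pos_right (show c < qHi B.qc from hcr.2.2) hω0
    rw [hY, div_lt_iff₀ hω1]
    linarith
  · have e : v * (1 - ω) = (1 - (a + b)) * (1 + Y) * (1 - ω) := by
      rw [hω, hrel, ← hω, ← eI]
      linear_combination (-(1 - (a + b))) * eY
    exact mul_right_cancel₀ hω1.ne' e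
  · rw [eA, ← hω]; exact eY
  · rw [eI]; exact ha.r₀
  · rw [eI]; exact ha.r₁
  · rw [eI]; exact ha.kap
  · rw [eI]
    exact (mul_le_mul_of_nonneg_left hI7 hf.lin.1).trans hf.lin.2
  · rw [eA', eB, eI, eH]
    refine hflow.trans (mul_le_mul_of_nonneg_right ?_ (mul_nonneg (by linarith) hden.le))
    have hS : a + b = 1 - 2 * allStabI a b := by simp only [allStabI]; ring
    have hk : (47 : ℝ) / 50 ≤ (a + b) * (1 + 20 / 9 * allStabI a b) := by
      rw [hS]
      linarith [mul_nonneg (sub_nonneg.2 hI7) (show 0 ≤ allStabI a b by linarith)]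
    have hz : (0 : ℝ) ≤ fr P.z := hf.z₀
    exact hf.z.trans (le_of_le_of_eq (mul_le_mul_of_nonneg_left hk hz |>.trans_eq' (by ring))
      (by ring))

variable {N p q : ℝ} {S : Set ℝ} {R x y s dx dy : ℝ → ℝ}

/-- **The tight band on orbits** for real `N ∈ [7, 20)` and `31/100 < 1/(p+1)`. -/
theorem orbit_strip_tight {U : ℝ} (hU : U ≤ 4 / 5) (hcov : CellsCover U) (hf : IsOrbitFns N p q S R x y s dx dy)
    (hb : SlabBoxAll N (1 / (p + 1)) (1 / (q + 1))) (h7 : 7 ≤ N) (h20 : N < 20)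
    (ha : 31 / 100 < 1 / (p + 1)) {w : ℝ} (hw : w ∈ S) (hw0 : 0 < R w)
    (hu0 : 9 / 20 ≤ uOf N (R w) (x w)) (hu1 : uOf N (R w) (x w) ≤ U) :
    0 < stripTight7 (1 / (p + 1)) (1 / (q + 1)) (uOf N (R w) (x w))
      (vOf (1 / (p + 1)) (1 / (q + 1)) (y w / x w))
      (hOf N (R w) (x w) (y w) w / (1 / (q + 1) - 1 / (p + 1))) := by
  obtain ⟨ha0, hb0, hd, -⟩ := hb.facts
  have hN : 0 < N := by linarith
  have hIN : N * allStabI (1 / (p + 1)) (1 / (q + 1)) = 1 := by
    have := hb.dim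
    simp only [allStabI]
    linarith
  refine forward_step_all hf hb (u₀ := 9 / 20) (u₁ := U) (K := 300) (by norm_num)
    (hasGrad_stripTight7 _ _) (continuous_stripTight7 _ _)
    (fun u v H => H * (100 * (1 / (q + 1) - u * (1 / (p + 1)))) <
        stripSevN (1 / (p + 1)) (1 / (q + 1)) u v ∧
      0 ≤ stripSevLow (1 / (p + 1)) (1 / (q + 1)) u v H ∧
      (u ≤ 67 / 100 → 0 ≤ stripSevLeft (1 / (p + 1)) (1 / (q + 1)) u v H) ∧
      (67 / 100 ≤ u → 0 ≤ stripTop (1 / (p + 1)) (1 / (q + 1)) u v H))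
    (fun z hz hz0 hzu => ⟨?_, orbit_strip_sev_low hf hb h7 h20 ha hz hz0,
      fun h => (orbit_strip_sev_left hf hb h7 h20 ha hz hz0 h).le,
      fun h => orbit_strip_sev_top hf hb h7 h20 ha hz hz0 h⟩)
    (fun v hlo _ _ => ?_) (fun u v H hP _ hu hE => ?_) (fun u v H hP _ hu hu' hE hF => ?_)
    hw hw0 hu0 hu1
  · have h := orbit_strip_sev hf hb h7 h20 ha hz hz0 (by linarith)
    have hu' := (orbit_point_all hf hb hz hz0).1.u_lt
    rw [stripSev, (allPole_eq hu'.le).1] at h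
    have hpos : 0 < 1 / (q + 1) - uOf N (R z) (x z) * (1 / (p + 1)) := by
      have := mul_lt_mul_of_pos_right hu' ha0
      linarith
    rwa [lt_div_iff₀ (by positivity)] at h
  · generalize 1 / (p + 1) = al at *
    generalize 1 / (q + 1) = be at *
    have hI0 : 0 < allStabI al be := pos_of_mul_pos_right (hIN ▸ one_pos) hN.le
    have hI7 : allStabI al be ≤ 1 / 7 := by
      refine le_of_mul_le_mul_left (a := N) ?_ hN
      linarith [mul_le_mul_of_nonneg_right h7 hI0.le]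
    have hl : 2 * allStabI al be ≤ (1 + 2 * al * allStabI al be) * v := by
      refine le_of_mul_le_mul_left (a := N) ?_ hN
      have e : N * ((1 + 2 * al * allStabI al be) * v) = (N + 2 * al) * v := by
        linear_combination 2 * al * v * hIN
      linarith
    have h := stripSev_start hI0 hI7 ha hd hl
    rw [stripSev, (allPole_eq zero_le_one).1, zero_mul, sub_zero,
      le_div_iff₀ (by positivity)] at h
    have h1 : 1 - 3 * (be - al) ≤ 1 := by linarith
    have h2 := mul_le_mul_of_nonneg_left h1 hI0.le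
    simp only [stripTight7, tightN]
    linarith
  · obtain ⟨h, -⟩ := hE
    have hP' := sevPlace_of hb h7 h20 ha hP.u_pos hP.u_lt hP.toVRange
    generalize 1 / (p + 1) = al at *
    generalize 1 / (q + 1) = be at *
    have hI : 0 ≤ allStabI al be := by linarith [hP'.I_gt]
    have hI7 := hP'.I_le
    have hk : 0 ≤ 1 - 3 * (be - al) := by
      have := hP'.I_gt
      simp only [allStabI] at this
      linarith [hP'.a_gt]
    have hk1 : 1 - 3 * (be - al) ≤ 1 := by linarith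
    obtain ⟨τ, hτ⟩ : ∃ τ, τ = 9 / 20 - u := ⟨_, rfl⟩
    have ht : 0 ≤ τ := by linarith
    have h3 := mul_le_mul (mul_le_mul hI7 hk1 hk (by norm_num)) (le_refl (τ * τ))
      (mul_self_nonneg τ) (by norm_num)
    have h4 := mul_nonneg (mul_nonneg hI hk) ht
    have h5 := mul_self_nonneg τ
    simp only [stripTight7, tightN, show u - 9 / 20 = -τ by linarith, ← hτ]
    linarith
  · obtain ⟨hs, hl, hL, hT⟩ := hE
    exact tight_dot (hcov _ _ u ha hd (sevPlace_of hb h7 h20 ha hP.u_pos hP.u_lt hP.toVRange).I_gt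
      (sevPlace_of hb h7 h20 ha hP.u_pos hP.u_lt hP.toVRange).I_le (by linarith) hu') hu
      (sevPlace_of hb h7 h20 ha hP.u_pos hP.u_lt hP.toVRange) hP.flow_pos hs.le hl hL hT hF

/-- **The signs on orbits** for real `N ∈ [7, 20)`, given the cells. -/
theorem orbit_signs_sev {n : ℕ} {U : ℝ} (hU : U ≤ 4 / 5) (hcov : CellsCover U) (hc : IsCrit N p q)
    (hf : IsOrbitFns N p q S R x y s dx dy)
    (hb : SlabBoxAll N (1 / (p + 1)) (1 / (q + 1))) (h7 : 7 ≤ N) (h20 : N < 20)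
    (ha : 31 / 100 < 1 / (p + 1))
    (hcb : Closed.All.ChartBox n (1 / (q + 1) - 1 / (p + 1)) (1 / (p + 1) + 1 / (q + 1)))
    {z : ℝ} (hz : z ∈ S) (hR : 0 < R z) (hu0 : 1 / 10 < uOf N (R z) (x z))
    (hu1 : uOf N (R z) (x z) ≤ U) :
    Closed.Strip.ChartSigns (1 / (q + 1) - 1 / (p + 1)) (1 / (p + 1) + 1 / (q + 1))
      (uOf N (R z) (x z)) (vOf (1 / (p + 1)) (1 / (q + 1)) (y z / x z))
      (slopeAt N p q R x y dx dy z) := by
  obtain ⟨ha0, hb0, hd, -⟩ := hb.facts
  have hP := (orbit_point_all hf hb hz hR).1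
  have hP' := sevPlace_of hb h7 h20 ha hP.u_pos hP.u_lt hP.toVRange
  obtain ⟨-, eH⟩ := slopeAt_eq_all hc hf hb hz hR.ne'
  have hu' := hP.u_lt
  have hpos : 0 < 1 / (q + 1) - uOf N (R z) (x z) * (1 / (p + 1)) := by
    have := mul_lt_mul_of_pos_right hu' ha0
    linarith
  have hs := orbit_strip_sev hf hb h7 h20 ha hz hR (by linarith)
  rw [stripSev, (allPole_eq hu'.le).1, lt_div_iff₀ (by positivity)] at hs
  refine signs_cell (hcov _ _ _ ha hd hP'.I_gt hP'.I_le hu0 hu1) hP' hcb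
    (chartFacts_orbit_all hc hf hb hz hR) (H := hOf N (R z) (x z) (y z) z / (1 / (q + 1) - 1 / (p + 1)))
    ?_ hP.flow_pos hP.den_pos hs.le (fun h => ?_) (orbit_strip_sev_low hf hb h7 h20 ha hz hR)
    (fun h => (orbit_strip_sev_left hf hb h7 h20 ha hz hR h).le)
    (fun h => orbit_strip_sev_top hf hb h7 h20 ha hz hR h)
  · rw [eq_div_iff hd.ne']
    linarith
  · have := orbit_strip_tight hU hcov hf hb h7 h20 ha hz hR h hu1
    simp only [stripTight7] at this
    linarith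

end Vale.Agent.P100.Calib.StripMid
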