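import Vale.Agent.P100.Calib.SlabStripMidSevBands
import Vale.Agent.P100.Calib.SlabStripMidSevChart

/-!
# The window of a piece for `N` between seven and twenty

Three checks: left of the window the upper band is below the lower one, right of it the Flow is not
positive below the exit band, and in it the Flow is small below a weighted sum of the two.
-/

set_option linter.unusedVariables false

namespace Vale.Agent.P100.Calib.StripMid

open Pack Band

/-- The data of a window. -/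
structure Win where
  kind : Kind
  (q₀ q₁ qlo qc qhi qu : ℤ × ℤ × ℕ)
  (tight top : Bool)
  m : ℤ × ℤ
  z : ℤ × ℕ

/-- The charts of a range of `c`. -/
def Win.chart (w : Win) (qu q : ℤ × ℤ × ℕ) : ℕ → Chart
  | 0 => side w.q₀
  | 1 => side w.q₁
  | 2 => side q
  | _ => sideUp qu

/-- The lower end of a range. -/
noncomputable def qLo (q : ℤ × ℤ × ℕ) : ℝ := (q.1 : ℝ) / q.2.2

/-- The upper end of a range. -/
noncomputable def qHi (q : ℤ × ℤ × ℕ) : ℝ := (q.2.1 : ℝ) / q.2.2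

/-- The numbers of a window fit together. -/
structure Win.Fits (w : Win) : Prop where
  den : 0 < w.qlo.2.2 ∧ 0 < w.qc.2.2 ∧ 0 < w.qhi.2.2 ∧ 0 < w.z.2 ∧ 0 ≤ w.z.1
  u : 0 < qLo w.qu
  low : qHi w.qlo = qLo w.qc ∧ qLo w.qlo * (7 * qLo w.qu) ≤ -1
  high : qLo w.qhi = qHi w.qc ∧
    969 / 31 * (1 - 62 / 100 * qLo w.qu) ≤ qHi w.qhi * (62 / 100 * qLo w.qu)
  m₀ : 0 ≤ (w.m.1 : ℝ) + w.m.2 * qLo w.qu ∧ (w.m.1 : ℝ) + w.m.2 * qLo w.qu ≤ 100
  m₁ : 0 ≤ (w.m.1 : ℝ) + w.m.2 * qHi w.qu ∧ (w.m.1 : ℝ) + w.m.2 * qHi w.qu ≤ 100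

/-- The checks of a window. -/
structure Win.Cert (w : Win) : Prop where
  fits : w.Fits
  cross : Chk (w.chart w.qu w.qlo) (sCross w.kind w.tight)
  exit : Chk (w.chart w.qu w.qhi) (sExit w.kind w.top)
  mix : Chk (w.chart w.qu w.qc) (sMix w.kind w.tight w.top w.m w.z.1 w.z.2)

variable {w : Win} {a b u v : ℝ}

/-- The point with `c` for `Y`. -/
theorem sevAt_mk {K : Kind} {c : ℝ} (hP : SevPlace a b u v)
    (hc : v * (1 - 2 * a * u) = 2 * allStabI a b * ((1 - 2 * a * u) + c * (2 * a * u))) :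
    SevAt K (mkPt K (b - a) (allStabI a b) c u) a b u v := by
  have hd := hP.d_pos.ne'
  have hI : allStabI a b ≠ 0 := by linarith [hP.I_gt]
  have e1 : (kI K).eval (mkPt K (b - a) (allStabI a b) c u) = allStabI a b := by
    cases K <;> simp [kI, Ex.eval, mkPt, hd]
  have e2 : (kD K).eval (mkPt K (b - a) (allStabI a b) c u) = b - a := by
    cases K <;> simp [kD, Ex.eval, mkPt, hI]
  have eS : a + b = 1 - 2 * allStabI a b := by simp only [allStabI]; ring
  have e3 : (kS K).eval (mkPt K (b - a) (allStabI a b) c u) = a + b := by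
    show ((1 : ℤ) : ℝ) - ((2 : ℤ) : ℝ) * (kI K).eval _ = _
    rw [e1, eS]; norm_num
  have e4 : (kA K).eval (mkPt K (b - a) (allStabI a b) c u) = 2 * a := by
    show (kS K).eval _ - (kD K).eval _ = _
    rw [e3, e2]; ring
  have e5 : (kB K).eval (mkPt K (b - a) (allStabI a b) c u) = 2 * b := by
    show (kS K).eval _ + (kD K).eval _ = _
    rw [e3, e2]; ring
  have e6 : (uE K).eval (mkPt K (b - a) (allStabI a b) c u) = 1 - 2 * a * u := by
    show ((1 : ℤ) : ℝ) - (kA K).eval _ * u = _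
    rw [e4]; norm_num
  refine ⟨e1, e2, e4, e5, e3, rfl, e6, ?_⟩
  show ((2 : ℤ) : ℝ) * (kI K).eval _ * ((uE K).eval _ + c * ((kA K).eval _ * u)) = _
  rw [e1, e6, e4, hc]; norm_num

/-- A check at the point. -/
theorem sev_check {K : Kind} {e : Ex} {C : ℕ → Chart} {q₀ q₁ qu q : ℤ × ℤ × ℕ} {c : ℝ}
    (h : Chk C e) (hC : C 0 = side q₀ ∧ C 1 = side q₁ ∧ C 2 = side q ∧ C 3 = sideUp qu)
    (h0 : InR q₀ (mkPt K (b - a) (allStabI a b) 0 u 0))
    (h1 : InR q₁ (mkPt K (b - a) (allStabI a b) 0 u 1)) (hc : InR q c) (hu : InU qu u) :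
    0 ≤ e.eval (mkPt K (b - a) (allStabI a b) c u) := by
  refine h.nonneg fun i hi => ?_
  interval_cases i
  · rw [hC.1]; exact side_mem h0
  · rw [hC.2.1]; exact side_mem h1
  · rw [hC.2.2.1]; exact side_mem hc
  · rw [hC.2.2.2]; exact sideUp_mem hu

/-- The extreme ends of `c`. -/
theorem sev_extremes {c l : ℝ} (hP : SevPlace a b u v) (hl0 : 0 < l) (hl : l < u)
    (hc : v * (1 - 2 * a * u) = 2 * allStabI a b * ((1 - 2 * a * u) + c * (2 * a * u))) :
    -1 < c * (7 * l) ∧ c * (62 / 100 * l) < 969 / 31 * (1 - 62 / 100 * l) := by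
  have he : 0 < 1 - 2 * a * u := (sevPos_of hP).e
  obtain ⟨hI20, hI7, ha, hd, hu, hu1, hv, hav, hlo, -⟩ := hP
  obtain ⟨I, hI⟩ : ∃ I, I = allStabI a b := ⟨_, rfl⟩
  rw [← hI] at hc hI20 hI7 hlo
  obtain ⟨e, hee⟩ : ∃ e, e = 1 - 2 * a * u := ⟨_, rfl⟩
  obtain ⟨w, hw⟩ : ∃ w, w = 2 * a * u := ⟨_, rfl⟩
  rw [← hee] at hc he
  rw [← hw] at hc
  have hew : e = 1 - w := by rw [hee, hw]
  have hI0 : 0 < I := by linarith
  have ha0 : 0 < a := by linarith
  have hk : 0 < 1 + 2 * a * I := by positivity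
  have hw0 : 0 < w := by rw [hw]; positivity
  have hwl : 62 / 100 * l < w := by
    rw [hw]
    exact mul_lt_mul'' (by linarith) hl (by norm_num) hl0.le
  constructor
  · have h1 : -(2 * a * I * e) < (1 + 2 * a * I) * (c * w) := by
      have := mul_lt_mul_of_pos_right hlo he
      refine lt_of_mul_lt_mul_left (a := 2 * I) ?_ (by linarith)
      calc 2 * I * -(2 * a * I * e) < (1 + 2 * a * I) * v * e - (1 + 2 * a * I) * (2 * I * e) := by
            linarith
        _ = 2 * I * ((1 + 2 * a * I) * (c * w)) := by linear_combination (1 + 2 * a * I) * hc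
    by_contra hn
    rw [not_lt] at hn
    have hcn : c ≤ 0 := by
      by_contra hp
      have := mul_pos (not_le.1 hp) (show 0 < 7 * l by positivity)
      linarith
    have hlw : 7 * (2 * a * l) ≤ 7 * w := by
      rw [hw]
      linarith [mul_le_mul_of_nonneg_left hl.le (show 0 ≤ 2 * a by linarith)]
    have h2 : c * (7 * w) ≤ c * (7 * (2 * a * l)) := mul_le_mul_of_nonpos_left hlw hcn
    have h3 := mul_le_mul_of_nonneg_left hn (show 0 ≤ 2 * a by linarith)
    have h4 := mul_le_mul_of_nonneg_left (show e ≤ 1 by linarith) (show 0 ≤ 2 * a * I by positivity)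
    have h5 := mul_le_mul_of_nonneg_left hI7 (show 0 ≤ 2 * a by linarith)
    have h6 : (1 + 2 * a * I) * (c * w) ≤ c * w := by
      linarith [mul_nonpos_of_nonpos_of_nonneg (mul_nonpos_of_nonpos_of_nonneg hcn hw0.le)
        (show 0 ≤ 2 * a * I by positivity)]
    linarith
  · have h1 : 2 * I * (e + c * w) * a < e := by
      rw [← hc, show v * e * a = a * v * e by ring]
      exact mul_lt_of_lt_one_left he hav
    rcases le_or_gt c 0 with hc0 | hc0
    · have : 0 < 1 - 62 / 100 * l := by linarith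
      linarith [mul_nonpos_of_nonpos_of_nonneg hc0 (show 0 ≤ 62 / 100 * l by linarith)]
    have h2 : 31 / 1000 * (c * w) < (1 - 31 / 1000) * e := by
      have h3 : 31 / 1000 * (e + c * w) ≤ 2 * I * (e + c * w) * a := by
        have := mul_le_mul (show (1 : ℝ) / 10 ≤ 2 * I by linarith) ha.le (by norm_num) (by linarith)
        have := mul_le_mul_of_nonneg_right this (show 0 ≤ e + c * w by positivity)
        linarith
      linarith
    have h4 := mul_le_mul_of_nonneg_left hwl.le hc0.le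
    linarith

/-- **The window.** -/
theorem Win.Cert.window (C : w.Cert) (hP : SevPlace a b u v)
    (h0 : InR w.q₀ (mkPt w.kind (b - a) (allStabI a b) 0 u 0))
    (h1 : InR w.q₁ (mkPt w.kind (b - a) (allStabI a b) 0 u 1)) (hu : InU w.qu u) {H : ℝ}
    (hN : H * (100 * (b - u * a)) ≤ bandN w.tight a b u v)
    (hX : 0 ≤ exitBand w.top a b u v H) (hl : 0 ≤ stripSevLow a b u v H)
    (hfl : 0 < allFlow a b u v H) :
    ∃ c, InR w.qc c ∧ v * (1 - 2 * a * u) =
        2 * allStabI a b * ((1 - 2 * a * u) + c * (2 * a * u)) ∧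
      allFlow a b u v H ≤ fr w.z * (allStabI a b * allDen a b u v H) := by
  obtain ⟨⟨dl, dc, dh, dz, hz⟩, hu0, ⟨el, hlow⟩, ⟨eh, hhigh⟩, m0, m1⟩ := C.fits
  have hp := sevPos_of hP
  have ha : 0 < a := by linarith [hP.a_gt]
  have hu' := hP.u_pos
  have hI := hp.I
  obtain ⟨c, hc⟩ : ∃ c, c = (v - 2 * allStabI a b) * (1 - 2 * a * u) /
      (2 * allStabI a b * (2 * a * u)) := ⟨_, rfl⟩
  have hrel : v * (1 - 2 * a * u) =
      2 * allStabI a b * ((1 - 2 * a * u) + c * (2 * a * u)) := by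
    rw [hc]; field_simp; ring
  have A := sevAt_mk (K := w.kind) hP hrel
  obtain ⟨e0, e1⟩ := sev_extremes hP hu0 hu.2.1 hrel
  have hcl : qLo w.qc ≤ c := by
    by_contra hn
    refine cross_false A hp (sev_check C.cross ⟨rfl, rfl, rfl, rfl⟩ h0 h1
      ⟨dl, ?_, (show c < qHi w.qlo by rw [el]; exact not_le.1 hn)⟩ hu) hN hl
    refine le_of_mul_le_mul_right (a := 7 * qLo w.qu) ?_ (by positivity)
    show qLo w.qlo * _ ≤ _
    linarith
  have hch : c < qHi w.qc := by
    by_contra hn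
    refine exit_false A hp hu' (sev_check C.exit ⟨rfl, rfl, rfl, rfl⟩ h0 h1
      ⟨dh, (show qLo w.qhi ≤ c by rw [eh]; exact not_lt.1 hn), ?_⟩ hu) hX hfl
    refine lt_of_mul_lt_mul_right (a := 62 / 100 * qLo w.qu) ?_ (by positivity)
    show _ < qHi w.qhi * _
    linarith
  refine ⟨c, ⟨dc, hcl, hch⟩, hrel, ?_⟩
  have hq : (0 : ℤ) < w.z.2 := by exact_mod_cast dz
  have hml : 0 ≤ (w.m.1 : ℝ) + w.m.2 * u ∧ (w.m.1 : ℝ) + w.m.2 * u ≤ 100 := by
    have hl' : qLo w.qu ≤ u := hu.2.1.le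
    have hh' : u ≤ qHi w.qu := hu.2.2
    rcases le_total 0 (w.m.2 : ℝ) with hm | hm
    · exact ⟨by linarith [mul_le_mul_of_nonneg_left hl' hm],
        by linarith [mul_le_mul_of_nonneg_left hh' hm]⟩
    · exact ⟨by linarith [mul_le_mul_of_nonpos_left hh' hm],
        by linarith [mul_le_mul_of_nonpos_left hl' hm]⟩
  have := mix_le A hp hu' hz hq hml.1 hml.2
    (sev_check C.mix ⟨rfl, rfl, rfl, rfl⟩ h0 h1 ⟨dc, hcl, hch⟩ hu) hN hX
  simpa only [fr, Int.cast_natCast] using this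

/-- **The flow through the tight band in a window.** -/
theorem Win.Cert.band (C : w.Cert) {qb : ℤ × ℤ × ℕ} (B : Chk (w.chart qb w.qc) (sBand w.kind))
    (hP : SevPlace a b u v) (h0 : InR w.q₀ (mkPt w.kind (b - a) (allStabI a b) 0 u 0))
    (h1 : InR w.q₁ (mkPt w.kind (b - a) (allStabI a b) 0 u 1)) (hu : InU w.qu u) (hb : InU qb u)
    {H : ℝ} (hN : H * (100 * (b - u * a)) ≤ bandN w.tight a b u v)
    (hX : 0 ≤ exitBand w.top a b u v H) (hl : 0 ≤ stripSevLow a b u v H)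
    (hfl : 0 < allFlow a b u v H) (hF : stripTight7 a b u v H = 0) :
    0 < allDot a b u v H (tightNu a b u v + H * (100 * a)) (tightK a b u)
      (-(100 * (b - u * a))) := by
  obtain ⟨c, hc, hrel, -⟩ := C.window hP h0 h1 hu hN hX hl hfl
  exact band_dot (sevAt_mk hP hrel) (sevPos_of hP)
    (sev_check B ⟨rfl, rfl, rfl, rfl⟩ h0 h1 hc hb) hF

end Vale.Agent.P100.Calib.StripMid
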