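import Vale.Agent.P100.Calib.SlabStripMidInside
import Vale.Agent.P100.Calib.SlabStripMidBoundExpr

/-!
# The window of a piece below 153/200

`x` has `(x₀, x₁, Y, u)` and `y` the same with `c` for `Y`. `C` places the Flow.
-/

set_option linter.unusedVariables false

namespace Vale.Agent.P100.Calib.StripMid

open Pack

variable {P : Piece}

/-- `D1`. -/
def wD (a d v S u C : ℝ) : ℝ :=
  (a + d) * (2 + d * v) - S * u * (1 + d * v) + u * d * C

/-- `80 b²` times `- g E`, scaled. -/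
def wL (a d v S u C KB AB Dk I : ℝ) : ℝ :=
  wD a d v S u C * (KB * v * Dk + (AB + KB)) - (AB * d - 3 * I ^ 2 * KB) * (u * C * (2 + d * v))

/-- `1 - R d W`, scaled. -/
def wR (a d v S u C : ℝ) : ℝ := wD a d v S u C - d * (u * C * (2 + d * v))

/-- `b² g W1`, scaled. -/
def wN (a d v S u C : ℝ) : ℝ :=
  u * S * (2 + d * v) * C * (a - (1 - a) * d * v) - (2 - S) * (a + d) * C * (2 + d * v) +
    wD a d v S u C * S * (1 + (1 - a) * v)

/-- The relation of the two points. -/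
structure Twin (P : Piece) (x y : ℕ → ℝ) : Prop where
  h0 : y 0 = x 0
  h1 : y 1 = x 1
  h3 : y 3 = x 3
  u_pos : 0 < x 3
  e_pos : 0 < 1 - 2 * xa P x * x 3
  rel : xv P x * (1 - 2 * xa P x * x 3) =
    2 * xI P x * (1 - 2 * xa P x * x 3 + y 2 * (2 * xa P x * x 3))

variable {x y : ℕ → ℝ}

local instance windowExprAdd : Add Ex := ⟨Ex.add⟩
local instance windowExprSub : Sub Ex := ⟨Ex.sub⟩
local instance windowExprMul : Mul Ex := ⟨Ex.mul⟩

theorem ex_mul (e f : Ex) : (e * f).eval y = e.eval y * f.eval y := rfl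

theorem ex_add (e f : Ex) : (e + f).eval y = e.eval y + f.eval y := rfl

theorem ex_sub (e f : Ex) : (e - f).eval y = e.eval y - f.eval y := rfl

/-- An end of `C`. -/
noncomputable def cEnd (P : Piece) (x : ℕ → ℝ) (ze : Bool) : ℝ :=
  (kS P.kind).eval x * (1 - xa P x * xv P x) + cond ze (fr P.z * xI P x) 0

theorem Twin.kI (h : Twin P x y) : (kI P.kind).eval y = xI P x := by
  unfold xI
  cases P.kind <;> simp [StripMid.kI, Ex.eval, h.h0, h.h1]

theorem Twin.kD (h : Twin P x y) : (kD P.kind).eval y = xd P x := by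
  unfold xd
  cases P.kind <;> simp [StripMid.kD, Ex.eval, h.h0, h.h1]

theorem Twin.kS (h : Twin P x y) : (kS P.kind).eval y = (kS P.kind).eval x := by
  show ((1 : ℤ) : ℝ) - ((2 : ℤ) : ℝ) * (StripMid.kI P.kind).eval y =
    ((1 : ℤ) : ℝ) - ((2 : ℤ) : ℝ) * xI P x
  rw [h.kI]

theorem Twin.kA (h : Twin P x y) : (kA P.kind).eval y = (kA P.kind).eval x := by
  show (StripMid.kS P.kind).eval y - (StripMid.kD P.kind).eval y =
    (StripMid.kS P.kind).eval x - xd P x
  rw [h.kS, h.kD]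

theorem Twin.kB (h : Twin P x y) : (kB P.kind).eval y = (kB P.kind).eval x := by
  show (StripMid.kS P.kind).eval y + (StripMid.kD P.kind).eval y =
    (StripMid.kS P.kind).eval x + xd P x
  rw [h.kS, h.kD]

theorem Twin.kAb (h : Twin P x y) : (kAb P.kind).eval y = (kAb P.kind).eval x := by
  show _ * (StripMid.kB P.kind).eval y ^ 2 - _ * (StripMid.kA P.kind).eval y ^ 2 =
    _ * (StripMid.kB P.kind).eval x ^ 2 - _ * (StripMid.kA P.kind).eval x ^ 2
  rw [h.kB, h.kA]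
  rfl

theorem Twin.kBb (h : Twin P x y) : (kBb P.kind).eval y = (kBb P.kind).eval x := by
  show _ * (StripMid.kI P.kind).eval y * (_ - _ * (StripMid.kI P.kind).eval y -
      (StripMid.kA P.kind).eval y ^ 2) * (StripMid.kB P.kind).eval y ^ 2 =
    _ * xI P x * (_ - _ * xI P x - (StripMid.kA P.kind).eval x ^ 2) *
      (StripMid.kB P.kind).eval x ^ 2
  rw [h.kI, h.kB, h.kA]
  rfl

theorem Twin.kDk (h : Twin P x y) : (kDk P.kind).eval y = (kDk P.kind).eval x := by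
  show (StripMid.kD P.kind).eval y + _ * (StripMid.kI P.kind).eval y ^ 2 =
    xd P x + _ * xI P x ^ 2
  rw [h.kI, h.kD]
  rfl

theorem Twin.uE (h : Twin P x y) : (uE P.kind).eval y = 1 - 2 * xa P x * x 3 := by
  show ((1 : ℤ) : ℝ) - (StripMid.kA P.kind).eval y * y 3 = _
  rw [h.kA, eval_kA, h.h3]
  norm_num

theorem Twin.uV (h : Twin P x y) :
    (uV P.kind).eval y = xv P x * (1 - 2 * xa P x * x 3) := by
  show ((2 : ℤ) : ℝ) * (StripMid.kI P.kind).eval y *
    ((StripMid.uE P.kind).eval y + y 2 * ((StripMid.kA P.kind).eval y * y 3)) = _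
  rw [h.kI, h.uE, h.kA, eval_kA, h.h3, h.rel]
  push_cast
  ring

theorem eval_uQ (h : Twin P x y) :
    (uQ P.kind).eval y = (1 + xd P x * xv P x) * (1 - 2 * xa P x * x 3) := by
  show (StripMid.uE P.kind).eval y + (StripMid.kD P.kind).eval y * (StripMid.uV P.kind).eval y = _
  rw [h.uE, h.kD, h.uV]; ring

theorem eval_uP (h : Twin P x y) :
    (uP P.kind).eval y = (2 + xd P x * xv P x) * (1 - 2 * xa P x * x 3) := by
  show ((2 : ℤ) : ℝ) * (StripMid.uE P.kind).eval y +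
    (StripMid.kD P.kind).eval y * (StripMid.uV P.kind).eval y = _
  rw [h.uE, h.kD, h.uV]; push_cast; ring

theorem eval_uC (h : Twin P x y) (hz : 0 < P.z.2) (ze : Bool) :
    (uC P ze).eval y = 2 * P.z.2 * (1 - 2 * xa P x * x 3) * cEnd P x ze := by
  have hz' : (P.z.2 : ℝ) ≠ 0 := by exact_mod_cast hz.ne'
  cases ze
  · show ((P.z.2 : ℤ) : ℝ) * (kS P.kind).eval y * (((2 : ℤ) : ℝ) * (uE P.kind).eval y -
      (kA P.kind).eval y * (uV P.kind).eval y) + ((0 : ℤ) : ℝ) = _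
    rw [h.kS, h.uE, h.kA, eval_kA, h.uV]
    simp only [cEnd, cond_false]
    push_cast; ring
  · show ((P.z.2 : ℤ) : ℝ) * (kS P.kind).eval y * (((2 : ℤ) : ℝ) * (uE P.kind).eval y -
      (kA P.kind).eval y * (uV P.kind).eval y) +
      ((2 * P.z.1 : ℤ) : ℝ) * (kI P.kind).eval y * (uE P.kind).eval y = _
    rw [h.kS, h.uE, h.kA, eval_kA, h.uV, h.kI]
    simp only [cEnd, cond_true, fr]
    push_cast; field_simp

theorem eval_uD (h : Twin P x y) (hz : 0 < P.z.2) (ze : Bool) :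
    (uD P ze).eval y = 2 * P.z.2 * (1 - 2 * xa P x * x 3) *
      wD (xa P x) (xd P x) (xv P x) ((kS P.kind).eval x) (x 3) (cEnd P x ze) := by
  show ((P.z.2 : ℤ) : ℝ) * ((kB P.kind).eval y * (uP P.kind).eval y -
    ((2 : ℤ) : ℝ) * (kS P.kind).eval y * y 3 * (uQ P.kind).eval y) +
    y 3 * (kD P.kind).eval y * (uC P ze).eval y = _
  rw [h.kB, eval_kB, eval_uP h, h.kS, h.h3, eval_uQ h, h.kD, eval_uC h hz]
  unfold wD
  push_cast; ring

theorem eval_uN (h : Twin P x y) (hz : 0 < P.z.2) (ze : Bool) :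
    (uN P ze).eval y = 2 * P.z.2 * (1 - 2 * xa P x * x 3) ^ 2 *
      (x 3 * cEnd P x ze * (2 + xd P x * xv P x)) := by
  show y 3 * (uC P ze).eval y * (uP P.kind).eval y = _
  rw [h.h3, eval_uC h hz, eval_uP h]; ring

theorem eval_uAK (h : Twin P x y) :
    (uAK P.kind).eval y = (kAb P.kind).eval x + (kBb P.kind).eval x := by
  show (kAb P.kind).eval y + (kBb P.kind).eval y = _
  rw [h.kAb, h.kBb]

theorem eval_uL (h : Twin P x y) (hz : 0 < P.z.2) (ze : Bool) :
    (uL P ze).eval y = 2 * P.z.2 * (1 - 2 * xa P x * x 3) ^ 2 *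
      wL (xa P x) (xd P x) (xv P x) ((kS P.kind).eval x) (x 3) (cEnd P x ze)
        ((kBb P.kind).eval x) ((kAb P.kind).eval x) ((kDk P.kind).eval x) (xI P x) := by
  show (uD P ze).eval y * ((kBb P.kind).eval y * (uV P.kind).eval y * (kDk P.kind).eval y +
      (uAK P.kind).eval y * (uE P.kind).eval y) -
    ((kAb P.kind).eval y * (kD P.kind).eval y - ((3 : ℤ) : ℝ) * (kI P.kind).eval y ^ 2 *
      (kBb P.kind).eval y) * (uN P ze).eval y = _
  rw [eval_uD h hz, h.kBb, h.uV, h.kDk, eval_uAK h, h.uE, h.kAb, h.kD, h.kI, eval_uN h hz]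
  unfold wL
  push_cast; ring

theorem eval_uR (h : Twin P x y) (hz : 0 < P.z.2) (ze : Bool) :
    (uR P ze).eval y = 2 * P.z.2 * (1 - 2 * xa P x * x 3) ^ 2 *
      wR (xa P x) (xd P x) (xv P x) ((kS P.kind).eval x) (x 3) (cEnd P x ze) := by
  show (uD P ze).eval y * (uE P.kind).eval y - (kD P.kind).eval y * (uN P ze).eval y = _
  rw [eval_uD h hz, h.uE, h.kD, eval_uN h hz]
  unfold wR
  ring

theorem eval_uW (h : Twin P x y) (hz : 0 < P.z.2) (ze : Bool) :
    (uW P ze).eval y = 4 * P.z.2 * (1 - 2 * xa P x * x 3) ^ 3 *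
      wN (xa P x) (xd P x) (xv P x) ((kS P.kind).eval x) (x 3) (cEnd P x ze) := by
  show y 3 * (kS P.kind).eval y * (uP P.kind).eval y * (uC P ze).eval y *
      ((kA P.kind).eval y * (uE P.kind).eval y - (((2 : ℤ) : ℝ) - (kA P.kind).eval y) *
        (kD P.kind).eval y * (uV P.kind).eval y) -
    (((2 : ℤ) : ℝ) - (kS P.kind).eval y) * (kB P.kind).eval y * (uC P ze).eval y *
      (uP P.kind).eval y * (uE P.kind).eval y +
    (uD P ze).eval y * (kS P.kind).eval y * (((2 : ℤ) : ℝ) * (uE P.kind).eval y +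
      (((2 : ℤ) : ℝ) - (kA P.kind).eval y) * (uV P.kind).eval y) * (uE P.kind).eval y = _
  rw [h.h3, h.kS, eval_uP h, eval_uC h hz, h.kA, eval_kA, h.uE, h.kD, h.uV, h.kB, eval_kB,
    eval_uD h hz]
  unfold wN
  push_cast; ring

theorem eval_uWd (h : Twin P x y) :
    (uWd P).eval y = 4 * P.z.2 * (1 - 2 * xa P x * x 3) ^ 3 *
      ((xa P x + xd P x) ^ 2 * (kS P.kind).eval x ^ 2 * x 3 * (2 + xd P x * xv P x) * xI P x) := by
  show ((P.z.2 : ℤ) : ℝ) * (kB P.kind).eval y ^ 2 * (kS P.kind).eval y ^ 2 * y 3 *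
    (uP P.kind).eval y * (kI P.kind).eval y * (uE P.kind).eval y ^ 2 = _
  rw [h.kB, eval_kB, h.kS, h.h3, eval_uP h, h.kI, h.uE]
  push_cast; ring

/-- The nine bounds at a value of `C`, as nonnegative numbers. -/
noncomputable def wBound (P : Piece) (x : ℕ → ℝ) (C : ℝ) : Bd → ℝ :=
  let a := xa P x
  let d := xd P x
  let v := xv P x
  let S := (kS P.kind).eval x
  let u := x 3
  let KB := (kBb P.kind).eval x
  let AB := (kAb P.kind).eval x
  let L := wL a d v S u C KB AB ((kDk P.kind).eval x) (xI P x)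
  let Wd := (a + d) ^ 2 * S ^ 2 * u * (2 + d * v) * xI P x
  fun
  | .l0 => 2 * L - fr P.l₀ * (a + d) * (2 + d * v) * (AB + KB)
  | .l1 => fr P.l₁ * (a + d) * (2 + d * v) * (AB + KB) - 2 * L
  | .r => wR a d v S u C * (AB + KB) - fr P.r * L
  | .g0 => 2 * wD a d v S u C - fr P.g₀ * (a + d) * (2 + d * v)
  | .g1 => fr P.g₁ * (a + d) * (2 + d * v) - 2 * wD a d v S u C
  | .t0 => wR a d v S u C - tEnd P x false * (1 + d * v) * wD a d v S u C
  | .t1 => tEnd P x true * (1 + d * v) * wD a d v S u C - wR a d v S u C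
  | .w0 => 4 * wN a d v S u C + P.w₀ * Wd
  | .w1 => (P.w.1 + P.w.2.1 * xI P x - P.w.2.2.1 * d) / (P.w.2.2.2 : ℝ) * Wd -
      4 * wN a d v S u C

theorem of_factor {A B c : ℝ} (hc : 0 < c) (h : 0 ≤ A) (he : A = c * B) : 0 ≤ B :=
  nonneg_of_mul_nonneg_right (he ▸ h) hc

theorem wBound_end (hP : P.Pos2) (h : Twin P x y) (ze : Bool) (b : Bd)
    (hb : 0 ≤ (bound P ze b).eval y) : 0 ≤ wBound P x (cEnd P x ze) b := by
  have hz := hP.z
  have he := h.e_pos
  obtain ⟨e, he'⟩ : ∃ e, e = 1 - 2 * xa P x * x 3 := ⟨_, rfl⟩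
  have hzr : (0 : ℝ) < P.z.2 := by exact_mod_cast hP.z
  have q0 : (0 : ℝ) < P.l₀.2 := by exact_mod_cast hP.l₀
  have q1 : (0 : ℝ) < P.l₁.2 := by exact_mod_cast hP.l₁
  have q2 : (0 : ℝ) < P.r.2 := by exact_mod_cast hP.r
  have q3 : (0 : ℝ) < P.g₀.2 := by exact_mod_cast hP.g₀
  have q4 : (0 : ℝ) < P.g₁.2 := by exact_mod_cast hP.g₁
  have q5 : (0 : ℝ) < P.t₀.2.2 := by exact_mod_cast hP.t₀
  have q6 : (0 : ℝ) < P.t₁.2.2 := by exact_mod_cast hP.t₁
  have q7 : (0 : ℝ) < P.w.2.2.2 := by exact_mod_cast hP.w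
  rw [← he'] at he
  cases b <;>
    simp only [bound, ex_mul, ex_add, ex_sub, Ex.eval, eval_uL h hz, eval_uR h hz, eval_uD h hz,
      eval_uW h hz, eval_uWd h, h.kB, eval_kB, eval_uP h, eval_uQ h, eval_uAK h, h.uE, h.kD, h.kI,
      wBound, fr, tEnd, cond_true, cond_false, ← he'] at hb ⊢ <;>
    push_cast at hb
  case l0 =>
    refine of_factor (c := 2 * (P.z.2 : ℝ) * e ^ 2 * P.l₀.2) (by positivity) hb ?_
    field_simp
  case l1 =>
    refine of_factor (c := 2 * (P.z.2 : ℝ) * e ^ 2 * P.l₁.2) (by positivity) hb ?_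
    field_simp
  case r =>
    refine of_factor (c := 2 * (P.z.2 : ℝ) * e ^ 2 * P.r.2) (by positivity) hb ?_
    field_simp
  case g0 =>
    refine of_factor (c := 2 * (P.z.2 : ℝ) * e * P.g₀.2) (by positivity) hb ?_
    field_simp
  case g1 =>
    refine of_factor (c := 2 * (P.z.2 : ℝ) * e * P.g₁.2) (by positivity) hb ?_
    field_simp
  case t0 =>
    refine of_factor (c := 2 * (P.z.2 : ℝ) * e ^ 2 * P.t₀.2.2) (by positivity) hb ?_
    field_simp
  case t1 =>
    refine of_factor (c := 2 * (P.z.2 : ℝ) * e ^ 2 * P.t₁.2.2) (by positivity) hb ?_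
    field_simp
  case w0 =>
    refine of_factor (c := 4 * (P.z.2 : ℝ) * e ^ 3) (by positivity) hb ?_
    field_simp
  case w1 =>
    refine of_factor (c := 4 * (P.z.2 : ℝ) * e ^ 3 * P.w.2.2.2) (by positivity) hb ?_
    field_simp

theorem wBound_mix (s C₀ C₁ : ℝ) (b : Bd) :
    wBound P x (mix s C₀ C₁) b = mix s (wBound P x C₀ b) (wBound P x C₁ b) := by
  cases b <;> simp only [wBound, wD, wL, wR, wN, mix] <;> ring

/-- The nine bounds at both ends give them in between. -/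
theorem wBound_nonneg (hP : P.Pos2) (h : Twin P x y) (hb : ∀ ze b, 0 ≤ (bound P ze b).eval y)
    {C : ℝ} (h0 : cEnd P x false ≤ C) (h1 : C ≤ cEnd P x true) (b : Bd) : 0 ≤ wBound P x C b := by
  obtain ⟨s, hs0, hs1, rfl⟩ := exists_mix h0 h1
  rw [wBound_mix]
  exact mix_nonneg (wBound_end hP h false b (hb false b)) (wBound_end hP h true b (hb true b))
    hs0 hs1

end Vale.Agent.P100.Calib.StripMid
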