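import Vale.Agent.P100.Calib.SlabStripNegBandExpr
import Vale.Agent.P100.Calib.SlabAllPack

/-!
# The checks of the conditions at and below the crossing in the strip
-/

set_option linter.defProp false

namespace Vale.Agent.P100.Calib.Band.StripNeg

open BoxPos

def chkHi_ok :
    Ex.checkNonneg (inBox chkHi) box 298 ⟨4, 5, 39, 15⟩ = true := by decide +kernel

def chkLo_ok :
    Ex.checkNonneg (inBox chkLo) box 310 ⟨4, 5, 41, 15⟩ = true := by decide +kernel

def downHi_ok :
    Ex.checkNonneg (inBox (chkDown sHi)) box 150 ⟨2, 0, 22, 8⟩ = true := by decide +kernel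

def downLo_ok :
    Ex.checkNonneg (inBox (chkDown sLo)) box 156 ⟨2, 0, 23, 8⟩ = true := by decide +kernel

def upHi_ok :
    Ex.checkNonneg (inBox (chkUp sHi)) box 151 ⟨2, 0, 22, 8⟩ = true := by decide +kernel

def upLo_ok :
    Ex.checkNonneg (inBox (chkUp sLo)) box 157 ⟨2, 0, 23, 8⟩ = true := by decide +kernel

def left_ok :
    Ex.checkNonneg (inBox chkLeft) box 104 ⟨0, 1, 13, 6⟩ = true := by decide +kernel

end Vale.Agent.P100.Calib.Band.StripNeg
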