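import Vale.Agent.P100.Calib.SlabStripNegExpr

/-!
# The reduced forms below the crossing in the strip as functions of the reals
-/

set_option linter.unusedSimpArgs false
set_option linter.unusedVariables false

namespace Vale.Agent.P100.Calib.Closed.Strip.SgnNeg

open BoxPos All.SgnNeg

local instance realAdd : Add Ex := ⟨Ex.add⟩
local instance realSub : Sub Ex := ⟨Ex.sub⟩
local instance realMul : Mul Ex := ⟨Ex.mul⟩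

/-- `d + 3 I²`. -/
def qM (x : ℕ → ℝ) : ℝ := pd x + 3 * x 2 ^ 2

/-- `1 - 3 I - 2 a²`. -/
def qC (x : ℕ → ℝ) : ℝ := 1 - 3 * x 2 - 2 * x 3 ^ 2

/-- `b²` times the limit slope. -/
noncomputable def qKb (x : ℕ → ℝ) : ℝ := 5 / 2 * pb x ^ 2 - 43 / 20 * x 3 ^ 2

/-- `b² M` times the slope. -/
noncomputable def qKn (x : ℕ → ℝ) : ℝ := qKb x * pd x - 6 * qC x * x 2 ^ 3 * pb x ^ 2

/-- `t`. -/
def qTt (x : ℕ → ℝ) (o : ℝ) : ℝ := 1 - pd x * o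

/-- `b² M E`. -/
noncomputable def qLt (x : ℕ → ℝ) (o : ℝ) : ℝ :=
  -(qKb x * qTt x o) - 2 * qC x * x 2 * pQ x * pb x ^ 2 -
    6 * qC x * x 2 ^ 3 * pb x ^ 2 * (2 * x 2 * x 1 + o)

/-- `G d² b (1 + d v)/a`. -/
noncomputable def qGs (x : ℕ → ℝ) (o : ℝ) : ℝ :=
  -(x 2 * (1 - 3 * x 3 - x 2) * pb x * pQ x) - 1 / 10 * qTt x o

/-- `G₁ d² b (1 + d v)/a`. -/
noncomputable def qG1s (x : ℕ → ℝ) (o : ℝ) : ℝ := -(1 / 10 * qTt x o)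

theorem ev_new (x : ℕ → ℝ) (o : Ex) : ev x eM = qM x ∧ ev x eKn = qKn x ∧
    ev x (eT o) = qTt x (ev x o) ∧ ev x (eLt o) = qLt x (ev x o) ∧
    ev x (eGs o) = qGs x (ev x o) ∧ ev x (eG1s o) = qG1s x (ev x o) := by
  obtain ⟨hS, hb, hd, hQ, hM, -, -, -⟩ := ev_base x
  simp only [eM, eKn, eKb, eC0, eT, eLt, eGs, eG1s, eV, qM, qKn, qKb, qC, qTt, qLt, qGs, qG1s,
    ev_add, ev_sub, ev_mul, ev_nC, ev_x₁, ev_x₂, ev_x₃, hS, hb, hd, hQ]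
  push_cast
  refine ⟨?_, ?_, ?_, ?_, ?_, ?_⟩ <;> ring

/-- A reduced form. -/
noncomputable def qG (x : ℕ → ℝ) (p o z : ℝ) : ℝ :=
  ev x cG0 * (pb x) ^ 4 * (pQ x) ^ 2 * (pS x) ^ 4 +
    ev x cG1 * (x 2) ^ 3 * (x 1) * (pb x) ^ 4 * (pd x) * (pQ x) ^ 2 * (pS x) ^ 2 * z +
    ev x cG2 * (x 2) ^ 2 * (pb x) ^ 4 * (pQ x) ^ 2 * z ^ 2 +
    ev x cG3 * (x 2) ^ 2 * (x 1) ^ 2 * (pb x) ^ 2 * (pQ x) * (pS x) ^ 4 * (qG1s x o) +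
    ev x cG4 * (x 2) ^ 2 * (x 1) ^ 2 * (pb x) ^ 2 * (pd x) * (pQ x) * (pS x) ^ 4 * (qGs x o) +
    ev x cG5 * (x 2) ^ 3 * (x 1) * (pb x) ^ 2 * (pQ x) * (pS x) ^ 2 * (qGs x o) * z +
    ev x cG6 * (x 2) ^ 2 * (x 1) ^ 2 * (pS x) ^ 4 * (qGs x o) ^ 2 +
    ev x cG7 * (pb x) ^ 4 * (pQ x) ^ 2 * (pS x) ^ 4 * p +
    ev x cG8 * (x 2) ^ 2 * (x 1) * (pb x) ^ 4 * (pd x) * (pQ x) ^ 2 * (pS x) ^ 2 * p * z +
    ev x cG9 * (x 2) ^ 3 * (x 1) ^ 2 * (pb x) ^ 2 * (pd x) * (pQ x) * (pS x) ^ 4 * p * (qGs x o) +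
    ev x cG10 * (pb x) ^ 4 * (pQ x) ^ 2 * (pS x) ^ 4 * p ^ 2

/-- A reduced form. -/
noncomputable def qY (x : ℕ → ℝ) (p η o z : ℝ) : ℝ :=
  ev x cY0 * (x 1) * (pb x) ^ 3 * (pd x) * (pQ x) * (pS x) ^ 2 * (qM x) +
    ev x cY1 * (pb x) ^ 3 * (pQ x) * (qM x) * z +
    ev x cY2 * (x 2) ^ 2 * (x 1) ^ 3 * (pb x) * (pd x) * (pS x) ^ 2 * (qM x) * (qG1s x o) +
    ev x cY3 * (x 1) * (pb x) * (pS x) ^ 2 * (qM x) * (qGs x o) +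
    ev x cY4 * (x 1) * (pd x) * (pQ x) * (pS x) ^ 2 * (η * qLt x o) +
    ev x cY5 * (x 1) * (pb x) ^ 3 * (pd x) * (pQ x) * (pS x) ^ 2 * (qM x) * p +
    ev x cY6 * (pb x) ^ 3 * (pQ x) * (qM x) * p * z +
    ev x cY7 * (x 1) * (pb x) * (pS x) ^ 2 * (qM x) * p * (qGs x o) +
    ev x cY8 * (x 1) * (pd x) * (pQ x) * (pS x) ^ 2 * p * (η * qLt x o) +
    ev x cY9 * (x 2) * (x 1) * (pb x) ^ 3 * (pd x) * (pQ x) * (pS x) ^ 2 * (qM x) * p ^ 2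

/-- A reduced form. -/
noncomputable def qX (x : ℕ → ℝ) (p η o τ : ℝ) : ℝ :=
  ev x cX0 * (x 2) * (x 1) * (pb x) ^ 3 * (qM x) * (rW x p η τ) +
    ev x cX1 * (x 2) ^ 2 * (x 1) ^ 2 * (pS x) ^ 2 * (pMu x) * (-η * qTt x o * qKn x) +
    ev x cX2 * (pS x) ^ 2 * (pMu x) * (η * qLt x o) +
    ev x cX3 * (x 2) ^ 2 * (x 1) * (pb x) ^ 3 * (pS x) ^ 2 * (pMu x) * (qM x) * p +
    ev x cX4 * (pS x) ^ 2 * (pMu x) * p * (η * qLt x o)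

/-- A reduced form. -/
noncomputable def qT (x : ℕ → ℝ) (p η o τ z : ℝ) : ℝ :=
  ev x cT0 * (pb x) ^ 6 * (pQ x) * (pS x) ^ 4 * (pMu x) * (qM x) +
    ev x cT1 * (x 2) ^ 3 * (x 1) ^ 2 * (pb x) ^ 6 * (pd x) * (pQ x) * (pS x) ^ 2 * (pMu x) * (qM x) * z +
    ev x cT2 * (x 2) ^ 2 * (pb x) ^ 6 * (pQ x) * (pMu x) * (qM x) * z ^ 2 +
    ev x cT3 * (x 2) * (x 1) * (pb x) ^ 6 * (pQ x) * (pS x) ^ 2 * (qM x) * (rW x p η τ) +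
    ev x cT4 * (x 2) ^ 2 * (x 1) ^ 2 * (pb x) ^ 3 * (pQ x) * (pS x) ^ 4 * (pMu x) * (-η * qTt x o * qKn x) +
    ev x cT5 * (x 2) ^ 2 * (x 1) * (pb x) ^ 3 * (pQ x) * (pS x) ^ 4 * (pMu x) * (η * qLt x o) +
    ev x cT6 * (x 2) ^ 3 * (x 1) * (pb x) ^ 3 * (pd x) * (pQ x) * (pS x) ^ 2 * (pMu x) * (η * qLt x o) * z +
    ev x cT7 * (x 2) ^ 2 * (x 1) ^ 2 * (pd x) * (pQ x) * (pS x) ^ 4 * (pMu x) * (η * qLt x o) ^ 2 +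
    ev x cT8 * (pb x) ^ 6 * (pQ x) * (pS x) ^ 4 * (pMu x) * (qM x) * p +
    ev x cT9 * (x 2) ^ 2 * (x 1) * (pb x) ^ 6 * (pd x) * (pQ x) * (pS x) ^ 2 * (pMu x) * (qM x) * p * z +
    ev x cT10 * (x 2) ^ 2 * (x 1) ^ 2 * (pb x) ^ 4 * (pd x) * (pS x) ^ 4 * (pMu x) * (qM x) * p * (qGs x o) +
    ev x cT11 * (x 2) ^ 2 * (x 1) ^ 2 * (pb x) ^ 3 * (pd x) ^ 2 * (pQ x) * (pS x) ^ 4 * (pMu x) * p * (η * qLt x o) +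
    ev x cT12 * (pb x) ^ 6 * (pQ x) * (pS x) ^ 4 * (pMu x) * (qM x) * p ^ 2

/-- A reduced form. -/
noncomputable def qN (x : ℕ → ℝ) (p η o τ z : ℝ) : ℝ :=
  ev x cN0 * (pb x) ^ 6 * (pQ x) * (pS x) ^ 4 * (pMu x) * (qM x) +
    ev x cN1 * (x 2) ^ 2 * (x 1) * (pb x) ^ 6 * (pd x) * (pQ x) * (pS x) ^ 2 * (pMu x) * (qM x) * z +
    ev x cN2 * (x 2) ^ 2 * (pb x) ^ 6 * (pQ x) * (pMu x) * (qM x) * z ^ 2 +
    ev x cN3 * (x 2) ^ 2 * (x 1) * (pb x) ^ 6 * (pQ x) * (pS x) ^ 2 * (qM x) * (rW x p η τ) +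
    ev x cN4 * (x 2) ^ 2 * (x 1) ^ 2 * (pb x) ^ 3 * (pQ x) * (pS x) ^ 4 * (pMu x) * (-η * qTt x o * qKn x) +
    ev x cN5 * (x 2) ^ 2 * (x 1) * (pb x) ^ 3 * (pQ x) * (pS x) ^ 4 * (pMu x) * (η * qLt x o) +
    ev x cN6 * (x 2) ^ 2 * (x 1) * (pb x) ^ 3 * (pd x) * (pQ x) * (pS x) ^ 2 * (pMu x) * (η * qLt x o) * z +
    ev x cN7 * (x 2) ^ 2 * (x 1) ^ 2 * (pd x) * (pQ x) * (pS x) ^ 4 * (pMu x) * (η * qLt x o) ^ 2 +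
    ev x cN8 * (pb x) ^ 6 * (pQ x) * (pS x) ^ 4 * (pMu x) * (qM x) * p +
    ev x cN9 * (x 2) ^ 2 * (x 1) * (pb x) ^ 6 * (pd x) * (pQ x) * (pS x) ^ 2 * (pMu x) * (qM x) * p * z +
    ev x cN10 * (x 2) ^ 2 * (x 1) ^ 2 * (pb x) ^ 4 * (pd x) * (pS x) ^ 4 * (pMu x) * (qM x) * p * (qGs x o) +
    ev x cN11 * (x 2) ^ 2 * (x 1) ^ 2 * (pb x) ^ 3 * (pd x) ^ 2 * (pQ x) * (pS x) ^ 4 * (pMu x) * p * (η * qLt x o) +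
    ev x cN12 * (pb x) ^ 6 * (pQ x) * (pS x) ^ 4 * (pMu x) * (qM x) * p ^ 2

/-- A reduced form. -/
noncomputable def qLG (x : ℕ → ℝ) (q o z : ℝ) : ℝ :=
  ev x cL0 * (x 1) * (pb x) ^ 4 * (pQ x) * (pS x) ^ 2 * (qM x) +
    ev x cL1 * (x 2) * (x 1) * (pQ x) * (pS x) ^ 2 * (-(qTt x o) * qKn x) * (-1 * pS x * x 0) +
    ev x cL2 * (pb x) * (pQ x) * (pS x) ^ 2 * (qLt x o) +
    ev x cL3 * (x 2) * (pQ x) * (pS x) ^ 2 * (qLt x o) * (-1 * pS x * x 0) +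
    ev x cL4 * (x 2) * (pd x) * (pQ x) * (qLt x o) * (-1 * pS x * x 0) * z +
    ev x cL5 * (x 1) * (pb x) ^ 4 * (pd x) * (pQ x) * (pS x) ^ 2 * (qM x) * q +
    ev x cL6 * (x 1) * (pb x) ^ 2 * (pd x) * (pS x) ^ 2 * (qM x) * q * (qGs x o)

theorem ev_sG (x : ℕ → ℝ) (p o z : Ex) : ev x (sG p o z) = qG x (ev x p) (ev x o) (ev x z) := by
  obtain ⟨hS, hb, hd, hQ, hM, -, -, -⟩ := ev_base x
  simp only [sG, qG, ev_mul, ev_add, ev_sub, ev_nC, ev_x₀, ev_x₁, ev_x₂, ev_x₃, ev_fW,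
    (ev_new x o).1, (ev_new x o).2.1, (ev_new x o).2.2.1, (ev_new x o).2.2.2.1,
    (ev_new x o).2.2.2.2.1, (ev_new x o).2.2.2.2.2, hS, hb, hd, hQ, hM]
  push_cast
  ring

theorem ev_sY (x : ℕ → ℝ) (p h o z : Ex) : ev x (sY p h o z) = qY x (ev x p) (ev x h) (ev x o) (ev x z) := by
  obtain ⟨hS, hb, hd, hQ, hM, -, -, -⟩ := ev_base x
  simp only [sY, qY, ev_mul, ev_add, ev_sub, ev_nC, ev_x₀, ev_x₁, ev_x₂, ev_x₃, ev_fW,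
    (ev_new x o).1, (ev_new x o).2.1, (ev_new x o).2.2.1, (ev_new x o).2.2.2.1,
    (ev_new x o).2.2.2.2.1, (ev_new x o).2.2.2.2.2, hS, hb, hd, hQ, hM]
  push_cast
  ring

theorem ev_sX (x : ℕ → ℝ) (p h o w : Ex) : ev x (sX p h o w) = qX x (ev x p) (ev x h) (ev x o) (ev x w) := by
  obtain ⟨hS, hb, hd, hQ, hM, -, -, -⟩ := ev_base x
  simp only [sX, qX, ev_mul, ev_add, ev_sub, ev_nC, ev_x₀, ev_x₁, ev_x₂, ev_x₃, ev_fW,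
    (ev_new x o).1, (ev_new x o).2.1, (ev_new x o).2.2.1, (ev_new x o).2.2.2.1,
    (ev_new x o).2.2.2.2.1, (ev_new x o).2.2.2.2.2, hS, hb, hd, hQ, hM]
  push_cast
  ring

theorem ev_sT (x : ℕ → ℝ) (p h o w z : Ex) : ev x (sT p h o w z) = qT x (ev x p) (ev x h) (ev x o) (ev x w) (ev x z) := by
  obtain ⟨hS, hb, hd, hQ, hM, -, -, -⟩ := ev_base x
  simp only [sT, qT, ev_mul, ev_add, ev_sub, ev_nC, ev_x₀, ev_x₁, ev_x₂, ev_x₃, ev_fW,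
    (ev_new x o).1, (ev_new x o).2.1, (ev_new x o).2.2.1, (ev_new x o).2.2.2.1,
    (ev_new x o).2.2.2.2.1, (ev_new x o).2.2.2.2.2, hS, hb, hd, hQ, hM]
  push_cast
  ring

theorem ev_sN (x : ℕ → ℝ) (p h o w z : Ex) : ev x (sN p h o w z) = qN x (ev x p) (ev x h) (ev x o) (ev x w) (ev x z) := by
  obtain ⟨hS, hb, hd, hQ, hM, -, -, -⟩ := ev_base x
  simp only [sN, qN, ev_mul, ev_add, ev_sub, ev_nC, ev_x₀, ev_x₁, ev_x₂, ev_x₃, ev_fW,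
    (ev_new x o).1, (ev_new x o).2.1, (ev_new x o).2.2.1, (ev_new x o).2.2.2.1,
    (ev_new x o).2.2.2.2.1, (ev_new x o).2.2.2.2.2, hS, hb, hd, hQ, hM]
  push_cast
  ring

theorem ev_sLG (x : ℕ → ℝ) (q o z : Ex) : ev x (sLG q o z) = qLG x (ev x q) (ev x o) (ev x z) := by
  obtain ⟨hS, hb, hd, hQ, hM, -, -, -⟩ := ev_base x
  simp only [sLG, qLG, ev_mul, ev_add, ev_sub, ev_nC, ev_x₀, ev_x₁, ev_x₂, ev_x₃, ev_fW,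
    (ev_new x o).1, (ev_new x o).2.1, (ev_new x o).2.2.1, (ev_new x o).2.2.2.1,
    (ev_new x o).2.2.2.2.1, (ev_new x o).2.2.2.2.2, hS, hb, hd, hQ, hM]
  push_cast
  ring

theorem ev_subst (x : ℕ → ℝ) (f₀ f₁ f₂ f₃ : Ex) : ∀ e : Ex,
    ev x (subst f₀ f₁ f₂ f₃ e) = e.val (ev x f₀) (ev x f₁) (ev x f₂) (ev x f₃)
  | .cst n d => rfl
  | .x₀ => rfl
  | .x₁ => rfl
  | .x₂ => rfl
  | .x₃ => rfl
  | .add e f => by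
    have he := ev_subst x f₀ f₁ f₂ f₃ e
    have hf := ev_subst x f₀ f₁ f₂ f₃ f
    simp only [ev] at he hf
    simp only [subst, ev, Ex.val, he, hf]
  | .sub e f => by
    have he := ev_subst x f₀ f₁ f₂ f₃ e
    have hf := ev_subst x f₀ f₁ f₂ f₃ f
    simp only [ev] at he hf
    simp only [subst, ev, Ex.val, he, hf]
  | .mul e f => by
    have he := ev_subst x f₀ f₁ f₂ f₃ e
    have hf := ev_subst x f₀ f₁ f₂ f₃ f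
    simp only [ev] at he hf
    simp only [subst, ev, Ex.val, he, hf]

end Vale.Agent.P100.Calib.Closed.Strip.SgnNeg
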