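import Vale.Agent.P100.Calib.SlabMidNegBand
import Vale.Agent.P100.Calib.SlabStripNegReal
import Vale.Agent.P100.Calib.SlabStripNegBandCheck

/-!
# The conditions at and below the crossing in the strip

For `N ≥ 7`, `al > 31/100`: on `V₀ ≤ v ≤ V₁`, `-K v ≤ u < 0`, `V₀ = 2 I (1 - 3 I + 6 I²)`,
`V₁ = 2 I (9/8 + 2 I)`, `K = (1 - al)(1 + 3/5 I)`, the flow has the signs of `NegPar.Cert` between
the slopes `τ = 2 - 27/10 al - 13 I + 60 I²` and `11/5 + 25 (al - 31/100) + 8 I`.
-/

namespace Vale.Agent.P100.Calib.Band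

open Vale.Agent.P100.Bubble Chart

/-- The numbers of the region in the strip. -/
noncomputable def stripNegP (a b : ℝ) : NegPar where
  V₀ := 2 * allStabI a b * (1 - 3 * allStabI a b + 6 * allStabI a b ^ 2)
  V₁ := 2 * allStabI a b * (9 / 8 + 2 * allStabI a b)
  K := (1 - a) * (1 + 3 / 5 * allStabI a b)
  lo := 2 - 27 / 10 * a - 13 * allStabI a b + 60 * allStabI a b ^ 2
  hi := 11 / 5 + 25 * (a - 31 / 100) + 8 * allStabI a b

namespace StripNeg

open BoxPos AllNeg MidNeg

local instance stripBandAdd : Add Ex := ⟨Ex.add⟩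
local instance stripBandSub : Sub Ex := ⟨Ex.sub⟩
local instance stripBandMul : Mul Ex := ⟨Ex.mul⟩

variable {N a b : ℝ}

theorem box_facts (hb : SlabBoxAll N a b) (h7 : 7 ≤ N) :
    0 < allStabI a b ∧ allStabI a b ≤ 1 / 7 ∧ a < 1 / 2 - allStabI a b ∧
      b = 1 - 2 * allStabI a b - a := by
  have hN : 0 < N := by linarith
  have hIN : N * allStabI a b = 1 := by
    rw [allStabI, mul_div_assoc', hb.sum]; norm_num
  have hI : 0 < allStabI a b := pos_of_mul_pos_right (by linarith) hN.le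
  obtain ⟨-, -, hd, -⟩ := hb.facts
  have e : b = 1 - 2 * allStabI a b - a := by rw [allStabI]; ring
  exact ⟨hI, by linarith [mul_le_mul_of_nonneg_right h7 hI.le], by linarith, e⟩

/-- A point `(q, w, I, a)` at which a checked expression is nonnegative. -/
theorem place (hb : SlabBoxAll N a b) (h7 : 7 ≤ N) (ha : 31 / 100 < a) {q w : ℝ}
    (hq : 0 < q) (hq1 : q ≤ 1) (hw : 0 ≤ w) (hw1 : w ≤ 1) :
    ∃ x : ℕ → ℝ, x 0 = q ∧ x 1 = w ∧ x 2 = allStabI a b ∧ x 3 = a ∧
      ∀ e K n, Ex.checkNonneg (inBox e) box K n = true → 0 ≤ ev4 x e := by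
  obtain ⟨hI, hI1, hIa, -⟩ := box_facts hb h7
  set I := allStabI a b
  have hden : 0 < 19 / 100 - I := by linarith
  refine ⟨AllNeg.pt q w I a, rfl, rfl, rfl, rfl, fun e K n hc => ?_⟩
  have hθ : 0 < (a - 31 / 100) / (19 / 100 - I) := div_pos (by linarith) hden
  have hθ1 : (a - 31 / 100) / (19 / 100 - I) ≤ 1 := (div_le_one hden).2 (by linarith)
  have h := Ex.nonneg_of_checkNonneg (x := AllNeg.pt q w I ((a - 31 / 100) / (19 / 100 - I))) hc ?_
  · have e1 := Closed.Strip.SgnNeg.ev_subst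
      (AllNeg.pt q w I ((a - 31 / 100) / (19 / 100 - I))) .x₀ .x₁ .x₂ sA e
    have ea : Closed.All.SgnNeg.ev (AllNeg.pt q w I ((a - 31 / 100) / (19 / 100 - I))) sA = a := by
      show ev4 _ sA = a
      simp only [sA, ev4_add, ev4_sub, ev4_mul, ev4_nC]
      simp only [ev4, Ex.val, AllNeg.pt]
      push_cast
      rw [div_mul_cancel₀ _ hden.ne']
      ring
    rw [ea] at e1
    rw [inBox] at h
    simp only [Closed.All.SgnNeg.ev, Ex.val] at e1
    rw [e1] at h
    simpa [ev4, AllNeg.pt] using h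
  · intro i hi
    interval_cases i
    · exact ⟨(1 - q) / q, div_nonneg (by linarith) hq.le, by
        simp only [box]; push_cast
        have : 0 ≤ (1 - q) / q := div_nonneg (by linarith) hq.le
        linarith, by simp only [box, AllNeg.pt]; push_cast; field_simp; ring⟩
    · exact point_up (A := 0) (B := 17) (C := 16) (by norm_num)
        (by simp only [AllNeg.pt]; push_cast; linarith)
        (by simp only [AllNeg.pt]; push_cast; linarith)
    · exact ⟨(1 - 7 * I) / I, div_nonneg (by linarith) hI.le, by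
        simp only [box]; push_cast
        have : 0 ≤ (1 - 7 * I) / I := div_nonneg (by linarith) hI.le
        linarith, by simp only [box, AllNeg.pt]; push_cast; field_simp; ring⟩
    · simp only [box, AllNeg.pt]
      refine ⟨(1 - (a - 31 / 100) / (19 / 100 - I)) / ((a - 31 / 100) / (19 / 100 - I)),
        div_nonneg (by linarith) hθ.le, ?_, ?_⟩
      · push_cast
        have := div_nonneg (show (0 : ℝ) ≤ 1 - (a - 31 / 100) / (19 / 100 - I) by linarith) hθ.le
        linarith
      · generalize (a - 31 / 100) / (19 / 100 - I) = θ at hθ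
        push_cast; field_simp; ring

theorem K_pos (hI : 0 ≤ allStabI a b) (ha : a < 1) : 0 < (stripNegP a b).K := by
  simp only [stripNegP]
  exact mul_pos (by linarith) (by linarith)

/-- The signs on the region. -/
theorem cert (hb : SlabBoxAll N a b) (h7 : 7 ≤ N) (ha : 31 / 100 < a) :
    (stripNegP a b).Cert N a b := by
  obtain ⟨hI, hI1, hIa, hbI⟩ := box_facts hb h7
  have hN : 0 < N := by linarith
  have hIN : N * allStabI a b = 1 := by
    rw [allStabI, mul_div_assoc', hb.sum]; norm_num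
  have ha0 : 0 < a := by linarith
  have ha1 : a < 1 := by linarith
  have hb0 : 0 < b := hb.facts.2.1
  set I := allStabI a b with hId
  have hK : 0 < (stripNegP a b).K := K_pos (by linarith) ha1
  have hI2 : I ^ 2 ≤ 1 / 49 := by nlinarith
  have hII : 0 ≤ I ^ 2 := sq_nonneg I
  have hV : 0 < (stripNegP a b).V₀ := by
    simp only [stripNegP, ← hId]; exact mul_pos (by linarith) (by linarith)
  have coords : ∀ u v, (stripNegP a b).Reg u v → 0 < v ∧ ∃ q w : ℝ, 0 < q ∧ q ≤ 1 ∧ 0 ≤ w ∧ w ≤ 1 ∧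
      v = 2 * I * ((1 - 3 * I + 6 * I ^ 2) + w * (1 / 8 + 5 * I - 6 * I ^ 2)) ∧
      u = -(q * ((stripNegP a b).K * v)) := by
    intro u v h
    have hlow := h.low
    have hhigh := h.high
    have hv : 0 < v := hV.trans_le hlow
    simp only [stripNegP, ← hId] at hlow hhigh
    have hKv := mul_pos hK hv
    have hden : 0 < 2 * I * (1 / 8 + 5 * I - 6 * I ^ 2) := mul_pos (by linarith) (by linarith)
    refine ⟨hv, -u / ((stripNegP a b).K * v),
      (v - 2 * I * (1 - 3 * I + 6 * I ^ 2)) / (2 * I * (1 / 8 + 5 * I - 6 * I ^ 2)),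
      div_pos (neg_pos.2 h.neg) hKv, (div_le_one hKv).2 (by linarith [h.left]),
      div_nonneg (by linarith) hden.le, (div_le_one hden).2 (by linarith), ?_, ?_⟩
    · have := div_mul_cancel₀ (v - 2 * I * (1 - 3 * I + 6 * I ^ 2)) hden.ne'
      linear_combination -this
    · rw [div_mul_cancel₀ _ hKv.ne', neg_neg]
  have vV : ∀ (x : ℕ → ℝ) (tw : Ex), x 2 = I →
      ev4 x (sV tw) = 2 * I * ((1 - 3 * I + 6 * I ^ 2) + ev4 x tw * (1 / 8 + 5 * I - 6 * I ^ 2)) := by
    intro x tw h2
    simp only [sV, ev4_add, ev4_sub, ev4_mul, ev4_nC]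
    rw [show ev4 x .x₂ = I from h2]
    push_cast; ring
  have vU : ∀ (x : ℕ → ℝ) (tq tv : Ex), x 2 = I → x 3 = a →
      ev4 x (sU tq tv) = -(ev4 x tq * ((stripNegP a b).K * ev4 x tv)) := by
    intro x tq tv h2 h3
    simp only [sU, sK, stripNegP, ← hId, ev4_add, ev4_sub, ev4_mul, ev4_nC]
    rw [show ev4 x .x₂ = I from h2, show ev4 x .x₃ = a from h3]
    push_cast; ring
  have tH : ∀ x : ℕ → ℝ, x 2 = I → x 3 = a →
      ev4 x sHi = (stripNegP a b).hi := by
    intro x h2 h3
    simp only [sHi, stripNegP, ← hId, ev4_add, ev4_sub, ev4_mul, ev4_nC]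
    rw [show ev4 x .x₂ = I from h2, show ev4 x .x₃ = a from h3]
    push_cast; ring
  have tL : ∀ x : ℕ → ℝ, x 2 = I → x 3 = a →
      ev4 x sLo = (stripNegP a b).lo := by
    intro x h2 h3
    simp only [sLo, stripNegP, ← hId, ev4_add, ev4_sub, ev4_mul, ev4_nC]
    rw [show ev4 x .x₂ = I from h2, show ev4 x .x₃ = a from h3]
    push_cast; ring
  refine ⟨hV, ?_, hK, ?_, ?_, fun u v h => ?_, fun u v H h h1 h2 => ?_, fun u v h => ?_⟩
  · simp only [stripNegP, ← hId]; exact mul_pos (by linarith) (by linarith)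
  · simp only [stripNegP, ← hId]; nlinarith [mul_le_mul_of_nonneg_left hI1 hI.le]
  · simp only [stripNegP, ← hId]
    have : 2 * I * (1 - 3 * I + 6 * I ^ 2) * (N + 2 * a) =
        2 * (1 - 3 * I + 6 * I ^ 2) * (N * I) + 4 * (a * I) * (1 - 3 * I + 6 * I ^ 2) := by ring
    rw [this, hIN]
    nlinarith [mul_pos hI (show 0 < 3 - 6 * I - (1 - 3 * I + 6 * I ^ 2) by linarith),
      mul_le_mul_of_nonneg_right (show 2 * (a * I) ≤ I by nlinarith)
        (show 0 ≤ 1 - 3 * I + 6 * I ^ 2 by linarith)]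
  · obtain ⟨hv, q, w, hq, hq1, hw, hw1, ev, eu⟩ := coords u v h
    obtain ⟨x, x0, x1, x2, x3, hx⟩ := place hb h7 ha hq hq1 hw hw1
    have ev' : ev4 x (sV .x₁) = v := by rw [vV x .x₁ x2, show ev4 x .x₁ = w from x1, ev]
    have eu' : ev4 x (sU .x₀ (sV .x₁)) = u := by
      rw [vU x .x₀ _ x2 x3, ev', show ev4 x .x₀ = q from x0, eu]
    obtain ⟨hG, -, -, -, n1⟩ := eval (x := x) x2 x3 (tH x x2 x3) hbI hb0 (by linarith) ha1 ev' eu'
    obtain ⟨-, -, -, -, n2⟩ := eval (x := x) x2 x3 (tL x x2 x3) hbI hb0 (by linarith) ha1 ev' eu'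
    have hp : 0 < ev4 x (nC 1 1000 * (.x₀ * (.x₂ * .x₂ * .x₃))) := by
      simp only [ev4_mul, ev4_nC]
      rw [show ev4 x .x₀ = q from x0, show ev4 x .x₂ = I from x2, show ev4 x .x₃ = a from x3]
      have := mul_pos hq (mul_pos (mul_pos (show 0 < I by linarith) (show 0 < I by linarith)) ha0)
      push_cast
      linarith
    have p1 := pos_of_sub (hx _ _ _ chkHi_ok) hp
    have p2 := pos_of_sub (hx _ _ _ chkLo_ok) hp
    rw [n1] at p1
    rw [ev4_sub, n2] at p2
    refine ⟨pos_of_mul_pos_left p1 (sq_nonneg _),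
      neg_of_mul_neg_left (b := (b * (1 + 2 * I) * (1 - a) ^ 2) ^ 2) ?_ (sq_nonneg _)⟩
    simp only [ev4_nC] at p2
    norm_num at p2
    linarith
  · obtain ⟨hv, q, w, hq, hq1, hw, hw1, -, eu⟩ := coords u v h
    obtain ⟨x, x0, x1, x2, x3, hx⟩ := place hb h7 ha hq hq1 hw hw1
    have hp : 0 < ev4 x (nC 1 1000 * (.x₂ * .x₂ * .x₃)) := by
      simp only [ev4_mul, ev4_nC]
      rw [show ev4 x .x₂ = I from x2, show ev4 x .x₃ = a from x3]
      have := mul_pos (mul_pos (show 0 < I by linarith) (show 0 < I by linarith)) ha0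
      push_cast
      linarith
    constructor <;> intro hvv
    · have ev' : ev4 x (sV (nC 0)) = v := by
        rw [vV x _ x2, hvv]; simp only [stripNegP, ← hId, ev4_nC]; push_cast; ring
      have eu' : ev4 x (sU .x₀ (sV (nC 0))) = u := by
        rw [vU x .x₀ _ x2 x3, ev', show ev4 x .x₀ = q from x0, eu]
      obtain ⟨hG, -, -, f1, -⟩ :=
        eval (x := x) x2 x3 (tH x x2 x3) hbI hb0 (by linarith) ha1 ev' eu'
      obtain ⟨-, -, -, f2, -⟩ :=
        eval (x := x) x2 x3 (tL x x2 x3) hbI hb0 (by linarith) ha1 ev' eu'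
      have p1 := pos_of_sub (hx _ _ _ downHi_ok) hp
      have p2 := pos_of_sub (hx _ _ _ downLo_ok) hp
      rw [ev4_sub, f1, ev4_nC] at p1
      rw [ev4_sub, f2, ev4_nC] at p2
      norm_num at p1 p2
      have := flow_between (-1) h1 h2
        (by linarith [neg_of_mul_neg_left p1 hG.le]) (by linarith [neg_of_mul_neg_left p2 hG.le])
      linarith
    · have ev' : ev4 x (sV (nC 1)) = v := by
        rw [vV x _ x2, hvv]; simp only [stripNegP, ← hId, ev4_nC]; push_cast; ring
      have eu' : ev4 x (sU .x₀ (sV (nC 1))) = u := by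
        rw [vU x .x₀ _ x2 x3, ev', show ev4 x .x₀ = q from x0, eu]
      obtain ⟨hG, -, -, f1, -⟩ :=
        eval (x := x) x2 x3 (tH x x2 x3) hbI hb0 (by linarith) ha1 ev' eu'
      obtain ⟨-, -, -, f2, -⟩ :=
        eval (x := x) x2 x3 (tL x x2 x3) hbI hb0 (by linarith) ha1 ev' eu'
      have p1 := pos_of_sub (hx _ _ _ upHi_ok) hp
      have p2 := pos_of_sub (hx _ _ _ upLo_ok) hp
      rw [f1] at p1
      rw [f2] at p2
      have := flow_between 1 h1 h2 (by linarith [pos_of_mul_pos_left p1 hG.le])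
        (by linarith [pos_of_mul_pos_left p2 hG.le])
      linarith
  · obtain ⟨hv, q, w, hq, hq1, hw, hw1, ev, -⟩ := coords u v h
    obtain ⟨x, x0, x1, x2, x3, hx⟩ := place hb h7 ha hq hq1 hw hw1
    have ev' : ev4 x (sV .x₁) = v := by rw [vV x .x₁ x2, show ev4 x .x₁ = w from x1, ev]
    have eu' : ev4 x (sU (nC 1) (sV .x₁)) = -((stripNegP a b).K * v) := by
      rw [vU x _ _ x2 x3, ev', ev4_nC]; push_cast; ring
    obtain ⟨hG, g1, g2, -, -⟩ :=
      eval (x := x) x2 x3 (tH x x2 x3) hbI hb0 (by linarith) ha1 ev' eu'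
    have hp : 0 < ev4 x (nC 1 1000 * .x₂) := by
      simp only [ev4_mul, ev4_nC]
      rw [show ev4 x .x₂ = I from x2]
      push_cast
      linarith
    have p := pos_of_sub (hx _ _ _ left_ok) hp
    rw [ev4_sub, ev4_mul, g1, g2] at p
    have vK : ev4 x sK = (stripNegP a b).K := by
      simp only [sK, stripNegP, ← hId, ev4_add, ev4_sub, ev4_mul, ev4_nC]
      rw [show ev4 x .x₂ = I from x2, show ev4 x .x₃ = a from x3]
      push_cast; ring
    rw [vK] at p
    have h1 : 1 < (stripNegP a b).K *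
        allNegG a b (stripNegP a b).hi (-((stripNegP a b).K * v)) v := by
      refine lt_of_mul_lt_mul_right ?_ hG.le
      linarith
    refine ⟨?_, h1⟩
    have h2 : 0 < allNegG a b (stripNegP a b).hi (-((stripNegP a b).K * v)) v :=
      pos_of_mul_pos_right (by linarith) hK.le
    have hS : 0 ≤ allNegS a b (stripNegP a b).hi := by
      simp only [allNegS, ← hId]
      have : 0 ≤ (stripNegP a b).hi := by simp only [stripNegP, ← hId]; linarith
      have := show 0 ≤ I by linarith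
      positivity
    simp only [allNegG] at h2 ⊢
    linarith [mul_le_mul_of_nonneg_right h.left hS]

end StripNeg

end Vale.Agent.P100.Calib.Band
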