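import Vale.Agent.P100.Calib.SlabSignsAllNegCond

/-!
# The closed forms below the crossing in the strip, as expressions

The variables are `(U, X, I, a)` as for `Closed.All.SgnNeg`, whose coefficients are used. With
`M = d + 3 I²` and `t = 1 - d o` the arguments `p, h, o, z, w` stand for `b g W`, `I g`, `u H`,
`D₂ d S²` and the slope. Checks substitute the chart `(W, w, I, θ)`: `U = X W`,
`X = 1 - 3 I + w (1/8 + 5 I)`, `d = θ (19/50 - 2 I)` and `a = (1 - 2 I - d)/2`.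
-/

namespace Vale.Agent.P100.Calib.Closed.Strip.SgnNeg

open BoxPos All.SgnNeg

local instance exprAdd : Add Ex := ⟨Ex.add⟩
local instance exprSub : Sub Ex := ⟨Ex.sub⟩
local instance exprMul : Mul Ex := ⟨Ex.mul⟩

/-- `d + 3 I²`. -/
def eM : Ex := eD + nC 3 * (.x₂ * .x₂)

/-- `1 - 3 I - 2 a²`. -/
def eC0 : Ex := nC 1 - nC 3 * .x₂ - nC 2 * (.x₃ * .x₃)

/-- `b²` times the limit slope. -/
def eKb : Ex := nC 5 2 * (eB * eB) - nC 43 20 * (.x₃ * .x₃)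

/-- `b² M` times the slope. -/
def eKn : Ex := eKb * eD - nC 6 * eC0 * (.x₂ * .x₂ * .x₂) * (eB * eB)

/-- `t`. -/
def eT (o : Ex) : Ex := nC 1 - eD * o

/-- `b² M E`. -/
def eLt (o : Ex) : Ex :=
  nC 0 - eKb * eT o - nC 2 * eC0 * .x₂ * eQ * (eB * eB) -
    nC 6 * eC0 * (.x₂ * .x₂ * .x₂) * (eB * eB) * (eV + o)

/-- `G d² b (1 + d v)/a`. -/
def eGs (o : Ex) : Ex := nC 0 - .x₂ * (nC 1 - nC 3 * .x₃ - .x₂) * eB * eQ - nC 1 10 * eT o

/-- `G₁ d² b (1 + d v)/a`. -/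
def eG1s (o : Ex) : Ex := nC 0 - nC 1 10 * eT o

/-- A reduced form. -/
def sG (p o z : Ex) : Ex :=
  cG0 * eB * eB * eB * eB * eQ * eQ * eS * eS * eS * eS +
    cG1 * .x₂ * .x₂ * .x₂ * .x₁ * eB * eB * eB * eB * eD * eQ * eQ * eS * eS * z +
    cG2 * .x₂ * .x₂ * eB * eB * eB * eB * eQ * eQ * z * z +
    cG3 * .x₂ * .x₂ * .x₁ * .x₁ * eB * eB * eQ * eS * eS * eS * eS * (eG1s o) +
    cG4 * .x₂ * .x₂ * .x₁ * .x₁ * eB * eB * eD * eQ * eS * eS * eS * eS * (eGs o) +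
    cG5 * .x₂ * .x₂ * .x₂ * .x₁ * eB * eB * eQ * eS * eS * (eGs o) * z +
    cG6 * .x₂ * .x₂ * .x₁ * .x₁ * eS * eS * eS * eS * (eGs o) * (eGs o) +
    cG7 * eB * eB * eB * eB * eQ * eQ * eS * eS * eS * eS * p +
    cG8 * .x₂ * .x₂ * .x₁ * eB * eB * eB * eB * eD * eQ * eQ * eS * eS * p * z +
    cG9 * .x₂ * .x₂ * .x₂ * .x₁ * .x₁ * eB * eB * eD * eQ * eS * eS * eS * eS * p * (eGs o) +
    cG10 * eB * eB * eB * eB * eQ * eQ * eS * eS * eS * eS * p * p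

/-- A reduced form. -/
def sY (p h o z : Ex) : Ex :=
  cY0 * .x₁ * eB * eB * eB * eD * eQ * eS * eS * eM +
    cY1 * eB * eB * eB * eQ * eM * z +
    cY2 * .x₂ * .x₂ * .x₁ * .x₁ * .x₁ * eB * eD * eS * eS * eM * (eG1s o) +
    cY3 * .x₁ * eB * eS * eS * eM * (eGs o) +
    cY4 * .x₁ * eD * eQ * eS * eS * (h * eLt o) +
    cY5 * .x₁ * eB * eB * eB * eD * eQ * eS * eS * eM * p +
    cY6 * eB * eB * eB * eQ * eM * p * z +
    cY7 * .x₁ * eB * eS * eS * eM * p * (eGs o) +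
    cY8 * .x₁ * eD * eQ * eS * eS * p * (h * eLt o) +
    cY9 * .x₂ * .x₁ * eB * eB * eB * eD * eQ * eS * eS * eM * p * p

/-- A reduced form. -/
def sX (p h o w : Ex) : Ex :=
  cX0 * .x₂ * .x₁ * eB * eB * eB * eM * (fW p h w) +
    cX1 * .x₂ * .x₂ * .x₁ * .x₁ * eS * eS * eMu * (nC (-1) * h * eT o * eKn) +
    cX2 * eS * eS * eMu * (h * eLt o) +
    cX3 * .x₂ * .x₂ * .x₁ * eB * eB * eB * eS * eS * eMu * eM * p +
    cX4 * eS * eS * eMu * p * (h * eLt o)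

/-- A reduced form. -/
def sT (p h o w z : Ex) : Ex :=
  cT0 * eB * eB * eB * eB * eB * eB * eQ * eS * eS * eS * eS * eMu * eM +
    cT1 * .x₂ * .x₂ * .x₂ * .x₁ * .x₁ * eB * eB * eB * eB * eB * eB * eD * eQ * eS * eS * eMu * eM * z +
    cT2 * .x₂ * .x₂ * eB * eB * eB * eB * eB * eB * eQ * eMu * eM * z * z +
    cT3 * .x₂ * .x₁ * eB * eB * eB * eB * eB * eB * eQ * eS * eS * eM * (fW p h w) +
    cT4 * .x₂ * .x₂ * .x₁ * .x₁ * eB * eB * eB * eQ * eS * eS * eS * eS * eMu * (nC (-1) * h * eT o * eKn) +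
    cT5 * .x₂ * .x₂ * .x₁ * eB * eB * eB * eQ * eS * eS * eS * eS * eMu * (h * eLt o) +
    cT6 * .x₂ * .x₂ * .x₂ * .x₁ * eB * eB * eB * eD * eQ * eS * eS * eMu * (h * eLt o) * z +
    cT7 * .x₂ * .x₂ * .x₁ * .x₁ * eD * eQ * eS * eS * eS * eS * eMu * (h * eLt o) * (h * eLt o) +
    cT8 * eB * eB * eB * eB * eB * eB * eQ * eS * eS * eS * eS * eMu * eM * p +
    cT9 * .x₂ * .x₂ * .x₁ * eB * eB * eB * eB * eB * eB * eD * eQ * eS * eS * eMu * eM * p * z +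
    cT10 * .x₂ * .x₂ * .x₁ * .x₁ * eB * eB * eB * eB * eD * eS * eS * eS * eS * eMu * eM * p * (eGs o) +
    cT11 * .x₂ * .x₂ * .x₁ * .x₁ * eB * eB * eB * eD * eD * eQ * eS * eS * eS * eS * eMu * p * (h * eLt o) +
    cT12 * eB * eB * eB * eB * eB * eB * eQ * eS * eS * eS * eS * eMu * eM * p * p

/-- A reduced form. -/
def sN (p h o w z : Ex) : Ex :=
  cN0 * eB * eB * eB * eB * eB * eB * eQ * eS * eS * eS * eS * eMu * eM +
    cN1 * .x₂ * .x₂ * .x₁ * eB * eB * eB * eB * eB * eB * eD * eQ * eS * eS * eMu * eM * z +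
    cN2 * .x₂ * .x₂ * eB * eB * eB * eB * eB * eB * eQ * eMu * eM * z * z +
    cN3 * .x₂ * .x₂ * .x₁ * eB * eB * eB * eB * eB * eB * eQ * eS * eS * eM * (fW p h w) +
    cN4 * .x₂ * .x₂ * .x₁ * .x₁ * eB * eB * eB * eQ * eS * eS * eS * eS * eMu * (nC (-1) * h * eT o * eKn) +
    cN5 * .x₂ * .x₂ * .x₁ * eB * eB * eB * eQ * eS * eS * eS * eS * eMu * (h * eLt o) +
    cN6 * .x₂ * .x₂ * .x₁ * eB * eB * eB * eD * eQ * eS * eS * eMu * (h * eLt o) * z +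
    cN7 * .x₂ * .x₂ * .x₁ * .x₁ * eD * eQ * eS * eS * eS * eS * eMu * (h * eLt o) * (h * eLt o) +
    cN8 * eB * eB * eB * eB * eB * eB * eQ * eS * eS * eS * eS * eMu * eM * p +
    cN9 * .x₂ * .x₂ * .x₁ * eB * eB * eB * eB * eB * eB * eD * eQ * eS * eS * eMu * eM * p * z +
    cN10 * .x₂ * .x₂ * .x₁ * .x₁ * eB * eB * eB * eB * eD * eS * eS * eS * eS * eMu * eM * p * (eGs o) +
    cN11 * .x₂ * .x₂ * .x₁ * .x₁ * eB * eB * eB * eD * eD * eQ * eS * eS * eS * eS * eMu * p * (h * eLt o) +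
    cN12 * eB * eB * eB * eB * eB * eB * eQ * eS * eS * eS * eS * eMu * eM * p * p

/-- A reduced form. -/
def sLG (q o z : Ex) : Ex :=
  cL0 * .x₁ * eB * eB * eB * eB * eQ * eS * eS * eM +
    cL1 * .x₂ * .x₁ * eQ * eS * eS * (nC (-1) * eT o * eKn) * (nC (-1) * eS * .x₀) +
    cL2 * eB * eQ * eS * eS * (eLt o) +
    cL3 * .x₂ * eQ * eS * eS * (eLt o) * (nC (-1) * eS * .x₀) +
    cL4 * .x₂ * eD * eQ * (eLt o) * (nC (-1) * eS * .x₀) * z +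
    cL5 * .x₁ * eB * eB * eB * eB * eD * eQ * eS * eS * eM * q +
    cL6 * .x₁ * eB * eB * eD * eS * eS * eM * q * (eGs o)

/-- The middle of the enclosure of `b g W`. -/
def pMid : Ex :=
  nC 4 + .x₂ * (nC 8 * (nC 1 - .x₃) * .x₁ - nC 8) +
    .x₂ * .x₂ * (nC 14 - nC 5 * .x₃ - nC 14 * .x₁ + nC 21 * .x₃ * .x₁ +
      .x₀ * (nC 209 5 * .x₃ - nC 43 10))

/-- The middle of the enclosure of `I g`. -/
def gS : Ex :=
  nC 2 + .x₂ * .x₀ * (nC 71 3 * (.x₃ * .x₃) - nC 22 3 * .x₃ + nC 17 10) +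
    .x₂ * .x₂ * .x₀ * (nC 191 4 * .x₃ - nC 4)

/-- The middle of the enclosure of `u H`. -/
def oM : Ex :=
  nC (-1) * (.x₂ * .x₀ * (nC 131 100 + nC 21 4 * .x₃))

/-- An end of the enclosure of `b g W`. -/
def spE : Bool → Ex
  | false => pMid + nC (-33) 2 * (.x₂ * .x₂)
  | true => pMid + nC 10 * (.x₂ * .x₂)

/-- An end of the enclosure of `I g`. -/
def sgE : Bool → Ex
  | false => gS + nC (-9) 100 * .x₂
  | true => gS + nC 23 200 * .x₂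

/-- An end of the enclosure of `u H`. -/
def soE : Bool → Ex
  | false => oM + nC (-27) 100 * .x₂
  | true => oM + nC 21 100 * .x₂

/-- An end of the slope. -/
def swE : Bool → Ex
  | false => nC 2 - nC 27 10 * .x₃ - nC 13 * .x₂ + nC 60 * (.x₂ * .x₂)
  | true => nC 11 5 + nC 25 * (.x₃ - nC 31 100) + nC 8 * .x₂

/-- The upper end of `D₂ d S²` for `I ≤ 1/10`. -/
def szA : Ex := nC 1 - nC 7 2 * .x₂

/-- The upper end of `D₂ d S²` for `I > 1/10`. -/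
def szB : Ex := nC 12 * (nC 1 7 - .x₂) + nC 1 50

/-- An end of `D₂ d S²`. -/
def szE (Z : Ex) : Bool → Ex
  | false => nC 0
  | true => Z

/-- `k |TEGS| ≤ TGGS`. -/
def cGY (K : ℕ) (s : Bool) (p h o z : Ex) : Ex :=
  nC K * eM * sG p o z + sgn s * (sY p h o z * (.x₂ * eB * eS * eS * eQ)) - eEps * eM

/-- The bound of `TMES`. -/
def cX (c : Ex) (s : Bool) (p h o w : Ex) : Ex :=
  nC (-2) * c * eQ * h * eLt o * p * .x₂ * eS * eS * eMu + sgn s * (sX p h o w * eB)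

/-- The linear arrow. -/
def cL (K : ℕ) (c : Ex) (s : Bool) (p h o w z : Ex) : Ex :=
  nC 4 * eB * sT p h o w z +
      nC 32 * c * c *
        (.x₂ * .x₂ * eS * eS * eS * eS * eQ * eQ * eQ * eMu * eB * eB) * h * eLt o * p +
    sgn s * (nC K * (eQ * .x₂ * eS * eS * eMu * eB * eB * eB * eB) * sY p h o z) - eEps

/-- The curvature of `cGY`. -/
def dGY (K : ℕ) (s : Bool) : Ex :=
  nC 0 - (nC K * eM * (cG10 * eB * eB * eB * eB * eQ * eQ * eS * eS * eS * eS) +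
    sgn s * ((cY9 * .x₂ * .x₁ * eB * eB * eB * eD * eQ * eS * eS * eM) * (.x₂ * eB * eS * eS * eQ)))

/-- The curvature of `cL`. -/
def dL (K : ℕ) (s : Bool) : Ex :=
  nC 0 - (nC 4 * eB * (cT12 * eB * eB * eB * eB * eB * eB * eQ * eS * eS * eS * eS * eMu * eM) +
    sgn s * (nC K * (eQ * .x₂ * eS * eS * eMu * eB * eB * eB * eB) * (cY9 * .x₂ * .x₁ * eB * eB * eB * eD * eQ * eS * eS * eM)))

/-- A curvature. -/
def dGG : Ex := nC 0 - cG6 * .x₂ * .x₂ * .x₁ * .x₁ * eS * eS * eS * eS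

/-- A curvature. -/
def dGZ : Ex := nC 0 - cG2 * .x₂ * .x₂ * eB * eB * eB * eB * eQ * eQ

/-- A curvature. -/
def dTE : Ex := nC 0 - cT7 * .x₂ * .x₂ * .x₁ * .x₁ * eD * eQ * eS * eS * eS * eS * eMu

/-- A curvature. -/
def dTZ : Ex := nC 0 - cT2 * .x₂ * .x₂ * eB * eB * eB * eB * eB * eB * eQ * eMu * eM

/-- A curvature. -/
def dNE : Ex := nC 0 - cN7 * .x₂ * .x₂ * .x₁ * .x₁ * eD * eQ * eS * eS * eS * eS * eMu

/-- A curvature. -/
def dNZ : Ex := nC 0 - cN2 * .x₂ * .x₂ * eB * eB * eB * eB * eB * eB * eQ * eMu * eM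

/-- A curvature. -/
def dNP : Ex := nC 0 - cN12 * eB * eB * eB * eB * eB * eB * eQ * eS * eS * eS * eS * eMu * eM

/-- The slope of `sT` in `z`. -/
def zT (p h o z : Ex) : Ex :=
  cT1 * .x₂ * .x₂ * .x₂ * .x₁ * .x₁ * eB * eB * eB * eB * eB * eB * eD * eQ * eS * eS * eMu * eM +
    nC 2 * (cT2 * .x₂ * .x₂ * eB * eB * eB * eB * eB * eB * eQ * eMu * eM * z) +
    cT6 * .x₂ * .x₂ * .x₂ * .x₁ * eB * eB * eB * eD * eQ * eS * eS * eMu * (h * eLt o) +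
    cT9 * .x₂ * .x₂ * .x₁ * eB * eB * eB * eB * eB * eB * eD * eQ * eS * eS * eMu * eM * p

/-- The slope of `sY` in `z`. -/
def zY (p : Ex) : Ex :=
  cY1 * eB * eB * eB * eQ * eM +
    cY6 * eB * eB * eB * eQ * eM * p

/-- The slope of the linear arrow in `z`. -/
def cLz (K : ℕ) (s : Bool) (p h o z : Ex) : Ex :=
  nC 4 * eB * zT p h o z +
    sgn s * (nC K * (eQ * .x₂ * eS * eS * eMu * eB * eB * eB * eB) * zY p)

/-- The monotonicity of the linear arrow in `z`, at the end where it is weakest. -/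
def cLm (K : ℕ) (Z : Ex) (p h o : Ex) : Bool → Ex
  | true => nC 0 - cLz K true p h o (nC 0)
  | false => cLz K false p h o Z

/-- The lower end of `b g W`. -/
def envPL : Ex := nC 4 * eQn * eGn (swE true) - spE false * eS * eDen (swE true)

/-- The upper end of `b g W`. -/
def envPH : Ex := spE true * eS * eDen (swE false) - nC 4 * eQn * eGn (swE false)

/-- The upper end of `I g`. -/
def envGH : Ex := sgE true * eB * eDen (swE true) - nC 2 * eQn * eGd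

/-- The lower end of `I g`. -/
def envGL : Ex := nC 2 * eQn * eGd - sgE false * eB * eDen (swE false)

/-- The lower end of `u H`. -/
def envOL : Ex := eU * eGn (swE false) - soE false * eGd

/-- The upper end of `u H`. -/
def envOH : Ex := soE true * eGd - eU * eGn (swE true)

/-- Substitution of the variables. -/
def subst (f₀ f₁ f₂ f₃ : Ex) : Ex → Ex
  | .cst n d => .cst n d
  | .x₀ => f₀
  | .x₁ => f₁
  | .x₂ => f₂
  | .x₃ => f₃
  | .add e f => .add (subst f₀ f₁ f₂ f₃ e) (subst f₀ f₁ f₂ f₃ f)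
  | .sub e f => .sub (subst f₀ f₁ f₂ f₃ e) (subst f₀ f₁ f₂ f₃ f)
  | .mul e f => .mul (subst f₀ f₁ f₂ f₃ e) (subst f₀ f₁ f₂ f₃ f)

/-- `X` in the chart. -/
def eXs : Ex := nC 1 - nC 3 * .x₂ + .x₁ * (nC 1 8 + nC 5 * .x₂)

/-- `d` in the chart. -/
def eDs : Ex := .x₃ * (nC 19 50 - nC 2 * .x₂)

/-- An expression in the chart `(W, w, I, θ)`. -/
def inChart (e : Ex) : Ex :=
  subst (eXs * .x₀) eXs .x₂ (nC 1 2 * ((nC 1 - nC 2 * .x₂) - eDs)) e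

/-- The chart of piece A, `I ≤ 1/10`. -/
def boxA : ℕ → Pack.Chart
  | 0 => ⟨0, 3, 1, 4⟩
  | 1 => ⟨1, 0, 1, 1⟩
  | 2 => ⟨1, 0, 10, 1⟩
  | _ => ⟨1, 0, 1, 1⟩

/-- The chart of piece B, `I ≥ 1/10` and `w ≤ 1/2`. -/
def boxB : ℕ → Pack.Chart
  | 0 => ⟨0, 3, 1, 4⟩
  | 1 => ⟨1, 0, 2, 1⟩
  | 2 => ⟨1, 1, 7, 10⟩
  | _ => ⟨1, 0, 1, 1⟩

/-- The chart of piece C, `I ≥ 1/10` and `w ≥ 1/2`. -/
def boxC : ℕ → Pack.Chart
  | 0 => ⟨0, 3, 1, 4⟩
  | 1 => ⟨1, 1, 1, 2⟩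
  | 2 => ⟨1, 1, 7, 10⟩
  | _ => ⟨1, 0, 1, 1⟩

/-- The chart of the lower part `W ≤ 9/20` of piece C. -/
def boxC₀ : ℕ → Pack.Chart
  | 0 => ⟨0, 9, 1, 20⟩
  | i => boxC i

/-- The chart of the upper part `W ≥ 9/20` of piece C. -/
def boxC₁ : ℕ → Pack.Chart
  | 0 => ⟨9, 3, 20, 4⟩
  | i => boxC i

end Vale.Agent.P100.Calib.Closed.Strip.SgnNeg
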