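import Vale.Agent.P100.Calib.SlabMidNegExpr
import Vale.Agent.P100.Calib.SlabStripNegExpr

/-!
# The expressions of the conditions at and below the crossing in the strip

The variables are `(q, w, I, a)`: `u = -q K v`, `v = 2 I X`,
`X = (1 - 3 I + 6 I²) + w (1/8 + 5 I - 6 I²)`, `K = (1 - a)(1 + 3/5 I)`. The checks substitute
`a = 31/100 + θ (19/100 - I)`.
-/

namespace Vale.Agent.P100.Calib.Band.StripNeg

open BoxPos AllNeg MidNeg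

local instance stripNegAdd : Add Ex := ⟨Ex.add⟩
local instance stripNegSub : Sub Ex := ⟨Ex.sub⟩
local instance stripNegMul : Mul Ex := ⟨Ex.mul⟩

/-- `v`. -/
def sV (w : Ex) : Ex :=
  nC 2 * .x₂ * ((nC 1 - nC 3 * .x₂ + nC 6 * (.x₂ * .x₂)) +
    w * (nC 1 8 + nC 5 * .x₂ - nC 6 * (.x₂ * .x₂)))

/-- `K`. -/
def sK : Ex := (nC 1 - .x₃) * (nC 1 + nC 3 5 * .x₂)

/-- `u`. -/
def sU (q v : Ex) : Ex := nC (-1) * (q * (sK * v))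

/-- The lower value of `τ`. -/
def sLo : Ex := nC 2 - nC 27 10 * .x₃ - nC 13 * .x₂ + nC 60 * (.x₂ * .x₂)

/-- The upper value of `τ`. -/
def sHi : Ex := nC 11 5 + nC 25 * (.x₃ - nC 31 100) + nC 8 * .x₂

/-- The lower band of `H`. -/
def chkHi : Ex :=
  mNum sHi (sV .x₁) (sU .x₀ (sV .x₁)) .x₂ .x₃ - nC 1 1000 * (.x₀ * (.x₂ * .x₂ * .x₃))

/-- The upper band of `H`. -/
def chkLo : Ex :=
  nC 0 - mNum sLo (sV .x₁) (sU .x₀ (sV .x₁)) .x₂ .x₃ - nC 1 1000 * (.x₀ * (.x₂ * .x₂ * .x₃))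

/-- The lower end of `v`. -/
def chkDown (t : Ex) : Ex :=
  nC 0 - mFlow t (sV (nC 0)) (sU .x₀ (sV (nC 0))) .x₂ .x₃ - nC 1 1000 * (.x₂ * .x₂ * .x₃)

/-- The upper end of `v`. -/
def chkUp (t : Ex) : Ex :=
  mFlow t (sV (nC 1)) (sU .x₀ (sV (nC 1))) .x₂ .x₃ - nC 1 1000 * (.x₂ * .x₂ * .x₃)

/-- The end of the range of `u`. -/
def chkLeft : Ex :=
  sK * mGn sHi (sV .x₁) (sU (nC 1) (sV .x₁)) .x₂ .x₃ - nGd .x₂ .x₃ - nC 1 1000 * .x₂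

/-- `a` in the chart. -/
def sA : Ex := nC 31 100 + .x₃ * (nC 19 100 - .x₂)

/-- An expression in the chart `(q, w, I, θ)`. -/
def inBox (e : Ex) : Ex := Closed.Strip.SgnNeg.subst .x₀ .x₁ .x₂ sA e

/-- The charts: `q ∈ (0, 1]`, `w ∈ [0, 17/16)`, `I ∈ (0, 1/7]`, `θ ∈ (0, 1]`. -/
def box : ℕ → Pack.Chart
  | 0 => ⟨1, 0, 1, 1⟩
  | 1 => ⟨0, 17, 16, 16⟩
  | 2 => ⟨1, 0, 7, 1⟩
  | _ => ⟨1, 0, 1, 1⟩

end Vale.Agent.P100.Calib.Band.StripNeg
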