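import Vale.Agent.P100.Calib.SlabSignsAllNegScale
import Vale.Agent.P100.Calib.SlabStripNegReal

/-!
# The closed forms of the strip below the crossing in the reduced forms

In `qT` and `qN` the square of the end value carries `d` in place of `d²/M`.
-/

set_option linter.unusedVariables false
set_option linter.unusedSimpArgs false
set_option linter.unusedTactic false

namespace Vale.Agent.P100.Calib.Closed.Strip.SgnNeg

open All.SgnNeg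

/-- The values along an orbit in the arguments of the reduced forms. -/
structure Vals (x : ℕ → ℝ) (g W W1 R p η o τ ζ : ℝ) (n : ClosedGen.Num) : Prop where
  nn : ∀ i < 4, 0 ≤ x i
  pos : 0 < x 2 ∧ 0 < pS x ∧ 0 < pb x ∧ 0 < pd x ∧ 0 < pQ x ∧ 0 < pMu x ∧ 0 < qM x
  c : n.c = x 3 * pb x
  e2 : n.e2 = -(1 - 2 * x 3 - x 2 / 2) * x 2
  gW : g * W = p / pb x
  gE : g * n.E = η * qLt x o / (x 2 * pb x ^ 2 * qM x)
  gK : g * n.K = -η * qTt x o * qKn x / (x 2 * pb x ^ 2 * qM x)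
  gW1 : g * W1 = rW x p η τ / (pb x ^ 2 * pS x ^ 2 * pMu x)
  G : n.G = x 3 * qGs x o / (pb x * pQ x * pd x ^ 2)
  G1 : n.G1 = x 3 * qG1s x o / (pb x * pQ x * pd x ^ 2)
  D2 : n.D2 = ζ / (pS x ^ 2 * pd x)

section
variable {x : ℕ → ℝ} {g W W1 R p η o τ ζ : ℝ} {n : ClosedGen.Num}

theorem Vals.num (h : Vals x g W W1 R p η o τ ζ n) :
    n = ⟨x 3 * pb x, -(1 - 2 * x 3 - x 2 / 2) * x 2, n.E, n.K, n.G, n.G1, n.D2⟩ := by
  obtain ⟨c, e2, E, K, G, G1, D2⟩ := n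
  have hc := h.c
  have he := h.e2
  simp only at hc he ⊢
  rw [hc, he]

theorem Vals.scaleG (h : Vals x g W W1 R p η o τ ζ n) :
    ClosedGen.TGGS (x 3) (pd x) (2 * x 2 * x 1) g W W1 R n * (pS x ^ 4 * pb x * pQ x ^ 2) =
      x 3 ^ 3 * qG x p o ζ := by
  obtain ⟨hI, hS, hb, hd, hQ, hMu, hM⟩ := h.pos
  have eb : 1 - 2 * x 2 - x 3 = pb x := by simp only [pb, pS]
  have ed : 1 - 2 * x 2 - 2 * x 3 = pd x := by simp only [pd, pb, pS]; ring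
  have e := expG x (x 3) (x 2) (x 1) g W W1 R n.E n.K n.G n.G1 n.D2 h.nn rfl rfl rfl
  rw [eb, ed, ← h.num] at e
  simp only [e, h.gW, h.gE, h.gK, h.gW1, h.G, h.G1, h.D2, qG]
  field_simp

theorem Vals.scaleY (h : Vals x g W W1 R p η o τ ζ n) :
    ClosedGen.TEGS (x 3) (pd x) (2 * x 2 * x 1) g W W1 R n * (pS x ^ 2 * pd x * pQ x * qM x) =
      x 3 ^ 3 * x 2 * qY x p η o ζ := by
  obtain ⟨hI, hS, hb, hd, hQ, hMu, hM⟩ := h.pos
  have eb : 1 - 2 * x 2 - x 3 = pb x := by simp only [pb, pS]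
  have ed : 1 - 2 * x 2 - 2 * x 3 = pd x := by simp only [pd, pb, pS]; ring
  have e := expY x (x 3) (x 2) (x 1) g W W1 R n.E n.K n.G n.G1 n.D2 h.nn rfl rfl rfl
  rw [eb, ed, ← h.num] at e
  simp only [e, h.gW, h.gE, h.gK, h.gW1, h.G, h.G1, h.D2, qY]
  field_simp

theorem Vals.scaleX (h : Vals x g W W1 R p η o τ ζ n) :
    g * ClosedGen.TMES (x 3) (pd x) (2 * x 2 * x 1) g W W1 R n *
      (x 2 * pS x ^ 2 * pMu x * pb x ^ 2 * qM x) =
      x 3 * x 2 * qX x p η o τ := by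
  obtain ⟨hI, hS, hb, hd, hQ, hMu, hM⟩ := h.pos
  have eb : 1 - 2 * x 2 - x 3 = pb x := by simp only [pb, pS]
  have ed : 1 - 2 * x 2 - 2 * x 3 = pd x := by simp only [pd, pb, pS]; ring
  have e := expX x (x 3) (x 2) (x 1) g W W1 R n.E n.K n.G n.G1 n.D2 h.nn rfl rfl rfl
  rw [eb, ed, ← h.num] at e
  simp only [e, h.gW, h.gE, h.gK, h.gW1, h.G, h.G1, h.D2, qX]
  field_simp

theorem Vals.scaleT (h : Vals x g W W1 R p η o τ ζ n) :
    ClosedGen.TAS (x 3) (pd x) (2 * x 2 * x 1) g W W1 R n *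
      (pS x ^ 4 * pQ x * pMu x * pb x ^ 4 * qM x) =
      x 3 ^ 3 * pb x * (qT x p η o τ ζ - 3 * x 2 ^ 2 * (ev x cT7 * x 2 ^ 2 * x 1 ^ 2 * pd x * pQ x *
        pS x ^ 4 * pMu x) * (η * qLt x o) ^ 2 / qM x) := by
  obtain ⟨hI, hS, hb, hd, hQ, hMu, hM⟩ := h.pos
  have eb : 1 - 2 * x 2 - x 3 = pb x := by simp only [pb, pS]
  have ed : 1 - 2 * x 2 - 2 * x 3 = pd x := by simp only [pd, pb, pS]; ring
  have e := expT x (x 3) (x 2) (x 1) g W W1 R n.E n.K n.G n.G1 n.D2 h.nn rfl rfl rfl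
  rw [eb, ed, ← h.num] at e
  simp only [e, h.gW, h.gE, h.gK, h.gW1, h.G, h.G1, h.D2, qT]
  field_simp
  simp only [qM]
  ring

theorem Vals.scaleN (h : Vals x g W W1 R p η o τ ζ n) :
    ClosedGen.TMGS (x 3) (pd x) (2 * x 2 * x 1) g W W1 R n *
      (pS x ^ 4 * pQ x * pMu x * pb x ^ 4 * qM x) =
      x 3 ^ 3 * pb x * (qN x p η o τ ζ - 3 * x 2 ^ 2 * (ev x cN7 * x 2 ^ 2 * x 1 ^ 2 * pd x * pQ x *
        pS x ^ 4 * pMu x) * (η * qLt x o) ^ 2 / qM x) := by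
  obtain ⟨hI, hS, hb, hd, hQ, hMu, hM⟩ := h.pos
  have eb : 1 - 2 * x 2 - x 3 = pb x := by simp only [pb, pS]
  have ed : 1 - 2 * x 2 - 2 * x 3 = pd x := by simp only [pd, pb, pS]; ring
  have e := expN x (x 3) (x 2) (x 1) g W W1 R n.E n.K n.G n.G1 n.D2 h.nn rfl rfl rfl
  rw [eb, ed, ← h.num] at e
  simp only [e, h.gW, h.gE, h.gK, h.gW1, h.G, h.G1, h.D2, qN]
  field_simp
  simp only [qM]
  ring

theorem Vals.scaleL (h : Vals x g W W1 R p η o τ ζ n) (hq : W * R = o)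
    (hR : R = -1 * pS x * x 0) (hE : n.E = qLt x o / (pb x ^ 2 * qM x))
    (hK : n.K = -(qTt x o) * qKn x / (pb x ^ 2 * qM x)) :
    ClosedGen.LLGS (x 3) (pd x) (2 * x 2 * x 1) g W W1 R n * (pQ x * pS x ^ 2 * pb x ^ 2 * qM x) =
      x 3 * x 2 * qLG x o o ζ := by
  obtain ⟨hI, hS, hb, hd, hQ, hMu, hM⟩ := h.pos
  have eb : 1 - 2 * x 2 - x 3 = pb x := by simp only [pb, pS]
  have ed : 1 - 2 * x 2 - 2 * x 3 = pd x := by simp only [pd, pb, pS]; ring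
  have e := expL x (x 3) (x 2) (x 1) g W W1 R n.E n.K n.G n.G1 n.D2 rfl rfl rfl
  rw [eb, ed, ← h.num] at e
  rw [e, hq]
  simp only [hR, hE, hK, h.G, h.D2, qLG]
  field_simp

/-- `g²` times the corner of the arrow. -/
theorem Vals.scaleM (h : Vals x g W W1 R p η o τ ζ n) :
    g ^ 2 * ClosedGen.TMMS (x 3) (pd x) (2 * x 2 * x 1) g W W1 R n * (pb x ^ 3 * qM x) =
      -2 * pQ x * η * qLt x o * p := by
  obtain ⟨hI, hS, hb, hd, hQ, hMu, hM⟩ := h.pos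
  have e : g ^ 2 * ClosedGen.TMMS (x 3) (pd x) (2 * x 2 * x 1) g W W1 R n =
      -(2 * x 2 * pQ x * (g * n.E) * (g * W)) := by
    simp only [ClosedGen.TMMS, ClosedGen.TMM_w, pQ, pd, pb, pS]
    ring
  rw [e, h.gE, h.gW]
  field_simp

end

end Vale.Agent.P100.Calib.Closed.Strip.SgnNeg
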