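import Vale.Agent.P100.Calib.SlabSignsAllNegSound
import Vale.Agent.P100.Calib.SlabStripNegReal

/-!
# The conditions of the strip below the crossing on the enclosures

The conditions are concave in each of `b g W`, `I g`, `u H` and the third number and monotone in the
slope; the linear arrow is also monotone in the third number. So they
hold on the enclosures when they hold at the ends taken in `Good`.
-/

set_option linter.unusedSimpArgs false
set_option linter.unusedVariables false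

namespace Vale.Agent.P100.Calib.Closed.Strip.SgnNeg

open BoxPos All.SgnNeg

local instance soundAdd : Add Ex := ⟨Ex.add⟩
local instance soundSub : Sub Ex := ⟨Ex.sub⟩
local instance soundMul : Mul Ex := ⟨Ex.mul⟩

/-- What the checks give at a point for the bound `c` and the upper end `Z` of the third number. -/
structure Good (K : ℕ) (c Z : Ex) (x : ℕ → ℝ) : Prop where
  gy : ∀ s i j l m, 0 ≤ ev x (Strip.SgnNeg.cGY K s (spE i) (sgE j) (soE l) (szE Z m))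
  xb : ∀ s i j l, 0 ≤ ev x (Strip.SgnNeg.cX c s (spE i) (sgE j) (soE l) (swE s))
  arrow : ∀ s i j l,
    0 ≤ ev x (Strip.SgnNeg.cL K c s (spE i) (sgE j) (soE l) (swE false) (szE Z s))
  az : ∀ s i j l, 0 ≤ ev x (cLm K Z (spE i) (sgE j) (soE l) s)
  mg : ∀ i j l m, 0 ≤ ev x (sN (spE i) (sgE j) (soE l) (swE true) (szE Z m))
  lg : ∀ i l m, 0 ≤ ev x (sLG (soE i) (soE l) (szE Z m))
  cgy : ∀ s, 0 ≤ ev x (Strip.SgnNeg.dGY K s)
  cl : ∀ s, 0 ≤ ev x (Strip.SgnNeg.dL K s)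
  cgg : 0 ≤ ev x Strip.SgnNeg.dGG
  cgz : 0 ≤ ev x dGZ
  cte : 0 ≤ ev x Strip.SgnNeg.dTE
  ctz : 0 ≤ ev x dTZ
  cne : 0 ≤ ev x Strip.SgnNeg.dNE
  cnz : 0 ≤ ev x dNZ
  cnp : 0 ≤ ev x Strip.SgnNeg.dNP
  tw : 0 ≤ ev x dTW
  nw : 0 ≤ ev x dNW
  xw : 0 ≤ ev x dXW
  pl : 0 ≤ ev x Strip.SgnNeg.envPL
  ph : 0 ≤ ev x Strip.SgnNeg.envPH
  gh : 0 ≤ ev x Strip.SgnNeg.envGH
  gl : 0 ≤ ev x Strip.SgnNeg.envGL
  ol : 0 ≤ ev x envOL
  oh : 0 ≤ ev x envOH

/-- The factor of `TEGS` against the arrow. -/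
def qLY (x : ℕ → ℝ) : ℝ := pQ x * x 2 * pS x ^ 2 * pMu x * pb x ^ 4

/-- `k |TEGS| ≤ TGGS`. -/
noncomputable def vGY (x : ℕ → ℝ) (k σ p η o z : ℝ) : ℝ :=
  k * qM x * qG x p o z + σ * (qY x p η o z * (x 2 * pb x * pS x ^ 2 * pQ x)) -
    1 / 1000 * x 2 ^ 2 * qM x

/-- The bound of `TMES`. -/
noncomputable def vX (x : ℕ → ℝ) (c σ p η o τ : ℝ) : ℝ :=
  -2 * c * pQ x * η * qLt x o * p * x 2 * pS x ^ 2 * pMu x + σ * (qX x p η o τ * pb x)

/-- The linear arrow. -/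
noncomputable def vL (x : ℕ → ℝ) (k c σ p η o τ z : ℝ) : ℝ :=
  4 * pb x * qT x p η o τ z +
      32 * c * c * (x 2 ^ 2 * pS x ^ 4 * pQ x ^ 3 * pMu x * pb x ^ 2) * η * qLt x o * p +
    σ * (k * qLY x * qY x p η o z) - 1 / 1000 * x 2 ^ 2

/-- The slope of `qT` in the third number. -/
noncomputable def qzT (x : ℕ → ℝ) (p η o z : ℝ) : ℝ :=
  ev x cT1 * x 2 ^ 3 * x 1 ^ 2 * pb x ^ 6 * pd x * pQ x * pS x ^ 2 * pMu x * qM x +
    2 * (ev x cT2 * x 2 ^ 2 * pb x ^ 6 * pQ x * pMu x * qM x * z) +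
    ev x cT6 * x 2 ^ 3 * x 1 * pb x ^ 3 * pd x * pQ x * pS x ^ 2 * pMu x * (η * qLt x o) +
    ev x cT9 * x 2 ^ 2 * x 1 * pb x ^ 6 * pd x * pQ x * pS x ^ 2 * pMu x * qM x * p

/-- The slope of the linear arrow in the third number. -/
noncomputable def vLz (x : ℕ → ℝ) (k σ p η o z : ℝ) : ℝ :=
  4 * pb x * qzT x p η o z +
    σ * (k * qLY x * (ev x cY1 * pb x ^ 3 * pQ x * qM x + ev x cY6 * pb x ^ 3 * pQ x * qM x * p))

section
variable {x : ℕ → ℝ} {K : ℕ} {c Z : Ex}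

theorem ev_cGY (x : ℕ → ℝ) (K : ℕ) (s : Bool) (p h o z : Ex) :
    ev x (Strip.SgnNeg.cGY K s p h o z) =
      vGY x K (sg s) (ev x p) (ev x h) (ev x o) (ev x z) := by
  obtain ⟨hS, hb, hd, hQ, hMu, -, -, -⟩ := ev_base x
  simp only [Strip.SgnNeg.cGY, eEps, vGY, ev_add, ev_sub, ev_mul, ev_nC, ev_sgn, ev_x₂, hS, hb,
    hQ, (ev_new x o).1, ev_sG, ev_sY]
  push_cast
  ring

theorem ev_cX (x : ℕ → ℝ) (c : Ex) (s : Bool) (p h o w : Ex) :
    ev x (Strip.SgnNeg.cX c s p h o w) =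
      vX x (ev x c) (sg s) (ev x p) (ev x h) (ev x o) (ev x w) := by
  obtain ⟨hS, hb, hd, hQ, hMu, -, -, -⟩ := ev_base x
  simp only [Strip.SgnNeg.cX, vX, ev_add, ev_sub, ev_mul, ev_nC, ev_sgn, ev_x₂, hS, hb, hQ, hMu,
    (ev_new x o).2.2.2.1, ev_sX]
  push_cast
  ring

theorem ev_cL (x : ℕ → ℝ) (K : ℕ) (c : Ex) (s : Bool) (p h o w z : Ex) :
    ev x (Strip.SgnNeg.cL K c s p h o w z) =
      vL x K (ev x c) (sg s) (ev x p) (ev x h) (ev x o) (ev x w) (ev x z) := by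
  obtain ⟨hS, hb, hd, hQ, hMu, -, -, -⟩ := ev_base x
  simp only [Strip.SgnNeg.cL, eEps, vL, qLY, ev_add, ev_sub, ev_mul, ev_nC, ev_sgn, ev_x₂, hS, hb,
    hQ, hMu, (ev_new x o).2.2.2.1, ev_sT, ev_sY]
  push_cast
  ring

theorem ev_cLz (x : ℕ → ℝ) (K : ℕ) (s : Bool) (p h o z : Ex) :
    ev x (cLz K s p h o z) = vLz x K (sg s) (ev x p) (ev x h) (ev x o) (ev x z) := by
  obtain ⟨hS, hb, hd, hQ, hMu, -, -, -⟩ := ev_base x
  simp only [cLz, zT, zY, vLz, qzT, qLY, ev_add, ev_sub, ev_mul, ev_nC, ev_sgn, ev_x₁, ev_x₂, hS,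
    hb, hd, hQ, hMu, (ev_new x o).1, (ev_new x o).2.2.2.1]
  push_cast
  ring

theorem ev_szE (x : ℕ → ℝ) (Z : Ex) : ev x (szE Z false) = 0 ∧ ev x (szE Z true) = ev x Z := by
  simp [szE, ev_nC]

/-- An affine function is nonnegative between two points where it is. -/
theorem lin_min {f : ℝ → ℝ} {lo hi y : ℝ}
    (hf : (hi - lo) * f y = (hi - y) * f lo + (y - lo) * f hi) (hlh : lo < hi) (h₀ : lo ≤ y)
    (h₁ : y ≤ hi) (f₀ : 0 ≤ f lo) (f₁ : 0 ≤ f hi) : 0 ≤ f y :=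
  quad_min (A := 0) (by rw [hf]; ring) le_rfl hlh h₀ h₁ f₀ f₁

/-- The enclosures of `b g W`, `I g`, `u H`, the slope and the third number. -/
structure In (Z : Ex) (x : ℕ → ℝ) (p η o τ z : ℝ) : Prop where
  pos : 0 ≤ x 1 ∧ 0 < x 2 ∧ 0 ≤ pb x ∧ 0 ≤ pd x ∧ 0 ≤ pQ x ∧ 0 ≤ pMu x ∧ 0 ≤ pJ x ∧ 0 < qM x ∧
    0 ≤ η
  p₀ : ev x (spE false) ≤ p
  p₁ : p ≤ ev x (spE true)
  g₀ : ev x (sgE false) ≤ η
  g₁ : η ≤ ev x (sgE true)
  o₀ : ev x (soE false) ≤ o
  o₁ : o ≤ ev x (soE true)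
  w₀ : ev x (swE false) ≤ τ
  w₁ : τ ≤ ev x (swE true)
  z₀ : 0 ≤ z
  z₁ : z ≤ ev x Z
  wide : ev x (spE false) < ev x (spE true) ∧ ev x (sgE false) < ev x (sgE true) ∧
    ev x (soE false) < ev x (soE true) ∧ 0 < ev x Z

variable {p η o τ z : ℝ}

/-- A condition that is affine in each of the three arguments holds on the enclosures. -/
theorem In.corners (h : In Z x p η o τ z) {f : ℝ → ℝ → ℝ → ℝ}
    (ep : ∀ lo hi y e q, (hi - lo) * f y e q = (hi - y) * f lo e q + (y - lo) * f hi e q)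
    (eg : ∀ lo hi y e q, (hi - lo) * f e y q = (hi - y) * f e lo q + (y - lo) * f e hi q)
    (eo : ∀ lo hi y e q, (hi - lo) * f e q y = (hi - y) * f e q lo + (y - lo) * f e q hi)
    (hf : ∀ i j l, 0 ≤ f (ev x (spE i)) (ev x (sgE j)) (ev x (soE l))) : 0 ≤ f p η o := by
  obtain ⟨lp, lg, lo', -⟩ := h.wide
  have a1 : ∀ j l, 0 ≤ f p (ev x (sgE j)) (ev x (soE l)) := fun j l =>
    lin_min (f := fun y => f y (ev x (sgE j)) (ev x (soE l))) (ep _ _ _ _ _) lp h.p₀ h.p₁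
      (hf false j l) (hf true j l)
  have a2 : ∀ l, 0 ≤ f p η (ev x (soE l)) := fun l =>
    lin_min (f := fun y => f p y (ev x (soE l))) (eg _ _ _ _ _) lg h.g₀ h.g₁
      (a1 false l) (a1 true l)
  exact lin_min (f := fun y => f p η y) (eo _ _ _ _ _) lo' h.o₀ h.o₁ (a2 false) (a2 true)

/-- The margin of `TGGS` against `TEGS`. -/
theorem Good.gy_on (hg : Good K c Z x) (h : In Z x p η o τ z) (s : Bool) :
    0 ≤ vGY x K (sg s) p η o z := by
  obtain ⟨lp, lh, lo', lz⟩ := h.wide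
  obtain ⟨hX, hI, hb0, hd0, hQ0, hMu0, hJ, hM0, hη⟩ := h.pos
  obtain ⟨hS, hb, hd, hQ, hMu, -, -, -⟩ := ev_base x
  have c1 := hg.cgy s
  have c2 := hg.cgg
  have c3 := hg.cgz
  simp only [Strip.SgnNeg.dGY, Strip.SgnNeg.dGG, dGZ, ev_add, ev_sub, ev_mul, ev_nC, ev_sgn,
    ev_x₁, ev_x₂, hS, hb, hd, hQ, (ev_new x (nC 0)).1] at c1 c2 c3
  push_cast at c1 c2 c3
  have hK0 : (0 : ℝ) ≤ K := K.cast_nonneg
  have hKM : 0 ≤ K * qM x := mul_nonneg hK0 hM0.le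
  have a1 : ∀ j l m, 0 ≤ vGY x K (sg s) p (ev x (sgE j)) (ev x (soE l)) (ev x (szE Z m)) := by
    intro j l m
    refine quad_min
      (f := fun y => vGY x K (sg s) y (ev x (sgE j)) (ev x (soE l)) (ev x (szE Z m)))
      (A := K * qM x * (ev x cG10 * pb x ^ 4 * pQ x ^ 2 * pS x ^ 4) +
        sg s * (ev x cY9 * x 2 * x 1 * pb x ^ 3 * pd x * pQ x * pS x ^ 2 * qM x *
          (x 2 * pb x * pS x ^ 2 * pQ x)))
      ?_ ?_ lp h.p₀ h.p₁ ?_ ?_
    · simp only [vGY, qG, qY]; ring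
    · linarith [c1]
    · simpa [ev_cGY] using hg.gy s false j l m
    · simpa [ev_cGY] using hg.gy s true j l m
  have a2 : ∀ l m, 0 ≤ vGY x K (sg s) p η (ev x (soE l)) (ev x (szE Z m)) := fun l m =>
    quad_min (f := fun y => vGY x K (sg s) p y (ev x (soE l)) (ev x (szE Z m))) (A := 0)
      (by simp only [vGY, qG, qY]; ring) le_rfl lh h.g₀ h.g₁ (a1 false l m) (a1 true l m)
  have a3 : ∀ m, 0 ≤ vGY x K (sg s) p η o (ev x (szE Z m)) := by
    intro m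
    refine quad_min (f := fun y => vGY x K (sg s) p η y (ev x (szE Z m)))
      (A := K * qM x * (ev x cG6 * x 2 ^ 2 * x 1 ^ 2 * pS x ^ 4) * (pd x ^ 2 / 100))
      ?_ ?_ lo' h.o₀ h.o₁ (a2 false m) (a2 true m)
    · simp only [vGY, qG, qY, qLt, qGs, qG1s, qTt]; ring
    · nlinarith [mul_nonneg (mul_nonneg hKM (sq_nonneg (pd x))) c2]
  obtain ⟨e0, e1⟩ := ev_szE x Z
  refine quad_min (f := fun y => vGY x K (sg s) p η o y)
    (A := K * qM x * (ev x cG2 * x 2 ^ 2 * pb x ^ 4 * pQ x ^ 2))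
    ?_ ?_ lz h.z₀ h.z₁ (e0 ▸ a3 false) (e1 ▸ a3 true)
  · simp only [vGY, qG, qY]; ring
  · nlinarith [mul_nonneg hKM c3]

/-- The bound of `TMES`. -/
theorem Good.x_on (hg : Good K c Z x) (h : In Z x p η o τ z) (s : Bool) :
    0 ≤ vX x (ev x c) (sg s) p η o τ := by
  obtain ⟨hX, hI, hb, hd, hQ, hMu, hJ, hM, hη⟩ := h.pos
  have a3 : 0 ≤ vX x (ev x c) (sg s) p η o (ev x (swE s)) :=
    h.corners (f := fun y e q => vX x (ev x c) (sg s) y e q (ev x (swE s)))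
      (fun _ _ _ _ _ => by simp only [vX, qX, rW]; ring)
      (fun _ _ _ _ _ => by simp only [vX, qX, rW]; ring)
      (fun _ _ _ _ _ => by simp only [vX, qX, rW, qLt, qTt]; ring)
      (fun i j l => by simpa [ev_cX] using hg.xb s i j l)
  have k : 0 ≤ ev x cX0 * x 2 * x 1 * pb x ^ 3 * qM x *
      (2 * η * pJ x * pb x ^ 2 * x 2 * pMu x) * pb x := by
    have := hg.xw
    simp only [dXW] at this
    have := hI.le
    have := hM.le
    positivity
  have e : vX x (ev x c) (sg s) p η o τ = vX x (ev x c) (sg s) p η o (ev x (swE s)) +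
      sg s * (ev x (swE s) - τ) * (ev x cX0 * x 2 * x 1 * pb x ^ 3 * qM x *
        (2 * η * pJ x * pb x ^ 2 * x 2 * pMu x) * pb x) := by
    simp only [vX, qX, rW]; ring
  have e2 : 0 ≤ sg s * (ev x (swE s) - τ) := by
    cases s <;> simp only [sg] <;> linarith [h.w₀, h.w₁]
  rw [e]
  linarith [mul_nonneg e2 k]

/-- The linear arrow between the ends of the third number. -/
theorem Good.arrow_z (hg : Good K c Z x) (h : In Z x p η o τ z) (s : Bool) (w : ℝ)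
    (a3 : 0 ≤ vL x K (ev x c) (sg s) p η o w (ev x (szE Z s))) :
    0 ≤ vL x K (ev x c) (sg s) p η o w z := by
  obtain ⟨hX, hI, hb0, hd0, hQ0, hMu0, hJ, hM0, hη⟩ := h.pos
  obtain ⟨hS, hb, hd, hQ, hMu, -, -, -⟩ := ev_base x
  obtain ⟨e0, e1⟩ := ev_szE x Z
  have c3 := hg.ctz
  simp only [dTZ, ev_sub, ev_mul, ev_nC, ev_x₂, hS, hb, hQ, hMu, (ev_new x (nC 0)).1] at c3
  push_cast at c3
  set ze := ev x (szE Z s) with hze
  have hA : 0 ≤ 4 * pb x *
      (-(ev x cT2) * x 2 ^ 2 * pb x ^ 6 * pQ x * pMu x * qM x) := by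
    nlinarith [mul_nonneg hb0 c3]
  cases s with
  | true =>
    have b : 0 ≤ -(vLz x K (sg true) p η o 0) :=
      h.corners (f := fun y e q => -(vLz x K (sg true) y e q 0))
        (fun _ _ _ _ _ => by simp only [vLz, qzT]; ring)
        (fun _ _ _ _ _ => by simp only [vLz, qzT]; ring)
        (fun _ _ _ _ _ => by simp only [vLz, qzT, qLt, qTt]; ring)
        (fun i j l => by simpa [cLm, ev_sub, ev_nC, ev_cLz] using hg.az true i j l)
    have e : vL x K (ev x c) (sg true) p η o w z = vL x K (ev x c) (sg true) p η o w ze +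
        (ze - z) * (-(vLz x K (sg true) p η o 0) + 4 * pb x *
          (-(ev x cT2) * x 2 ^ 2 * pb x ^ 6 * pQ x * pMu x * qM x) * (ze + z)) := by
      simp only [vL, vLz, qzT, qT, qY]; ring
    have hz : 0 ≤ ze - z := by rw [hze, e1]; linarith [h.z₁]
    rw [e]
    have h2 : 0 ≤ ze + z := by linarith [h.z₀]
    exact add_nonneg a3 (mul_nonneg hz (add_nonneg b (mul_nonneg hA h2)))
  | false =>
    have b : 0 ≤ vLz x K (sg false) p η o (ev x Z) :=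
      h.corners (f := fun y e q => vLz x K (sg false) y e q (ev x Z))
        (fun _ _ _ _ _ => by simp only [vLz, qzT]; ring)
        (fun _ _ _ _ _ => by simp only [vLz, qzT]; ring)
        (fun _ _ _ _ _ => by simp only [vLz, qzT, qLt, qTt]; ring)
        (fun i j l => by simpa [cLm, ev_cLz] using hg.az false i j l)
    have e : vL x K (ev x c) (sg false) p η o w z = vL x K (ev x c) (sg false) p η o w 0 +
        z * (vLz x K (sg false) p η o (ev x Z) + 4 * pb x *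
          (-(ev x cT2) * x 2 ^ 2 * pb x ^ 6 * pQ x * pMu x * qM x) * (2 * ev x Z - z)) := by
      simp only [vL, vLz, qzT, qT, qY]; ring
    have a3' : 0 ≤ vL x K (ev x c) (sg false) p η o w 0 := by rwa [hze, e0] at a3
    rw [e]
    have h2 : 0 ≤ 2 * ev x Z - z := by linarith [h.z₁, h.z₀]
    exact add_nonneg a3' (mul_nonneg h.z₀ (add_nonneg b (mul_nonneg hA h2)))

/-- The linear arrow. -/
theorem Good.arrow_on (hg : Good K c Z x) (h : In Z x p η o τ z) (s : Bool) :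
    0 ≤ vL x K (ev x c) (sg s) p η o τ z := by
  obtain ⟨lp, lh, lo', lz⟩ := h.wide
  obtain ⟨hX, hI, hb0, hd0, hQ0, hMu0, hJ, hM0, hη⟩ := h.pos
  obtain ⟨hS, hb, hd, hQ, hMu, -, -, -⟩ := ev_base x
  obtain ⟨e0, e1⟩ := ev_szE x Z
  have c1 := hg.cl s
  have c2 := hg.cte
  have c3 := hg.ctz
  simp only [Strip.SgnNeg.dL, Strip.SgnNeg.dTE, dTZ, ev_add, ev_sub, ev_mul, ev_nC, ev_sgn, ev_x₁,
    ev_x₂, hS, hb, hd, hQ, hMu, (ev_new x (nC 0)).1] at c1 c2 c3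
  push_cast at c1 c2 c3
  set w := ev x (swE false) with hw
  set ze := ev x (szE Z s) with hze
  have a1 : ∀ j l, 0 ≤ vL x K (ev x c) (sg s) p (ev x (sgE j)) (ev x (soE l)) w ze := by
    intro j l
    refine quad_min
      (f := fun y => vL x K (ev x c) (sg s) y (ev x (sgE j)) (ev x (soE l)) w ze)
      (A := 4 * pb x * (ev x cT12 * pb x ^ 6 * pQ x * pS x ^ 4 * pMu x * qM x) +
        sg s * (K * qLY x * (ev x cY9 * x 2 * x 1 * pb x ^ 3 * pd x * pQ x * pS x ^ 2 * qM x)))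
      ?_ ?_ lp h.p₀ h.p₁ ?_ ?_
    · simp only [vL, qT, qY, rW]; ring
    · simp only [qLY]; linarith [c1]
    · simpa [ev_cL, hw, hze] using hg.arrow s false j l
    · simpa [ev_cL, hw, hze] using hg.arrow s true j l
  have a2 : ∀ l, 0 ≤ vL x K (ev x c) (sg s) p η (ev x (soE l)) w ze := by
    intro l
    refine quad_min (f := fun y => vL x K (ev x c) (sg s) p y (ev x (soE l)) w ze)
      (A := 4 * pb x * (ev x cT7 * x 2 ^ 2 * x 1 ^ 2 * pd x * pQ x * pS x ^ 4 * pMu x) *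
        qLt x (ev x (soE l)) ^ 2) ?_ ?_ lh h.g₀ h.g₁ (a1 false l) (a1 true l)
    · simp only [vL, qT, qY, rW]; ring
    · nlinarith [mul_nonneg (mul_nonneg hb0 (sq_nonneg (qLt x (ev x (soE l))))) c2]
  have a3 : 0 ≤ vL x K (ev x c) (sg s) p η o w ze := by
    refine quad_min (f := fun y => vL x K (ev x c) (sg s) p η y w ze)
      (A := 4 * pb x * (ev x cT7 * x 2 ^ 2 * x 1 ^ 2 * pd x * pQ x * pS x ^ 4 * pMu x) *
        (η ^ 2 * qKn x ^ 2)) ?_ ?_ lo' h.o₀ h.o₁ (a2 false) (a2 true)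
    · simp only [vL, qT, qY, rW, qLt, qGs, qG1s, qTt, qKn]; ring
    · nlinarith [mul_nonneg (mul_nonneg hb0 (mul_nonneg (sq_nonneg η) (sq_nonneg (qKn x)))) c2]
  have a4 : 0 ≤ vL x K (ev x c) (sg s) p η o w z := hg.arrow_z h s w a3
  have k : 0 ≤ 4 * pb x * (-(ev x cT3) * x 2 * x 1 * pb x ^ 6 * pQ x * pS x ^ 2 * qM x *
      (2 * η * pJ x * pb x ^ 2 * x 2 * pMu x)) := by
    have := hg.tw
    simp only [dTW, ev_sub, ev_nC, Int.cast_zero, Nat.cast_one, zero_div, zero_sub] at this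
    have := hI.le
    have := hM0.le
    positivity
  have e : vL x K (ev x c) (sg s) p η o τ z = vL x K (ev x c) (sg s) p η o w z +
      (τ - w) * (4 * pb x * (-(ev x cT3) * x 2 * x 1 * pb x ^ 6 * pQ x * pS x ^ 2 * qM x *
        (2 * η * pJ x * pb x ^ 2 * x 2 * pMu x))) := by
    simp only [vL, qT, rW]; ring
  rw [e]
  linarith [mul_nonneg (sub_nonneg.2 h.w₀) k]

/-- The multiplier entry. -/
theorem Good.mg_on (hg : Good K c Z x) (h : In Z x p η o τ z) : 0 ≤ qN x p η o τ z := by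
  obtain ⟨lp, lh, lo', lz⟩ := h.wide
  obtain ⟨hX, hI, hb0, hd0, hQ0, hMu0, hJ, hM0, hη⟩ := h.pos
  obtain ⟨hS, hb, hd, hQ, hMu, -, -, -⟩ := ev_base x
  have c1 := hg.cnp
  have c2 := hg.cne
  have c3 := hg.cnz
  simp only [Strip.SgnNeg.dNP, Strip.SgnNeg.dNE, dNZ, ev_sub, ev_mul, ev_nC, ev_x₁, ev_x₂, hS, hb,
    hd, hQ, hMu, (ev_new x (nC 0)).1] at c1 c2 c3
  push_cast at c1 c2 c3
  set w := ev x (swE true) with hw
  have a1 : ∀ j l m, 0 ≤ qN x p (ev x (sgE j)) (ev x (soE l)) w (ev x (szE Z m)) := by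
    intro j l m
    refine quad_min (f := fun y => qN x y (ev x (sgE j)) (ev x (soE l)) w (ev x (szE Z m)))
      (A := ev x cN12 * pb x ^ 6 * pQ x * pS x ^ 4 * pMu x * qM x) ?_ ?_ lp h.p₀ h.p₁ ?_ ?_
    · simp only [qN, rW]; ring
    · linarith [c1]
    · simpa [ev_sN, hw] using hg.mg false j l m
    · simpa [ev_sN, hw] using hg.mg true j l m
  have a2 : ∀ l m, 0 ≤ qN x p η (ev x (soE l)) w (ev x (szE Z m)) := by
    intro l m
    refine quad_min (f := fun y => qN x p y (ev x (soE l)) w (ev x (szE Z m)))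
      (A := (ev x cN7 * x 2 ^ 2 * x 1 ^ 2 * pd x * pQ x * pS x ^ 4 * pMu x) *
        qLt x (ev x (soE l)) ^ 2) ?_ ?_ lh h.g₀ h.g₁ (a1 false l m) (a1 true l m)
    · simp only [qN, rW]; ring
    · nlinarith [mul_nonneg (sq_nonneg (qLt x (ev x (soE l)))) c2]
  have a3 : ∀ m, 0 ≤ qN x p η o w (ev x (szE Z m)) := by
    intro m
    refine quad_min (f := fun y => qN x p η y w (ev x (szE Z m)))
      (A := (ev x cN7 * x 2 ^ 2 * x 1 ^ 2 * pd x * pQ x * pS x ^ 4 * pMu x) *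
        (η ^ 2 * qKn x ^ 2)) ?_ ?_ lo' h.o₀ h.o₁ (a2 false m) (a2 true m)
    · simp only [qN, rW, qLt, qGs, qG1s, qTt, qKn]; ring
    · nlinarith [mul_nonneg (mul_nonneg (sq_nonneg η) (sq_nonneg (qKn x))) c2]
  obtain ⟨e0, e1⟩ := ev_szE x Z
  have a4 : 0 ≤ qN x p η o w z := by
    refine quad_min (f := fun y => qN x p η o w y)
      (A := ev x cN2 * x 2 ^ 2 * pb x ^ 6 * pQ x * pMu x * qM x)
      ?_ ?_ lz h.z₀ h.z₁ (e0 ▸ a3 false) (e1 ▸ a3 true)
    · simp only [qN, rW]; ring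
    · linarith [c3]
  have k : 0 ≤ ev x cN3 * x 2 ^ 2 * x 1 * pb x ^ 6 * pQ x * pS x ^ 2 * qM x *
      (2 * η * pJ x * pb x ^ 2 * x 2 * pMu x) := by
    have := hg.nw
    simp only [dNW] at this
    have := hI.le
    have := hM0.le
    positivity
  have e : qN x p η o τ z = qN x p η o w z +
      (w - τ) * (ev x cN3 * x 2 ^ 2 * x 1 * pb x ^ 6 * pQ x * pS x ^ 2 * qM x *
        (2 * η * pJ x * pb x ^ 2 * x 2 * pMu x)) := by
    simp only [qN, rW]; ring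
  rw [e]
  linarith [mul_nonneg (sub_nonneg.2 h.w₁) k]

/-- The ray gap. -/
theorem Good.lg_on (hg : Good K c Z x) (h : In Z x p η o τ z) : 0 ≤ qLG x o o z := by
  obtain ⟨-, -, lo', lz⟩ := h.wide
  obtain ⟨e0, e1⟩ := ev_szE x Z
  have a1 : ∀ l m, 0 ≤ qLG x o (ev x (soE l)) (ev x (szE Z m)) := fun l m =>
    lin_min (f := fun y => qLG x y (ev x (soE l)) (ev x (szE Z m)))
      (by simp only [qLG]; ring) lo' h.o₀ h.o₁
      (by simpa [ev_sLG] using hg.lg false l m) (by simpa [ev_sLG] using hg.lg true l m)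
  have a2 : ∀ m, 0 ≤ qLG x o o (ev x (szE Z m)) := fun m =>
    lin_min (f := fun y => qLG x o y (ev x (szE Z m)))
      (by simp only [qLG, qLt, qGs, qTt]; ring) lo' h.o₀ h.o₁ (a1 false m) (a1 true m)
  exact lin_min (f := fun y => qLG x o o y) (by simp only [qLG]; ring) lz h.z₀ h.z₁
    (e0 ▸ a2 false) (e1 ▸ a2 true)

end

end Vale.Agent.P100.Calib.Closed.Strip.SgnNeg
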