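import Vale.Agent.P100.Calib.SlabSignsAllNegChart
import Vale.Agent.P100.Calib.SlabStripNegSound
import Vale.Agent.P100.Calib.SlabStripNegScale
import Vale.Agent.P100.Calib.SlabStripChart

/-!
# The closed signs of the strip at a good point below the crossing
-/

set_option linter.unusedSimpArgs false
set_option linter.unusedVariables false

namespace Vale.Agent.P100.Calib.Closed.Strip.SgnNeg

open BoxPos All.SgnNeg

local instance pointAdd : Add Ex := ⟨Ex.add⟩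
local instance pointSub : Sub Ex := ⟨Ex.sub⟩
local instance pointMul : Mul Ex := ⟨Ex.mul⟩

/-- The ranges of `(U, X, I, a)` and what is needed of the enclosures. -/
structure Region (x : ℕ → ℝ) : Prop where
  box : Box x
  a₀ : 31 / 100 ≤ x 3
  X₁ : x 1 ≤ 3 / 2
  U₁ : x 0 ≤ 9 / 8

variable {x : ℕ → ℝ}

theorem Region.qM_pos (h : Region x) : 0 < qM x := by
  have := h.box.pos.2.2.2.1
  simp only [qM]
  positivity

/-- The enclosures fit. -/
theorem Region.ok (h : Region x) :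
    0 < ev x (spE false) ∧ 0 < ev x (sgE false) ∧ -1 ≤ ev x (soE false) ∧
      ev x (soE true) ≤ 1 ∧ ev x (spE false) < ev x (spE true) ∧
      ev x (sgE false) < ev x (sgE true) ∧ ev x (soE false) < ev x (soE true) := by
  obtain ⟨hB, ha, hX1, hU1⟩ := h
  obtain ⟨ha0, hS, hb, hd, -, -, -, -, ha2⟩ := hB.pos
  obtain ⟨hU, hX, hI, hI1, hIa, -⟩ := hB
  simp only [spE, sgE, soE, pMid, gS, oM, ev_add, ev_sub, ev_mul, ev_nC, ev_x₀, ev_x₁, ev_x₂,
    ev_x₃]
  push_cast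
  have hII : x 2 * x 2 ≤ 1 / 49 := by nlinarith
  have hII0 : 0 ≤ x 2 * x 2 := mul_self_nonneg _
  have hIU : 0 ≤ x 2 * x 0 := mul_nonneg hI.le hU
  have hIU1 : x 2 * x 0 ≤ 9 / 56 := by nlinarith
  refine ⟨?_, ?_, ?_, ?_, by nlinarith, by linarith, by linarith⟩
  · have h1 : -8 ≤ 8 * (1 - x 3) * x 1 - 8 := by
      nlinarith [mul_nonneg (by linarith : (0 : ℝ) ≤ 1 - x 3) hX]
    have h2 : -14 ≤ 14 - 5 * x 3 - 14 * x 1 + 21 * x 3 * x 1 +
        x 0 * (209 / 5 * x 3 - 43 / 10) := by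
      nlinarith [mul_nonneg ha0.le hX,
        mul_nonneg hU (by linarith : (0 : ℝ) ≤ 209 / 5 * x 3 - 43 / 10)]
    nlinarith [mul_le_mul_of_nonneg_left h1 hI.le, mul_le_mul_of_nonneg_left h2 hII0]
  · have h1 : 0 ≤ 71 / 3 * (x 3 * x 3) - 22 / 3 * x 3 + 17 / 10 := by
      nlinarith [mul_self_nonneg (x 3 - 11 / 71)]
    nlinarith [mul_nonneg hIU h1, mul_nonneg (mul_nonneg hII0 hU)
      (by linarith : (0 : ℝ) ≤ 191 / 4 * x 3 - 4)]
  · nlinarith [mul_le_mul hIU1 (by linarith : 131 / 100 + 21 / 4 * x 3 ≤ 4) (by positivity)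
      (by norm_num : (0 : ℝ) ≤ 9 / 56)]
  · nlinarith [mul_nonneg hIU (by positivity : (0 : ℝ) ≤ 131 / 100 + 21 / 4 * x 3)]

/-- The values of `b g W`, `I g`, `u H` lie in the enclosures. -/
theorem Good.enclose {K : ℕ} {c Z : Ex} (h : Region x) (hg : Good K c Z x) {τ ζ : ℝ}
    (h₀ : ev x (swE false) ≤ τ) (h₁ : τ ≤ ev x (swE true)) (hz : 0 ≤ ζ) (hz₁ : ζ ≤ ev x Z)
    (hZ : 0 < ev x Z) :
    0 < rH x τ ∧ 0 < rQn x ∧ 0 < rDen x (rH x τ) ∧
      In Z x (4 * rQn x * rH x τ / (pS x * rDen x (rH x τ)))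
        (2 * rQn x / (pb x * rDen x (rH x τ))) (pu x * rH x τ) τ ζ := by
  obtain ⟨lp, lg, lo0, lo1, hwd⟩ := h.ok
  have hM := h.qM_pos
  obtain ⟨hB, ha31, -, -⟩ := h
  obtain ⟨ha, hS, hb, hd, hQ, hMu, hJ, hu, ha2⟩ := hB.pos
  obtain ⟨eG, eNh, eQ', eDh⟩ := hB.ev_band (swE true)
  obtain ⟨-, eNl, -, eDl⟩ := hB.ev_band (swE false)
  have hG : 0 < pb x * pJ x * pMu x := mul_pos (mul_pos hb hJ) hMu
  obtain ⟨eS', eb', ed', -, -, -, eu', -⟩ := ev_base x
  have k1 := hg.ol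
  have k2 := hg.oh
  have k3 := hg.pl
  have k4 := hg.ph
  have k5 := hg.gh
  have k6 := hg.gl
  simp only [envOL, envOH, Strip.SgnNeg.envPL, Strip.SgnNeg.envPH, Strip.SgnNeg.envGH,
    Strip.SgnNeg.envGL, ev_sub, ev_mul, ev_nC, eG, eNh, eNl, eQ', eDh, eDl, eS', eb', ed', eu']
    at k1 k2 k3 k4 k5 k6
  push_cast at k1 k2 k3 k4 k5 k6
  set Hh := rH x (ev x (swE true))
  set Hl := rH x (ev x (swE false))
  set H := rH x τ with hH
  set C := 2 + pd x * (2 * x 2 * x 1) with hc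
  have dv : 0 ≤ pd x * (2 * x 2 * x 1) :=
    mul_nonneg hd.le (mul_nonneg (by linarith [hB.I₀]) hB.X₀)
  have c0 : 2 ≤ C := by rw [hc]; linarith
  have hQn : 0 < rQn x := by
    simp only [rQn]
    have e1 := mul_pos hb (show 0 < 2 + pd x * (2 * x 2 * x 1) by linarith)
    have e2 : pS x * pu x * pQ x ≤ 0 :=
      mul_nonpos_of_nonpos_of_nonneg (mul_nonpos_of_nonneg_of_nonpos hS.le hu) (by linarith)
    linarith
  have hd1 : pd x ≤ 1 / 2 := by
    simp only [pd, pb, pS]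
    linarith [hB.I₀, ha31]
  have ht : 0 < 1 - pd x * ev x (soE true) := by
    nlinarith [mul_le_mul_of_nonneg_left lo1 hd.le]
  have m1 : pu x * Hh ≤ ev x (soE true) := le_of_mul_le_mul_right (by linarith) hG
  have m2 : ev x (soE false) ≤ pu x * Hl := le_of_mul_le_mul_right (by linarith) hG
  have n1 : 1 - pd x * ev x (soE true) ≤ 1 - pd x * pu x * Hh := by
    linarith [mul_le_mul_of_nonneg_left m1 hd.le]
  have n2 : 1 - pd x * pu x * Hl ≤ 1 - pd x * ev x (soE false) := by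
    linarith [mul_le_mul_of_nonneg_left m2 hd.le]
  have n3 : ev x (spE false) * (pS x * rDen x Hh) ≤ 4 * rQn x * Hh :=
    le_of_mul_le_mul_right (by linarith) hG
  have n4 : 4 * rQn x * Hl ≤ ev x (spE true) * (pS x * rDen x Hl) :=
    le_of_mul_le_mul_right (by linarith) hG
  have n5 : 2 * rQn x ≤ ev x (sgE true) * (pb x * rDen x Hh) :=
    le_of_mul_le_mul_right (by linarith) hG
  have n6 : ev x (sgE false) * (pb x * rDen x Hl) ≤ 2 * rQn x :=
    le_of_mul_le_mul_right (by linarith) hG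
  have hm : pu x * x 2 ≤ 0 := mul_nonpos_of_nonpos_of_nonneg hu hB.I₀.le
  have o1 : Hh ≤ H := by
    simp only [Hh, hH, rH]
    linarith [mul_le_mul_of_nonpos_left h₁ hm]
  have o2 : H ≤ Hl := by
    simp only [Hl, hH, rH]
    linarith [mul_le_mul_of_nonpos_left h₀ hm]
  have dh : ∀ z, rDen x z = C - pd x * pu x * z := fun z => by simp only [rDen, C]; ring
  rw [dh] at n3 n4 n5 n6
  obtain ⟨a1, a2, a3, a4, a5, a6, a7, a8⟩ := encl_alg hS c0
    (mul_nonpos_of_nonneg_of_nonpos hd.le hu) hb lp lg.le (by linarith [hwd.2.1]) ht hb.le hQn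
    n1 n2 n3 n4 n5 n6 o1 o2
  refine ⟨a1, hQn, by rw [dh]; exact a2, ⟨hB.X₀, hB.I₀, hb.le, hd.le, by linarith, hMu.le, hJ.le,
    hM, by rw [dh]; positivity⟩, by rw [dh]; exact a3, by rw [dh]; exact a4,
    by rw [dh]; exact a5, by rw [dh]; exact a6, ?_, ?_, h₀, h₁, hz, hz₁,
    hwd.1, hwd.2.1, hwd.2.2, hZ⟩
  · exact le_of_mul_le_mul_left (by linarith) hd
  · exact le_of_mul_le_mul_left (by linarith) hd

section
variable {K : ℕ} {c Z : Ex} {g W W1 R p η o τ ζ : ℝ} {n : ClosedGen.Num}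

/-- The signs of the arguments. -/
theorem Region.arg_pos (h : Region x) (hi : Strip.SgnNeg.In Z x p η o τ ζ) :
    0 < p ∧ 0 < η ∧ qLt x o < 0 := by
  obtain ⟨lp, lg, lo0, lo1, hwd⟩ := h.ok
  have hM' := h.qM_pos
  obtain ⟨hB, ha31, hX1, hU1⟩ := h
  obtain ⟨ha, hS0, hb0, hd0, hQ, hMu, hJ, hu, ha2⟩ := hB.pos
  have hI := hB.I₀
  have hQ0 : 0 < pQ x := by linarith
  have hp : 0 < p := by linarith [hi.p₀]
  have hη : 0 < η := by linarith [hi.g₀]
  have hd1 : pd x ≤ 1 / 2 := by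
    simp only [pd, pb, pS]
    linarith [hB.I₀, ha31]
  have ho : o ≤ 1 := by linarith [hi.o₁]
  have ht : 0 < qTt x o := by
    simp only [qTt]
    nlinarith [mul_le_mul_of_nonneg_left ho hd0.le]
  have hL : qLt x o < 0 := by
    have hkb : 0 < qKb x := by
      have hab : x 3 ≤ pb x := by
        have := hd0
        simp only [pd] at this
        linarith
      simp only [qKb]
      nlinarith [mul_le_mul hab hab ha.le hb0.le]
    have hC : 0 ≤ qC x := by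
      have h1 : x 3 ≤ 1 / 2 - x 2 := by linarith [hB.d₀]
      simp only [qC]
      nlinarith [mul_le_mul h1 h1 ha.le (by linarith)]
    have h3 : 0 ≤ pQ x + 3 * x 2 ^ 2 * (2 * x 2 * x 1 + o) := by
      have : 0 ≤ x 2 * x 1 := mul_nonneg hI.le hB.X₀
      have h4 : -1 ≤ 2 * x 2 * x 1 + o := by linarith [hi.o₀]
      have h5 : x 2 ^ 2 ≤ (1 / 7) ^ 2 := pow_le_pow_left₀ hI.le hB.I₁ 2
      linarith [mul_le_mul_of_nonneg_left h4 (sq_nonneg (x 2))]
    have h6 : 0 ≤ 2 * qC x * x 2 * pb x ^ 2 * (pQ x + 3 * x 2 ^ 2 * (2 * x 2 * x 1 + o)) := by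
      positivity
    have e : qLt x o = -(qKb x * qTt x o) -
        2 * qC x * x 2 * pb x ^ 2 * (pQ x + 3 * x 2 ^ 2 * (2 * x 2 * x 1 + o)) := by
      simp only [qLt]; ring
    linarith [mul_pos hkb ht]
  exact ⟨hp, hη, hL⟩

/-- The corner of the arrow. -/
theorem Vals.corner_pos (h : Region x)
    (hv : Strip.SgnNeg.Vals x g W W1 R p η o τ ζ n) (hi : Strip.SgnNeg.In Z x p η o τ ζ) :
    0 < (g ^ 2 * ClosedGen.TMMS (x 3) (pd x) (2 * x 2 * x 1) g W W1 R n) := by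
  obtain ⟨hp, hη, hL⟩ := h.arg_pos hi
  have hM' := h.qM_pos
  obtain ⟨hB, ha31, hX1, hU1⟩ := h
  obtain ⟨ha, hS0, hb0, hd0, hQ, hMu, hJ, hu, ha2⟩ := hB.pos
  have hI := hB.I₀
  have hQ0 : 0 < pQ x := by linarith
  have hII : 0 < x 2 ^ 2 := pow_pos hI 2
  have a3 : 0 < x 3 ^ 3 := pow_pos ha 3
  refine pos_of_mul_pos_left (b := pb x ^ 3 * qM x) ?_ (by positivity)
  rw [hv.scaleM]
  have := mul_pos (mul_pos (mul_pos hQ0 hη) (neg_pos.2 hL)) hp
  linarith

/-- `TGGS` and `TEGS`. -/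
theorem Good.bound_Y (hK : 0 < K) (h : Region x) (hg : Good K c Z x)
    (hv : Strip.SgnNeg.Vals x g W W1 R p η o τ ζ n) (hi : Strip.SgnNeg.In Z x p η o τ ζ) :
    0 < ClosedGen.TGGS (x 3) (pd x) (2 * x 2 * x 1) g W W1 R n ∧
      |pd x * ClosedGen.TEGS (x 3) (pd x) (2 * x 2 * x 1) g W W1 R n| ≤ K * ClosedGen.TGGS (x 3) (pd x) (2 * x 2 * x 1) g W W1 R n := by
  have hM' := h.qM_pos
  obtain ⟨hB, ha31, hX1, hU1⟩ := h
  obtain ⟨ha, hS0, hb0, hd0, hQ, hMu, hJ, hu, ha2⟩ := hB.pos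
  have hI := hB.I₀
  have hQ0 : 0 < pQ x := by linarith
  have hII : 0 < x 2 ^ 2 := pow_pos hI 2
  have a3 : 0 < x 3 ^ 3 := pow_pos ha 3
  have hKR : (0 : ℝ) < K := Nat.cast_pos.2 hK
  have eG := hv.scaleG
  have eY := hv.scaleY
  set G := ClosedGen.TGGS (x 3) (pd x) (2 * x 2 * x 1) g W W1 R n
  set Y := ClosedGen.TEGS (x 3) (pd x) (2 * x 2 * x 1) g W W1 R n
  have g1 := hg.gy_on hi false
  have g2 := hg.gy_on hi true
  simp only [Strip.SgnNeg.vGY, sg] at g1 g2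
  -- `TGGS`
  have bY : |qY x p η o ζ * (x 2 * pb x * pS x ^ 2 * pQ x)| ≤
      K * qM x * qG x p o ζ - 1 / 1000 * x 2 ^ 2 * qM x :=
    abs_le_of_pm (by linarith) (by linarith)
  have hrG : 0 < qG x p o ζ := by
    refine pos_of_mul_pos_right (a := (K : ℝ) * qM x) ?_ (by positivity)
    linarith [abs_nonneg (qY x p η o ζ * (x 2 * pb x * pS x ^ 2 * pQ x)), mul_pos hII hM']
  have m4 : 0 < pS x ^ 4 * pb x * pQ x ^ 2 := by positivity
  have hG : 0 < G := pos_of_mul_pos_left (by rw [eG]; positivity) m4.le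
  have hY : |pd x * Y| ≤ K * G := by
    have m5 : 0 < pS x ^ 4 * pb x * pQ x ^ 2 * qM x := by positivity
    refine le_of_mul_le_mul_right ?_ m5
    rw [scale_abs m5 a3.le (z := qY x p η o ζ * (x 2 * pb x * pS x ^ 2 * pQ x)) (by
      linear_combination (pS x ^ 2 * pb x * pQ x) * eY),
      show (K : ℝ) * G * (pS x ^ 4 * pb x * pQ x ^ 2 * qM x) =
        x 3 ^ 3 * (K * qM x * qG x p o ζ) by linear_combination (K * qM x) * eG]
    exact mul_le_mul_of_nonneg_left (by linarith [mul_pos hII hM']) a3.le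
  exact ⟨hG, hY⟩

/-- `TMES`. -/
theorem Good.bound_X (h : Region x) (hg : Good K c Z x)
    (hv : Strip.SgnNeg.Vals x g W W1 R p η o τ ζ n) (hi : Strip.SgnNeg.In Z x p η o τ ζ) :
    |(g * ClosedGen.TMES (x 3) (pd x) (2 * x 2 * x 1) g W W1 R n)| ≤
      ev x c * x 3 * x 2 * (g ^ 2 * ClosedGen.TMMS (x 3) (pd x) (2 * x 2 * x 1) g W W1 R n) := by
  have hM' := h.qM_pos
  obtain ⟨hB, ha31, hX1, hU1⟩ := h
  obtain ⟨ha, hS0, hb0, hd0, hQ, hMu, hJ, hu, ha2⟩ := hB.pos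
  have hI := hB.I₀
  have hQ0 : 0 < pQ x := by linarith
  have hII : 0 < x 2 ^ 2 := pow_pos hI 2
  have a3 : 0 < x 3 ^ 3 := pow_pos ha 3
  have eX := hv.scaleX
  have eM := hv.scaleM
  set X := (g * ClosedGen.TMES (x 3) (pd x) (2 * x 2 * x 1) g W W1 R n) with hX
  set M := (g ^ 2 * ClosedGen.TMMS (x 3) (pd x) (2 * x 2 * x 1) g W W1 R n)
  have x1 := hg.x_on hi false
  have x2 := hg.x_on hi true
  simp only [Strip.SgnNeg.vX, sg] at x1 x2
  set cc := ev x c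
  -- `TMES`
  have hXb : |X| ≤ cc * x 3 * x 2 * M := by
    have m : 0 < x 2 * pS x ^ 2 * pMu x * pb x ^ 2 * qM x * pb x := by positivity
    refine le_of_mul_le_mul_right ?_ m
    have e2 : cc * x 3 * x 2 * M * (x 2 * pS x ^ 2 * pMu x * pb x ^ 2 * qM x * pb x) =
        x 3 * x 2 * (cc * -2 * pQ x * η * qLt x o * p * x 2 * pS x ^ 2 * pMu x) / 1 := by
      rw [div_one]
      linear_combination (cc * x 3 * x 2 * x 2 * pS x ^ 2 * pMu x) * eM
    rw [scale_abs m (mul_pos ha hI).le (z := qX x p η o τ * pb x) (by linear_combination pb x * eX),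
      e2, div_one]
    exact mul_le_mul_of_nonneg_left (abs_le_of_pm (by linarith) (by linarith)) (by positivity)
  exact hXb

/-- The linearised arrow. -/
theorem Good.bound_L (hK : 0 < K) (h : Region x) (hg : Good K c Z x)
    (hv : Strip.SgnNeg.Vals x g W W1 R p η o τ ζ n) (hi : Strip.SgnNeg.In Z x p η o τ ζ) :
    0 < 4 * ClosedGen.TAS (x 3) (pd x) (2 * x 2 * x 1) g W W1 R n -
      K * pQ x * |pd x * ClosedGen.TEGS (x 3) (pd x) (2 * x 2 * x 1) g W W1 R n| -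
        16 * (x 3 * pb x) * pQ x * (ev x c * x 3 * x 2) ^ 2 * (g ^ 2 * ClosedGen.TMMS (x 3) (pd x) (2 * x 2 * x 1) g W W1 R n) := by
  have hM' := h.qM_pos
  obtain ⟨hB, ha31, hX1, hU1⟩ := h
  obtain ⟨ha, hS0, hb0, hd0, hQ, hMu, hJ, hu, ha2⟩ := hB.pos
  have hI := hB.I₀
  have hQ0 : 0 < pQ x := by linarith
  have hII : 0 < x 2 ^ 2 := pow_pos hI 2
  have a3 : 0 < x 3 ^ 3 := pow_pos ha 3
  have hKR : (0 : ℝ) < K := Nat.cast_pos.2 hK
  have eY := hv.scaleY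
  have eT := hv.scaleT
  have eM := hv.scaleM
  set Y := ClosedGen.TEGS (x 3) (pd x) (2 * x 2 * x 1) g W W1 R n
  set A := ClosedGen.TAS (x 3) (pd x) (2 * x 2 * x 1) g W W1 R n
  set M := (g ^ 2 * ClosedGen.TMMS (x 3) (pd x) (2 * x 2 * x 1) g W W1 R n)
  have l1 := hg.arrow_on hi false
  have l2 := hg.arrow_on hi true
  simp only [Strip.SgnNeg.vL, sg] at l1 l2
  set cc := ev x c
  -- the arrow
  have bL : |(K : ℝ) * qLY x * qY x p η o ζ| ≤ 4 * pb x * qT x p η o τ ζ +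
      32 * cc * cc * (x 2 ^ 2 * pS x ^ 4 * pQ x ^ 3 * pMu x * pb x ^ 2) * η * qLt x o * p -
      1 / 1000 * x 2 ^ 2 := abs_le_of_pm (by linarith) (by linarith)
  have hT7 : 0 ≤ 3 * x 2 ^ 2 * (-(ev x cT7) * x 2 ^ 2 * x 1 ^ 2 * pd x * pQ x * pS x ^ 4 *
      pMu x) * (η * qLt x o) ^ 2 / qM x := by
    have := hg.cte
    obtain ⟨hS, hb, hd, hQ', hMu', -, -, -⟩ := ev_base x
    simp only [Strip.SgnNeg.dTE, ev_sub, ev_mul, ev_nC, ev_x₁, ev_x₂, hS, hd, hQ', hMu'] at this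
    push_cast at this
    exact div_nonneg (mul_nonneg (mul_nonneg (by positivity) (by linarith)) (sq_nonneg _)) hM'.le
  have hLin : 0 < 4 * A - K * pQ x * |pd x * Y| -
      16 * (x 3 * pb x) * pQ x * (cc * x 3 * x 2) ^ 2 * M := by
    have m : 0 < pS x ^ 4 * pQ x * pMu x * pb x ^ 4 * qM x := by positivity
    refine pos_of_mul_pos_left (b := pS x ^ 4 * pQ x * pMu x * pb x ^ 4 * qM x) ?_ m.le
    have eYa : (K : ℝ) * pQ x * |pd x * Y| * (pS x ^ 4 * pQ x * pMu x * pb x ^ 4 * qM x) =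
        x 3 ^ 3 * |(K : ℝ) * qLY x * qY x p η o ζ| := by
      have e' := scale_abs m a3.le (Y := (K : ℝ) * pQ x * (pd x * Y))
        (z := (K : ℝ) * qLY x * qY x p η o ζ) (by
          simp only [qLY]
          linear_combination ((K : ℝ) * pQ x * pS x ^ 2 * pMu x * pb x ^ 4) * eY)
      rwa [abs_mul ((K : ℝ) * pQ x), abs_of_pos (mul_pos hKR hQ0)] at e'
    have e : (4 * A - K * pQ x * |pd x * Y| -
        16 * (x 3 * pb x) * pQ x * (cc * x 3 * x 2) ^ 2 * M) *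
          (pS x ^ 4 * pQ x * pMu x * pb x ^ 4 * qM x) =
        x 3 ^ 3 * (4 * pb x * qT x p η o τ ζ +
          32 * cc * cc * (x 2 ^ 2 * pS x ^ 4 * pQ x ^ 3 * pMu x * pb x ^ 2) * η * qLt x o * p +
          4 * pb x * (3 * x 2 ^ 2 * (-(ev x cT7) * x 2 ^ 2 * x 1 ^ 2 * pd x * pQ x * pS x ^ 4 *
            pMu x) * (η * qLt x o) ^ 2 / qM x) -
          |(K : ℝ) * qLY x * qY x p η o ζ|) := by
      linear_combination 4 * eT - eYa -
        (16 * x 3 ^ 3 * cc ^ 2 * x 2 ^ 2 * pQ x ^ 2 * pb x ^ 2 * pS x ^ 4 * pMu x) * eM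
    rw [e]
    exact mul_pos a3 (by linarith [mul_nonneg hb0.le hT7])
  exact hLin

/-- The multiplier entry and the ray gap. -/
theorem Good.bound_N (h : Region x) (hg : Good K c Z x)
    (hv : Strip.SgnNeg.Vals x g W W1 R p η o τ ζ n) (hi : Strip.SgnNeg.In Z x p η o τ ζ)
    (hq : W * R = o) (hR : R = -1 * pS x * x 0) (hE : n.E = qLt x o / (pb x ^ 2 * qM x))
    (hnK : n.K = -(qTt x o) * qKn x / (pb x ^ 2 * qM x)) :
    0 ≤ ClosedGen.TMGS (x 3) (pd x) (2 * x 2 * x 1) g W W1 R n ∧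
      0 ≤ ClosedGen.LLGS (x 3) (pd x) (2 * x 2 * x 1) g W W1 R n := by
  have hM' := h.qM_pos
  obtain ⟨hB, ha31, hX1, hU1⟩ := h
  obtain ⟨ha, hS0, hb0, hd0, hQ, hMu, hJ, hu, ha2⟩ := hB.pos
  have hI := hB.I₀
  have hQ0 : 0 < pQ x := by linarith
  have hII : 0 < x 2 ^ 2 := pow_pos hI 2
  have a3 : 0 < x 3 ^ 3 := pow_pos ha 3
  have eN := hv.scaleN
  have eL := hv.scaleL hq hR hE hnK
  have hN7 : 0 ≤ 3 * x 2 ^ 2 * (-(ev x cN7) * x 2 ^ 2 * x 1 ^ 2 * pd x * pQ x * pS x ^ 4 *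
      pMu x) * (η * qLt x o) ^ 2 / qM x := by
    have := hg.cne
    obtain ⟨hS, hb, hd, hQ', hMu', -, -, -⟩ := ev_base x
    simp only [Strip.SgnNeg.dNE, ev_sub, ev_mul, ev_nC, ev_x₁, ev_x₂, hS, hd, hQ', hMu'] at this
    push_cast at this
    exact div_nonneg (mul_nonneg (mul_nonneg (by positivity) (by linarith)) (sq_nonneg _)) hM'.le
  have hN : 0 ≤ ClosedGen.TMGS (x 3) (pd x) (2 * x 2 * x 1) g W W1 R n := by
    refine nonneg_of_mul_nonneg_left (b := pS x ^ 4 * pQ x * pMu x * pb x ^ 4 * qM x) ?_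
      (by positivity)
    rw [eN]
    refine mul_nonneg (mul_nonneg a3.le hb0.le) ?_
    have := hg.mg_on hi
    linarith [show 3 * x 2 ^ 2 * (ev x cN7 * x 2 ^ 2 * x 1 ^ 2 * pd x * pQ x * pS x ^ 4 * pMu x) *
        (η * qLt x o) ^ 2 / qM x = -(3 * x 2 ^ 2 * (-(ev x cN7) * x 2 ^ 2 * x 1 ^ 2 * pd x * pQ x *
          pS x ^ 4 * pMu x) * (η * qLt x o) ^ 2 / qM x) by ring]
  have hLL : 0 ≤ ClosedGen.LLGS (x 3) (pd x) (2 * x 2 * x 1) g W W1 R n := by
    refine nonneg_of_mul_nonneg_left (b := pQ x * pS x ^ 2 * pb x ^ 2 * qM x) ?_ (by positivity)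
    rw [eL]
    exact mul_nonneg (mul_nonneg ha.le hI.le) (hg.lg_on hi)
  exact ⟨hN, hLL⟩

/-- The closed signs at a good point. -/
theorem Good.signs (hK : 0 < K) (h : Region x) (hg : Good K c Z x)
    (hv : Strip.SgnNeg.Vals x g W W1 R p η o τ ζ n) (hi : Strip.SgnNeg.In Z x p η o τ ζ)
    (hg0 : 0 < g) (hq : W * R = o) (hR : R = -1 * pS x * x 0)
    (hE : n.E = qLt x o / (pb x ^ 2 * qM x))
    (hnK : n.K = -(qTt x o) * qKn x / (pb x ^ 2 * qM x)) :
    ClosedGen.Signs (x 3) (pd x) (2 * x 2 * x 1) g W W1 R n := by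
  obtain ⟨hG, hY⟩ := hg.bound_Y hK h hv hi
  obtain ⟨hN, hLL⟩ := hg.bound_N h hv hi hq hR hE hnK
  have hM0 := hv.corner_pos h hi
  have hXb := hg.bound_X h hv hi
  have hLin := hg.bound_L hK h hv hi
  obtain ⟨ha, hS0, hb0, hd0, hQ, -⟩ := h.box.pos
  have ev_ := arrow_pos (show 0 < pQ x by linarith) hM0 hG (mul_nonneg ha.le hb0.le)
    (Nat.cast_nonneg K) hY hXb hLin
  refine ⟨hG, pos_of_mul_pos_right hM0 (sq_nonneg g), ?_, hN, hLL⟩
  refine pos_of_mul_pos_right (a := g ^ 2) ?_ (sq_nonneg g)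
  have e : g ^ 2 * ClosedGen.TArrowS (x 3) (pd x) (2 * x 2 * x 1) g W W1 R n =
      4 * ClosedGen.TAS (x 3) (pd x) (2 * x 2 * x 1) g W W1 R n * (g ^ 2 * ClosedGen.TMMS (x 3) (pd x) (2 * x 2 * x 1) g W W1 R n) * ClosedGen.TGGS (x 3) (pd x) (2 * x 2 * x 1) g W W1 R n -
        pd x ^ 2 * pQ x * ClosedGen.TEGS (x 3) (pd x) (2 * x 2 * x 1) g W W1 R n ^ 2 * (g ^ 2 * ClosedGen.TMMS (x 3) (pd x) (2 * x 2 * x 1) g W W1 R n) -
        16 * (x 3 * pb x) * pQ x * (g * ClosedGen.TMES (x 3) (pd x) (2 * x 2 * x 1) g W W1 R n) ^ 2 * ClosedGen.TGGS (x 3) (pd x) (2 * x 2 * x 1) g W W1 R n := by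
    simp only [ClosedGen.TArrowS, hv.c]
    simp only [pQ]
    ring
  rw [e]
  exact ev_

end

/-- The numbers at a point in the variables `(U, X, I, a)`. -/
theorem strip_vals (h : Region x) {Qn D H τ o W R : ℝ} (hD : 0 < D)
    (hW : W = 2 * x 2 / pS x * H) (ho : W * R = o) :
    let n := stripNum (x 3) (pd x) (2 * x 2 * x 1) W R
    Strip.SgnNeg.Vals x (4 * Qn / (2 * x 2 * pb x * D)) W
        (2 * x 2 / pS x * (H * (x 3 - (1 - x 3) * (pd x * (2 * x 2 * x 1))) / pb x -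
          pJ x / pS x * (x 3 / pMu x + x 2 * τ))) R
        (4 * Qn * H / (pS x * D)) (2 * Qn / (pb x * D)) o τ (max 0 (rK1 x) / pd x) n ∧
      n.E = qLt x o / (pb x ^ 2 * qM x) ∧ n.K = -(qTt x o) * qKn x / (pb x ^ 2 * qM x) := by
  intro n
  have hM := h.qM_pos
  obtain ⟨hB, -, -, -⟩ := h
  obtain ⟨ha, hS0, hb0, hd0, hQ, hMu, hJ, hu, ha2⟩ := hB.pos
  have hI := hB.I₀
  have hQ0 : 0 < pQ x := by linarith
  have eab : x 3 + pd x = pb x := by simp only [pd]; ring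
  have hN : dimAll (x 3) (pd x) = 1 / x 2 := by
    have : 1 - (x 3 + pb x) = 2 * x 2 := by simp only [pb, pS]; ring
    rw [dimAll, eab, this]; field_simp
  have hk : stripK (x 3) (pd x) (1 / x 2) = qKn x / (pb x ^ 2 * qM x) := by
    simp only [stripK, qKn, qKb, qC, qM, eab]
    field_simp
  have hkap : AllN.kapAll (1 / x 2) (x 3) + 1 = max 0 (rK1 x) / pS x ^ 2 := by
    have e1 : 2 * (1 / x 2 * x 3) * (1 / x 2 - 1) / (1 / x 2 - 2) ^ 2 =
        2 * x 3 * (1 - x 2) / pS x ^ 2 := by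
      rw [show pS x = 1 - 2 * x 2 from rfl] at hS0 ⊢
      field_simp
    rw [AllN.kapAll, e1, ← max_add_add_right, ← max_div_div_right (sq_nonneg (pS x)), rK1]
    congr 1
    · simp
    · field_simp; ring
  have hQe : 1 + pd x * (2 * x 2 * x 1) = pQ x := rfl
  have hT : 1 - R * pd x * W = qTt x o := by simp only [qTt, ← ho]; ring
  have hE : n.E = qLt x o / (pb x ^ 2 * qM x) := by
    simp only [n, stripNum, hN, hT, hk, hQe]
    simp only [qLt, qKn, qM, qC, qKb, qTt, pQ]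
    field_simp
    ring
  have hK : n.K = -(qTt x o) * qKn x / (pb x ^ 2 * qM x) := by
    simp only [n, stripNum, hN, hT, hk]; ring
  refine ⟨⟨?_, ⟨hI, hS0, hb0, hd0, hQ0, hMu, hM⟩, ?_, ?_, ?_, ?_, ?_, ?_, ?_, ?_, ?_⟩, hE, hK⟩
  · intro i hi
    interval_cases i <;> linarith [hB.U₀, hB.X₀, hB.I₀, hB.Ia]
  · simp only [n, stripNum, eab]
  · simp only [n, stripNum, hN]; field_simp
  · rw [hW]; field_simp
  · rw [hE]; field_simp; ring
  · rw [hK]; field_simp; ring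
  · simp only [rW]; field_simp; ring
  · simp only [n, stripNum, hN, hT, eab, hQe, qGs]; field_simp
  · simp only [n, stripNum, hT, eab, hQe, qG1s]; field_simp
  · simp only [n, stripNum, hN, hkap]; field_simp

/-- The signs where the checks give a good point. -/
theorem signs_of_good {K n : ℕ} {c Z : Ex} {d S u v t : ℝ} (hK : 0 < K)
    (hb : All.ChartBox n d S) (h : Region (pt d S u v)) (hX : 0 < pt d S u v 1)
    (hZ : max 0 (rK1 (pt d S u v)) / pd (pt d S u v) ≤ ev (pt d S u v) Z)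
    (hZ0 : 0 < ev (pt d S u v) Z) (hg : Good K c Z (pt d S u v))
    (h₀ : Band.allNegS ((S - d) / 2) ((S + d) / 2) (ev (pt d S u v) (swE false)) ≤ t)
    (h₁ : t ≤ Band.allNegS ((S - d) / 2) ((S + d) / 2) (ev (pt d S u v) (swE true))) :
    Strip.ChartSigns d S u v t := by
  obtain ⟨ha, hS, hbb, hdd, hQ, hM, hJ, hu, ha2⟩ := h.box.pos
  set x := pt d S u v with hx
  have hI : 0 < x 2 := h.box.I₀
  have x2e : x 2 = (1 - S) / 2 := rfl
  have x3e : x 3 = (S - d) / 2 := rfl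
  have eS : pS x = S := by simp only [pS, x2e]; ring
  have eb : pb x = (S + d) / 2 := by simp only [pb, eS, x3e]; ring
  have ed : pd x = d := by simp only [pd, eb, x3e]; ring
  have hS1 : 0 < 1 - S := by linarith
  have ev' : 2 * x 2 * x 1 = v := by
    show 2 * ((1 - S) / 2) * (v / (1 - S)) = v
    field_simp
  have eu : pu x = u := by
    show -2 * ((1 - S) / 2 * (-u / (1 - S))) = u
    field_simp
  have eR : -1 * pS x * x 0 = S * u / (1 - S) := by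
    show -1 * pS x * (-u / (1 - S)) = _
    rw [eS]; ring
  have hQ' : pQ x = 1 + d * v := by simp only [pQ, ev', ed]
  have hMe : pMu x = (1 - x 3) ^ 2 := rfl
  set τ := (t - x 3 / pMu x) / x 2 with hτ
  have hIS : Band.allStabI ((S - d) / 2) ((S + d) / 2) = x 2 := by
    rw [Band.allStabI, x2e]; ring
  simp only [Band.allNegS, hIS] at h₀ h₁
  simp only [← x3e, ← hMe] at h₀ h₁
  have hτ₀ : ev x (swE false) ≤ τ := by rw [hτ, le_div_iff₀ hI]; linarith
  have hτ₁ : τ ≤ ev x (swE true) := by rw [hτ, div_le_iff₀ hI]; linarith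
  obtain ⟨hH, hQn, hD, hin⟩ := hg.enclose h hτ₀ hτ₁
    (div_nonneg (le_max_left _ _) hdd.le) hZ hZ0
  have eH : rH x τ = chH d S u v t := by
    simp only [rH, chH, hτ, eS, eb, eu, ev', pJ]
    rw [mul_div_cancel₀ _ hI.ne', ← x3e, x2e]
    rw [show (1 : ℝ) + 2 * ((1 - S) / 2) = 2 - S by ring]
    ring
  have eQn : rQn x = (2 + d * v) * ((S + d) / 2) - S * u * (1 + d * v) := by
    simp only [rQn, eS, eb, ed, eu, ev', hQ']; ring
  have eDen : rDen x (rH x τ) = 2 + d * v - d * u * chH d S u v t := by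
    simp only [rDen, ed, eu, ev', eH]; ring
  have hb0 : 0 < (S + d) / 2 := by rw [← eb]; linarith
  have hd0 : 0 < d := hb.pos
  have hS0 : 0 < S := by linarith
  have hv : 0 < v := by rw [← ev']; exact mul_pos (by linarith) hX
  rw [eDen] at hD
  rw [eQn] at hQn
  have hg0 : 0 < chG d S u v t :=
    div_pos (by linarith) (mul_pos (mul_pos hS1 hb0) hD)
  rw [eH] at hH
  rw [eDen, eH, eQn, eS, eb, ed, eu] at hin
  refine ChartSigns.of_arrow hb hv hg0 ?_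
  have eW : chW d S u v t = 2 * x 2 / pS x * chH d S u v t := by
    simp only [chW, x2e, eS]; ring
  have eo : chW d S u v t * chR S u = u * chH d S u v t := by
    simp only [chR, chW]; field_simp
  have eg : chG d S u v t = 4 * ((2 + d * v) * ((S + d) / 2) - S * u * (1 + d * v)) /
      (2 * x 2 * pb x * (2 + d * v - d * u * chH d S u v t)) := by
    simp only [chG, eb, x2e]; ring
  have eW1 : chW1 d S u v t = 2 * x 2 / pS x * (chH d S u v t *
      (x 3 - (1 - x 3) * (pd x * (2 * x 2 * x 1))) / pb x -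
        pJ x / pS x * (x 3 / pMu x + x 2 * τ)) := by
    rw [hτ, mul_div_cancel₀ _ hI.ne', ev']
    simp only [chW1, eS, eb, ed, pJ, x2e, x3e]
    ring
  obtain ⟨hV, hE, hnK⟩ := strip_vals (τ := τ) h
    (Qn := (2 + d * v) * ((S + d) / 2) - S * u * (1 + d * v)) hD eW eo
  rw [← eg, ← eW1, eS, eb, ed] at hV
  rw [ed] at hE hnK
  have e := hg.signs hK h hV hin hg0 eo (by rw [eR]; rfl) hE hnK
  rw [x3e, ed, ev'] at e
  exact e

end Vale.Agent.P100.Calib.Closed.Strip.SgnNeg
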