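import Vale.Agent.P100.Calib.SlabStripUpAtoms

/-!
# The quantities of the upper band of the strip for `N` between seven and twenty

Polynomials in the variables of `StripAtoms` and in `T = IT / I`.
-/

namespace Vale.Agent.P100.Calib.Band.StripAtoms

variable (p : StripAtoms)

/-- The coefficient of `v` in the upper band, cleared. -/
def sevK : ℝ := 100 * p.b - p.a * (p.u * (130 - 80 * p.u))

/-- Its derivative in `u`. -/
def sevKu : ℝ := 0 - p.a * (130 - 160 * p.u)

/-- The correction of the upper band. -/
def sevPsi : ℝ := p.upPsi + 3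

/-- The numerator of the upper band. -/
def sevN : ℝ := 100 + p.sevK * p.v + p.I * p.sevPsi

/-- Its derivative in `u`. -/
def sevNu : ℝ := p.sevKu * p.v + p.I * p.upPsiU

/-- `allEn` on the band, cleared. -/
def sevEn : ℝ := p.E0 * p.upW - p.e1 * p.sevN

/-- `allFlow` on the band, cleared. -/
def sevFl : ℝ := p.f0 * p.sevN - p.N * p.upW

/-- `allFh` on the band, cleared. -/
def sevFh : ℝ := p.A0 * (p.upW * p.upW) - (p.A1 + p.ud * p.A0 + p.E0) * (p.sevN * p.upW) + (p.ud
    * p.A1 + p.e1) * (p.sevN * p.sevN)

/-- Minus the flow through the band, cleared. -/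
def sevFwd : ℝ := (p.sevNu * p.upW + p.sevN * (100 * p.a)) * (p.u * p.sevEn) + p.sevK * (p.qu *
    (p.sevFl * p.upW)) - p.sevFh * p.upW

/-- `allDen` on the band, cleared. -/
def sevDen : ℝ := p.D0 * p.upW - p.ud * p.sevN

/-- The gap between the two bands, cleared. -/
def sevGap : ℝ := p.sevN * (20 * p.P) - p.upM * p.upW

/-- The value at the exit band, less a multiple of the gap. -/
noncomputable def sevAm : ℝ := 5000 * p.upA - (888 - 1000 * p.u) * ((93 + 340 * p.d) * (p.w *
    (p.P * (p.K * (p.T * p.sevGap)))))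

end Vale.Agent.P100.Calib.Band.StripAtoms
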