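import Vale.Agent.P100.Calib.SlabStripSevExprB

/-!
# The checks of the upper bands for `N` between seven and twenty, part A

Each check is a definition, so that they are compiled one after another.
-/

set_option linter.defProp false

namespace Vale.Agent.P100.Calib.Band.AllLow

open Pack

/-- A box. -/
def stripSevFwdA0Box : ℕ → Chart
  | 0 => ⟨139, 250, 250, 250⟩ | 1 => ⟨679, 776, 800, 800⟩ | 2 => ⟨5, 3, 60, 60⟩ | _ => ⟨1, 2, 2,
    2⟩

/-- The check of this box. -/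
def stripSevFwdA0_ok : checkFour stripSevFwdA0Box 430 11 8 25 10 (eStripSevFwdLess 1800000000 6)
    = true := by
  decide +kernel

/-- A box. -/
def stripSevFwdA1Box : ℕ → Chart
  | 0 => ⟨139, 250, 250, 250⟩ | 1 => ⟨1455, 1552, 1600, 1600⟩ | 2 => ⟨5, 3, 60, 60⟩ | _ => ⟨1, 2,
    4, 4⟩

/-- The check of this box. -/
def stripSevFwdA1_ok : checkFour stripSevFwdA1Box 450 11 8 25 10 (eStripSevFwdLess 1800000000 6)
    = true := by
  decide +kernel

/-- A box. -/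
def stripSevFwdA2Box : ℕ → Chart
  | 0 => ⟨139, 250, 250, 250⟩ | 1 => ⟨1455, 1552, 1600, 1600⟩ | 2 => ⟨5, 3, 60, 60⟩ | _ => ⟨0, 1,
    4, 4⟩

/-- The check of this box. -/
def stripSevFwdA2_ok : checkFour stripSevFwdA2Box 450 11 8 25 10 (eStripSevFwdLess 1800000000 6)
    = true := by
  decide +kernel

/-- A box. -/
def stripSevFwdA3Box : ℕ → Chart
  | 0 => ⟨139, 250, 250, 250⟩ | 1 => ⟨1358, 1455, 1600, 1600⟩ | 2 => ⟨5, 3, 60, 60⟩ | _ => ⟨0, 1,
    2, 2⟩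

/-- The check of this box. -/
def stripSevFwdA3_ok : checkFour stripSevFwdA3Box 440 11 8 25 10 (eStripSevFwdLess 1800000000 6)
    = true := by
  decide +kernel

/-- A box. -/
def stripSevFwdA4Box : ℕ → Chart
  | 0 => ⟨139, 250, 250, 250⟩ | 1 => ⟨582, 679, 800, 800⟩ | 2 => ⟨5, 3, 60, 60⟩ | _ => ⟨0, 1, 1,
    1⟩

/-- The check of this box. -/
def stripSevFwdA4_ok : checkFour stripSevFwdA4Box 420 11 8 25 10 (eStripSevFwdLess 1800000000 6)
    = true := by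
  decide +kernel

/-- A box. -/
def stripSevFwdA5Box : ℕ → Chart
  | 0 => ⟨139, 250, 250, 250⟩ | 1 => ⟨194, 291, 400, 400⟩ | 2 => ⟨5, 3, 60, 60⟩ | _ => ⟨0, 1, 1,
    1⟩

/-- The check of this box. -/
def stripSevFwdA5_ok : checkFour stripSevFwdA5Box 410 11 8 25 10 (eStripSevFwdLess 1800000000 6)
    = true := by
  decide +kernel

/-- A box. -/
def stripSevFwdA6Box : ℕ → Chart
  | 0 => ⟨139, 250, 250, 250⟩ | 1 => ⟨0, 97, 200, 200⟩ | 2 => ⟨5, 3, 60, 60⟩ | _ => ⟨0, 1, 1, 1⟩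

/-- The check of this box. -/
def stripSevFwdA6_ok : checkFour stripSevFwdA6Box 400 11 8 25 10 (eStripSevFwdLess 1800000000 6)
    = true := by
  decide +kernel

/-- A box. -/
def stripSevFwdA7Box : ℕ → Chart
  | 0 => ⟨28, 139, 250, 250⟩ | 1 => ⟨679, 776, 800, 800⟩ | 2 => ⟨5, 3, 60, 60⟩ | _ => ⟨1, 2, 2, 2⟩

/-- The check of this box. -/
def stripSevFwdA7_ok : checkFour stripSevFwdA7Box 430 11 8 25 10 (eStripSevFwdLess 1800000000 6)
    = true := by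
  decide +kernel

/-- A box. -/
def stripSevFwdA8Box : ℕ → Chart
  | 0 => ⟨28, 139, 250, 250⟩ | 1 => ⟨1455, 1552, 1600, 1600⟩ | 2 => ⟨5, 3, 60, 60⟩ | _ => ⟨1, 2,
    4, 4⟩

/-- The check of this box. -/
def stripSevFwdA8_ok : checkFour stripSevFwdA8Box 450 11 8 25 10 (eStripSevFwdLess 1800000000 6)
    = true := by
  decide +kernel

/-- A box. -/
def stripSevFwdA9Box : ℕ → Chart
  | 0 => ⟨28, 139, 250, 250⟩ | 1 => ⟨1455, 1552, 1600, 1600⟩ | 2 => ⟨5, 3, 60, 60⟩ | _ => ⟨0, 1,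
    4, 4⟩

/-- The check of this box. -/
def stripSevFwdA9_ok : checkFour stripSevFwdA9Box 450 11 8 25 10 (eStripSevFwdLess 1800000000 6)
    = true := by
  decide +kernel

/-- A box. -/
def stripSevFwdA10Box : ℕ → Chart
  | 0 => ⟨28, 139, 250, 250⟩ | 1 => ⟨1358, 1455, 1600, 1600⟩ | 2 => ⟨5, 3, 60, 60⟩ | _ => ⟨0, 1,
    2, 2⟩

/-- The check of this box. -/
def stripSevFwdA10_ok : checkFour stripSevFwdA10Box 440 11 8 25 10 (eStripSevFwdLess 1800000000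
    6) = true := by
  decide +kernel

/-- A box. -/
def stripSevFwdA11Box : ℕ → Chart
  | 0 => ⟨28, 139, 250, 250⟩ | 1 => ⟨582, 679, 800, 800⟩ | 2 => ⟨5, 3, 60, 60⟩ | _ => ⟨0, 1, 1, 1⟩

/-- The check of this box. -/
def stripSevFwdA11_ok : checkFour stripSevFwdA11Box 420 11 8 25 10 (eStripSevFwdLess 1800000000
    6) = true := by
  decide +kernel

/-- A box. -/
def stripSevFwdA12Box : ℕ → Chart
  | 0 => ⟨28, 139, 250, 250⟩ | 1 => ⟨194, 291, 400, 400⟩ | 2 => ⟨5, 3, 60, 60⟩ | _ => ⟨0, 1, 1, 1⟩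

/-- The check of this box. -/
def stripSevFwdA12_ok : checkFour stripSevFwdA12Box 410 11 8 25 10 (eStripSevFwdLess 1800000000
    6) = true := by
  decide +kernel

/-- A box. -/
def stripSevFwdA13Box : ℕ → Chart
  | 0 => ⟨28, 139, 250, 250⟩ | 1 => ⟨0, 97, 200, 200⟩ | 2 => ⟨5, 3, 60, 60⟩ | _ => ⟨0, 1, 1, 1⟩

/-- The check of this box. -/
def stripSevFwdA13_ok : checkFour stripSevFwdA13Box 400 11 8 25 10 (eStripSevFwdLess 1800000000
    6) = true := by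
  decide +kernel

/-- A box. -/
def stripSevFwdB0Box : ℕ → Chart
  | 0 => ⟨14, 125, 125, 125⟩ | 1 => ⟨183, 244, 256, 256⟩ | 2 => ⟨4, 3, 36, 36⟩ | _ => ⟨1, 2, 2, 2⟩

/-- The check of this box. -/
def stripSevFwdB0_ok : checkFour stripSevFwdB0Box 390 11 8 25 10 (eStripSevFwdLess 1000000000 6)
    = true := by
  decide +kernel

/-- A box. -/
def stripSevFwdB1Box : ℕ → Chart
  | 0 => ⟨14, 125, 125, 125⟩ | 1 => ⟨427, 488, 512, 512⟩ | 2 => ⟨4, 3, 36, 36⟩ | _ => ⟨1, 2, 4, 4⟩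

/-- The check of this box. -/
def stripSevFwdB1_ok : checkFour stripSevFwdB1Box 410 11 8 25 10 (eStripSevFwdLess 1000000000 6)
    = true := by
  decide +kernel

/-- A box. -/
def stripSevFwdB2Box : ℕ → Chart
  | 0 => ⟨14, 125, 125, 125⟩ | 1 => ⟨915, 976, 1024, 1024⟩ | 2 => ⟨4, 3, 36, 36⟩ | _ => ⟨1, 2, 8,
    8⟩

/-- The check of this box. -/
def stripSevFwdB2_ok : checkFour stripSevFwdB2Box 430 11 8 25 10 (eStripSevFwdLess 1000000000 6)
    = true := by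
  decide +kernel

/-- A box. -/
def stripSevFwdB3Box : ℕ → Chart
  | 0 => ⟨14, 125, 125, 125⟩ | 1 => ⟨915, 976, 1024, 1024⟩ | 2 => ⟨4, 3, 36, 36⟩ | _ => ⟨0, 1, 8,
    8⟩

/-- The check of this box. -/
def stripSevFwdB3_ok : checkFour stripSevFwdB3Box 430 11 8 25 10 (eStripSevFwdLess 1000000000 6)
    = true := by
  decide +kernel

/-- A box. -/
def stripSevFwdB4Box : ℕ → Chart
  | 0 => ⟨14, 125, 125, 125⟩ | 1 => ⟨854, 915, 1024, 1024⟩ | 2 => ⟨4, 3, 36, 36⟩ | _ => ⟨0, 1, 4,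
    4⟩

/-- The check of this box. -/
def stripSevFwdB4_ok : checkFour stripSevFwdB4Box 420 11 8 25 10 (eStripSevFwdLess 1000000000 6)
    = true := by
  decide +kernel

/-- A box. -/
def stripSevFwdB5Box : ℕ → Chart
  | 0 => ⟨14, 125, 125, 125⟩ | 1 => ⟨366, 427, 512, 512⟩ | 2 => ⟨4, 3, 36, 36⟩ | _ => ⟨0, 1, 2, 2⟩

/-- The check of this box. -/
def stripSevFwdB5_ok : checkFour stripSevFwdB5Box 400 11 8 25 10 (eStripSevFwdLess 1000000000 6)
    = true := by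
  decide +kernel

/-- A box. -/
def stripSevFwdB6Box : ℕ → Chart
  | 0 => ⟨14, 125, 125, 125⟩ | 1 => ⟨122, 183, 256, 256⟩ | 2 => ⟨4, 3, 36, 36⟩ | _ => ⟨0, 1, 1, 1⟩

/-- The check of this box. -/
def stripSevFwdB6_ok : checkFour stripSevFwdB6Box 380 11 8 25 10 (eStripSevFwdLess 1000000000 6)
    = true := by
  decide +kernel

/-- A box. -/
def stripSevFwdB7Box : ℕ → Chart
  | 0 => ⟨14, 125, 125, 125⟩ | 1 => ⟨0, 61, 128, 128⟩ | 2 => ⟨4, 3, 36, 36⟩ | _ => ⟨0, 1, 1, 1⟩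

/-- The check of this box. -/
def stripSevFwdB7_ok : checkFour stripSevFwdB7Box 370 11 8 25 10 (eStripSevFwdLess 1000000000 6)
    = true := by
  decide +kernel

end Vale.Agent.P100.Calib.Band.AllLow
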