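import Vale.Agent.P100.Calib.SlabStripSevExprB

/-!
# The checks of the upper bands for `N` between seven and twenty, part B

Each check is a definition, so that they are compiled one after another.
-/

set_option linter.defProp false

namespace Vale.Agent.P100.Calib.Band.AllLow

open Pack

/-- A box. -/
def stripSevFwdC0Box : ℕ → Chart
  | 0 => ⟨14, 125, 125, 125⟩ | 1 => ⟨45, 60, 64, 64⟩ | 2 => ⟨9, 7, 63, 63⟩ | _ => ⟨1, 2, 2, 2⟩

/-- The check of this box. -/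
def stripSevFwdC0_ok : checkFour stripSevFwdC0Box 400 11 8 25 10 (eStripSevFwdLess 600000000 5) =
    true := by
  decide +kernel

/-- A box. -/
def stripSevFwdC1Box : ℕ → Chart
  | 0 => ⟨14, 125, 125, 125⟩ | 1 => ⟨105, 120, 128, 128⟩ | 2 => ⟨9, 7, 63, 63⟩ | _ => ⟨1, 2, 4, 4⟩

/-- The check of this box. -/
def stripSevFwdC1_ok : checkFour stripSevFwdC1Box 410 11 8 25 10 (eStripSevFwdLess 600000000 5) =
    true := by
  decide +kernel

/-- A box. -/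
def stripSevFwdC2Box : ℕ → Chart
  | 0 => ⟨14, 125, 125, 125⟩ | 1 => ⟨225, 240, 256, 256⟩ | 2 => ⟨9, 7, 63, 63⟩ | _ => ⟨1, 2, 8, 8⟩

/-- The check of this box. -/
def stripSevFwdC2_ok : checkFour stripSevFwdC2Box 430 11 8 25 10 (eStripSevFwdLess 600000000 5) =
    true := by
  decide +kernel

/-- A box. -/
def stripSevFwdC3Box : ℕ → Chart
  | 0 => ⟨139, 250, 250, 250⟩ | 1 => ⟨465, 480, 512, 512⟩ | 2 => ⟨9, 7, 63, 63⟩ | _ => ⟨1, 2, 16,
    16⟩

/-- The check of this box. -/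
def stripSevFwdC3_ok : checkFour stripSevFwdC3Box 460 11 8 25 10 (eStripSevFwdLess 600000000 5) =
    true := by
  decide +kernel

/-- A box. -/
def stripSevFwdC4Box : ℕ → Chart
  | 0 => ⟨139, 250, 250, 250⟩ | 1 => ⟨465, 480, 512, 512⟩ | 2 => ⟨9, 7, 63, 63⟩ | _ => ⟨0, 1, 16,
    16⟩

/-- The check of this box. -/
def stripSevFwdC4_ok : checkFour stripSevFwdC4Box 460 11 8 25 10 (eStripSevFwdLess 600000000 5) =
    true := by
  decide +kernel

/-- A box. -/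
def stripSevFwdC5Box : ℕ → Chart
  | 0 => ⟨139, 250, 250, 250⟩ | 1 => ⟨450, 465, 512, 512⟩ | 2 => ⟨9, 7, 63, 63⟩ | _ => ⟨0, 1, 8,
    8⟩

/-- The check of this box. -/
def stripSevFwdC5_ok : checkFour stripSevFwdC5Box 450 11 8 25 10 (eStripSevFwdLess 600000000 5) =
    true := by
  decide +kernel

/-- A box. -/
def stripSevFwdC6Box : ℕ → Chart
  | 0 => ⟨28, 139, 250, 250⟩ | 1 => ⟨225, 240, 256, 256⟩ | 2 => ⟨9, 7, 63, 63⟩ | _ => ⟨0, 1, 8, 8⟩

/-- The check of this box. -/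
def stripSevFwdC6_ok : checkFour stripSevFwdC6Box 440 11 8 25 10 (eStripSevFwdLess 600000000 5) =
    true := by
  decide +kernel

/-- A box. -/
def stripSevFwdC7Box : ℕ → Chart
  | 0 => ⟨14, 125, 125, 125⟩ | 1 => ⟨210, 225, 256, 256⟩ | 2 => ⟨9, 7, 63, 63⟩ | _ => ⟨0, 1, 4, 4⟩

/-- The check of this box. -/
def stripSevFwdC7_ok : checkFour stripSevFwdC7Box 420 11 8 25 10 (eStripSevFwdLess 600000000 5) =
    true := by
  decide +kernel

/-- A box. -/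
def stripSevFwdC8Box : ℕ → Chart
  | 0 => ⟨14, 125, 125, 125⟩ | 1 => ⟨90, 105, 128, 128⟩ | 2 => ⟨9, 7, 63, 63⟩ | _ => ⟨0, 1, 2, 2⟩

/-- The check of this box. -/
def stripSevFwdC8_ok : checkFour stripSevFwdC8Box 400 11 8 25 10 (eStripSevFwdLess 600000000 5) =
    true := by
  decide +kernel

/-- A box. -/
def stripSevFwdC9Box : ℕ → Chart
  | 0 => ⟨14, 125, 125, 125⟩ | 1 => ⟨30, 45, 64, 64⟩ | 2 => ⟨9, 7, 63, 63⟩ | _ => ⟨0, 1, 1, 1⟩

/-- The check of this box. -/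
def stripSevFwdC9_ok : checkFour stripSevFwdC9Box 390 11 8 25 10 (eStripSevFwdLess 600000000 5) =
    true := by
  decide +kernel

/-- A box. -/
def stripSevFwdC10Box : ℕ → Chart
  | 0 => ⟨139, 250, 250, 250⟩ | 1 => ⟨15, 30, 64, 64⟩ | 2 => ⟨9, 7, 63, 63⟩ | _ => ⟨0, 1, 1, 1⟩

/-- The check of this box. -/
def stripSevFwdC10_ok : checkFour stripSevFwdC10Box 400 11 8 25 10 (eStripSevFwdLess 600000000 5)
    = true := by
  decide +kernel

/-- A box. -/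
def stripSevFwdC11Box : ℕ → Chart
  | 0 => ⟨139, 250, 250, 250⟩ | 1 => ⟨0, 15, 64, 64⟩ | 2 => ⟨9, 7, 63, 63⟩ | _ => ⟨1, 2, 2, 2⟩

/-- The check of this box. -/
def stripSevFwdC11_ok : checkFour stripSevFwdC11Box 400 11 8 25 10 (eStripSevFwdLess 600000000 5)
    = true := by
  decide +kernel

/-- A box. -/
def stripSevFwdC12Box : ℕ → Chart
  | 0 => ⟨389, 500, 500, 500⟩ | 1 => ⟨0, 15, 64, 64⟩ | 2 => ⟨9, 7, 63, 63⟩ | _ => ⟨0, 1, 2, 2⟩

/-- The check of this box. -/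
def stripSevFwdC12_ok : checkFour stripSevFwdC12Box 420 11 8 25 10 (eStripSevFwdLess 600000000 5)
    = true := by
  decide +kernel

/-- A box. -/
def stripSevFwdC13Box : ℕ → Chart
  | 0 => ⟨278, 389, 500, 500⟩ | 1 => ⟨0, 15, 64, 64⟩ | 2 => ⟨9, 7, 63, 63⟩ | _ => ⟨0, 1, 2, 2⟩

/-- The check of this box. -/
def stripSevFwdC13_ok : checkFour stripSevFwdC13Box 410 11 8 25 10 (eStripSevFwdLess 600000000 5)
    = true := by
  decide +kernel

/-- A box. -/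
def stripSevFwdC14Box : ℕ → Chart
  | 0 => ⟨28, 139, 250, 250⟩ | 1 => ⟨0, 15, 32, 32⟩ | 2 => ⟨9, 7, 63, 63⟩ | _ => ⟨0, 1, 1, 1⟩

/-- The check of this box. -/
def stripSevFwdC14_ok : checkFour stripSevFwdC14Box 390 11 8 25 10 (eStripSevFwdLess 600000000 5)
    = true := by
  decide +kernel

/-- A box. -/
def stripSevDen0Box : ℕ → Chart
  | 0 => ⟨14, 125, 125, 125⟩ | 1 => ⟨0, 97, 100, 100⟩ | 2 => ⟨20, 7, 140, 140⟩ | _ => ⟨0, 1, 1, 1⟩

/-- The check of this box. -/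
def stripSevDen0_ok : checkFour stripSevDen0Box 170 5 3 10 4 eStripSevDenLess = true := by
  decide +kernel

/-- A box. -/
def stripSevEnd0Box : ℕ → Chart
  | 0 => ⟨9, 12, 100, 100⟩ | 1 => ⟨291, 388, 400, 400⟩ | 2 => ⟨20, 7, 140, 140⟩ | _ => ⟨1, 2, 2,
    2⟩

/-- The check of this box. -/
def stripSevEnd0_ok : checkFour stripSevEnd0Box 290 7 4 18 8 eStripUpBEndLess = true := by
  decide +kernel

/-- A box. -/
def stripSevEnd1Box : ℕ → Chart
  | 0 => ⟨9, 12, 100, 100⟩ | 1 => ⟨291, 388, 400, 400⟩ | 2 => ⟨20, 7, 140, 140⟩ | _ => ⟨0, 1, 2,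
    2⟩

/-- The check of this box. -/
def stripSevEnd1_ok : checkFour stripSevEnd1Box 290 7 4 18 8 eStripUpBEndLess = true := by
  decide +kernel

/-- A box. -/
def stripSevEnd2Box : ℕ → Chart
  | 0 => ⟨9, 12, 100, 100⟩ | 1 => ⟨194, 291, 400, 400⟩ | 2 => ⟨20, 7, 140, 140⟩ | _ => ⟨0, 1, 1,
    1⟩

/-- The check of this box. -/
def stripSevEnd2_ok : checkFour stripSevEnd2Box 280 7 4 18 8 eStripUpBEndLess = true := by
  decide +kernel

/-- A box. -/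
def stripSevEnd3Box : ℕ → Chart
  | 0 => ⟨6, 9, 100, 100⟩ | 1 => ⟨97, 194, 200, 200⟩ | 2 => ⟨20, 7, 140, 140⟩ | _ => ⟨0, 1, 1, 1⟩

/-- The check of this box. -/
def stripSevEnd3_ok : checkFour stripSevEnd3Box 280 7 4 18 8 eStripUpBEndLess = true := by
  decide +kernel

/-- A box. -/
def stripSevEnd4Box : ℕ → Chart
  | 0 => ⟨3, 6, 50, 50⟩ | 1 => ⟨0, 97, 200, 200⟩ | 2 => ⟨20, 7, 140, 140⟩ | _ => ⟨0, 1, 1, 1⟩

/-- The check of this box. -/
def stripSevEnd4_ok : checkFour stripSevEnd4Box 270 7 4 18 8 eStripUpBEndLess = true := by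
  decide +kernel

/-- A box. -/
def stripSevEnd5Box : ℕ → Chart
  | 0 => ⟨0, 3, 50, 50⟩ | 1 => ⟨0, 97, 100, 100⟩ | 2 => ⟨20, 7, 140, 140⟩ | _ => ⟨0, 1, 1, 1⟩

/-- The check of this box. -/
def stripSevEnd5_ok : checkFour stripSevEnd5Box 270 7 4 18 8 eStripUpBEndLess = true := by
  decide +kernel

/-- A box. -/
def stripSevMid0Box : ℕ → Chart
  | 0 => ⟨112, 335, 1000, 1000⟩ | 1 => ⟨291, 388, 400, 400⟩ | 2 => ⟨20, 7, 140, 140⟩ | _ => ⟨0,
    1, 1, 1⟩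

/-- The check of this box. -/
def stripSevMid0_ok : checkFour stripSevMid0Box 390 8 7 21 10 eStripUpB_sevAm = true := by
  decide +kernel

/-- A box. -/
def stripSevMid1Box : ℕ → Chart
  | 0 => ⟨112, 335, 1000, 1000⟩ | 1 => ⟨194, 291, 400, 400⟩ | 2 => ⟨20, 7, 140, 140⟩ | _ => ⟨0,
    1, 1, 1⟩

/-- The check of this box. -/
def stripSevMid1_ok : checkFour stripSevMid1Box 390 8 7 21 10 eStripUpB_sevAm = true := by
  decide +kernel

/-- A box. -/
def stripSevMid2Box : ℕ → Chart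
  | 0 => ⟨112, 335, 1000, 1000⟩ | 1 => ⟨0, 97, 200, 200⟩ | 2 => ⟨20, 7, 140, 140⟩ | _ => ⟨0, 1,
    1, 1⟩

/-- The check of this box. -/
def stripSevMid2_ok : checkFour stripSevMid2Box 380 8 7 21 10 eStripUpB_sevAm = true := by
  decide +kernel

/-- A box. -/
def stripSevSlope0Box : ℕ → Chart
  | 0 => ⟨0, 67, 200, 200⟩ | 1 => ⟨0, 97, 100, 100⟩ | 2 => ⟨40, 27, 280, 280⟩ | _ => ⟨0, 1, 1, 1⟩

/-- The check of this box. -/
def stripSevSlope0_ok : checkFour stripSevSlope0Box 230 5 3 14 6 eStripSevSlopeLess = true := by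
  decide +kernel

/-- A box. -/
def stripSevSlope1Box : ℕ → Chart
  | 0 => ⟨0, 67, 200, 200⟩ | 1 => ⟨0, 97, 100, 100⟩ | 2 => ⟨27, 14, 280, 280⟩ | _ => ⟨0, 1, 1, 1⟩

/-- The check of this box. -/
def stripSevSlope1_ok : checkFour stripSevSlope1Box 230 5 3 14 6 eStripSevSlopeLess = true := by
  decide +kernel

/-- A box. -/
def stripSevTop0Box : ℕ → Chart
  | 0 => ⟨0, 67, 200, 200⟩ | 1 => ⟨0, 97, 100, 100⟩ | 2 => ⟨20, 7, 140, 140⟩ | _ => ⟨0, 1, 1, 1⟩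

/-- The check of this box. -/
def stripSevTop0_ok : checkFour stripSevTop0Box 180 4 2 12 6 eStripUpB_upC = true := by
  decide +kernel

end Vale.Agent.P100.Calib.Band.AllLow
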