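import Vale.Agent.P100.Calib.SlabStripSevCurveEval
import Vale.Agent.P100.Calib.SlabStripSevWindow

/-!
# The curves of `v` from the bands for `N` between seven and twenty

If the flow of a band is nonpositive on one side of a curve
`v (1 - 2 a u) = 2 I (1 - 2 a u + 2 a u c / 100)`, then `v` is on the other side on orbits.
-/

namespace Vale.Agent.P100.Calib.Band

open Vale.Agent.P100.Bubble Chart

namespace AllLow

open Pack

local instance stripSevCurveSignsAdd : Add Pack.Ex := ⟨Ex.add⟩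
local instance stripSevCurveSignsSub : Sub Pack.Ex := ⟨Ex.sub⟩
local instance stripSevCurveSignsMul : Mul Pack.Ex := ⟨Ex.mul⟩

/-- The chart at a point. -/
theorem stripSevCurvePoint_of {a b u v σ θ k₂ : ℝ} {V K2 : Pack.Ex}
    (hθ : θ * (19 / 50 - 2 * allStabI a b) = b - a)
    (hk : K2.eval (stabPt u σ (allStabI a b) θ) = k₂)
    (hV : V.eval (stabPt u σ (allStabI a b) θ) = v * (100 * k₂)) :
    StripSevCurvePoint (stabPt u σ (allStabI a b) θ) (stripAt a b u v) V K2 k₂ := by
  have hS : a + b = 1 - 2 * allStabI a b := by simp only [allStabI]; ring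
  obtain ⟨I, hI⟩ : ∃ I, I = allStabI a b := ⟨_, rfl⟩
  rw [← hI] at hθ hk hV hS ⊢
  obtain rfl : b = 1 - 2 * I - a := by linarith
  obtain rfl : a = (1 - 2 * I - θ * (19 / 50 - 2 * I)) / 2 := by linarith
  constructor <;>
    simp only [eSr_w, eSr_v, eSr_I, eSr_S, eSr_d, eSr_a, eSr_b, eSr_K, eSr_IT, eSr_dv, eSr_slT,
      eSr_slC, eSr_slCd, StripAtoms.slT, StripAtoms.slC, StripAtoms.slCd, StripAtoms.u, stripAt,
      ← hI, Ex.eval, eval_add', eval_sub', eval_mul', eval_num', hk, hV, stabPt] <;>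
    push_cast <;> ring

theorem strip_sev_den {a b u v : ℝ} (h : SevPlace a b u v) : 0 < 1 - 2 * a * u := by
  obtain ⟨hI20, hI7, ha, hd, hu, hu1, -⟩ := h
  have h1 : a < 1 / 2 := by
    simp only [allStabI] at hI20
    linarith
  have h2 := mul_le_mul_of_nonneg_right h1.le hu.le
  linarith

/-- A point below a curve. -/
theorem strip_sev_below {a b u v : ℝ} {p : ℤ} (h : SevPlace a b u v)
    (hv : v * (1 - 2 * a * u) ≤ stripLeftCurve a b u p) :
    ∃ σ θ : ℝ, 0 < σ ∧ σ ≤ 1 ∧ 0 < θ ∧ θ < 1 ∧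
      StripSevCurvePoint (stabPt u σ (allStabI a b) θ) (stripAt a b u v) (eLfBelowV p) eLfDen
        (50 * (1 - 2 * a * u)) := by
  obtain ⟨θ, hθ0, hθ1, hθ⟩ := strip_sev_left_theta h
  have hk := strip_sev_den h
  obtain ⟨hI20, hI7, ha, -, hu, -, hv0, -⟩ := h
  have hI0 : 0 < allStabI a b := by linarith
  have hR : 0 < stripLeftCurve a b u p := lt_of_lt_of_le (mul_pos hv0 hk) hv
  have e := div_mul_cancel₀ (v * (1 - 2 * a * u)) hR.ne'
  refine ⟨v * (1 - 2 * a * u) / stripLeftCurve a b u p, θ, div_pos (mul_pos hv0 hk) hR,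
    (div_le_one hR).2 hv, hθ0, hθ1, stripSevCurvePoint_of hθ ?_ ?_⟩
  · exact (strip_left_evals hθ).2
  · obtain ⟨eA, eD⟩ := strip_left_evals (u := u)
      (σ := v * (1 - 2 * a * u) / stripLeftCurve a b u p) hθ
    simp only [eLfBelowV, eLfCurve, eLfTwo, Ex.eval, eval_mul', eval_num', eA, eD,
      stabPt]
    generalize v * (1 - 2 * a * u) / stripLeftCurve a b u p = σ at e ⊢
    simp only [stripLeftCurve] at e
    push_cast
    linear_combination 5000 * e

/-- A point above a curve. -/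
theorem strip_sev_above {a b u v : ℝ} {p : ℤ} (h : SevPlace a b u v)
    (hv : stripLeftCurve a b u p ≤ v * (1 - 2 * a * u)) :
    ∃ σ θ : ℝ, 0 ≤ σ ∧ σ < 1 ∧ 0 < θ ∧ θ < 1 ∧
      StripSevCurvePoint (stabPt u σ (allStabI a b) θ) (stripAt a b u v) (eLfAboveV p) eLfDen
        (50 * (1 - 2 * a * u)) := by
  obtain ⟨θ, hθ0, hθ1, hθ⟩ := strip_sev_left_theta h
  have hk := strip_sev_den h
  have hv3 := mul_lt_mul_of_pos_right (strip_sev_left_v_lt h) hk
  have hD : 0 < 323 / 100 * (1 - 2 * a * u) - stripLeftCurve a b u p := by linarith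
  have e := div_mul_cancel₀ (v * (1 - 2 * a * u) - stripLeftCurve a b u p) hD.ne'
  refine ⟨(v * (1 - 2 * a * u) - stripLeftCurve a b u p) /
      (323 / 100 * (1 - 2 * a * u) - stripLeftCurve a b u p), θ,
    div_nonneg (by linarith) hD.le, (div_lt_one hD).2 (by linarith), hθ0, hθ1,
    stripSevCurvePoint_of hθ ?_ ?_⟩
  · exact (strip_left_evals hθ).2
  · obtain ⟨eA, eD⟩ := strip_left_evals (u := u)
      (σ := (v * (1 - 2 * a * u) - stripLeftCurve a b u p) /
        (323 / 100 * (1 - 2 * a * u) - stripLeftCurve a b u p)) hθ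
    simp only [eLfAboveV, eLfCurve, eLfTwo, Ex.eval, eval_add', eval_sub', eval_num',
      eA, eD, stabPt]
    generalize (v * (1 - 2 * a * u) - stripLeftCurve a b u p) /
      (323 / 100 * (1 - 2 * a * u) - stripLeftCurve a b u p) = σ at e ⊢
    simp only [stripLeftCurve] at e
    push_cast
    linear_combination 5000 * e

end AllLow

/-- The flow in the variables of `StripAtoms`. -/
theorem strip_sev_flow_eq (a b u v H : ℝ) :
    allFlow a b u v H = (stripAt a b u v).f0 * H - (stripAt a b u v).N := by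
  simp only [stripAt, StripAtoms.f0, StripAtoms.N, StripAtoms.qn, StripAtoms.D0,
    StripAtoms.qu, StripAtoms.q, StripAtoms.ud, StripAtoms.u, allFlow, allQn, allDen]
  ring

/-- A lower curve of `v`. -/
theorem strip_sev_lower_of {a b u v H : ℝ} {c : ℤ} (hP : SevPlace a b u v)
    (hfl : 0 < allFlow a b u v H) (hup : H < stripSev a b u v)
    (h : v * (1 - 2 * a * u) ≤ stripLeftCurve a b u c → 0 ≤ (stripAt a b u v).sevLow) :
    stripLeftCurve a b u c < v * (1 - 2 * a * u) := by
  by_contra hc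
  have h' := h (not_lt.1 hc)
  obtain ⟨e1, -, -⟩ := stripSev_eq (a := a) (b := b) (v := v) hP.u_lt.le
  obtain ⟨-, hW, hf0⟩ := strip_sev_pos hP
  rw [e1, lt_div_iff₀ hW] at hup
  rw [strip_sev_flow_eq a b u v H] at hfl
  simp only [StripAtoms.sevLow] at h'
  have h1 := mul_pos hW hfl
  have h2 := mul_lt_mul_of_pos_left hup hf0
  linarith

/-- An upper curve of `v` from the left exit band. -/
theorem strip_sev_upper_left_of {a b u v H : ℝ} {c : ℤ} (hP : SevPlace a b u v)
    (hfl : 0 < allFlow a b u v H) (hF : 0 < stripSevLeft a b u v H)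
    (h : stripLeftCurve a b u c ≤ v * (1 - 2 * a * u) → 0 ≤ (stripAt a b u v).slFlow) :
    v * (1 - 2 * a * u) < stripLeftCurve a b u c := by
  by_contra hc
  have h' := h (not_lt.1 hc)
  obtain ⟨hPp, -, hf0⟩ := strip_sev_pos hP
  have eF := stripSevLeft_eq a b u v H
  rw [strip_sev_flow_eq a b u v H] at hfl
  simp only [StripAtoms.slFlow, show (stripAt a b u v).u = u by simp [stripAt, StripAtoms.u]] at h'
  have h1 := mul_pos (mul_pos hP.u_pos hPp) hfl
  have h2 := mul_pos hf0 hF
  have h3 : (stripAt a b u v).f0 * (20 * stripSevLeft a b u v H) =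
      (stripAt a b u v).f0 * ((stripAt a b u v).slN -
        20 * (u * ((stripAt a b u v).P * H))) := by rw [eF]
  linarith

/-- An upper curve of `v` from `stripTop`. -/
theorem strip_sev_upper_top_of {a b u v H : ℝ} {c : ℤ} (hP : SevPlace a b u v)
    (hfl : 0 < allFlow a b u v H) (hF : 0 ≤ stripTop a b u v H)
    (h : stripLeftCurve a b u c ≤ v * (1 - 2 * a * u) → 0 ≤ (stripAt a b u v).lfTopFlow) :
    v * (1 - 2 * a * u) < stripLeftCurve a b u c := by
  by_contra hc
  have h' := h (not_lt.1 hc)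
  obtain ⟨hPp, -, hf0⟩ := strip_sev_pos hP
  have eF : 20 * stripTop a b u v H =
      (stripAt a b u v).upM - 20 * (stripAt a b u v).P * H := by
    simp only [stripAt, StripAtoms.P, StripAtoms.upM, StripAtoms.upG, StripAtoms.upKI,
      StripAtoms.qu, StripAtoms.q, StripAtoms.u, stripTop, stripTopG]
    ring
  rw [strip_sev_flow_eq a b u v H] at hfl
  simp only [StripAtoms.lfTopFlow] at h'
  have h1 := mul_pos hPp hfl
  have h2 := mul_nonneg hf0.le hF
  have h3 : (stripAt a b u v).f0 * (20 * stripTop a b u v H) = (stripAt a b u v).f0 *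
      ((stripAt a b u v).upM - 20 * (stripAt a b u v).P * H) := by rw [eF]
  linarith

end Vale.Agent.P100.Calib.Band
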