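import Vale.Agent.P100.Calib.SlabStripSevLeftAtoms
import Vale.Agent.P100.Calib.SlabStripLeftAtoms

/-!
# Minus the flow on the upper band of the strip for `N` between seven and twenty
-/

namespace Vale.Agent.P100.Calib.Band.StripAtoms

variable (p : StripAtoms)

/-- Minus the flow on `stripSev`, cleared. -/
def sevLow : ℝ := p.N * p.upW - p.f0 * p.sevN

end Vale.Agent.P100.Calib.Band.StripAtoms
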