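import Vale.Agent.P100.Calib.SlabAllLowExpr

/-!
# The packed flow conditions on the bands for `N` between seven and twenty

The variables are `(u, sigma, I, theta)`, `d = theta (19/50 - 2 I)`; `V` is the numerator of `v`
over `100 K2`, `Sx` that of the point of the window over `100`.
-/

namespace Vale.Agent.P100.Calib.Band.AllLow

open Pack

local instance stripSevCurveAdd : Add Pack.Ex := ⟨Ex.add⟩
local instance stripSevCurveSub : Sub Pack.Ex := ⟨Ex.sub⟩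
local instance stripSevCurveMul : Mul Pack.Ex := ⟨Ex.mul⟩

/-- A packed quantity. -/
def eSr_w (_V _K2 : Pack.Ex) : Pack.Ex := (eN 1) - (Ex.var 0)

/-- A packed quantity. -/
def eSr_v (V _K2 : Pack.Ex) : Pack.Ex := (eN 1) * V

/-- A packed quantity. -/
def eSr_I (_V _K2 : Pack.Ex) : Pack.Ex := (eN 1) * (Ex.var 2)

/-- A packed quantity. -/
def eSr_S (_V _K2 : Pack.Ex) : Pack.Ex := (eN 1) - ((eN 2) * (Ex.var 2))

/-- A packed quantity. -/
def eSr_d (_V _K2 : Pack.Ex) : Pack.Ex := (eN 2) * ((Ex.var 3) * ((eN 19) - ((eN 100) * (Ex.var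
    2))))

/-- A packed quantity. -/
def eSr_a (_V _K2 : Pack.Ex) : Pack.Ex := ((eN 50) - ((eN 100) * (Ex.var 2))) - ((Ex.var 3) *
    ((eN 19) - ((eN 100) * (Ex.var 2))))

/-- A packed quantity. -/
def eSr_b (_V _K2 : Pack.Ex) : Pack.Ex := ((eN 50) - ((eN 100) * (Ex.var 2))) + ((Ex.var 3) *
    ((eN 19) - ((eN 100) * (Ex.var 2))))

/-- A packed quantity. -/
def eSr_K (V K2 : Pack.Ex) : Pack.Ex := ((Ex.pow (eN 100) 2) * K2) - ((eSr_a V K2) * (eSr_v V K2))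

/-- A packed quantity. -/
def eSr_dv (V K2 : Pack.Ex) : Pack.Ex := (eSr_d V K2) * (eSr_v V K2)

/-- A packed quantity. -/
def eSr_IT (V K2 : Pack.Ex) : Pack.Ex := (((eSr_I V K2) * (Ex.pow (eN 100) 2)) * K2) - ((eSr_S V
    K2) * (((Ex.var 3) * ((eN 19) - ((eN 100) * (Ex.var 2)))) * (eSr_v V K2)))

/-- A packed quantity. -/
def eSr_slT (_V _K2 : Pack.Ex) : Pack.Ex := (eN 67) - ((eN 100) * (Ex.var 0))

/-- A packed quantity. -/
def eSr_slC (_V _K2 : Pack.Ex) : Pack.Ex := (eN 5) * ((eN 23) + (((eN 6) * (Ex.var 0)) + ((eN 48)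
    * ((Ex.var 0) * (Ex.var 0)))))

/-- A packed quantity. -/
def eSr_slCd (_V _K2 : Pack.Ex) : Pack.Ex := (eN 30) + ((eN 480) * (Ex.var 0))

/-- A packed quantity. -/
def eSr_q (V K2 : Pack.Ex) : Pack.Ex := ((Ex.pow (eN 100) 2) * K2) + (eSr_dv V K2)

/-- A packed quantity. -/
def eSr_D0 (V K2 : Pack.Ex) : Pack.Ex := (((eN 2) * (Ex.pow (eN 100) 2)) * K2) + (eSr_dv V K2)

/-- A packed quantity. -/
def eSr_u (V K2 : Pack.Ex) : Pack.Ex := (eN 1) - (eSr_w V K2)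

/-- A packed quantity. -/
def eSr_qu (V K2 : Pack.Ex) : Pack.Ex := (eSr_q V K2) * (eSr_u V K2)

/-- A packed quantity. -/
def eSr_P (V K2 : Pack.Ex) : Pack.Ex := (((eSr_b V K2) * (Ex.pow (eN 100) 2)) * K2) - ((eSr_a V
    K2) * (eSr_qu V K2))

/-- A packed quantity. -/
def eSr_qn (V K2 : Pack.Ex) : Pack.Ex := ((eSr_b V K2) * (eSr_D0 V K2)) - (((eSr_S V K2) *
    (eSr_qu V K2)) * (eN 100))

/-- A packed quantity. -/
def eSr_ud (V K2 : Pack.Ex) : Pack.Ex := (eSr_u V K2) * (eSr_d V K2)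

/-- A packed quantity. -/
def eSr_e1 (V K2 : Pack.Ex) : Pack.Ex := (eSr_ud V K2) * ((eSr_qn V K2) - ((((eSr_S V K2) *
    ((eSr_w V K2) * (eSr_b V K2))) * (Ex.pow (eN 100) 2)) * K2))

/-- A packed quantity. -/
def eSr_E0 (V K2 : Pack.Ex) : Pack.Ex := (eSr_qn V K2) - ((eSr_S V K2) * ((eSr_w V K2) * ((eSr_b
    V K2) * (eSr_D0 V K2))))

/-- A packed quantity. -/
def eSr_f0 (V K2 : Pack.Ex) : Pack.Ex := (eSr_qn V K2) + ((eSr_S V K2) * ((eSr_K V K2) * (eSr_ud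
    V K2)))

/-- A packed quantity. -/
def eSr_N (V K2 : Pack.Ex) : Pack.Ex := (eSr_S V K2) * ((eSr_K V K2) * (eSr_D0 V K2))

/-- A packed quantity. -/
def eSr_A0 (V K2 : Pack.Ex) : Pack.Ex := (eSr_N V K2) + (((eSr_S V K2) * ((eSr_v V K2) * (eSr_D0
    V K2))) * (eN 100))

/-- A packed quantity. -/
def eSr_A1 (V K2 : Pack.Ex) : Pack.Ex := (eSr_f0 V K2) + (((eSr_S V K2) * ((eSr_v V K2) * (eSr_ud
    V K2))) * (eN 100))

/-- A packed quantity. -/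
def eSr_sevK (V K2 : Pack.Ex) : Pack.Ex := ((eN 100) * (eSr_b V K2)) - ((eSr_a V K2) * ((eSr_u V
    K2) * ((eN 130) - ((eN 80) * (eSr_u V K2)))))

/-- A packed quantity. -/
def eSr_upP0 (V K2 : Pack.Ex) : Pack.Ex := (((((eN 653) * (eSr_I V K2)) * (eN 100)) + ((eN 189) *
    ((eSr_a V K2) * (eSr_I V K2)))) - (((eN 828) * ((eSr_I V K2) * (eSr_I V K2))) * (eN 100))) -
    ((eN 398) * (eN 100))

/-- A packed quantity. -/
def eSr_upP1 (V K2 : Pack.Ex) : Pack.Ex := (((((eN 464) * (eN 100)) - ((eN 1676) * (eSr_a V K2)))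
    * (eN 100)) + ((eN 1565) * ((eSr_a V K2) * (eSr_a V K2)))) + ((eSr_I V K2) * (((((eN 5790) *
    (eSr_a V K2)) * (eN 100)) + ((eN 1661) * ((eSr_a V K2) * (eSr_a V K2)))) - ((eN 2620) *
    (Ex.pow (eN 100) 2))))

/-- A packed quantity. -/
def eSr_upP2 (V K2 : Pack.Ex) : Pack.Ex := (((((eN 8980) * (eSr_a V K2)) - ((eN 1503) * (eN
    100))) * (eN 100)) - ((eN 13330) * ((eSr_a V K2) * (eSr_a V K2)))) + ((eSr_I V K2) * (((((eN
    4840) * (eN 100)) - ((eN 15870) * (eSr_a V K2))) * (eN 100)) + ((eN 1947) * ((eSr_a V K2) *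
    (eSr_a V K2)))))

/-- A packed quantity. -/
def eSr_upPsi (V K2 : Pack.Ex) : Pack.Ex := ((eSr_upP0 V K2) * (eN 100)) + ((eSr_u V K2) *
    ((eSr_upP1 V K2) + ((eSr_u V K2) * ((eSr_upP2 V K2) + (((eN 60) * ((eSr_u V K2) * (eSr_u V
    K2))) * (Ex.pow (eN 100) 2))))))

/-- A packed quantity. -/
def eSr_sevPsi (V K2 : Pack.Ex) : Pack.Ex := (eSr_upPsi V K2) + ((eN 3) * (Ex.pow (eN 100) 2))

/-- A packed quantity. -/
def eSr_sevN (V K2 : Pack.Ex) : Pack.Ex := ((((eN 100) * (Ex.pow (eN 100) 2)) * K2) + ((eSr_sevK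
    V K2) * (eSr_v V K2))) + (((eSr_I V K2) * (eSr_sevPsi V K2)) * K2)

/-- A packed quantity. -/
def eSr_upW (V K2 : Pack.Ex) : Pack.Ex := (eN 100) * ((eSr_b V K2) - ((eSr_u V K2) * (eSr_a V
    K2)))

/-- A packed quantity. -/
def eSr_upKI (V K2 : Pack.Ex) : Pack.Ex := (eSr_K V K2) * (eSr_IT V K2)

/-- A packed quantity. -/
def eSr_upG (V K2 : Pack.Ex) : Pack.Ex := (((eN 20) * ((eSr_S V K2) * ((eSr_v V K2) * (eSr_q V
    K2)))) * (eN 100)) - (((eN 14) + ((eN 6) * (eSr_u V K2))) * (eSr_upKI V K2))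

/-- A packed quantity. -/
def eSr_upM (V K2 : Pack.Ex) : Pack.Ex := ((((eN 20) * (eSr_K V K2)) * (Ex.pow (eN 100) 2)) * K2)
    - ((eSr_w V K2) * (eSr_upG V K2))

/-- A packed quantity. -/
def eSr_slg (V K2 : Pack.Ex) : Pack.Ex := ((eN 13) - ((eN 4) * (eSr_u V K2))) + ((eN 18) *
    ((eSr_u V K2) * (eSr_u V K2)))

/-- A packed quantity. -/
def eSr_slG (V K2 : Pack.Ex) : Pack.Ex := (((eN 20) * ((eSr_S V K2) * ((eSr_v V K2) * (eSr_q V
    K2)))) * (eN 100)) - ((eSr_slg V K2) * (eSr_upKI V K2))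

/-- A packed quantity. -/
def eSr_slGv (V K2 : Pack.Ex) : Pack.Ex := (((eN 40) * ((eSr_S V K2) * (((Ex.pow (eN 100) 2) *
    K2) + ((eN 2) * (eSr_dv V K2))))) * (eN 100)) + ((eSr_slg V K2) * (((eN 2) * ((eSr_a V K2) *
    (eSr_IT V K2))) + ((eSr_K V K2) * ((eSr_S V K2) * (eSr_d V K2)))))

/-- A packed quantity. -/
def eSr_slM (V K2 : Pack.Ex) : Pack.Ex := ((((eN 20) * (eSr_K V K2)) * (Ex.pow (eN 100) 2)) * K2)
    - ((eSr_w V K2) * (eSr_slG V K2))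

/-- A packed quantity. -/
def eSr_slMu (V K2 : Pack.Ex) : Pack.Ex := (eSr_slG V K2) + ((eSr_w V K2) * ((((eN 36) * (eSr_u V
    K2)) - (eN 4)) * (eSr_upKI V K2)))

/-- A packed quantity. -/
def eSr_slN (V K2 : Pack.Ex) : Pack.Ex := ((eSr_u V K2) * (eSr_slM V K2)) + ((((eN 13) *
    ((eSr_slT V K2) * ((((eN 2) * ((eSr_I V K2) * (eSr_slC V K2))) * K2) - (eSr_v V K2)))) *
    (Ex.pow (eN 100) 2)) * K2)

/-- A packed quantity. -/
def eSr_slGap (V K2 : Pack.Ex) : Pack.Ex := ((eSr_slN V K2) * (eSr_upW V K2)) - ((eN 20) *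
    ((eSr_u V K2) * ((eSr_P V K2) * (eSr_sevN V K2))))

/-- A packed quantity. -/
def eSr_slFlow (V K2 : Pack.Ex) : Pack.Ex := ((eN 20) * ((eSr_u V K2) * ((eSr_N V K2) * (eSr_P V
    K2)))) - ((eSr_f0 V K2) * (eSr_slN V K2))

/-- A packed quantity. -/
def eSr_lfTopFlow (V K2 : Pack.Ex) : Pack.Ex := ((eN 20) * ((eSr_N V K2) * (eSr_P V K2))) -
    ((eSr_f0 V K2) * (eSr_upM V K2))

/-- A packed quantity. -/
def eSr_sevLow (V K2 : Pack.Ex) : Pack.Ex := ((eSr_N V K2) * (eSr_upW V K2)) - ((eSr_f0 V K2) *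
    (eSr_sevN V K2))

end Vale.Agent.P100.Calib.Band.AllLow
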