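import Vale.Agent.P100.Calib.SlabStripUpEvalB
import Vale.Agent.P100.Calib.SlabStripSevCurveAtoms
import Vale.Agent.P100.Calib.SlabStripSevCurveExpr

/-!
# The values of the packed flow conditions on the bands

`StripSevCurvePoint` relates a point to the variables.
-/

namespace Vale.Agent.P100.Calib.Band.AllLow

open Pack

local instance stripSevCurveEvalAdd : Add Pack.Ex := ⟨Ex.add⟩
local instance stripSevCurveEvalSub : Sub Pack.Ex := ⟨Ex.sub⟩
local instance stripSevCurveEvalMul : Mul Pack.Ex := ⟨Ex.mul⟩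

/-- The values of the variables. -/
structure StripSevCurvePoint (x : ℕ → ℝ) (p : StripAtoms) (V K2 : Pack.Ex) (k₂ : ℝ) : Prop where
  hu : x 0 = p.u
  hk2 : K2.eval x = k₂
  h_w : (eSr_w V K2).eval x = p.w
  h_v : (eSr_v V K2).eval x = p.v * ((100 : ℝ) * k₂)
  h_I : (eSr_I V K2).eval x = p.I
  h_S : (eSr_S V K2).eval x = p.S
  h_d : (eSr_d V K2).eval x = p.d * ((100 : ℝ))
  h_a : (eSr_a V K2).eval x = p.a * ((100 : ℝ))
  h_b : (eSr_b V K2).eval x = p.b * ((100 : ℝ))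
  h_K : (eSr_K V K2).eval x = p.K * ((100 : ℝ) ^ 2 * k₂)
  h_IT : (eSr_IT V K2).eval x = p.IT * ((100 : ℝ) ^ 2 * k₂)
  h_dv : (eSr_dv V K2).eval x = p.dv * ((100 : ℝ) ^ 2 * k₂)
  h_slT : (eSr_slT V K2).eval x = p.slT * ((100 : ℝ))
  h_slC : (eSr_slC V K2).eval x = p.slC * ((100 : ℝ))
  h_slCd : (eSr_slCd V K2).eval x = p.slCd * ((100 : ℝ))

variable {x : ℕ → ℝ} {p : StripAtoms} {V K2 Sx : Pack.Ex} {k₂ s : ℝ}

theorem evalSr_q (h : StripSevCurvePoint x p V K2 k₂) :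
    (eSr_q V K2).eval x = p.q * ((100 : ℝ) ^ 2 * k₂) := by
  simp only [eSr_q, StripAtoms.q, eval_add', eval_num', Ex.eval, h.h_dv, h.hk2]
  push_cast
  ring

theorem evalSr_D0 (h : StripSevCurvePoint x p V K2 k₂) :
    (eSr_D0 V K2).eval x = p.D0 * ((100 : ℝ) ^ 2 * k₂) := by
  simp only [eSr_D0, StripAtoms.D0, eval_add', eval_num', Ex.eval, h.h_dv, h.hk2]
  push_cast
  ring

theorem evalSr_u (h : StripSevCurvePoint x p V K2 k₂) :
    (eSr_u V K2).eval x = p.u := by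
  simp only [eSr_u, StripAtoms.u, eval_sub', eval_num', h.h_w]
  push_cast
  ring

theorem evalSr_qu (h : StripSevCurvePoint x p V K2 k₂) :
    (eSr_qu V K2).eval x = p.qu * ((100 : ℝ) ^ 2 * k₂) := by
  simp only [eSr_qu, StripAtoms.qu, eval_mul', evalSr_q h, evalSr_u h]
  ring

theorem evalSr_P (h : StripSevCurvePoint x p V K2 k₂) :
    (eSr_P V K2).eval x = p.P * ((100 : ℝ) ^ 3 * k₂) := by
  simp only [eSr_P, StripAtoms.P, eval_sub', eval_num', Ex.eval, h.h_b, h.h_a, evalSr_qu h, h.hk2]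
  push_cast
  ring

theorem evalSr_qn (h : StripSevCurvePoint x p V K2 k₂) :
    (eSr_qn V K2).eval x = p.qn * ((100 : ℝ) ^ 3 * k₂) := by
  simp only [eSr_qn, StripAtoms.qn, eval_sub', eval_mul', eval_num', h.h_b, evalSr_D0 h, h.h_S, evalSr_qu h]
  push_cast
  ring

theorem evalSr_ud (h : StripSevCurvePoint x p V K2 k₂) :
    (eSr_ud V K2).eval x = p.ud * ((100 : ℝ)) := by
  simp only [eSr_ud, StripAtoms.ud, eval_mul', evalSr_u h, h.h_d]
  ring

theorem evalSr_e1 (h : StripSevCurvePoint x p V K2 k₂) :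
    (eSr_e1 V K2).eval x = p.e1 * ((100 : ℝ) ^ 4 * k₂) := by
  simp only [eSr_e1, StripAtoms.e1, eval_sub', eval_mul', eval_num', Ex.eval, evalSr_ud h, evalSr_qn h, h.h_S, h.h_w, h.h_b, h.hk2]
  push_cast
  ring

theorem evalSr_E0 (h : StripSevCurvePoint x p V K2 k₂) :
    (eSr_E0 V K2).eval x = p.E0 * ((100 : ℝ) ^ 3 * k₂) := by
  simp only [eSr_E0, StripAtoms.E0, eval_sub', eval_mul', evalSr_qn h, h.h_S, h.h_w, h.h_b, evalSr_D0 h]
  ring

theorem evalSr_f0 (h : StripSevCurvePoint x p V K2 k₂) :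
    (eSr_f0 V K2).eval x = p.f0 * ((100 : ℝ) ^ 3 * k₂) := by
  simp only [eSr_f0, StripAtoms.f0, eval_add', eval_mul', evalSr_qn h, h.h_S, h.h_K, evalSr_ud h]
  ring

theorem evalSr_N (h : StripSevCurvePoint x p V K2 k₂) :
    (eSr_N V K2).eval x = p.N * ((100 : ℝ) ^ 4 * k₂ ^ 2) := by
  simp only [eSr_N, StripAtoms.N, eval_mul', h.h_S, h.h_K, evalSr_D0 h]
  ring

theorem evalSr_A0 (h : StripSevCurvePoint x p V K2 k₂) :
    (eSr_A0 V K2).eval x = p.A0 * ((100 : ℝ) ^ 4 * k₂ ^ 2) := by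
  simp only [eSr_A0, StripAtoms.A0, eval_add', eval_mul', eval_num', evalSr_N h, h.h_S, h.h_v, evalSr_D0 h]
  push_cast
  ring

theorem evalSr_A1 (h : StripSevCurvePoint x p V K2 k₂) :
    (eSr_A1 V K2).eval x = p.A1 * ((100 : ℝ) ^ 3 * k₂) := by
  simp only [eSr_A1, StripAtoms.A1, eval_add', eval_mul', eval_num', evalSr_f0 h, h.h_S, h.h_v, evalSr_ud h]
  push_cast
  ring

theorem evalSr_sevK (h : StripSevCurvePoint x p V K2 k₂) :
    (eSr_sevK V K2).eval x = p.sevK * ((100 : ℝ)) := by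
  simp only [eSr_sevK, StripAtoms.sevK, eval_sub', eval_mul', eval_num', h.h_b, h.h_a, evalSr_u h]
  push_cast
  ring

theorem evalSr_upP0 (h : StripSevCurvePoint x p V K2 k₂) :
    (eSr_upP0 V K2).eval x = p.upP0 * ((100 : ℝ)) := by
  simp only [eSr_upP0, StripAtoms.upP0, eval_add', eval_sub', eval_mul', eval_num', h.h_I, h.h_a]
  push_cast
  ring

theorem evalSr_upP1 (h : StripSevCurvePoint x p V K2 k₂) :
    (eSr_upP1 V K2).eval x = p.upP1 * ((100 : ℝ) ^ 2) := by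
  simp only [eSr_upP1, StripAtoms.upP1, eval_add', eval_sub', eval_num', Ex.eval, h.h_a, h.h_I]
  push_cast
  ring

theorem evalSr_upP2 (h : StripSevCurvePoint x p V K2 k₂) :
    (eSr_upP2 V K2).eval x = p.upP2 * ((100 : ℝ) ^ 2) := by
  simp only [eSr_upP2, StripAtoms.upP2, eval_add', eval_sub', eval_mul', eval_num', h.h_a, h.h_I]
  push_cast
  ring

theorem evalSr_upPsi (h : StripSevCurvePoint x p V K2 k₂) :
    (eSr_upPsi V K2).eval x = p.upPsi * ((100 : ℝ) ^ 2) := by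
  simp only [eSr_upPsi, StripAtoms.upPsi, eval_add', eval_num', Ex.eval, evalSr_upP0 h, evalSr_u h, evalSr_upP1 h, evalSr_upP2 h]
  push_cast
  ring

theorem evalSr_sevPsi (h : StripSevCurvePoint x p V K2 k₂) :
    (eSr_sevPsi V K2).eval x = p.sevPsi * ((100 : ℝ) ^ 2) := by
  simp only [eSr_sevPsi, StripAtoms.sevPsi, eval_add', eval_num', Ex.eval, evalSr_upPsi h]
  push_cast
  ring

theorem evalSr_sevN (h : StripSevCurvePoint x p V K2 k₂) :
    (eSr_sevN V K2).eval x = p.sevN * ((100 : ℝ) ^ 2 * k₂) := by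
  simp only [eSr_sevN, StripAtoms.sevN, eval_add', eval_num', Ex.eval, evalSr_sevK h, h.h_v, h.h_I, evalSr_sevPsi h, h.hk2]
  push_cast
  ring

theorem evalSr_upW (h : StripSevCurvePoint x p V K2 k₂) :
    (eSr_upW V K2).eval x = p.upW * ((100 : ℝ)) := by
  simp only [eSr_upW, StripAtoms.upW, eval_sub', eval_mul', eval_num', h.h_b, evalSr_u h, h.h_a]
  push_cast
  ring

theorem evalSr_upKI (h : StripSevCurvePoint x p V K2 k₂) :
    (eSr_upKI V K2).eval x = p.upKI * ((100 : ℝ) ^ 4 * k₂ ^ 2) := by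
  simp only [eSr_upKI, StripAtoms.upKI, eval_mul', h.h_K, h.h_IT]
  ring

theorem evalSr_upG (h : StripSevCurvePoint x p V K2 k₂) :
    (eSr_upG V K2).eval x = p.upG * ((100 : ℝ) ^ 4 * k₂ ^ 2) := by
  simp only [eSr_upG, StripAtoms.upG, eval_add', eval_sub', eval_mul', eval_num', h.h_S, h.h_v, evalSr_q h, evalSr_u h, evalSr_upKI h]
  push_cast
  ring

theorem evalSr_upM (h : StripSevCurvePoint x p V K2 k₂) :
    (eSr_upM V K2).eval x = p.upM * ((100 : ℝ) ^ 4 * k₂ ^ 2) := by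
  simp only [eSr_upM, StripAtoms.upM, eval_sub', eval_num', Ex.eval, h.h_K, h.h_w, evalSr_upG h, h.hk2]
  push_cast
  ring

theorem evalSr_slg (h : StripSevCurvePoint x p V K2 k₂) :
    (eSr_slg V K2).eval x = p.slg := by
  simp only [eSr_slg, StripAtoms.slg, eval_add', eval_sub', eval_mul', eval_num', evalSr_u h]
  push_cast
  ring

theorem evalSr_slG (h : StripSevCurvePoint x p V K2 k₂) :
    (eSr_slG V K2).eval x = p.slG * ((100 : ℝ) ^ 4 * k₂ ^ 2) := by
  simp only [eSr_slG, StripAtoms.slG, eval_sub', eval_mul', eval_num', h.h_S, h.h_v, evalSr_q h, evalSr_slg h, evalSr_upKI h]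
  push_cast
  ring

theorem evalSr_slGv (h : StripSevCurvePoint x p V K2 k₂) :
    (eSr_slGv V K2).eval x = p.slGv * ((100 : ℝ) ^ 3 * k₂) := by
  simp only [eSr_slGv, StripAtoms.slGv, eval_add', eval_num', Ex.eval, h.h_S, h.h_dv, evalSr_slg h, h.h_a, h.h_IT, h.h_K, h.h_d, h.hk2]
  push_cast
  ring

theorem evalSr_slM (h : StripSevCurvePoint x p V K2 k₂) :
    (eSr_slM V K2).eval x = p.slM * ((100 : ℝ) ^ 4 * k₂ ^ 2) := by
  simp only [eSr_slM, StripAtoms.slM, eval_sub', eval_num', Ex.eval, h.h_K, h.h_w, evalSr_slG h, h.hk2]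
  push_cast
  ring

theorem evalSr_slMu (h : StripSevCurvePoint x p V K2 k₂) :
    (eSr_slMu V K2).eval x = p.slMu * ((100 : ℝ) ^ 4 * k₂ ^ 2) := by
  simp only [eSr_slMu, StripAtoms.slMu, eval_add', eval_sub', eval_mul', eval_num', evalSr_slG h, h.h_w, evalSr_u h, evalSr_upKI h]
  push_cast
  ring

theorem evalSr_slN (h : StripSevCurvePoint x p V K2 k₂) :
    (eSr_slN V K2).eval x = p.slN * ((100 : ℝ) ^ 4 * k₂ ^ 2) := by
  simp only [eSr_slN, StripAtoms.slN, eval_add', eval_sub', eval_num', Ex.eval, evalSr_u h, evalSr_slM h, h.h_slT, h.h_I, h.h_slC, h.h_v, h.hk2]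
  push_cast
  ring

theorem evalSr_slGap (h : StripSevCurvePoint x p V K2 k₂) :
    (eSr_slGap V K2).eval x = p.slGap * ((100 : ℝ) ^ 5 * k₂ ^ 2) := by
  simp only [eSr_slGap, StripAtoms.slGap, eval_sub', eval_mul', eval_num', evalSr_slN h, evalSr_upW h, evalSr_u h, evalSr_P h, evalSr_sevN h]
  push_cast
  ring

theorem evalSr_slFlow (h : StripSevCurvePoint x p V K2 k₂) :
    (eSr_slFlow V K2).eval x = p.slFlow * ((100 : ℝ) ^ 7 * k₂ ^ 3) := by
  simp only [eSr_slFlow, StripAtoms.slFlow, eval_sub', eval_mul', eval_num', evalSr_u h, evalSr_N h, evalSr_P h, evalSr_f0 h, evalSr_slN h]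
  push_cast
  ring

theorem evalSr_lfTopFlow (h : StripSevCurvePoint x p V K2 k₂) :
    (eSr_lfTopFlow V K2).eval x = p.lfTopFlow * ((100 : ℝ) ^ 7 * k₂ ^ 3) := by
  simp only [eSr_lfTopFlow, StripAtoms.lfTopFlow, eval_sub', eval_mul', eval_num', evalSr_N h, evalSr_P h, evalSr_f0 h, evalSr_upM h]
  push_cast
  ring

theorem evalSr_sevLow (h : StripSevCurvePoint x p V K2 k₂) :
    (eSr_sevLow V K2).eval x = p.sevLow * ((100 : ℝ) ^ 5 * k₂ ^ 2) := by
  simp only [eSr_sevLow, StripAtoms.sevLow, eval_sub', eval_mul', evalSr_N h, evalSr_upW h, evalSr_f0 h, evalSr_sevN h]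
  ring

end Vale.Agent.P100.Calib.Band.AllLow
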