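import Vale.Agent.P100.Calib.SlabStripUpExprB

/-!
# The packed numerators of the upper band for `N` between seven and twenty

The chart is `(w, K, I, tau)`; each quantity is scaled by powers of its denominators.
-/

namespace Vale.Agent.P100.Calib.Band.AllLow

open Pack

local instance stripSevBAdd : Add Pack.Ex := ⟨Ex.add⟩
local instance stripSevBSub : Sub Pack.Ex := ⟨Ex.sub⟩
local instance stripSevBMul : Mul Pack.Ex := ⟨Ex.mul⟩

/-- A packed quantity. -/
def eStripUpB_sevK : Pack.Ex := ((eN 100) * eStripUpB_b) - (eStripUpB_a * (eStripUpB_u * ((eN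
    130) - ((eN 80) * eStripUpB_u))))

/-- A packed quantity. -/
def eStripUpB_sevKu : Pack.Ex := ((eN 0) * eStripUpBK1) - (eStripUpB_a * ((eN 130) - ((eN 160) *
    eStripUpB_u)))

/-- A packed quantity. -/
def eStripUpB_sevPsi : Pack.Ex := eStripUpB_upPsi + ((eN 3) * (Ex.pow eStripUpBK1 2))

/-- A packed quantity. -/
def eStripUpB_sevN : Pack.Ex := (((((eN 100) * eStripUpBK1) * (Ex.pow eStripUpBK2 2)) +
    (eStripUpB_sevK * eStripUpB_v)) * eStripUpBK1) + ((eStripUpB_I * eStripUpB_sevPsi) * (Ex.pow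
    eStripUpBK2 2))

/-- A packed quantity. -/
def eStripUpB_sevNu : Pack.Ex := ((eStripUpB_sevKu * eStripUpB_v) * eStripUpBK1) + ((eStripUpB_I
    * eStripUpB_upPsiU) * (Ex.pow eStripUpBK2 2))

/-- A packed quantity. -/
def eStripUpB_sevEn : Pack.Ex := (((eStripUpB_E0 * eStripUpB_upW) * (Ex.pow eStripUpBK1 2)) *
    (Ex.pow eStripUpBK2 2)) - (eStripUpB_e1 * eStripUpB_sevN)

/-- A packed quantity. -/
def eStripUpB_sevFl : Pack.Ex := (eStripUpB_f0 * eStripUpB_sevN) - (((eStripUpB_N *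
    eStripUpB_upW) * (Ex.pow eStripUpBK1 2)) * (Ex.pow eStripUpBK2 2))

/-- A packed quantity. -/
def eStripUpB_sevFh : Pack.Ex := ((((((eStripUpB_A0 * (eStripUpB_upW * eStripUpB_upW)) * (Ex.pow
    eStripUpBK1 2)) * (Ex.pow eStripUpBK2 2)) - ((((eStripUpB_A1 * eStripUpBK2) + (eStripUpB_ud *
    eStripUpB_A0)) + (eStripUpB_E0 * (Ex.pow eStripUpBK2 2))) * (eStripUpB_sevN *
    eStripUpB_upW))) * (Ex.pow eStripUpBK1 2)) * eStripUpBK2) + (((eStripUpB_ud * eStripUpB_A1) +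
    (eStripUpB_e1 * eStripUpBK2)) * (eStripUpB_sevN * eStripUpB_sevN))

/-- A packed quantity. -/
def eStripUpB_sevFwd : Pack.Ex := (((((eStripUpB_sevNu * eStripUpB_upW) + (eStripUpB_sevN * ((eN
    100) * eStripUpB_a))) * (eStripUpB_u * eStripUpB_sevEn)) + (((eStripUpB_sevK * (eStripUpB_qu
    * (eStripUpB_sevFl * eStripUpB_upW))) * (Ex.pow eStripUpBK1 2)) * eStripUpBK2)) *
    eStripUpBK2) - (eStripUpB_sevFh * eStripUpB_upW)

/-- A packed quantity. -/
def eStripUpB_sevDen : Pack.Ex := (((eStripUpB_D0 * eStripUpB_upW) * (Ex.pow eStripUpBK1 2)) *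
    eStripUpBK2) - (eStripUpB_ud * eStripUpB_sevN)

/-- A packed quantity. -/
def eStripUpB_sevGap : Pack.Ex := (eStripUpB_sevN * ((eN 20) * eStripUpB_P)) - ((eStripUpB_upM *
    eStripUpB_upW) * (Ex.pow eStripUpBK1 2))

/-- A packed quantity. -/
def eStripUpB_sevAm : Pack.Ex := (((eN 5000) * eStripUpB_upA) * (Ex.pow eStripUpBK1 2)) - ((((eN
    888) - ((eN 1000) * eStripUpB_u)) * ((((eN 93) * eStripUpBK1) + ((eN 340) * eStripUpB_d)) *
    (eStripUpB_w * (eStripUpB_P * (eStripUpB_K * (eStripUpB_T * eStripUpB_sevGap)))))) * (Ex.pow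
    eStripUpBK2 5))

/-- A multiple of `100 a - 31`. -/
def eStripSevGate : Pack.Ex := (((eN 50) * (eStripUpBS0 * (eStripUpBS0 * eStripUpBY))) - ((eN 31)
    * ((eStripUpBS0 * eStripUpBY) + eStripUpBIt)))

/-- The forward condition less a multiple of the gate. -/
def eStripSevFwdLess (c : ℤ) (i : ℕ) : Pack.Ex := eStripUpB_sevFwd - ((eN c) * (((Ex.pow (Ex.var
    3) i) * ((Ex.pow (Ex.var 1) 4) * (Ex.pow (Ex.var 2) 8))) * eStripSevGate))

/-- A condition less a monomial. -/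
def eStripSevDenLess : Pack.Ex := eStripUpB_sevDen - (Ex.pow ((Ex.var 0) * ((Ex.var 1) * ((Ex.var
    2) * (Ex.var 3)))) 3)

/-- The slope less a multiple of the gate. -/
def eStripSevSlopeLess : Pack.Ex := eStripUpB_upB - ((eN 120000000) * (((Ex.pow (Ex.var 3) 2) *
    ((Ex.pow (Ex.var 2) 8) * (Ex.pow (Ex.var 0) 2))) * eStripSevGate))

end Vale.Agent.P100.Calib.Band.AllLow
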