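import Vale.Agent.P100.Calib.SlabStripUpEvalB
import Vale.Agent.P100.Calib.SlabStripSevAtoms
import Vale.Agent.P100.Calib.SlabStripSevExprB

/-!
# The values of the packed numerators of the upper band for `N` between seven and twenty

At a point of `StripUpChartB`.
-/

namespace Vale.Agent.P100.Calib.Band.AllLow

open Pack

local instance stripSevEvalBAdd : Add Pack.Ex := ⟨Ex.add⟩
local instance stripSevEvalBSub : Sub Pack.Ex := ⟨Ex.sub⟩
local instance stripSevEvalBMul : Mul Pack.Ex := ⟨Ex.mul⟩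

variable {x : ℕ → ℝ} {p : StripAtoms} {k k₂ : ℝ}

theorem evalUpB_sevK (h : StripUpChartB x p k k₂) :
    eStripUpB_sevK.eval x = p.sevK * (k) := by
  simp only [eStripUpB_sevK, StripAtoms.sevK, eval_sub', eval_mul', eval_num', h.h_b, h.h_a,
    evalUpB_u h]
  push_cast
  ring

theorem evalUpB_sevKu (h : StripUpChartB x p k k₂) :
    eStripUpB_sevKu.eval x = p.sevKu * (k) := by
  simp only [eStripUpB_sevKu, StripAtoms.sevKu, eval_sub', eval_mul', eval_num', h.hk, h.h_a,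
    evalUpB_u h]
  push_cast
  ring

theorem evalUpB_sevPsi (h : StripUpChartB x p k k₂) :
    eStripUpB_sevPsi.eval x = p.sevPsi * (k ^ 2) := by
  simp only [eStripUpB_sevPsi, StripAtoms.sevPsi, eval_add', eval_num', Ex.eval,
    evalUpB_upPsi h, h.hk]
  push_cast
  ring

theorem evalUpB_sevN (h : StripUpChartB x p k k₂) :
    eStripUpB_sevN.eval x = p.sevN * (k ^ 2 * k₂ ^ 2) := by
  simp only [eStripUpB_sevN, StripAtoms.sevN, eval_add', eval_num', Ex.eval, h.hk,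
    h.hk2, evalUpB_sevK h, h.h_v, h.h_I, evalUpB_sevPsi h]
  push_cast
  ring

theorem evalUpB_sevNu (h : StripUpChartB x p k k₂) :
    eStripUpB_sevNu.eval x = p.sevNu * (k ^ 2 * k₂ ^ 2) := by
  simp only [eStripUpB_sevNu, StripAtoms.sevNu, eval_add', Ex.eval, evalUpB_sevKu h,
    h.h_v, h.hk, h.h_I, evalUpB_upPsiU h, h.hk2]
  ring

theorem evalUpB_sevEn (h : StripUpChartB x p k k₂) :
    eStripUpB_sevEn.eval x = p.sevEn * (k ^ 4 * k₂ ^ 3) := by
  simp only [eStripUpB_sevEn, StripAtoms.sevEn, eval_sub', Ex.eval, evalUpB_E0 h,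
    evalUpB_upW h, h.hk, h.hk2, evalUpB_e1 h, evalUpB_sevN h]
  ring

theorem evalUpB_sevFl (h : StripUpChartB x p k k₂) :
    eStripUpB_sevFl.eval x = p.sevFl * (k ^ 3 * k₂ ^ 3) := by
  simp only [eStripUpB_sevFl, StripAtoms.sevFl, eval_sub', Ex.eval, evalUpB_f0 h,
    evalUpB_sevN h, evalUpB_N h, evalUpB_upW h, h.hk, h.hk2]
  ring

theorem evalUpB_sevFh (h : StripUpChartB x p k k₂) :
    eStripUpB_sevFh.eval x = p.sevFh * (k ^ 6 * k₂ ^ 6) := by
  simp only [eStripUpB_sevFh, StripAtoms.sevFh, eval_add', eval_sub', Ex.eval,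
    evalUpB_A0 h, evalUpB_upW h, h.hk, h.hk2, evalUpB_A1 h, evalUpB_ud h, evalUpB_E0 h,
    evalUpB_sevN h, evalUpB_e1 h]
  ring

theorem evalUpB_sevFwd (h : StripUpChartB x p k k₂) :
    eStripUpB_sevFwd.eval x = p.sevFwd * (k ^ 7 * k₂ ^ 6) := by
  simp only [eStripUpB_sevFwd, StripAtoms.sevFwd, eval_sub', eval_num',
    Ex.eval, evalUpB_sevNu h, evalUpB_upW h, evalUpB_sevN h, h.h_a, evalUpB_u h, evalUpB_sevEn h,
    evalUpB_sevK h, evalUpB_qu h, evalUpB_sevFl h, h.hk, h.hk2, evalUpB_sevFh h]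
  push_cast
  ring

theorem evalUpB_sevDen (h : StripUpChartB x p k k₂) :
    eStripUpB_sevDen.eval x = p.sevDen * (k ^ 3 * k₂ ^ 2) := by
  simp only [eStripUpB_sevDen, StripAtoms.sevDen, eval_sub', Ex.eval, evalUpB_D0 h,
    evalUpB_upW h, h.hk, h.hk2, evalUpB_ud h, evalUpB_sevN h]
  ring

theorem evalUpB_sevGap (h : StripUpChartB x p k k₂) :
    eStripUpB_sevGap.eval x = p.sevGap * (k ^ 3 * k₂ ^ 3) := by
  simp only [eStripUpB_sevGap, StripAtoms.sevGap, eval_sub', eval_num', Ex.eval,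
    evalUpB_sevN h, evalUpB_P h, evalUpB_upM h, evalUpB_upW h, h.hk]
  push_cast
  ring

theorem evalUpB_sevAm (h : StripUpChartB x p k k₂) :
    eStripUpB_sevAm.eval x = p.sevAm * (k ^ 5 * k₂ ^ 9) := by
  simp only [eStripUpB_sevAm, StripAtoms.sevAm, eval_sub', eval_num',
    Ex.eval, evalUpB_upA h, h.hk, evalUpB_u h, h.h_d, h.h_w, evalUpB_P h, h.h_K, h.h_T,
    evalUpB_sevGap h, h.hk2]
  push_cast
  ring

end Vale.Agent.P100.Calib.Band.AllLow
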