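import Vale.Agent.P100.Calib.SlabStripUpCharts
import Vale.Agent.P100.Calib.SlabStripSevEvalB
import Vale.Agent.P100.Calib.SlabStripSevCheckA
import Vale.Agent.P100.Calib.SlabStripSevCheckB

/-!
# The forward condition of the upper band for `N` between seven and twenty

They are proved in the chart `(w, K, I, tau)`, `K = 1 - a v`, `tau = S d v / (2 I)`.
-/

namespace Vale.Agent.P100.Calib.Band

open Vale.Agent.P100.Bubble Chart

/-- What the strip says of `(a, b, u, v)` for `N` between seven and twenty. -/
structure SevPlace (a b u v : ℝ) : Prop where
  I_gt : 1 / 20 < allStabI a b
  I_le : allStabI a b ≤ 1 / 7
  a_gt : 31 / 100 < a
  d_pos : 0 < b - a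
  u_pos : 0 < u
  u_lt : u < 1
  v_pos : 0 < v
  av : a * v < 1
  low : 2 * allStabI a b < (1 + 2 * a * allStabI a b) * v
  high : (a + b) * ((b - a) * v) < 2 * allStabI a b

theorem sevPlace_of {N a b u v : ℝ} (hb : SlabBoxAll N a b) (h7 : 7 ≤ N) (h20 : N < 20)
    (ha : 31 / 100 < a) (hu : 0 < u) (hu1 : u < 1) (hv : VRange N a b v) : SevPlace a b u v := by
  obtain ⟨ha0, hb0, hd, -⟩ := hb.facts
  have hN : 0 < N := by linarith
  have hIN : N * allStabI a b = 1 := by
    have := hb.dim
    simp only [allStabI]
    linarith
  have hI0 : 0 < allStabI a b := pos_of_mul_pos_right (hIN ▸ one_pos) hN.le
  refine ⟨?_, ?_, ha, hd, hu, hu1, hv.pos (by linarith), hv.av, ?_, ?_⟩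
  · refine lt_of_mul_lt_mul_left (a := N) ?_ hN.le
    linarith
  · refine le_of_mul_le_mul_left (a := N) ?_ hN
    linarith
  · refine lt_of_mul_lt_mul_left (a := N) ?_ hN.le
    have e : N * ((1 + 2 * a * allStabI a b) * v) = (N + 2 * a) * v := by
      linear_combination 2 * a * v * hIN
    linarith [hv.low]
  · refine lt_of_mul_lt_mul_left (a := N) ?_ hN.le
    have := hv.high
    rw [hb.dim] at this
    linarith

/-- The closed conditions of the two bands. -/
structure SevConds (a b u v : ℝ) : Prop where
  fwd : u ≤ 111 / 125 → 0 < (stripAt a b u v).sevFwd
  den : u ≤ 111 / 125 → 0 < (stripAt a b u v).sevDen
  last : 111 / 125 ≤ u → 0 < (stripAt a b u v).upA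
  mid : 133 / 200 < u → u ≤ 111 / 125 → 0 ≤ (stripAt a b u v).sevAm
  slope : 133 / 200 < u → 0 ≤ (stripAt a b u v).upB
  top : 133 / 200 < u → 0 ≤ (stripAt a b u v).upC

namespace AllLow

open Pack

local instance stripSevSignsAdd : Add Pack.Ex := ⟨Ex.add⟩
local instance stripSevSignsSub : Sub Pack.Ex := ⟨Ex.sub⟩
local instance stripSevSignsMul : Mul Pack.Ex := ⟨Ex.mul⟩

/-- The chart. -/
theorem strip_sev_chart {a b u v : ℝ} (h : SevPlace a b u v) :
    ∃ t, StripUpChartB
      (stabPt (1 - u) (1 - a * v) (allStabI a b) t) (stripAt a b u v) ((a + b) ^ 2 * v) (a + b) ∧
      (1 - a * v) * (1 + 2 * a * allStabI a b) < 1 ∧ 0 < t ∧ t < 1 ∧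
      t * (2 * allStabI a b) = (a + b) * ((b - a) * v) := by
  obtain ⟨hI20, hI7, ha, hd, hu, hu1, hv, hav, hlo, hhi⟩ := h
  have hI0 : 0 < allStabI a b := by linarith
  obtain ⟨t, ht⟩ : ∃ t, t = (a + b) * ((b - a) * v) / (2 * allStabI a b) := ⟨_, rfl⟩
  have hte : t * (2 * allStabI a b) = (a + b) * ((b - a) * v) := by
    rw [ht, div_mul_cancel₀ _ (by positivity)]
  have eT := stripAt_T (u := u) hI0 hte
  simp only [stripAt] at eT
  obtain ⟨I, hI⟩ : ∃ I, I = allStabI a b := ⟨_, rfl⟩
  rw [← hI] at hI0 hI20 hI7 hlo hhi ht hte eT
  have hS : a + b = 1 - 2 * I := by simp only [hI, allStabI]; ring
  have hS0 : 0 < a + b := by linarith
  have ht0 : 0 < t := ht ▸ by positivity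
  have ht1 : t < 1 := by rw [ht, div_lt_one (by positivity)]; exact hhi
  have hK : (1 - a * v) * (1 + 2 * a * I) < 1 := by
    linarith [mul_lt_mul_of_pos_left hlo (show 0 < a by linarith)]
  set p := stripAt a b u v with hp
  have hC : StripUpChartB (stabPt (1 - u) (1 - a * v) I t) p ((a + b) ^ 2 * v) (a + b) := by
    constructor <;>
      simp only [eStripUpBK1, eStripUpBK2, eStripUpBS0, eStripUpBY, eStripUpBIt, eStripUpB_w,
        eStripUpB_v, eStripUpB_I, eStripUpB_S, eStripUpB_d, eStripUpB_a, eStripUpB_b,
        eStripUpB_K, eStripUpB_IT, eStripUpB_dv, eStripUpB_T, hp, stripAt, ← hI, eT, Ex.eval,
        eval_add', eval_sub', eval_mul', eval_num', stabPt] <;>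
      norm_num <;> (try rw [show (1 : ℝ) - 2 * I = a + b from hS.symm]) <;>
      first
      | linear_combination hte
      | linear_combination (a + b) * hte
      | linear_combination (1 / 2) * hte
      | ring
  exact ⟨t, hI ▸ hC, hI ▸ hK, ht0, ht1, hI ▸ hte⟩

/-- What the checks use at a point. -/
structure SevPt (a b u v I t : ℝ) : Prop where
  chart : StripUpChartB (stabPt (1 - u) (1 - a * v) I t) (stripAt a b u v) ((a + b) ^ 2 * v) (a + b)
  I_gt : 1 / 20 < I
  I_le : I ≤ 1 / 7
  k_pos : 0 < (a + b) ^ 2 * v
  S_pos : 0 < a + b
  w_pos : 0 < 1 - u
  w_lt : 1 - u < 1
  K_pos : 0 < 1 - a * v
  K_lt : 1 - a * v < 97 / 100
  KI : (1 - a * v) * (1 + 62 / 100 * I) < 1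
  t_pos : 0 < t
  t_lt : t < 1
  gate : 0 < eStripSevGate.eval (stabPt (1 - u) (1 - a * v) I t)

theorem sev_pt {a b u v : ℝ} (h : SevPlace a b u v) : ∃ I t, SevPt a b u v I t := by
  obtain ⟨t, hC, hKk, ht0, ht1, hte⟩ := strip_sev_chart h
  obtain ⟨hI20, hI7, ha, hd, hu, hu1, hv, hav, hlo, hhi⟩ := h
  have hS0 : 0 < a + b := by linarith [hu]
  have hw0 : 0 < 1 - u := by linarith
  have hK0 : 0 < 1 - a * v := by linarith
  obtain ⟨I, hI⟩ : ∃ I, I = allStabI a b := ⟨_, rfl⟩
  rw [← hI] at hI20 hI7 hC hKk hte
  have hI0 : 0 < I := by linarith
  have hS : a + b = 1 - 2 * I := by simp only [hI, allStabI]; ring
  have hKI : (1 - a * v) * (1 + 62 / 100 * I) < 1 := by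
    refine lt_of_le_of_lt (mul_le_mul_of_nonneg_left ?_ hK0.le) hKk
    linarith [mul_lt_mul_of_pos_right ha hI0]
  have hK97 : 1 - a * v < 97 / 100 := by
    linarith [mul_lt_mul_of_pos_left hI20 hK0]
  have hgate : 0 < eStripSevGate.eval (stabPt (1 - u) (1 - a * v) I t) := by
    have e : eStripSevGate.eval (stabPt (1 - u) (1 - a * v) I t) =
        (a + b) ^ 2 * v * (50 * a - 31 / 2) := by
      simp only [eStripSevGate, eStripUpBS0, eStripUpBY, eStripUpBIt, Ex.eval,
        eval_sub', eval_num', stabPt]
      norm_num
      rw [← hS]
      linear_combination -(31 / 2 : ℝ) * hte
    rw [e]
    exact mul_pos (by positivity) (by linarith)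
  exact ⟨I, t, hC, hI20, hI7, by positivity, hS0, hw0, by linarith, hK0, hK97, hKI, ht0, ht1, hgate⟩

theorem sev_fwda {a b u v I t : ℝ} (hP : SevPt a b u v I t)
    (hu8 : u ≤ 111 / 125) (h1 : I ≤ 1 / 12) :
    0 < (stripAt a b u v).sevFwd := by
  obtain ⟨hC, hI20, hI7, hk, hS0, hw0, hw1, hK0, hK97, hKI, ht0, ht1, hgate⟩ :=
    hP
  have hI0 : 0 < I := by linarith
  have hb1 : 0 ≤ (eStripSevFwdLess 1800000000 6).eval (stabPt (1 - u) (1 - a * v) I t) := by
    rcases lt_or_ge (1 - u) (139 / 250) with h2 | h2
    · rcases lt_or_ge (1 - a * v) (97 / 200) with h4 | h4
      · exact nonneg_of_checkFour stripSevFwdA13_ok (strip_point
          (by simp only [stripSevFwdA13Box]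
              exact side_point (den := 250) (by norm_num) (by push_cast; linarith)
                (by push_cast; linarith))
          (by simp only [stripSevFwdA13Box]
              exact side_point (den := 200) (by norm_num) (by push_cast; linarith)
                (by push_cast; linarith))
          (by simp only [stripSevFwdA13Box]
              exact strip_back (den := 60) (by norm_num) (by push_cast; linarith)
                (by push_cast; linarith))
          (by simp only [stripSevFwdA13Box]
              exact side_point (den := 1) (by norm_num) (by push_cast; linarith)
                (by push_cast; linarith)))
      · rcases lt_or_ge (1 - a * v) (291 / 400) with h6 | h6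
        · exact nonneg_of_checkFour stripSevFwdA12_ok (strip_point
            (by simp only [stripSevFwdA12Box]
                exact side_point (den := 250) (by norm_num) (by push_cast; linarith)
                  (by push_cast; linarith))
            (by simp only [stripSevFwdA12Box]
                exact side_point (den := 400) (by norm_num) (by push_cast; linarith)
                  (by push_cast; linarith))
            (by simp only [stripSevFwdA12Box]
                exact strip_back (den := 60) (by norm_num) (by push_cast; linarith)
                  (by push_cast; linarith))
            (by simp only [stripSevFwdA12Box]
                exact side_point (den := 1) (by norm_num) (by push_cast; linarith)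
                  (by push_cast; linarith)))
        · rcases lt_or_ge (1 - a * v) (679 / 800) with h8 | h8
          · exact nonneg_of_checkFour stripSevFwdA11_ok (strip_point
              (by simp only [stripSevFwdA11Box]
                  exact side_point (den := 250) (by norm_num) (by push_cast; linarith)
                    (by push_cast; linarith))
              (by simp only [stripSevFwdA11Box]
                  exact side_point (den := 800) (by norm_num) (by push_cast; linarith)
                    (by push_cast; linarith))
              (by simp only [stripSevFwdA11Box]
                  exact strip_back (den := 60) (by norm_num) (by push_cast; linarith)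
                    (by push_cast; linarith))
              (by simp only [stripSevFwdA11Box]
                  exact side_point (den := 1) (by norm_num) (by push_cast; linarith)
                    (by push_cast; linarith)))
          · rcases lt_or_ge t (1 / 2) with h10 | h10
            · rcases lt_or_ge (1 - a * v) (291 / 320) with h12 | h12
              · exact nonneg_of_checkFour stripSevFwdA10_ok (strip_point
                  (by simp only [stripSevFwdA10Box]
                      exact side_point (den := 250) (by norm_num) (by push_cast; linarith)
                        (by push_cast; linarith))
                  (by simp only [stripSevFwdA10Box]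
                      exact side_point (den := 1600) (by norm_num) (by push_cast; linarith)
                        (by push_cast; linarith))
                  (by simp only [stripSevFwdA10Box]
                      exact strip_back (den := 60) (by norm_num) (by push_cast; linarith)
                        (by push_cast; linarith))
                  (by simp only [stripSevFwdA10Box]
                      exact side_point (den := 2) (by norm_num) (by push_cast; linarith)
                        (by push_cast; linarith)))
              · rcases lt_or_ge t (1 / 4) with h14 | h14
                · exact nonneg_of_checkFour stripSevFwdA9_ok (strip_point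
                    (by simp only [stripSevFwdA9Box]
                        exact side_point (den := 250) (by norm_num) (by push_cast; linarith)
                          (by push_cast; linarith))
                    (by simp only [stripSevFwdA9Box]
                        exact side_point (den := 1600) (by norm_num) (by push_cast; linarith)
                          (by push_cast; linarith))
                    (by simp only [stripSevFwdA9Box]
                        exact strip_back (den := 60) (by norm_num) (by push_cast; linarith)
                          (by push_cast; linarith))
                    (by simp only [stripSevFwdA9Box]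
                        exact side_point (den := 4) (by norm_num) (by push_cast; linarith)
                          (by push_cast; linarith)))
                · exact nonneg_of_checkFour stripSevFwdA8_ok (strip_point
                    (by simp only [stripSevFwdA8Box]
                        exact side_point (den := 250) (by norm_num) (by push_cast; linarith)
                          (by push_cast; linarith))
                    (by simp only [stripSevFwdA8Box]
                        exact side_point (den := 1600) (by norm_num) (by push_cast; linarith)
                          (by push_cast; linarith))
                    (by simp only [stripSevFwdA8Box]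
                        exact strip_back (den := 60) (by norm_num) (by push_cast; linarith)
                          (by push_cast; linarith))
                    (by simp only [stripSevFwdA8Box]
                        exact side_point (den := 4) (by norm_num) (by push_cast; linarith)
                          (by push_cast; linarith)))
            · exact nonneg_of_checkFour stripSevFwdA7_ok (strip_point
                (by simp only [stripSevFwdA7Box]
                    exact side_point (den := 250) (by norm_num) (by push_cast; linarith)
                      (by push_cast; linarith))
                (by simp only [stripSevFwdA7Box]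
                    exact side_point (den := 800) (by norm_num) (by push_cast; linarith)
                      (by push_cast; linarith))
                (by simp only [stripSevFwdA7Box]
                    exact strip_back (den := 60) (by norm_num) (by push_cast; linarith)
                      (by push_cast; linarith))
                (by simp only [stripSevFwdA7Box]
                    exact side_point (den := 2) (by norm_num) (by push_cast; linarith)
                      (by push_cast; linarith)))
    · rcases lt_or_ge (1 - a * v) (97 / 200) with h4 | h4
      · exact nonneg_of_checkFour stripSevFwdA6_ok (strip_point
          (by simp only [stripSevFwdA6Box]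
              exact side_point (den := 250) (by norm_num) (by push_cast; linarith)
                (by push_cast; linarith))
          (by simp only [stripSevFwdA6Box]
              exact side_point (den := 200) (by norm_num) (by push_cast; linarith)
                (by push_cast; linarith))
          (by simp only [stripSevFwdA6Box]
              exact strip_back (den := 60) (by norm_num) (by push_cast; linarith)
                (by push_cast; linarith))
          (by simp only [stripSevFwdA6Box]
              exact side_point (den := 1) (by norm_num) (by push_cast; linarith)
                (by push_cast; linarith)))
      · rcases lt_or_ge (1 - a * v) (291 / 400) with h6 | h6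
        · exact nonneg_of_checkFour stripSevFwdA5_ok (strip_point
            (by simp only [stripSevFwdA5Box]
                exact side_point (den := 250) (by norm_num) (by push_cast; linarith)
                  (by push_cast; linarith))
            (by simp only [stripSevFwdA5Box]
                exact side_point (den := 400) (by norm_num) (by push_cast; linarith)
                  (by push_cast; linarith))
            (by simp only [stripSevFwdA5Box]
                exact strip_back (den := 60) (by norm_num) (by push_cast; linarith)
                  (by push_cast; linarith))
            (by simp only [stripSevFwdA5Box]
                exact side_point (den := 1) (by norm_num) (by push_cast; linarith)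
                  (by push_cast; linarith)))
        · rcases lt_or_ge (1 - a * v) (679 / 800) with h8 | h8
          · exact nonneg_of_checkFour stripSevFwdA4_ok (strip_point
              (by simp only [stripSevFwdA4Box]
                  exact side_point (den := 250) (by norm_num) (by push_cast; linarith)
                    (by push_cast; linarith))
              (by simp only [stripSevFwdA4Box]
                  exact side_point (den := 800) (by norm_num) (by push_cast; linarith)
                    (by push_cast; linarith))
              (by simp only [stripSevFwdA4Box]
                  exact strip_back (den := 60) (by norm_num) (by push_cast; linarith)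
                    (by push_cast; linarith))
              (by simp only [stripSevFwdA4Box]
                  exact side_point (den := 1) (by norm_num) (by push_cast; linarith)
                    (by push_cast; linarith)))
          · rcases lt_or_ge t (1 / 2) with h10 | h10
            · rcases lt_or_ge (1 - a * v) (291 / 320) with h12 | h12
              · exact nonneg_of_checkFour stripSevFwdA3_ok (strip_point
                  (by simp only [stripSevFwdA3Box]
                      exact side_point (den := 250) (by norm_num) (by push_cast; linarith)
                        (by push_cast; linarith))
                  (by simp only [stripSevFwdA3Box]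
                      exact side_point (den := 1600) (by norm_num) (by push_cast; linarith)
                        (by push_cast; linarith))
                  (by simp only [stripSevFwdA3Box]
                      exact strip_back (den := 60) (by norm_num) (by push_cast; linarith)
                        (by push_cast; linarith))
                  (by simp only [stripSevFwdA3Box]
                      exact side_point (den := 2) (by norm_num) (by push_cast; linarith)
                        (by push_cast; linarith)))
              · rcases lt_or_ge t (1 / 4) with h14 | h14
                · exact nonneg_of_checkFour stripSevFwdA2_ok (strip_point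
                    (by simp only [stripSevFwdA2Box]
                        exact side_point (den := 250) (by norm_num) (by push_cast; linarith)
                          (by push_cast; linarith))
                    (by simp only [stripSevFwdA2Box]
                        exact side_point (den := 1600) (by norm_num) (by push_cast; linarith)
                          (by push_cast; linarith))
                    (by simp only [stripSevFwdA2Box]
                        exact strip_back (den := 60) (by norm_num) (by push_cast; linarith)
                          (by push_cast; linarith))
                    (by simp only [stripSevFwdA2Box]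
                        exact side_point (den := 4) (by norm_num) (by push_cast; linarith)
                          (by push_cast; linarith)))
                · exact nonneg_of_checkFour stripSevFwdA1_ok (strip_point
                    (by simp only [stripSevFwdA1Box]
                        exact side_point (den := 250) (by norm_num) (by push_cast; linarith)
                          (by push_cast; linarith))
                    (by simp only [stripSevFwdA1Box]
                        exact side_point (den := 1600) (by norm_num) (by push_cast; linarith)
                          (by push_cast; linarith))
                    (by simp only [stripSevFwdA1Box]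
                        exact strip_back (den := 60) (by norm_num) (by push_cast; linarith)
                          (by push_cast; linarith))
                    (by simp only [stripSevFwdA1Box]
                        exact side_point (den := 4) (by norm_num) (by push_cast; linarith)
                          (by push_cast; linarith)))
            · exact nonneg_of_checkFour stripSevFwdA0_ok (strip_point
                (by simp only [stripSevFwdA0Box]
                    exact side_point (den := 250) (by norm_num) (by push_cast; linarith)
                      (by push_cast; linarith))
                (by simp only [stripSevFwdA0Box]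
                    exact side_point (den := 800) (by norm_num) (by push_cast; linarith)
                      (by push_cast; linarith))
                (by simp only [stripSevFwdA0Box]
                    exact strip_back (den := 60) (by norm_num) (by push_cast; linarith)
                      (by push_cast; linarith))
                (by simp only [stripSevFwdA0Box]
                    exact side_point (den := 2) (by norm_num) (by push_cast; linarith)
                      (by push_cast; linarith)))
  simp only [eStripSevFwdLess, eval_sub', eval_mul', eval_num', evalUpB_sevFwd hC] at hb1
  simp only [Ex.eval, stabPt] at hb1
  norm_num at hb1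
  have := mul_pos (show 0 < t ^ 6 * ((1 - a * v) ^ 4 * I ^ 8) by positivity) hgate
  refine pos_of_mul_pos_left (b := ((a + b) ^ 2 * v) ^ 7 * (a + b) ^ 6) ?_ (by positivity)
  linarith

end AllLow

end Vale.Agent.P100.Calib.Band
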