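import Vale.Agent.P100.Calib.SlabStripSevFwd

/-!
# The forward condition of the upper band for `N` between seven and twenty, `1/12 < I`
-/

namespace Vale.Agent.P100.Calib.Band

open Vale.Agent.P100.Bubble Chart

namespace AllLow

open Pack

local instance stripSevFwdBAdd : Add Pack.Ex := ⟨Ex.add⟩
local instance stripSevFwdBSub : Sub Pack.Ex := ⟨Ex.sub⟩
local instance stripSevFwdBMul : Mul Pack.Ex := ⟨Ex.mul⟩

theorem sev_fwdb {a b u v I t : ℝ} (hP : SevPt a b u v I t)
    (hu8 : u ≤ 111 / 125) (h1 : 1 / 12 < I) (h2 : I ≤ 1 / 9) :
    0 < (stripAt a b u v).sevFwd := by
  obtain ⟨hC, hI20, hI7, hk, hS0, hw0, hw1, hK0, hK97, hKI, ht0, ht1, hgate⟩ :=
    hP
  have hI0 : 0 < I := by linarith
  have : 1 - a * v < 61 / 64 := by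
    linarith [mul_lt_mul_of_pos_left h1 hK0]
  have hb1 : 0 ≤ (eStripSevFwdLess 1000000000 6).eval (stabPt (1 - u) (1 - a * v) I t) := by
    rcases lt_or_ge (1 - a * v) (61 / 128) with h2 | h2
    · exact nonneg_of_checkFour stripSevFwdB7_ok (strip_point
        (by simp only [stripSevFwdB7Box]
            exact side_point (den := 125) (by norm_num) (by push_cast; linarith)
              (by push_cast; linarith))
        (by simp only [stripSevFwdB7Box]
            exact side_point (den := 128) (by norm_num) (by push_cast; linarith)
              (by push_cast; linarith))
        (by simp only [stripSevFwdB7Box]
            exact strip_back (den := 36) (by norm_num) (by push_cast; linarith)
              (by push_cast; linarith))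
        (by simp only [stripSevFwdB7Box]
            exact side_point (den := 1) (by norm_num) (by push_cast; linarith)
              (by push_cast; linarith)))
    · rcases lt_or_ge (1 - a * v) (183 / 256) with h4 | h4
      · exact nonneg_of_checkFour stripSevFwdB6_ok (strip_point
          (by simp only [stripSevFwdB6Box]
              exact side_point (den := 125) (by norm_num) (by push_cast; linarith)
                (by push_cast; linarith))
          (by simp only [stripSevFwdB6Box]
              exact side_point (den := 256) (by norm_num) (by push_cast; linarith)
                (by push_cast; linarith))
          (by simp only [stripSevFwdB6Box]
              exact strip_back (den := 36) (by norm_num) (by push_cast; linarith)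
                (by push_cast; linarith))
          (by simp only [stripSevFwdB6Box]
              exact side_point (den := 1) (by norm_num) (by push_cast; linarith)
                (by push_cast; linarith)))
      · rcases lt_or_ge t (1 / 2) with h6 | h6
        · rcases lt_or_ge (1 - a * v) (427 / 512) with h8 | h8
          · exact nonneg_of_checkFour stripSevFwdB5_ok (strip_point
              (by simp only [stripSevFwdB5Box]
                  exact side_point (den := 125) (by norm_num) (by push_cast; linarith)
                    (by push_cast; linarith))
              (by simp only [stripSevFwdB5Box]
                  exact side_point (den := 512) (by norm_num) (by push_cast; linarith)
                    (by push_cast; linarith))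
              (by simp only [stripSevFwdB5Box]
                  exact strip_back (den := 36) (by norm_num) (by push_cast; linarith)
                    (by push_cast; linarith))
              (by simp only [stripSevFwdB5Box]
                  exact side_point (den := 2) (by norm_num) (by push_cast; linarith)
                    (by push_cast; linarith)))
          · rcases lt_or_ge t (1 / 4) with h10 | h10
            · rcases lt_or_ge (1 - a * v) (915 / 1024) with h12 | h12
              · exact nonneg_of_checkFour stripSevFwdB4_ok (strip_point
                  (by simp only [stripSevFwdB4Box]
                      exact side_point (den := 125) (by norm_num) (by push_cast; linarith)
                        (by push_cast; linarith))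
                  (by simp only [stripSevFwdB4Box]
                      exact side_point (den := 1024) (by norm_num) (by push_cast; linarith)
                        (by push_cast; linarith))
                  (by simp only [stripSevFwdB4Box]
                      exact strip_back (den := 36) (by norm_num) (by push_cast; linarith)
                        (by push_cast; linarith))
                  (by simp only [stripSevFwdB4Box]
                      exact side_point (den := 4) (by norm_num) (by push_cast; linarith)
                        (by push_cast; linarith)))
              · rcases lt_or_ge t (1 / 8) with h14 | h14
                · exact nonneg_of_checkFour stripSevFwdB3_ok (strip_point
                    (by simp only [stripSevFwdB3Box]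
                        exact side_point (den := 125) (by norm_num) (by push_cast; linarith)
                          (by push_cast; linarith))
                    (by simp only [stripSevFwdB3Box]
                        exact side_point (den := 1024) (by norm_num) (by push_cast; linarith)
                          (by push_cast; linarith))
                    (by simp only [stripSevFwdB3Box]
                        exact strip_back (den := 36) (by norm_num) (by push_cast; linarith)
                          (by push_cast; linarith))
                    (by simp only [stripSevFwdB3Box]
                        exact side_point (den := 8) (by norm_num) (by push_cast; linarith)
                          (by push_cast; linarith)))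
                · exact nonneg_of_checkFour stripSevFwdB2_ok (strip_point
                    (by simp only [stripSevFwdB2Box]
                        exact side_point (den := 125) (by norm_num) (by push_cast; linarith)
                          (by push_cast; linarith))
                    (by simp only [stripSevFwdB2Box]
                        exact side_point (den := 1024) (by norm_num) (by push_cast; linarith)
                          (by push_cast; linarith))
                    (by simp only [stripSevFwdB2Box]
                        exact strip_back (den := 36) (by norm_num) (by push_cast; linarith)
                          (by push_cast; linarith))
                    (by simp only [stripSevFwdB2Box]
                        exact side_point (den := 8) (by norm_num) (by push_cast; linarith)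
                          (by push_cast; linarith)))
            · exact nonneg_of_checkFour stripSevFwdB1_ok (strip_point
                (by simp only [stripSevFwdB1Box]
                    exact side_point (den := 125) (by norm_num) (by push_cast; linarith)
                      (by push_cast; linarith))
                (by simp only [stripSevFwdB1Box]
                    exact side_point (den := 512) (by norm_num) (by push_cast; linarith)
                      (by push_cast; linarith))
                (by simp only [stripSevFwdB1Box]
                    exact strip_back (den := 36) (by norm_num) (by push_cast; linarith)
                      (by push_cast; linarith))
                (by simp only [stripSevFwdB1Box]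
                    exact side_point (den := 4) (by norm_num) (by push_cast; linarith)
                      (by push_cast; linarith)))
        · exact nonneg_of_checkFour stripSevFwdB0_ok (strip_point
            (by simp only [stripSevFwdB0Box]
                exact side_point (den := 125) (by norm_num) (by push_cast; linarith)
                  (by push_cast; linarith))
            (by simp only [stripSevFwdB0Box]
                exact side_point (den := 256) (by norm_num) (by push_cast; linarith)
                  (by push_cast; linarith))
            (by simp only [stripSevFwdB0Box]
                exact strip_back (den := 36) (by norm_num) (by push_cast; linarith)
                  (by push_cast; linarith))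
            (by simp only [stripSevFwdB0Box]
                exact side_point (den := 2) (by norm_num) (by push_cast; linarith)
                  (by push_cast; linarith)))
  simp only [eStripSevFwdLess, eval_sub', eval_mul', eval_num', evalUpB_sevFwd hC] at hb1
  simp only [Ex.eval, stabPt] at hb1
  norm_num at hb1
  have := mul_pos (show 0 < t ^ 6 * ((1 - a * v) ^ 4 * I ^ 8) by positivity) hgate
  refine pos_of_mul_pos_left (b := ((a + b) ^ 2 * v) ^ 7 * (a + b) ^ 6) ?_ (by positivity)
  linarith

theorem sev_fwdc0 {a b u v I t : ℝ} (hP : SevPt a b u v I t)
    (hu8 : u ≤ 111 / 125) (hI9 : 1 / 9 < I) (h2 : (1 - a * v) < (15 / 32)) :
    0 < (stripAt a b u v).sevFwd := by
  obtain ⟨hC, hI20, hI7, hk, hS0, hw0, hw1, hK0, hK97, hKI, ht0, ht1, hgate⟩ :=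
    hP
  have hI0 : 0 < I := by linarith
  have : 1 - a * v < 15 / 16 := by
    linarith [mul_lt_mul_of_pos_left hI9 hK0]
  have hb1 : 0 ≤ (eStripSevFwdLess 600000000 5).eval (stabPt (1 - u) (1 - a * v) I t) := by
    rcases lt_or_ge (1 - u) (139 / 250) with h4 | h4
    · exact nonneg_of_checkFour stripSevFwdC14_ok (strip_point
        (by simp only [stripSevFwdC14Box]
            exact side_point (den := 250) (by norm_num) (by push_cast; linarith)
              (by push_cast; linarith))
        (by simp only [stripSevFwdC14Box]
            exact side_point (den := 32) (by norm_num) (by push_cast; linarith)
              (by push_cast; linarith))
        (by simp only [stripSevFwdC14Box]
            exact strip_back (den := 63) (by norm_num) (by push_cast; linarith)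
              (by push_cast; linarith))
        (by simp only [stripSevFwdC14Box]
            exact side_point (den := 1) (by norm_num) (by push_cast; linarith)
              (by push_cast; linarith)))
    · rcases lt_or_ge (1 - a * v) (15 / 64) with h6 | h6
      · rcases lt_or_ge t (1 / 2) with h8 | h8
        · rcases lt_or_ge (1 - u) (389 / 500) with h10 | h10
          · exact nonneg_of_checkFour stripSevFwdC13_ok (strip_point
              (by simp only [stripSevFwdC13Box]
                  exact side_point (den := 500) (by norm_num) (by push_cast; linarith)
                    (by push_cast; linarith))
              (by simp only [stripSevFwdC13Box]
                  exact side_point (den := 64) (by norm_num) (by push_cast; linarith)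
                    (by push_cast; linarith))
              (by simp only [stripSevFwdC13Box]
                  exact strip_back (den := 63) (by norm_num) (by push_cast; linarith)
                    (by push_cast; linarith))
              (by simp only [stripSevFwdC13Box]
                  exact side_point (den := 2) (by norm_num) (by push_cast; linarith)
                    (by push_cast; linarith)))
          · exact nonneg_of_checkFour stripSevFwdC12_ok (strip_point
              (by simp only [stripSevFwdC12Box]
                  exact side_point (den := 500) (by norm_num) (by push_cast; linarith)
                    (by push_cast; linarith))
              (by simp only [stripSevFwdC12Box]
                  exact side_point (den := 64) (by norm_num) (by push_cast; linarith)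
                    (by push_cast; linarith))
              (by simp only [stripSevFwdC12Box]
                  exact strip_back (den := 63) (by norm_num) (by push_cast; linarith)
                    (by push_cast; linarith))
              (by simp only [stripSevFwdC12Box]
                  exact side_point (den := 2) (by norm_num) (by push_cast; linarith)
                    (by push_cast; linarith)))
        · exact nonneg_of_checkFour stripSevFwdC11_ok (strip_point
            (by simp only [stripSevFwdC11Box]
                exact side_point (den := 250) (by norm_num) (by push_cast; linarith)
                  (by push_cast; linarith))
            (by simp only [stripSevFwdC11Box]
                exact side_point (den := 64) (by norm_num) (by push_cast; linarith)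
                  (by push_cast; linarith))
            (by simp only [stripSevFwdC11Box]
                exact strip_back (den := 63) (by norm_num) (by push_cast; linarith)
                  (by push_cast; linarith))
            (by simp only [stripSevFwdC11Box]
                exact side_point (den := 2) (by norm_num) (by push_cast; linarith)
                  (by push_cast; linarith)))
      · exact nonneg_of_checkFour stripSevFwdC10_ok (strip_point
          (by simp only [stripSevFwdC10Box]
              exact side_point (den := 250) (by norm_num) (by push_cast; linarith)
                (by push_cast; linarith))
          (by simp only [stripSevFwdC10Box]
              exact side_point (den := 64) (by norm_num) (by push_cast; linarith)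
                (by push_cast; linarith))
          (by simp only [stripSevFwdC10Box]
              exact strip_back (den := 63) (by norm_num) (by push_cast; linarith)
                (by push_cast; linarith))
          (by simp only [stripSevFwdC10Box]
              exact side_point (den := 1) (by norm_num) (by push_cast; linarith)
                (by push_cast; linarith)))
  simp only [eStripSevFwdLess, eval_sub', eval_mul', eval_num', evalUpB_sevFwd hC] at hb1
  simp only [Ex.eval, stabPt] at hb1
  norm_num at hb1
  have := mul_pos (show 0 < t ^ 5 * ((1 - a * v) ^ 4 * I ^ 8) by positivity) hgate
  refine pos_of_mul_pos_left (b := ((a + b) ^ 2 * v) ^ 7 * (a + b) ^ 6) ?_ (by positivity)
  linarith

theorem sev_fwdc1 {a b u v I t : ℝ} (hP : SevPt a b u v I t)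
    (hu8 : u ≤ 111 / 125) (hI9 : 1 / 9 < I) (h2 : (15 / 32) ≤ (1 - a * v)) :
    0 < (stripAt a b u v).sevFwd := by
  obtain ⟨hC, hI20, hI7, hk, hS0, hw0, hw1, hK0, hK97, hKI, ht0, ht1, hgate⟩ :=
    hP
  have hI0 : 0 < I := by linarith
  have : 1 - a * v < 15 / 16 := by
    linarith [mul_lt_mul_of_pos_left hI9 hK0]
  have hb1 : 0 ≤ (eStripSevFwdLess 600000000 5).eval (stabPt (1 - u) (1 - a * v) I t) := by
    rcases lt_or_ge (1 - a * v) (45 / 64) with h4 | h4
    · exact nonneg_of_checkFour stripSevFwdC9_ok (strip_point
        (by simp only [stripSevFwdC9Box]
            exact side_point (den := 125) (by norm_num) (by push_cast; linarith)
              (by push_cast; linarith))
        (by simp only [stripSevFwdC9Box]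
            exact side_point (den := 64) (by norm_num) (by push_cast; linarith)
              (by push_cast; linarith))
        (by simp only [stripSevFwdC9Box]
            exact strip_back (den := 63) (by norm_num) (by push_cast; linarith)
              (by push_cast; linarith))
        (by simp only [stripSevFwdC9Box]
            exact side_point (den := 1) (by norm_num) (by push_cast; linarith)
              (by push_cast; linarith)))
    · rcases lt_or_ge t (1 / 2) with h6 | h6
      · rcases lt_or_ge (1 - a * v) (105 / 128) with h8 | h8
        · exact nonneg_of_checkFour stripSevFwdC8_ok (strip_point
            (by simp only [stripSevFwdC8Box]
                exact side_point (den := 125) (by norm_num) (by push_cast; linarith)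
                  (by push_cast; linarith))
            (by simp only [stripSevFwdC8Box]
                exact side_point (den := 128) (by norm_num) (by push_cast; linarith)
                  (by push_cast; linarith))
            (by simp only [stripSevFwdC8Box]
                exact strip_back (den := 63) (by norm_num) (by push_cast; linarith)
                  (by push_cast; linarith))
            (by simp only [stripSevFwdC8Box]
                exact side_point (den := 2) (by norm_num) (by push_cast; linarith)
                  (by push_cast; linarith)))
        · rcases lt_or_ge t (1 / 4) with h10 | h10
          · rcases lt_or_ge (1 - a * v) (225 / 256) with h12 | h12
            · exact nonneg_of_checkFour stripSevFwdC7_ok (strip_point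
                (by simp only [stripSevFwdC7Box]
                    exact side_point (den := 125) (by norm_num) (by push_cast; linarith)
                      (by push_cast; linarith))
                (by simp only [stripSevFwdC7Box]
                    exact side_point (den := 256) (by norm_num) (by push_cast; linarith)
                      (by push_cast; linarith))
                (by simp only [stripSevFwdC7Box]
                    exact strip_back (den := 63) (by norm_num) (by push_cast; linarith)
                      (by push_cast; linarith))
                (by simp only [stripSevFwdC7Box]
                    exact side_point (den := 4) (by norm_num) (by push_cast; linarith)
                      (by push_cast; linarith)))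
            · rcases lt_or_ge t (1 / 8) with h14 | h14
              · rcases lt_or_ge (1 - u) (139 / 250) with h16 | h16
                · exact nonneg_of_checkFour stripSevFwdC6_ok (strip_point
                    (by simp only [stripSevFwdC6Box]
                        exact side_point (den := 250) (by norm_num) (by push_cast; linarith)
                          (by push_cast; linarith))
                    (by simp only [stripSevFwdC6Box]
                        exact side_point (den := 256) (by norm_num) (by push_cast; linarith)
                          (by push_cast; linarith))
                    (by simp only [stripSevFwdC6Box]
                        exact strip_back (den := 63) (by norm_num) (by push_cast; linarith)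
                          (by push_cast; linarith))
                    (by simp only [stripSevFwdC6Box]
                        exact side_point (den := 8) (by norm_num) (by push_cast; linarith)
                          (by push_cast; linarith)))
                · rcases lt_or_ge (1 - a * v) (465 / 512) with h18 | h18
                  · exact nonneg_of_checkFour stripSevFwdC5_ok (strip_point
                      (by simp only [stripSevFwdC5Box]
                          exact side_point (den := 250) (by norm_num) (by push_cast; linarith)
                            (by push_cast; linarith))
                      (by simp only [stripSevFwdC5Box]
                          exact side_point (den := 512) (by norm_num) (by push_cast; linarith)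
                            (by push_cast; linarith))
                      (by simp only [stripSevFwdC5Box]
                          exact strip_back (den := 63) (by norm_num) (by push_cast; linarith)
                            (by push_cast; linarith))
                      (by simp only [stripSevFwdC5Box]
                          exact side_point (den := 8) (by norm_num) (by push_cast; linarith)
                            (by push_cast; linarith)))
                  · rcases lt_or_ge t (1 / 16) with h20 | h20
                    · exact nonneg_of_checkFour stripSevFwdC4_ok (strip_point
                        (by simp only [stripSevFwdC4Box]
                            exact side_point (den := 250) (by norm_num) (by push_cast; linarith)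
                              (by push_cast; linarith))
                        (by simp only [stripSevFwdC4Box]
                            exact side_point (den := 512) (by norm_num) (by push_cast; linarith)
                              (by push_cast; linarith))
                        (by simp only [stripSevFwdC4Box]
                            exact strip_back (den := 63) (by norm_num) (by push_cast; linarith)
                              (by push_cast; linarith))
                        (by simp only [stripSevFwdC4Box]
                            exact side_point (den := 16) (by norm_num) (by push_cast; linarith)
                              (by push_cast; linarith)))
                    · exact nonneg_of_checkFour stripSevFwdC3_ok (strip_point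
                        (by simp only [stripSevFwdC3Box]
                            exact side_point (den := 250) (by norm_num) (by push_cast; linarith)
                              (by push_cast; linarith))
                        (by simp only [stripSevFwdC3Box]
                            exact side_point (den := 512) (by norm_num) (by push_cast; linarith)
                              (by push_cast; linarith))
                        (by simp only [stripSevFwdC3Box]
                            exact strip_back (den := 63) (by norm_num) (by push_cast; linarith)
                              (by push_cast; linarith))
                        (by simp only [stripSevFwdC3Box]
                            exact side_point (den := 16) (by norm_num) (by push_cast; linarith)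
                              (by push_cast; linarith)))
              · exact nonneg_of_checkFour stripSevFwdC2_ok (strip_point
                  (by simp only [stripSevFwdC2Box]
                      exact side_point (den := 125) (by norm_num) (by push_cast; linarith)
                        (by push_cast; linarith))
                  (by simp only [stripSevFwdC2Box]
                      exact side_point (den := 256) (by norm_num) (by push_cast; linarith)
                        (by push_cast; linarith))
                  (by simp only [stripSevFwdC2Box]
                      exact strip_back (den := 63) (by norm_num) (by push_cast; linarith)
                        (by push_cast; linarith))
                  (by simp only [stripSevFwdC2Box]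
                      exact side_point (den := 8) (by norm_num) (by push_cast; linarith)
                        (by push_cast; linarith)))
          · exact nonneg_of_checkFour stripSevFwdC1_ok (strip_point
              (by simp only [stripSevFwdC1Box]
                  exact side_point (den := 125) (by norm_num) (by push_cast; linarith)
                    (by push_cast; linarith))
              (by simp only [stripSevFwdC1Box]
                  exact side_point (den := 128) (by norm_num) (by push_cast; linarith)
                    (by push_cast; linarith))
              (by simp only [stripSevFwdC1Box]
                  exact strip_back (den := 63) (by norm_num) (by push_cast; linarith)
                    (by push_cast; linarith))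
              (by simp only [stripSevFwdC1Box]
                  exact side_point (den := 4) (by norm_num) (by push_cast; linarith)
                    (by push_cast; linarith)))
      · exact nonneg_of_checkFour stripSevFwdC0_ok (strip_point
          (by simp only [stripSevFwdC0Box]
              exact side_point (den := 125) (by norm_num) (by push_cast; linarith)
                (by push_cast; linarith))
          (by simp only [stripSevFwdC0Box]
              exact side_point (den := 64) (by norm_num) (by push_cast; linarith)
                (by push_cast; linarith))
          (by simp only [stripSevFwdC0Box]
              exact strip_back (den := 63) (by norm_num) (by push_cast; linarith)
                (by push_cast; linarith))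
          (by simp only [stripSevFwdC0Box]
              exact side_point (den := 2) (by norm_num) (by push_cast; linarith)
                (by push_cast; linarith)))
  simp only [eStripSevFwdLess, eval_sub', eval_mul', eval_num', evalUpB_sevFwd hC] at hb1
  simp only [Ex.eval, stabPt] at hb1
  norm_num at hb1
  have := mul_pos (show 0 < t ^ 5 * ((1 - a * v) ^ 4 * I ^ 8) by positivity) hgate
  refine pos_of_mul_pos_left (b := ((a + b) ^ 2 * v) ^ 7 * (a + b) ^ 6) ?_ (by positivity)
  linarith

end AllLow

end Vale.Agent.P100.Calib.Band
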