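import Vale.Agent.P100.Calib.SlabStripSevLeftExpr

/-!
# The checks of the left exit band of the strip

Each check is a definition, so that they are compiled one after another.
-/

set_option linter.defProp false

namespace Vale.Agent.P100.Calib.Band.AllLow

open Pack

local instance stripSevLeftCheckAdd : Add Pack.Ex := ⟨Ex.add⟩
local instance stripSevLeftCheckSub : Sub Pack.Ex := ⟨Ex.sub⟩
local instance stripSevLeftCheckMul : Mul Pack.Ex := ⟨Ex.mul⟩

/-- A part of a chart. -/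
def eSlTwo : Pack.Ex := (eN 2 * Ex.var 2)

/-- A part of a chart. -/
def eSlCen : Pack.Ex := (eN 5) * ((eN 23) + (((eN 6) * (Ex.var 0)) + ((eN 48) * ((Ex.var 0) *
    (Ex.var 0)))))

/-- A part of a chart. -/
def eSlLo : Pack.Ex := (eN (-20)) - (((eN 40) * (Ex.var 0)) + ((eN 150) * ((Ex.var 0) * (Ex.var
    0))))

/-- A part of a chart. -/
def eSlHi : Pack.Ex := (eN 81) + ((eN 165) * ((Ex.var 0) * ((Ex.var 0) * (Ex.var 0))))

/-- A part of a chart. -/
def eSlPoint : Pack.Ex := eSlLo + Ex.var 1 * (eSlHi - eSlLo)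

/-- A part of a chart. -/
def eSlWinV : Pack.Ex := eSlTwo * (eSlCen + Ex.var 0 * eSlPoint)

/-- A part of a chart. -/
def eSlLeftV : Pack.Ex := Ex.var 1 * (eSlTwo * (eSlCen + Ex.var 0 * eSlLo))

/-- A part of a chart. -/
def eSlEdge : Pack.Ex := eSlTwo * (eSlCen + Ex.var 0 * eSlHi)

/-- A part of a chart. -/
def eSlRightV : Pack.Ex := eSlEdge + Ex.var 1 * (eN 323 - eSlEdge)

/-- A box. -/
def stripSevLeftWinSlMainBox : ℕ → Chart
  | 0 => ⟨7, 0, 10, 1⟩ | 1 => ⟨0, 1, 1, 1⟩ | 2 => ⟨1, 1, 7, 20⟩ | _ => ⟨0, 1, 1, 1⟩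

/-- The check of this box. -/
def stripSevLeftWinSlMain_ok : checkFour stripSevLeftWinSlMainBox 346 33 6 18 9 (eSl_slMain
    eSlWinV (eN 1) eSlPoint) = true := by
  decide +kernel

/-- A box. -/
def stripSevLeftLeftSlGapBox : ℕ → Chart
  | 0 => ⟨7, 0, 10, 1⟩ | 1 => ⟨1, 0, 1, 1⟩ | 2 => ⟨1, 1, 7, 20⟩ | _ => ⟨0, 1, 1, 1⟩

/-- The check of this box. -/
def stripSevLeftLeftSlGap_ok : checkFour stripSevLeftLeftSlGapBox 134 11 2 7 4 (eSl_slGap
    eSlLeftV (eN 1)) = true := by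
  decide +kernel

/-- A box. -/
def stripSevLeftRightSlFlowBox : ℕ → Chart
  | 0 => ⟨67, 0, 100, 1⟩ | 1 => ⟨0, 1, 1, 1⟩ | 2 => ⟨1, 1, 7, 20⟩ | _ => ⟨0, 1, 1, 1⟩

/-- The check of this box. -/
def stripSevLeftRightSlFlow_ok : checkFour stripSevLeftRightSlFlowBox 228 17 3 9 4 (eSl_slFlow
    eSlRightV (eN 1)) = true := by
  decide +kernel

end Vale.Agent.P100.Calib.Band.AllLow
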