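import Vale.Agent.P100.Calib.SlabStripAtoms

/-!
# The quantities of the lower band of the strip for `N` between seven and twenty

Polynomials in the variables of `StripAtoms`.
-/

namespace Vale.Agent.P100.Calib.Band.StripAtoms

variable (p : StripAtoms)

/-- Ten times the coefficient of the band. -/
def slwG : ℝ := 10 * (p.S * (p.v * p.q)) + (2 + 40 * p.I) * (p.K * p.IT)

/-- Its derivative in `v`. -/
def slwGv : ℝ := 10 * (p.S * (1 + 2 * p.dv)) - (1 + 20 * p.I) * (2 * (p.a * p.IT) + p.K * (p.S *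
    p.d))

/-- Ten times the numerator of the band in `H`. -/
def slwNum : ℝ := 10 * p.K - p.w * p.slwG

/-- A thousand times the coefficient of the multiplier. -/
def slwBe : ℝ := 24 - 212 * p.I + 1146 * (p.I * (p.a * p.v)) + 1355 * p.d - 647 * p.dv + 991 * p.w

/-- A hundred times the derivative of the band in `v` at `H = 0`. -/
def slwFV : ℝ := 100 * p.a + 10 * (p.w * p.slwGv)

/-- The value at `H = 0`. -/
def slwC0 : ℝ := 1000 * (p.P * p.A0) - 100 * (p.slwG * (p.u * p.E0)) - 10 * (p.slwFV * (p.qu *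
    p.N)) - p.w * (p.slwBe * p.N)

/-- The linear coefficient. -/
def slwC1 : ℝ := 100 * (p.slwG * (p.u * p.e1)) - 1000 * (p.a * (p.qu * p.E0)) + 10 * (p.slwFV *
    (p.qu * p.f0)) + 1000 * (p.a * (p.ud * (p.qu * p.N))) - 1000 * (p.P * (p.A1 + p.ud * p.A0 +
    p.E0)) + p.w * (p.slwBe * p.f0)

/-- The quadratic coefficient. -/
def slwC2 : ℝ := 1000 * (p.a * (p.qu * p.e1)) - 1000 * (p.a * (p.ud * (p.qu * p.f0))) + 1000 *
    (p.P * (p.ud * p.A1 + p.e1))

/-- Minus the value at the band, cleared. -/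
def slwA : ℝ := 0 - (p.slwC2 * (p.slwNum * p.slwNum) + 10 * (p.slwC1 * (p.slwNum * p.P)) + 100 *
    (p.slwC0 * (p.P * p.P)))

/-- The slope at the band, cleared. -/
def slwB : ℝ := 10 * (p.slwC1 * p.P) + 2 * (p.slwC2 * p.slwNum)

/-- The slope where the radial speed vanishes, cleared. -/
def slwC : ℝ := p.slwC1 * p.f0 + 2 * (p.slwC2 * p.N)

end Vale.Agent.P100.Calib.Band.StripAtoms
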