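import Vale.Agent.P100.Calib.SlabAllLowExpr

/-!
# The packed numerators of the lower band for `N` between seven and twenty

The chart is `(w, kappa, I, tau)`, `K = kappa (S + I tau) / (S (1 + I S))`.
-/

namespace Vale.Agent.P100.Calib.Band.AllLow

open Pack

local instance stripSevLowAdd : Add Pack.Ex := ⟨Ex.add⟩
local instance stripSevLowSub : Sub Pack.Ex := ⟨Ex.sub⟩
local instance stripSevLowMul : Mul Pack.Ex := ⟨Ex.mul⟩

/-- A packed quantity. -/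
def eSlwS0 : Pack.Ex := (eN 1) - ((eN 2) * (Ex.var 2))

/-- A packed quantity. -/
def eSlwIt : Pack.Ex := (Ex.var 2) * (Ex.var 3)

/-- A packed quantity. -/
def eSlwM0 : Pack.Ex := eSlwS0 + eSlwIt

/-- A packed quantity. -/
def eSlwK0 : Pack.Ex := (eN 1) + ((Ex.var 2) * eSlwS0)

/-- A packed quantity. -/
def eSlwX0 : Pack.Ex := (eSlwS0 * eSlwK0) - ((Ex.var 1) * eSlwM0)

/-- A packed quantity. -/
def eSlwK1 : Pack.Ex := (eN 2) * eSlwM0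

/-- A packed quantity. -/
def eSlwK2 : Pack.Ex := eSlwK0 - (Ex.var 1)

/-- A packed quantity. -/
def eSlwK3 : Pack.Ex := (eN 2) * eSlwK0

/-- A packed quantity. -/
def eSlwK4 : Pack.Ex := (eN 1) - ((eN 2) * (Ex.var 2))

/-- A packed quantity. -/
def eSlw_w : Pack.Ex := (eN 1) * (Ex.var 0)

/-- A packed quantity. -/
def eSlw_v : Pack.Ex := (eN 2) * (eSlwK1 * eSlwK2)

/-- A packed quantity. -/
def eSlw_I : Pack.Ex := (eN 1) * (Ex.var 2)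

/-- A packed quantity. -/
def eSlw_S : Pack.Ex := (eN 1) - ((eN 2) * (Ex.var 2))

/-- A packed quantity. -/
def eSlw_d : Pack.Ex := (eN 2) * (eSlwS0 * (eSlwIt * eSlwK0))

/-- A packed quantity. -/
def eSlw_a : Pack.Ex := eSlwS0 * eSlwX0

/-- A packed quantity. -/
def eSlw_b : Pack.Ex := eSlwS0 * (eSlwX0 + ((eN 2) * (eSlwIt * eSlwK0)))

/-- A packed quantity. -/
def eSlw_K : Pack.Ex := (Ex.var 1) * eSlwK1

/-- A packed quantity. -/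
def eSlw_IT : Pack.Ex := (Ex.var 2) - eSlwIt

/-- A packed quantity. -/
def eSlw_dv : Pack.Ex := (eN 2) * eSlwIt

/-- A packed quantity. -/
def eSlw_q : Pack.Ex := eSlwK4 + eSlw_dv

/-- A packed quantity. -/
def eSlw_D0 : Pack.Ex := ((eN 2) * eSlwK4) + eSlw_dv

/-- A packed quantity. -/
def eSlw_u : Pack.Ex := (eN 1) - eSlw_w

/-- A packed quantity. -/
def eSlw_qu : Pack.Ex := eSlw_q * eSlw_u

/-- A packed quantity. -/
def eSlw_P : Pack.Ex := (eSlw_b * eSlwK4) - (eSlw_a * eSlw_qu)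

/-- A packed quantity. -/
def eSlw_qn : Pack.Ex := (eSlw_b * eSlw_D0) - (((eSlw_S * eSlw_qu) * eSlwK1) * eSlwK2)

/-- A packed quantity. -/
def eSlw_ud : Pack.Ex := eSlw_u * eSlw_d

/-- A packed quantity. -/
def eSlw_e1 : Pack.Ex := eSlw_ud * (eSlw_qn - ((eSlw_S * (eSlw_w * eSlw_b)) * eSlwK4))

/-- A packed quantity. -/
def eSlw_E0 : Pack.Ex := eSlw_qn - (eSlw_S * (eSlw_w * (eSlw_b * eSlw_D0)))

/-- A packed quantity. -/
def eSlw_f0 : Pack.Ex := (eSlw_qn * eSlwK3) + (eSlw_S * (eSlw_K * eSlw_ud))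

/-- A packed quantity. -/
def eSlw_N : Pack.Ex := eSlw_S * (eSlw_K * eSlw_D0)

/-- A packed quantity. -/
def eSlw_slwG : Pack.Ex := ((eN 10) * (eSlw_S * (eSlw_v * eSlw_q))) + ((((eN 2) + ((eN 40) *
    eSlw_I)) * (eSlw_K * eSlw_IT)) * (Ex.pow eSlwK4 2))

/-- A packed quantity. -/
def eSlw_slwGv : Pack.Ex := (((((eN 10) * (eSlw_S * (eSlwK4 + ((eN 2) * eSlw_dv)))) * eSlwK1) *
    eSlwK2) * eSlwK3) - (((eN 1) + ((eN 20) * eSlw_I)) * (((((eN 2) * (eSlw_a * eSlw_IT)) *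
    eSlwK3) * eSlwK4) + (eSlw_K * (eSlw_S * eSlw_d))))

/-- A packed quantity. -/
def eSlw_slwNum : Pack.Ex := (((eN 10) * eSlw_K) * (Ex.pow eSlwK4 2)) - (eSlw_w * eSlw_slwG)

/-- A packed quantity. -/
def eSlw_slwBe : Pack.Ex := (((((((((eN 24) - ((eN 212) * eSlw_I)) * eSlwK1) * eSlwK2) * eSlwK3)
    * (Ex.pow eSlwK4 2)) + ((eN 1146) * (eSlw_I * (eSlw_a * eSlw_v)))) + ((((eN 1355) * eSlw_d) *
    eSlwK3) * (Ex.pow eSlwK4 2))) - ((((((eN 647) * eSlw_dv) * eSlwK1) * eSlwK2) * eSlwK3) *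
    eSlwK4)) + ((((((eN 991) * eSlw_w) * eSlwK1) * eSlwK2) * eSlwK3) * (Ex.pow eSlwK4 2))

/-- A packed quantity. -/
def eSlw_A0 : Pack.Ex := (eSlw_N * eSlwK4) + (eSlw_S * (eSlw_v * eSlw_D0))

/-- A packed quantity. -/
def eSlw_A1 : Pack.Ex := (eSlw_f0 * eSlwK4) + (eSlw_S * (eSlw_v * eSlw_ud))

/-- A packed quantity. -/
def eSlw_slwFV : Pack.Ex := ((((eN 100) * eSlw_a) * eSlwK3) * eSlwK4) + ((eN 10) * (eSlw_w *
    eSlw_slwGv))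

/-- A packed quantity. -/
def eSlw_slwC0 : Pack.Ex := (((((eN 1000) * (eSlw_P * eSlw_A0)) - ((eN 100) * (eSlw_slwG *
    (eSlw_u * eSlw_E0)))) * eSlwK3) - ((eN 10) * (eSlw_slwFV * (eSlw_qu * eSlw_N)))) - (eSlw_w *
    (eSlw_slwBe * eSlw_N))

/-- A packed quantity. -/
def eSlw_slwC1 : Pack.Ex := (((((((eN 100) * (eSlw_slwG * (eSlw_u * eSlw_e1))) - ((((eN 1000) *
    (eSlw_a * (eSlw_qu * eSlw_E0))) * eSlwK3) * (Ex.pow eSlwK4 2))) * eSlwK3) + (((eN 10) *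
    (eSlw_slwFV * (eSlw_qu * eSlw_f0))) * eSlwK4)) + ((((eN 1000) * (eSlw_a * (eSlw_ud * (eSlw_qu
    * eSlw_N)))) * eSlwK3) * eSlwK4)) - (((eN 1000) * (eSlw_P * (((eSlw_A1 * eSlwK4) + (eSlw_ud *
    eSlw_A0)) + ((eSlw_E0 * eSlwK3) * (Ex.pow eSlwK4 2))))) * eSlwK3)) + ((eSlw_w * (eSlw_slwBe *
    eSlw_f0)) * eSlwK4)

/-- A packed quantity. -/
def eSlw_slwC2 : Pack.Ex := (((((eN 1000) * (eSlw_a * (eSlw_qu * eSlw_e1))) * eSlwK3) - ((eN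
    1000) * (eSlw_a * (eSlw_ud * (eSlw_qu * eSlw_f0))))) * eSlwK4) + ((eN 1000) * (eSlw_P *
    ((eSlw_ud * eSlw_A1) + ((eSlw_e1 * eSlwK3) * eSlwK4))))

/-- A packed quantity. -/
def eSlw_slwA : Pack.Ex := (((((eN 0) * (Ex.pow eSlwK1 3)) * (Ex.pow eSlwK2 3)) * (Ex.pow eSlwK3
    3)) * (Ex.pow eSlwK4 9)) - (((eSlw_slwC2 * (eSlw_slwNum * eSlw_slwNum)) + (((eN 10) *
    (eSlw_slwC1 * (eSlw_slwNum * eSlw_P))) * eSlwK4)) + ((((eN 100) * (eSlw_slwC0 * (eSlw_P *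
    eSlw_P))) * eSlwK3) * (Ex.pow eSlwK4 3)))

/-- A packed quantity. -/
def eSlw_slwB : Pack.Ex := (((eN 10) * (eSlw_slwC1 * eSlw_P)) * eSlwK4) + ((eN 2) * (eSlw_slwC2 *
    eSlw_slwNum))

/-- A packed quantity. -/
def eSlw_slwC : Pack.Ex := (eSlw_slwC1 * eSlw_f0) + (((eN 2) * (eSlw_slwC2 * eSlw_N)) * eSlwK3)

/-- A packed quantity. -/
def eSlwGate : Pack.Ex := ((eN 50) * (eSlwS0 * eSlwX0)) - ((eN 31) * (eSlwM0 * eSlwK2))

/-- The condition at the band less a multiple of the gate. -/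
def eSlwMain : Pack.Ex := eSlw_slwA - ((eN 45000) * ((((Ex.pow (Ex.var 0) 2) * (Ex.pow (Ex.var 3)
    2)) * ((Ex.pow (Ex.var 1) 2) * ((Ex.pow (Ex.var 2) 3) * ((Ex.pow eSlwM0 2) * (Ex.pow eSlwK0
    3))))) * eSlwGate))

end Vale.Agent.P100.Calib.Band.AllLow
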