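import Vale.Agent.P100.Calib.SlabStripUpEvalB
import Vale.Agent.P100.Calib.SlabStripSevLowAtoms
import Vale.Agent.P100.Calib.SlabStripSevLowExpr

/-!
# The values of the packed numerators of the lower band for `N` between seven and twenty

`StripSevLowChart` relates a point of the chart to the variables.
-/

namespace Vale.Agent.P100.Calib.Band.AllLow

open Pack

local instance stripSevLowEvalAdd : Add Pack.Ex := ⟨Ex.add⟩
local instance stripSevLowEvalSub : Sub Pack.Ex := ⟨Ex.sub⟩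
local instance stripSevLowEvalMul : Mul Pack.Ex := ⟨Ex.mul⟩

/-- The values of the variables. -/
structure StripSevLowChart (x : ℕ → ℝ) (p : StripAtoms) (k₁ k₂ k₃ k₄ : ℝ) : Prop where
  hk1 : eSlwK1.eval x = k₁
  hk2 : eSlwK2.eval x = k₂
  hk3 : eSlwK3.eval x = k₃
  hk4 : eSlwK4.eval x = k₄
  h_w : eSlw_w.eval x = p.w
  h_v : eSlw_v.eval x = p.v * (k₃ * k₄ ^ 2)
  h_I : eSlw_I.eval x = p.I
  h_S : eSlw_S.eval x = p.S
  h_d : eSlw_d.eval x = p.d * (k₁ * k₂)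
  h_a : eSlw_a.eval x = p.a * (k₁ * k₂)
  h_b : eSlw_b.eval x = p.b * (k₁ * k₂)
  h_K : eSlw_K.eval x = p.K * (k₃ * k₄)
  h_IT : eSlw_IT.eval x = p.IT
  h_dv : eSlw_dv.eval x = p.dv * (k₄)

variable {x : ℕ → ℝ} {p : StripAtoms} {k₁ k₂ k₃ k₄ : ℝ}

theorem evalSlw_q (h : StripSevLowChart x p k₁ k₂ k₃ k₄) :
    eSlw_q.eval x = p.q * (k₄) := by
  simp only [eSlw_q, StripAtoms.q, eval_add', h.hk4, h.h_dv]
  ring

theorem evalSlw_D0 (h : StripSevLowChart x p k₁ k₂ k₃ k₄) :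
    eSlw_D0.eval x = p.D0 * (k₄) := by
  simp only [eSlw_D0, StripAtoms.D0, eval_add', eval_mul', eval_num', h.hk4, h.h_dv]
  push_cast
  ring

theorem evalSlw_u (h : StripSevLowChart x p k₁ k₂ k₃ k₄) :
    eSlw_u.eval x = p.u := by
  simp only [eSlw_u, StripAtoms.u, eval_sub', eval_num', h.h_w]
  push_cast
  ring

theorem evalSlw_qu (h : StripSevLowChart x p k₁ k₂ k₃ k₄) :
    eSlw_qu.eval x = p.qu * (k₄) := by
  simp only [eSlw_qu, StripAtoms.qu, eval_mul', evalSlw_q h, evalSlw_u h]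
  ring

theorem evalSlw_P (h : StripSevLowChart x p k₁ k₂ k₃ k₄) :
    eSlw_P.eval x = p.P * (k₁ * k₂ * k₄) := by
  simp only [eSlw_P, StripAtoms.P, eval_sub', eval_mul', h.h_b, h.hk4, h.h_a, evalSlw_qu h]
  ring

theorem evalSlw_qn (h : StripSevLowChart x p k₁ k₂ k₃ k₄) :
    eSlw_qn.eval x = p.qn * (k₁ * k₂ * k₄) := by
  simp only [eSlw_qn, StripAtoms.qn, eval_sub', eval_mul', h.h_b, evalSlw_D0 h, h.h_S,
    evalSlw_qu h, h.hk1, h.hk2]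
  ring

theorem evalSlw_ud (h : StripSevLowChart x p k₁ k₂ k₃ k₄) :
    eSlw_ud.eval x = p.ud * (k₁ * k₂) := by
  simp only [eSlw_ud, StripAtoms.ud, eval_mul', evalSlw_u h, h.h_d]
  ring

theorem evalSlw_e1 (h : StripSevLowChart x p k₁ k₂ k₃ k₄) :
    eSlw_e1.eval x = p.e1 * (k₁ ^ 2 * k₂ ^ 2 * k₄) := by
  simp only [eSlw_e1, StripAtoms.e1, eval_sub', eval_mul', evalSlw_ud h, evalSlw_qn h, h.h_S,
    h.h_w, h.h_b, h.hk4]
  ring

theorem evalSlw_E0 (h : StripSevLowChart x p k₁ k₂ k₃ k₄) :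
    eSlw_E0.eval x = p.E0 * (k₁ * k₂ * k₄) := by
  simp only [eSlw_E0, StripAtoms.E0, eval_sub', eval_mul', evalSlw_qn h, h.h_S, h.h_w, h.h_b,
    evalSlw_D0 h]
  ring

theorem evalSlw_f0 (h : StripSevLowChart x p k₁ k₂ k₃ k₄) :
    eSlw_f0.eval x = p.f0 * (k₁ * k₂ * k₃ * k₄) := by
  simp only [eSlw_f0, StripAtoms.f0, eval_add', eval_mul', evalSlw_qn h, h.hk3, h.h_S, h.h_K,
    evalSlw_ud h]
  ring

theorem evalSlw_N (h : StripSevLowChart x p k₁ k₂ k₃ k₄) :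
    eSlw_N.eval x = p.N * (k₃ * k₄ ^ 2) := by
  simp only [eSlw_N, StripAtoms.N, eval_mul', h.h_S, h.h_K, evalSlw_D0 h]
  ring

theorem evalSlw_slwG (h : StripSevLowChart x p k₁ k₂ k₃ k₄) :
    eSlw_slwG.eval x = p.slwG * (k₃ * k₄ ^ 3) := by
  simp only [eSlw_slwG, StripAtoms.slwG, eval_add', eval_num', Ex.eval, h.h_S, h.h_v,
    evalSlw_q h, h.h_I, h.h_K, h.h_IT, h.hk4]
  push_cast
  ring

theorem evalSlw_slwGv (h : StripSevLowChart x p k₁ k₂ k₃ k₄) :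
    eSlw_slwGv.eval x = p.slwGv * (k₁ * k₂ * k₃ * k₄) := by
  simp only [eSlw_slwGv, StripAtoms.slwGv, eval_add', eval_sub', eval_mul', eval_num', h.h_S,
    h.hk4, h.h_dv, h.hk1, h.hk2, h.hk3, h.h_I, h.h_a, h.h_IT, h.h_K, h.h_d]
  push_cast
  ring

theorem evalSlw_slwNum (h : StripSevLowChart x p k₁ k₂ k₃ k₄) :
    eSlw_slwNum.eval x = p.slwNum * (k₃ * k₄ ^ 3) := by
  simp only [eSlw_slwNum, StripAtoms.slwNum, eval_sub', eval_num', Ex.eval, h.h_K,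
    h.hk4, h.h_w, evalSlw_slwG h]
  push_cast
  ring

theorem evalSlw_slwBe (h : StripSevLowChart x p k₁ k₂ k₃ k₄) :
    eSlw_slwBe.eval x = p.slwBe * (k₁ * k₂ * k₃ * k₄ ^ 2) := by
  simp only [eSlw_slwBe, StripAtoms.slwBe, eval_add', eval_sub', eval_num', Ex.eval,
    h.h_I, h.hk1, h.hk2, h.hk3, h.hk4, h.h_a, h.h_v, h.h_d, h.h_dv, h.h_w]
  push_cast
  ring

theorem evalSlw_A0 (h : StripSevLowChart x p k₁ k₂ k₃ k₄) :
    eSlw_A0.eval x = p.A0 * (k₃ * k₄ ^ 3) := by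
  simp only [eSlw_A0, StripAtoms.A0, eval_add', eval_mul', evalSlw_N h, h.hk4, h.h_S, h.h_v,
    evalSlw_D0 h]
  ring

theorem evalSlw_A1 (h : StripSevLowChart x p k₁ k₂ k₃ k₄) :
    eSlw_A1.eval x = p.A1 * (k₁ * k₂ * k₃ * k₄ ^ 2) := by
  simp only [eSlw_A1, StripAtoms.A1, eval_add', eval_mul', evalSlw_f0 h, h.hk4, h.h_S, h.h_v,
    evalSlw_ud h]
  ring

theorem evalSlw_slwFV (h : StripSevLowChart x p k₁ k₂ k₃ k₄) :
    eSlw_slwFV.eval x = p.slwFV * (k₁ * k₂ * k₃ * k₄) := by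
  simp only [eSlw_slwFV, StripAtoms.slwFV, eval_add', eval_mul', eval_num', h.h_a, h.hk3, h.hk4,
    h.h_w, evalSlw_slwGv h]
  push_cast
  ring

theorem evalSlw_slwC0 (h : StripSevLowChart x p k₁ k₂ k₃ k₄) :
    eSlw_slwC0.eval x = p.slwC0 * (k₁ * k₂ * k₃ ^ 2 * k₄ ^ 4) := by
  simp only [eSlw_slwC0, StripAtoms.slwC0, eval_sub', eval_mul', eval_num', evalSlw_P h,
    evalSlw_A0 h, evalSlw_slwG h, evalSlw_u h, evalSlw_E0 h, h.hk3, evalSlw_slwFV h,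
    evalSlw_qu h, evalSlw_N h, h.h_w, evalSlw_slwBe h]
  push_cast
  ring

theorem evalSlw_slwC1 (h : StripSevLowChart x p k₁ k₂ k₃ k₄) :
    eSlw_slwC1.eval x = p.slwC1 * (k₁ ^ 2 * k₂ ^ 2 * k₃ ^ 2 * k₄ ^ 4) := by
  simp only [eSlw_slwC1, StripAtoms.slwC1, eval_add', eval_sub', eval_num', Ex.eval,
    evalSlw_slwG h, evalSlw_u h, evalSlw_e1 h, h.h_a, evalSlw_qu h, evalSlw_E0 h, h.hk3, h.hk4,
    evalSlw_slwFV h, evalSlw_f0 h, evalSlw_ud h, evalSlw_N h, evalSlw_P h, evalSlw_A1 h,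
    evalSlw_A0 h, h.h_w, evalSlw_slwBe h]
  push_cast
  ring

theorem evalSlw_slwC2 (h : StripSevLowChart x p k₁ k₂ k₃ k₄) :
    eSlw_slwC2.eval x = p.slwC2 * (k₁ ^ 3 * k₂ ^ 3 * k₃ * k₄ ^ 3) := by
  simp only [eSlw_slwC2, StripAtoms.slwC2, eval_add', eval_sub', eval_mul', eval_num', h.h_a,
    evalSlw_qu h, evalSlw_e1 h, h.hk3, evalSlw_ud h, evalSlw_f0 h, h.hk4, evalSlw_P h,
    evalSlw_A1 h]
  push_cast
  ring

theorem evalSlw_slwA (h : StripSevLowChart x p k₁ k₂ k₃ k₄) :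
    eSlw_slwA.eval x = p.slwA * (k₁ ^ 3 * k₂ ^ 3 * k₃ ^ 3 * k₄ ^ 9) := by
  simp only [eSlw_slwA, StripAtoms.slwA, eval_sub', eval_num', Ex.eval,
    h.hk1, h.hk2, h.hk3, h.hk4, evalSlw_slwC2 h, evalSlw_slwNum h, evalSlw_slwC1 h, evalSlw_P h,
    evalSlw_slwC0 h]
  push_cast
  ring

theorem evalSlw_slwB (h : StripSevLowChart x p k₁ k₂ k₃ k₄) :
    eSlw_slwB.eval x = p.slwB * (k₁ ^ 3 * k₂ ^ 3 * k₃ ^ 2 * k₄ ^ 6) := by
  simp only [eSlw_slwB, StripAtoms.slwB, eval_add', eval_mul', eval_num', evalSlw_slwC1 h,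
    evalSlw_P h, h.hk4, evalSlw_slwC2 h, evalSlw_slwNum h]
  push_cast
  ring

theorem evalSlw_slwC (h : StripSevLowChart x p k₁ k₂ k₃ k₄) :
    eSlw_slwC.eval x = p.slwC * (k₁ ^ 3 * k₂ ^ 3 * k₃ ^ 3 * k₄ ^ 5) := by
  simp only [eSlw_slwC, StripAtoms.slwC, eval_add', eval_mul', eval_num', evalSlw_slwC1 h,
    evalSlw_f0 h, evalSlw_slwC2 h, evalSlw_N h, h.hk3]
  push_cast
  ring

end Vale.Agent.P100.Calib.Band.AllLow
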