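import Vale.Agent.P100.Calib.SlabStripEvalA
import Vale.Agent.P100.Calib.SlabStripEvalB
import Vale.Agent.P100.Calib.SlabAllStab

/-!
# The three closed conditions of the lower band of the strip

`strip_conds` is proved in two charts: `(w, v, rho, tau)` for `a v <= 34/1000` and
`(w, K, I, tau)` otherwise, `rho = 2 I / (S v)`, `tau = S d v / (2 I)`, `K = 1 - a v`.
-/

namespace Vale.Agent.P100.Calib.Band

open Vale.Agent.P100.Bubble Chart

/-- The variables at a point. -/
noncomputable def stripAt (a b u v : ℝ) : StripAtoms where
  w := 1 - u
  v := v
  I := allStabI a b
  S := a + b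
  d := b - a
  a := a
  b := b
  K := 1 - a * v
  IT := allStabI a b - (a + b) * ((b - a) * v) / 2
  dv := (b - a) * v

/-- What the chart says in the strip. -/
structure StripPlace (a b u v : ℝ) : Prop where
  I_pos : 0 < allStabI a b
  I_le : allStabI a b ≤ 1 / 20
  a_gt : 31 / 100 < a
  d_pos : 0 < b - a
  u_pos : 0 < u
  u_lt : u < 1
  v_pos : 0 < v
  av : a * v < 1
  low : 2 * allStabI a b < (1 + 2 * a * allStabI a b) * v
  high : (a + b) * ((b - a) * v) < 2 * allStabI a b

theorem stripPlace_of {N a b u v : ℝ} (hb : SlabBoxAll N a b) (h20 : 20 ≤ N) (ha : 31 / 100 < a)
    (hu : 0 < u) (hu1 : u < 1) (hv : VRange N a b v) : StripPlace a b u v := by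
  obtain ⟨ha0, hb0, hd, -⟩ := hb.facts
  have hN : 0 < N := by linarith
  have hIN : N * allStabI a b = 1 := by
    have := hb.dim
    simp only [allStabI]
    linarith
  have hI0 : 0 < allStabI a b := pos_of_mul_pos_right (hIN ▸ one_pos) hN.le
  refine ⟨hI0, ?_, ha, hd, hu, hu1, hv.pos (by linarith), hv.av, ?_, ?_⟩
  · refine le_of_mul_le_mul_left (a := N) ?_ hN
    linarith
  · refine lt_of_mul_lt_mul_left (a := N) ?_ hN.le
    have e : N * ((1 + 2 * a * allStabI a b) * v) = (N + 2 * a) * v := by
      linear_combination 2 * a * v * hIN
    linarith [hv.low]
  · refine lt_of_mul_lt_mul_left (a := N) ?_ hN.le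
    have := hv.high
    rw [hb.dim] at this
    linarith

namespace AllLow

open Pack

local instance stripSignsAdd : Add Pack.Ex := ⟨Ex.add⟩
local instance stripSignsSub : Sub Pack.Ex := ⟨Ex.sub⟩
local instance stripSignsMul : Mul Pack.Ex := ⟨Ex.mul⟩

/-- A point of a reversed side. -/
theorem strip_back {A B : ℤ} {den : ℕ} (hden : 0 < den) {y : ℝ}
    (h1 : (B : ℝ) < y * den) (h2 : y * den ≤ (A : ℝ)) :
    ∃ t : ℝ, 0 ≤ t ∧ 0 < ((den : ℤ) : ℝ) + ((den : ℤ) : ℝ) * t ∧
      (A : ℝ) + B * t = y * (((den : ℤ) : ℝ) + ((den : ℤ) : ℝ) * t) := by
  have hd : (0 : ℝ) < den := by exact_mod_cast hden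
  have ht : 0 ≤ ((A : ℝ) - y * den) / (y * den - B) := div_nonneg (by linarith) (by linarith)
  refine ⟨_, ht, by push_cast; positivity, ?_⟩
  have e := div_mul_cancel₀ ((A : ℝ) - y * den) (show y * den - B ≠ 0 by linarith)
  push_cast
  linear_combination -e

/-- A point of four sides. -/
theorem strip_point {C : ℕ → Chart} {y₀ y₁ y₂ y₃ : ℝ}
    (g₀ : ∃ t : ℝ, 0 ≤ t ∧ 0 < ((C 0).c : ℝ) + (C 0).d * t ∧
      ((C 0).a : ℝ) + (C 0).b * t = y₀ * (((C 0).c : ℝ) + (C 0).d * t))
    (g₁ : ∃ t : ℝ, 0 ≤ t ∧ 0 < ((C 1).c : ℝ) + (C 1).d * t ∧
      ((C 1).a : ℝ) + (C 1).b * t = y₁ * (((C 1).c : ℝ) + (C 1).d * t))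
    (g₂ : ∃ t : ℝ, 0 ≤ t ∧ 0 < ((C 2).c : ℝ) + (C 2).d * t ∧
      ((C 2).a : ℝ) + (C 2).b * t = y₂ * (((C 2).c : ℝ) + (C 2).d * t))
    (g₃ : ∃ t : ℝ, 0 ≤ t ∧ 0 < ((C 3).c : ℝ) + (C 3).d * t ∧
      ((C 3).a : ℝ) + (C 3).b * t = y₃ * (((C 3).c : ℝ) + (C 3).d * t)) :
    ∀ i < 4, ∃ t : ℝ, 0 ≤ t ∧ 0 < ((C i).c : ℝ) + (C i).d * t ∧
      ((C i).a : ℝ) + (C i).b * t = stabPt y₀ y₁ y₂ y₃ i * (((C i).c : ℝ) + (C i).d * t) := by
  intro i hi
  interval_cases i <;> simpa [stabPt]

theorem strip_conds_A {a b u v : ℝ} (h : StripPlace a b u v) (hy : a * v ≤ 34 / 1000) :
    0 < (stripAt a b u v).condA ∧ 0 ≤ (stripAt a b u v).condB ∧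
      0 ≤ (stripAt a b u v).condC := by
  obtain ⟨hI0, hI20, ha, hd, hu, hu1, hv, hav, hlo, hhi⟩ := h
  obtain ⟨I, hI⟩ : ∃ I, I = allStabI a b := ⟨_, rfl⟩
  rw [← hI] at hI0 hI20 hlo hhi
  have hS : a + b = 1 - 2 * I := by simp only [hI, allStabI]; ring
  have hS0 : 0 < a + b := by linarith
  obtain ⟨r, hr⟩ : ∃ r, r = 2 * I / ((a + b) * v) := ⟨_, rfl⟩
  obtain ⟨t, ht⟩ : ∃ t, t = (a + b) * ((b - a) * v) / (2 * I) := ⟨_, rfl⟩
  have hre : r * ((a + b) * v) = 2 * I := by rw [hr, div_mul_cancel₀ _ (by positivity)]
  have hte : t * (2 * I) = (a + b) * ((b - a) * v) := by rw [ht, div_mul_cancel₀ _ (by positivity)]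
  have hr0 : 0 < r := hr ▸ by positivity
  have ht0 : 0 < t := ht ▸ by positivity
  have ht1 : t < 1 := by rw [ht, div_lt_one (by positivity)]; exact hhi
  have htr : t * r = b - a := by rw [hr, ht]; field_simp
  have hk : 1 + v * r = 1 / (a + b) := by
    rw [eq_div_iff hS0.ne']
    linear_combination hre + hS
  have hv9 : v < 1 / 9 := by linarith [mul_le_mul_of_nonneg_right ha.le hv.le]
  have hr76 : r < 7 / 6 := by
    refine lt_of_mul_lt_mul_right (a := (a + b) * v) ?_ (by positivity)
    rw [hre]
    have h1 : a * I ≤ 1 / 2 * I := mul_le_mul_of_nonneg_right (by linarith) hI0.le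
    have h2 := mul_le_mul_of_nonneg_right
      (show 6 * (1 + 2 * a * I) ≤ 7 * (a + b) by linarith) hv.le
    linarith
  set p := stripAt a b u v with hp
  have hC : StripChartA (stabPt (1 - u) v r t) p (2 / (a + b)) := by
    have hk' : (2 : ℝ) / (a + b) = 2 * (1 + v * r) := by rw [hk]; ring
    have e2 : (a + b) * (1 + v * r) = 1 := by rw [hk]; field_simp
    have e3 : 2 * I * (1 + v * r) = v * r := by linear_combination (1 + v * r) * hS - e2
    constructor <;>
      simp only [eStripAK1, eStripASg, eStripA_w, eStripA_v, eStripA_I, eStripA_S, eStripA_d,
        eStripA_a, eStripA_b, eStripA_K, eStripA_IT, eStripA_dv, hp, stripAt, ← hI, Ex.eval,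
        eval_add', eval_sub', eval_mul', eval_num', stabPt, hk'] <;>
      norm_num
    · linarith
    · linear_combination -2 * e2
    · linarith
    · linear_combination -e2 - (1 + v * r) * htr
    · linear_combination -e2 + (1 + v * r) * htr
    · linear_combination v * e2 + v * (1 + v * r) * htr
    · linear_combination -(1 - t) * e3 - (1 + v * r) * hte
    · exact Or.inl htr
  have hk0 : 0 < 2 / (a + b) := by positivity
  have hw0 : 0 < 1 - u := by linarith
  refine ⟨?_, ?_, ?_⟩
  · have hb1 : 0 ≤ eStripAMain.eval (stabPt (1 - u) v r t) := by
      rcases lt_or_ge r (19 / 25) with h1 | h1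
      · exact nonneg_of_checkFour stripAMainOne_ok (strip_point
          (by simp only [stripAMainOneBox]
              exact side_point (den := 1) (by norm_num) (by push_cast; linarith)
                (by push_cast; linarith))
          (by simp only [stripAMainOneBox]
              exact side_point (den := 9) (by norm_num) (by push_cast; linarith)
                (by push_cast; linarith))
          (by simp only [stripAMainOneBox]
              exact side_point (den := 25) (by norm_num) (by push_cast; linarith)
                (by push_cast; linarith))
          (by simp only [stripAMainOneBox]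
              exact side_point (den := 1) (by norm_num) (by push_cast; linarith)
                (by push_cast; linarith)))
      · have h2 : t < 1 / 2 := by
          refine not_le.1 fun h2 => ?_
          have := mul_le_mul h2 h1 (by norm_num) ht0.le
          linarith
        rcases lt_or_ge (1 - u) (1 / 2) with h3 | h3
        · exact nonneg_of_checkFour stripAMainTwo_ok (strip_point
            (by simp only [stripAMainTwoBox]
                exact side_point (den := 2) (by norm_num) (by push_cast; linarith)
                  (by push_cast; linarith))
            (by simp only [stripAMainTwoBox]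
                exact side_point (den := 9) (by norm_num) (by push_cast; linarith)
                  (by push_cast; linarith))
            (by simp only [stripAMainTwoBox]
                exact side_point (den := 150) (by norm_num) (by push_cast; linarith)
                  (by push_cast; linarith))
            (by simp only [stripAMainTwoBox]
                exact side_point (den := 2) (by norm_num) (by push_cast; linarith)
                  (by push_cast; linarith)))
        · exact nonneg_of_checkFour stripAMainThree_ok (strip_point
            (by simp only [stripAMainThreeBox]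
                exact side_point (den := 2) (by norm_num) (by push_cast; linarith)
                  (by push_cast; linarith))
            (by simp only [stripAMainThreeBox]
                exact side_point (den := 9) (by norm_num) (by push_cast; linarith)
                  (by push_cast; linarith))
            (by simp only [stripAMainThreeBox]
                exact side_point (den := 150) (by norm_num) (by push_cast; linarith)
                  (by push_cast; linarith))
            (by simp only [stripAMainThreeBox]
                exact side_point (den := 2) (by norm_num) (by push_cast; linarith)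
                  (by push_cast; linarith)))
    simp only [eStripAMain, eval_sub', eval_mul', evalA_condA hC] at hb1
    simp only [Ex.eval, stabPt] at hb1
    norm_num at hb1
    have : 0 < (1 - u) ^ 3 * (v * (r ^ 3 * t ^ 2)) := by positivity
    refine pos_of_mul_pos_left (b := (2 / (a + b)) ^ 9) ?_ (by positivity)
    linarith
  · have hb1 : 0 ≤ eStripA_condB.eval (stabPt (1 - u) v r t) := by
      exact nonneg_of_checkFour stripAUpperAll_ok (strip_point
        (by simp only [stripAUpperAllBox]
            exact side_point (den := 1) (by norm_num) (by push_cast; linarith)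
              (by push_cast; linarith))
        (by simp only [stripAUpperAllBox]
            exact side_point (den := 9) (by norm_num) (by push_cast; linarith)
              (by push_cast; linarith))
        (by simp only [stripAUpperAllBox]
            exact side_point (den := 6) (by norm_num) (by push_cast; linarith)
              (by push_cast; linarith))
        (by simp only [stripAUpperAllBox]
            exact side_point (den := 1) (by norm_num) (by push_cast; linarith)
              (by push_cast; linarith)))
    rw [evalA_condB hC] at hb1
    exact nonneg_of_mul_nonneg_left hb1 (by positivity)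
  · have hb1 : 0 ≤ eStripA_condC.eval (stabPt (1 - u) v r t) := by
      exact nonneg_of_checkFour stripALowerAll_ok (strip_point
        (by simp only [stripALowerAllBox]
            exact side_point (den := 1) (by norm_num) (by push_cast; linarith)
              (by push_cast; linarith))
        (by simp only [stripALowerAllBox]
            exact side_point (den := 9) (by norm_num) (by push_cast; linarith)
              (by push_cast; linarith))
        (by simp only [stripALowerAllBox]
            exact side_point (den := 6) (by norm_num) (by push_cast; linarith)
              (by push_cast; linarith))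
        (by simp only [stripALowerAllBox]
            exact side_point (den := 1) (by norm_num) (by push_cast; linarith)
              (by push_cast; linarith)))
    rw [evalA_condC hC] at hb1
    exact nonneg_of_mul_nonneg_left hb1 (by positivity)

theorem strip_conds_B {a b u v : ℝ} (h : StripPlace a b u v) (hy : 34 / 1000 < a * v) :
    0 < (stripAt a b u v).condA ∧ 0 ≤ (stripAt a b u v).condB ∧
      0 ≤ (stripAt a b u v).condC := by
  obtain ⟨hI0, hI20, ha, hd, hu, hu1, hv, hav, hlo, hhi⟩ := h
  obtain ⟨I, hI⟩ : ∃ I, I = allStabI a b := ⟨_, rfl⟩
  rw [← hI] at hI0 hI20 hlo hhi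
  have hS : a + b = 1 - 2 * I := by simp only [hI, allStabI]; ring
  have hS0 : 0 < a + b := by linarith
  obtain ⟨t, ht⟩ : ∃ t, t = (a + b) * ((b - a) * v) / (2 * I) := ⟨_, rfl⟩
  have hte : t * (2 * I) = (a + b) * ((b - a) * v) := by rw [ht, div_mul_cancel₀ _ (by positivity)]
  have ht0 : 0 < t := ht ▸ by positivity
  have ht1 : t < 1 := by rw [ht, div_lt_one (by positivity)]; exact hhi
  set p := stripAt a b u v with hp
  have hC : StripChartB (stabPt (1 - u) (1 - a * v) I t) p ((a + b) ^ 2 * v) := by
    constructor <;>
      simp only [eStripBK1, eStripBK2, eStripBS0, eStripBY, eStripBIt, eStripB_w, eStripB_v,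
        eStripB_I, eStripB_S, eStripB_d, eStripB_a, eStripB_b, eStripB_K, eStripB_IT, eStripB_dv,
        hp, stripAt, ← hI, Ex.eval, eval_add', eval_sub', eval_mul', eval_num', stabPt] <;>
      norm_num <;> (try rw [show (1 : ℝ) - 2 * I = a + b from hS.symm]) <;>
      first
      | linear_combination hte
      | linear_combination (a + b) * hte
      | linear_combination (1 / 2) * hte
      | ring
  have hk0 : 0 < (a + b) ^ 2 * v := by positivity
  have hw0 : 0 < 1 - u := by linarith
  have hK0 : 0 < 1 - a * v := by linarith
  refine ⟨?_, ?_, ?_⟩
  · have hb1 : 0 ≤ eStripBMain.eval (stabPt (1 - u) (1 - a * v) I t) := by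
      rcases lt_or_ge (1 - a * v) (1 / 2) with h1 | h1
      · exact nonneg_of_checkFour stripBMainOne_ok (strip_point
          (by simp only [stripBMainOneBox]
              exact side_point (den := 1) (by norm_num) (by push_cast; linarith)
                (by push_cast; linarith))
          (by simp only [stripBMainOneBox]
              exact side_point (den := 1000) (by norm_num) (by push_cast; linarith)
                (by push_cast; linarith))
          (by simp only [stripBMainOneBox]
              exact strip_back (den := 20) (by norm_num) (by push_cast; linarith)
                (by push_cast; linarith))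
          (by simp only [stripBMainOneBox]
              exact side_point (den := 1) (by norm_num) (by push_cast; linarith)
                (by push_cast; linarith)))
      · rcases lt_or_ge (1 - u) (1 / 2) with h3 | h3
        · exact nonneg_of_checkFour stripBMainTwo_ok (strip_point
            (by simp only [stripBMainTwoBox]
                exact side_point (den := 2) (by norm_num) (by push_cast; linarith)
                  (by push_cast; linarith))
            (by simp only [stripBMainTwoBox]
                exact side_point (den := 1000) (by norm_num) (by push_cast; linarith)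
                  (by push_cast; linarith))
            (by simp only [stripBMainTwoBox]
                exact strip_back (den := 20) (by norm_num) (by push_cast; linarith)
                  (by push_cast; linarith))
            (by simp only [stripBMainTwoBox]
                exact side_point (den := 1) (by norm_num) (by push_cast; linarith)
                  (by push_cast; linarith)))
        · exact nonneg_of_checkFour stripBMainThree_ok (strip_point
            (by simp only [stripBMainThreeBox]
                exact side_point (den := 2) (by norm_num) (by push_cast; linarith)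
                  (by push_cast; linarith))
            (by simp only [stripBMainThreeBox]
                exact side_point (den := 1000) (by norm_num) (by push_cast; linarith)
                  (by push_cast; linarith))
            (by simp only [stripBMainThreeBox]
                exact strip_back (den := 20) (by norm_num) (by push_cast; linarith)
                  (by push_cast; linarith))
            (by simp only [stripBMainThreeBox]
                exact side_point (den := 1) (by norm_num) (by push_cast; linarith)
                  (by push_cast; linarith)))
    simp only [eStripBMain, eval_sub', eval_mul', evalB_condA hC] at hb1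
    simp only [Ex.eval, stabPt] at hb1
    norm_num at hb1
    have : 0 < (1 - u) ^ 3 * ((1 - a * v) ^ 2 * (I ^ 3 * t ^ 2)) := by positivity
    refine pos_of_mul_pos_left (b := ((a + b) ^ 2 * v) ^ 3 * (a + b) ^ 9) ?_ (by positivity)
    simp only [hp, stripAt] at hb1 ⊢
    linarith
  · have hb1 : 0 ≤ eStripB_condB.eval (stabPt (1 - u) (1 - a * v) I t) := by
      exact nonneg_of_checkFour stripBUpperAll_ok (strip_point
        (by simp only [stripBUpperAllBox]
            exact side_point (den := 1) (by norm_num) (by push_cast; linarith)
              (by push_cast; linarith))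
        (by simp only [stripBUpperAllBox]
            exact side_point (den := 1000) (by norm_num) (by push_cast; linarith)
              (by push_cast; linarith))
        (by simp only [stripBUpperAllBox]
            exact strip_back (den := 20) (by norm_num) (by push_cast; linarith)
              (by push_cast; linarith))
        (by simp only [stripBUpperAllBox]
            exact side_point (den := 1) (by norm_num) (by push_cast; linarith)
              (by push_cast; linarith)))
    rw [evalB_condB hC] at hb1
    exact nonneg_of_mul_nonneg_left hb1 (by simp only [hp, stripAt]; positivity)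
  · have hb1 : 0 ≤ eStripB_condC.eval (stabPt (1 - u) (1 - a * v) I t) := by
      exact nonneg_of_checkFour stripBLowerAll_ok (strip_point
        (by simp only [stripBLowerAllBox]
            exact side_point (den := 1) (by norm_num) (by push_cast; linarith)
              (by push_cast; linarith))
        (by simp only [stripBLowerAllBox]
            exact side_point (den := 1000) (by norm_num) (by push_cast; linarith)
              (by push_cast; linarith))
        (by simp only [stripBLowerAllBox]
            exact strip_back (den := 20) (by norm_num) (by push_cast; linarith)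
              (by push_cast; linarith))
        (by simp only [stripBLowerAllBox]
            exact side_point (den := 1) (by norm_num) (by push_cast; linarith)
              (by push_cast; linarith)))
    rw [evalB_condC hC] at hb1
    exact nonneg_of_mul_nonneg_left hb1 (by simp only [hp, stripAt]; positivity)

end AllLow

end Vale.Agent.P100.Calib.Band
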