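import Vale.Agent.P100.Calib.SlabAllUp
import Vale.Agent.P100.Calib.SlabAllStab

/-!
# The bands of the first stretch of the strip

For real `N ≥ 7` and `31/100 < a` the bands `allLowG` and `allUpG` hold on `0 < u ≤ 1/10` wherever
`v ≤ 4 I` there, `I = allStabI a b`. Both start at the centre.
-/

set_option linter.unusedVariables false

open Set Filter Topology

namespace Vale.Agent.P100.Calib.Band

open Vale.Agent.P100.Bubble Chart Pack

namespace AllLow

local instance stripStartAdd : Add Pack.Ex := ⟨Ex.add⟩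
local instance stripStartSub : Sub Pack.Ex := ⟨Ex.sub⟩
local instance stripStartMul : Mul Pack.Ex := ⟨Ex.mul⟩

/-- `u ∈ [0, 11/100)`, `X ∈ [87/100, 201/100)`, `I ∈ [0, 15/100)`, `a ∈ [31/100, 51/100)`. -/
def stripStartBox : ℕ → Chart
  | 0 => ⟨0, 11, 100, 100⟩
  | 1 => ⟨87, 201, 100, 100⟩
  | 2 => ⟨0, 15, 100, 100⟩
  | _ => ⟨31, 51, 100, 100⟩

theorem start_flow : checkFour stripStartBox 259 5 3 14 9 eLowI = true := by decide +kernel

theorem start_den : checkFour stripStartBox 94 2 1 5 3 eDenI = true := by decide +kernel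

theorem start_up : checkFour stripStartBox 305 9 3 14 11 eUpI = true := by decide +kernel

theorem start_up_den : checkFour stripStartBox 117 4 1 5 4 eUpDenI = true := by decide +kernel

/-- The signs on both bands. -/
theorem start_signs {N a b u v : ℝ} (hb : SlabBoxAll N a b) (h7 : 7 ≤ N) (ha : 31 / 100 < a)
    (hu : 0 < u) (hu1 : u ≤ 1 / 10) (hv : VRange N a b v) (hE : v ≤ 4 * allStabI a b) :
    (0 < allDen a b u v (allLowG a b u v) ∧
        0 < allDot a b u v (allLowG a b u v) (-allLowGu a b u v) (-allLowGv a b u) 1) ∧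
      (0 < allDen a b u v (allUpG a b u v) ∧
        allDot a b u v (allUpG a b u v) (-allUpGu a b u v) (-allLowGv a b u) 1 < 0) := by
  obtain ⟨ha0, hb0, hd, -, -, -, ha2⟩ := hb.facts
  have hN : 0 < N := by linarith
  obtain ⟨I, hI⟩ : ∃ I, I = allStabI a b := ⟨_, rfl⟩
  rw [← hI] at hE
  have hbI : b = 1 - 2 * I - a := by rw [hI, allStabI]; ring
  have hIN : N * I = 1 := by
    have e := hb.sum
    rw [hbI] at e
    linarith
  have hI0 : 0 < I := pos_of_mul_pos_right (hIN ▸ one_pos) hN.le
  have hI7 : I ≤ 1 / 7 := by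
    refine le_of_mul_le_mul_left (a := N) ?_ hN
    linarith
  obtain ⟨X, rfl⟩ : ∃ X, v = 2 * I * X :=
    ⟨v / (2 * I), (mul_div_cancel₀ v (mul_pos two_pos hI0).ne').symm⟩
  have hX1 : 1 < (1 + 2 * a * I) * X := by
    have e : (N + 2 * a) * (2 * I * X) = 2 * ((1 + 2 * a * I) * X) := by
      linear_combination 2 * X * hIN
    linarith [hv.low]
  have hX0 : 0 < X := pos_of_mul_pos_right (one_pos.trans hX1) (by positivity)
  have hXlo : 87 / 100 ≤ X := by
    have h1 : 2 * a * I ≤ 1 / 7 := by
      have := mul_le_mul ha2.le hI7 hI0.le (by norm_num)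
      linarith
    have := mul_le_mul_of_nonneg_right h1 hX0.le
    linarith
  have hXhi : X ≤ 2 := le_of_mul_le_mul_left (a := 2 * I) (by linarith) (by positivity)
  set x : ℕ → ℝ := fun i => if i = 0 then u else if i = 1 then X else if i = 2 then I else a
    with hx
  have hp : ∀ i < 4, ∃ t : ℝ, 0 ≤ t ∧
      0 < ((stripStartBox i).c : ℝ) + (stripStartBox i).d * t ∧
      ((stripStartBox i).a : ℝ) + (stripStartBox i).b * t =
        x i * (((stripStartBox i).c : ℝ) + (stripStartBox i).d * t) := by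
    intro i hi
    interval_cases i <;> refine side_point (by norm_num) ?_ ?_ <;>
      simp [hx, stripStartBox] <;> linarith
  constructor
  · have h1 := nonneg_of_checkFour start_flow hp
    have h2 := nonneg_of_checkFour start_den hp
    obtain ⟨hG, k1, k2⟩ := eval_band (b := b) (u := u) (X := X) (.var 2) (.var 3)
      (x := x) (by simp [hx, Ex.eval]) (by simp [hx, Ex.eval]) (by simp [hx])
      (by simp [hx]) hbI (by linarith) ha0 hd hI0.le
    simp only [eLowI, eDenI, eU, eval_sub', eval_num', Ex.eval] at h1 h2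
    push_cast at h1 h2
    simp [hx] at h1
    have hm : 0 < u * I * a := by positivity
    exact ⟨pos_of_mul_pos_left (by rw [k1]; linarith) hG.le,
      pos_of_mul_pos_left (by rw [k2]; linarith) (pow_pos hG 3).le⟩
  · have h1 := nonneg_of_checkFour start_up hp
    have h2 := nonneg_of_checkFour start_up_den hp
    obtain ⟨hG, k1, k2⟩ := eval_up (b := b) (u := u) (X := X) (.var 2) (.var 3)
      (x := x) (by simp [hx, Ex.eval]) (by simp [hx, Ex.eval]) (by simp [hx])
      (by simp [hx]) hbI (by linarith) ha0 hd hI0.le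
    simp only [eUpI, eUpDenI, eU, eval_sub', eval_num', Ex.eval] at h1 h2
    push_cast at h1 h2
    simp [hx] at h1
    have hm : 0 < u * I * a := by positivity
    exact ⟨pos_of_mul_pos_left (by rw [k1]; linarith) hG.le,
      neg_of_mul_neg_left (by rw [k2]; linarith) (pow_pos hG 3).le⟩

end AllLow

variable {N p q : ℝ} {S : Set ℝ} {R x y s dx dy : ℝ → ℝ}

/-- **The bands of the first stretch of the strip** for real `N ≥ 7` and `31/100 < 1/(p+1)`. -/
theorem orbit_strip_start (hf : IsOrbitFns N p q S R x y s dx dy)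
    (hb : SlabBoxAll N (1 / (p + 1)) (1 / (q + 1))) (h7 : 7 ≤ N) (ha : 31 / 100 < 1 / (p + 1))
    (hv : ∀ z ∈ S, 0 < R z → uOf N (R z) (x z) ≤ 1 / 10 →
      vOf (1 / (p + 1)) (1 / (q + 1)) (y z / x z) ≤ 4 * allStabI (1 / (p + 1)) (1 / (q + 1)))
    {w : ℝ} (hw : w ∈ S) (hw0 : 0 < R w) (hwu : uOf N (R w) (x w) ≤ 1 / 10) :
    let al := 1 / (p + 1)
    let be := 1 / (q + 1)
    let u := uOf N (R w) (x w)
    let v := vOf al be (y w / x w)
    let H := hOf N (R w) (x w) (y w) w / (be - al)
    allLowG al be u v < H ∧ H < allUpG al be u v := by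
  intro al be u v H
  obtain ⟨ha0, hb0, hd, -⟩ := hb.facts
  have hS : al + be < 2 := by simp only [al, be]; linarith [hb.S_lt]
  obtain ⟨c1, c2, c3⟩ := continuous_allLow ha0 hd hS
  obtain ⟨d1, d2⟩ := continuous_allUp ha0 hd hS
  have hpole : allPole al be 0 = be - 0 * al := (allPole_eq zero_le_one).1
  have h2 : (2 : ℝ) - (al + be) ≠ 0 := by linarith
  have hbe : be ≠ 0 := hb0.ne'
  constructor
  · have key := band_step_all hf hb (u₁ := 1 / 10) (one_mul 1) (hasGradTwo_allLow ha0 hd hS)
      c1 c2 c3 (fun _ v => v ≤ 4 * allStabI al be) hv (fun v _ _ _ => ?_)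
      (fun u v hu _ hu1 hvr hE => ?_) hw hw0 hwu
    · linarith
    · refine le_of_eq ?_
      simp only [allLowG, allHc, allLowN, hpole, zero_mul, sub_zero, add_zero, al, be] at h2 hbe ⊢
      field_simp
      ring
    · rw [one_mul]
      exact (AllLow.start_signs hb h7 ha hu hu1 hvr hE).1
  · have key := band_step_all hf hb (e := -1) (u₁ := 1 / 10) (by norm_num)
      (hasGradTwo_allUp ha0 hd hS) d1 d2 c3 (fun _ v => v ≤ 4 * allStabI al be) hv
      (fun v _ _ _ => ?_) (fun u v hu _ hu1 hvr hE => ?_) hw hw0 hwu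
    · linarith
    · refine le_of_eq ?_
      simp only [allUpG, allHc, allUpN, hpole, zero_mul, sub_zero, add_zero, al, be] at h2 hbe ⊢
      field_simp
      ring
    · obtain ⟨h1, h2⟩ := (AllLow.start_signs hb h7 ha hu hu1 hvr hE).2
      exact ⟨h1, by linarith⟩

end Vale.Agent.P100.Calib.Band
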