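import Vale.Agent.P100.Calib.SlabStripFlow
import Vale.Agent.P100.Calib.SlabStripSevAtoms

/-!
# The quantities of the band of the radial speed near `u = 1` in the strip

`F = tuC Den - tuG Flow` is `tuNz - tuMz H` in the variables of `StripAtoms`.
-/

namespace Vale.Agent.P100.Calib.Band.StripAtoms

variable (p : StripAtoms)

/-- The coefficient of `allDen` in the tube. -/
def tuC : ℝ := 4 * ((p.w + p.I) * p.I)

/-- The coefficient of `allFlow` in the tube. -/
def tuG : ℝ := 4 * p.I + 4 * p.w + 3 * p.d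

/-- The band function at `H = 0`. -/
def tuNz : ℝ := p.tuC * p.D0 + p.tuG * p.N

/-- Minus its slope in `H`. -/
def tuMz : ℝ := p.tuC * p.ud + p.tuG * p.f0

/-- The derivative of `tuNz` in `u`. -/
def tuNu : ℝ := 0 - (4 * (p.I * p.D0) + 4 * p.N)

/-- The derivative of `tuMz` in `u`. -/
def tuMu : ℝ := p.tuC * p.d + p.tuG * (p.S * (p.K * p.d) - p.S * p.q) - (4 * (p.I * p.ud) + 4 *
    p.f0)

/-- The derivative of `tuNz` in `v`. -/
def tuNv : ℝ := p.tuC * p.d + p.tuG * (p.S * (p.K * p.d - p.a * p.D0))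

/-- The derivative of `tuMz` in `v`. -/
def tuMv : ℝ := p.tuG * (p.b * p.d - (p.S * (p.u * p.d) + p.S * (p.a * p.ud)))

/-- `allEn` at the zero, cleared. -/
def tuEn : ℝ := p.E0 * p.tuMz - p.e1 * p.tuNz

/-- `allFlow` at the zero, cleared. -/
def tuFl : ℝ := p.f0 * p.tuNz - p.N * p.tuMz

/-- `allFh` at the zero, cleared. -/
def tuFh : ℝ := p.A0 * (p.tuMz * p.tuMz) - (p.A1 + p.ud * p.A0 + p.E0) * (p.tuNz * p.tuMz) + (p.ud
    * p.A1 + p.e1) * (p.tuNz * p.tuNz)

/-- The flow through the zero, cleared. -/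
def tuT : ℝ := (p.tuNu * p.tuMz - p.tuNz * p.tuMu) * (p.u * p.tuEn) + (p.tuNv * p.tuMz - p.tuNz *
    p.tuMv) * (p.qu * p.tuFl) - p.tuMz * p.tuFh

/-- The exit band at the zero, cleared. -/
def tuTop : ℝ := p.upM * p.tuMz - 20 * (p.P * p.tuNz)

/-- The multiplier of the exit band. -/
def tuMult : ℝ := p.S * (p.tuG * p.tuG * p.qn) * (8 + 2 * p.w + 2 * p.d - 3 * p.I)

/-- The flow less a multiple of the exit band. -/
def tube : ℝ := 80 * p.tuT - p.tuMult * p.tuTop

/-- A mean of the two upper bands. -/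
def tuMix : ℝ := 7 * (p.upM * p.upW) + 3 * (p.sevN * (20 * p.P))

/-- The band function at the mean, cleared. -/
def tuEntry : ℝ := p.tuNz * (200 * (p.P * p.upW)) - p.tuMz * p.flMixC

/-- The band function at the mean for `N` below twenty, cleared. -/
def tuEntryS : ℝ := p.tuNz * (200 * (p.P * p.upW)) - p.tuMz * p.tuMix

/-- The flow at the upper band, with sign changed. -/
def tuLow : ℝ := p.N * p.upW - p.f0 * p.sevN

end Vale.Agent.P100.Calib.Band.StripAtoms
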