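import Vale.Agent.P100.Calib.SlabStripTubeExpr

/-!
# The checks of the band of the radial speed near `u = 1` in the strip
-/

set_option linter.defProp false

namespace Vale.Agent.P100.Calib.Band.AllLow

open Pack

/-- A box. -/
def stripTubeABox : ℕ → Chart
  | 0 => ⟨3, 0, 10, 10⟩ | 1 => ⟨0, 1, 1, 1⟩ | 2 => ⟨0, 8, 5, 5⟩ | _ => ⟨0, 1, 1, 1⟩

/-- The check of this box. -/
def stripTubeA_ok : checkFour stripTubeABox 169 8 15 21 12
    eStripTubeA_less = true := by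
  decide +kernel

/-- A box. -/
def stripTubeAMzBox : ℕ → Chart
  | 0 => ⟨3, 0, 10, 10⟩ | 1 => ⟨0, 1, 1, 1⟩ | 2 => ⟨0, 8, 5, 5⟩ | _ => ⟨0, 1, 1, 1⟩

/-- The check of this box. -/
def stripTubeAMz_ok : checkFour stripTubeAMzBox 45 2 4 6 3
    eStripTubeA_tuMz = true := by
  decide +kernel

/-- A box. -/
def stripTubeBBox : ℕ → Chart
  | 0 => ⟨3, 0, 10, 10⟩ | 1 => ⟨0, 7, 10, 10⟩ | 2 => ⟨1, 0, 7, 7⟩ | _ => ⟨0, 1, 1, 1⟩

/-- The check of this box. -/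
def stripTubeB_ok : checkFour stripTubeBBox 228 8 7 22 11
    eStripTubeB_less = true := by
  decide +kernel

/-- A box. -/
def stripTubeBMzBox : ℕ → Chart
  | 0 => ⟨3, 0, 10, 10⟩ | 1 => ⟨0, 7, 10, 10⟩ | 2 => ⟨1, 0, 7, 7⟩ | _ => ⟨0, 1, 1, 1⟩

/-- The check of this box. -/
def stripTubeBMz_ok : checkFour stripTubeBMzBox 50 2 2 6 3
    eStripTubeB_tuMz = true := by
  decide +kernel

/-- A box. -/
def stripTubeEBox : ℕ → Chart
  | 0 => ⟨70, 67, 100, 100⟩ | 1 => ⟨30, 6, 5, 5⟩ | 2 => ⟨1, 0, 20, 20⟩ | _ => ⟨0, 1, 1, 1⟩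

/-- The check of this box. -/
def stripTubeE_ok : checkFour stripTubeEBox 221 7 3 12 7
    eStripTubeE_less = true := by
  decide +kernel

/-- A box. -/
def stripTubeESBox : ℕ → Chart
  | 0 => ⟨70, 67, 100, 100⟩ | 1 => ⟨7, 165, 5, 5⟩ | 2 => ⟨20, 7, 140, 140⟩ | _ => ⟨0, 1, 1, 1⟩

/-- The check of this box. -/
def stripTubeES_ok : checkFour stripTubeESBox 259 7 3 12 7
    eStripTubeE_lessS = true := by
  decide +kernel

/-- A box. -/
def stripTubeELowBox : ℕ → Chart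
  | 0 => ⟨70, 67, 100, 100⟩ | 1 => ⟨56, 35, 40, 40⟩ | 2 => ⟨20, 7, 140, 140⟩ | _ => ⟨0, 1, 1, 1⟩

/-- The check of this box. -/
def stripTubeELow_ok : checkFour stripTubeELowBox 172 5 2 8 4
    eStripTubeE_lessLow = true := by
  decide +kernel

end Vale.Agent.P100.Calib.Band.AllLow
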