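import Vale.Agent.P100.Calib.SlabStripUpExprA
import Vale.Agent.P100.Calib.SlabStripUpExprB
import Vale.Agent.P100.Calib.SlabStripLeftExpr

/-!
# The packed numerators of the band of the radial speed near `u = 1`

The charts `(w, v, rho, tau)`, `(w, K, I, tau)` of the upper bands and, for the entry,
`(u, v/(2 I), I, theta)`.
-/

namespace Vale.Agent.P100.Calib.Band.AllLow

open Pack

local instance stripTubeAdd : Add Pack.Ex := ⟨Ex.add⟩
local instance stripTubeSub : Sub Pack.Ex := ⟨Ex.sub⟩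
local instance stripTubeMul : Mul Pack.Ex := ⟨Ex.mul⟩

/-- `v` times a hundred in the chart of the entry, `x₁ = v/(2 I)`. -/
def eStripTubeV : Pack.Ex := (eN 200) * ((Ex.var 2) * (Ex.var 1))

/-- A packed quantity. -/
def eStripTubeA_tuC : Pack.Ex := (eN 4) * (((eStripUpA_w * eStripUpAK1) + eStripUpA_I) *
    eStripUpA_I)

/-- A packed quantity. -/
def eStripTubeA_tuG : Pack.Ex := (((eN 4) * eStripUpA_I) + (((eN 4) * eStripUpA_w) * eStripUpAK1))
    + (((eN 3) * eStripUpA_d) * eStripUpAK1)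

/-- A packed quantity. -/
def eStripTubeA_tuNz : Pack.Ex := ((eStripTubeA_tuC * eStripUpA_D0) * eStripUpAK1) +
    (eStripTubeA_tuG * eStripUpA_N)

/-- A packed quantity. -/
def eStripTubeA_tuMz : Pack.Ex := ((eStripTubeA_tuC * eStripUpA_ud) * eStripUpAK1) +
    (eStripTubeA_tuG * eStripUpA_f0)

/-- A packed quantity. -/
def eStripTubeA_tuNu : Pack.Ex := ((eN 0) * (Ex.pow eStripUpAK1 2)) - ((((eN 4) * (eStripUpA_I *
    eStripUpA_D0)) * eStripUpAK1) + ((eN 4) * eStripUpA_N))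

/-- A packed quantity. -/
def eStripTubeA_tuMu : Pack.Ex := (((eStripTubeA_tuC * eStripUpA_d) * eStripUpAK1) +
    (eStripTubeA_tuG * ((eStripUpA_S * (eStripUpA_K * eStripUpA_d)) - ((eStripUpA_S * eStripUpA_q)
    * eStripUpAK1)))) - (((((eN 4) * (eStripUpA_I * eStripUpA_ud)) * eStripUpAK1) + ((eN 4) *
    eStripUpA_f0)) * eStripUpAK1)

/-- A packed quantity. -/
def eStripTubeA_tuNv : Pack.Ex := ((eStripTubeA_tuC * eStripUpA_d) * eStripUpAK1) +
    (eStripTubeA_tuG * (eStripUpA_S * ((eStripUpA_K * eStripUpA_d) - (eStripUpA_a *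
    eStripUpA_D0))))

/-- A packed quantity. -/
def eStripTubeA_tuMv : Pack.Ex := eStripTubeA_tuG * (((eStripUpA_b * eStripUpA_d) * eStripUpAK1) -
    (((eStripUpA_S * (eStripUpA_u * eStripUpA_d)) * eStripUpAK1) + (eStripUpA_S * (eStripUpA_a *
    eStripUpA_ud))))

/-- A packed quantity. -/
def eStripTubeA_tuEn : Pack.Ex := (eStripUpA_E0 * eStripTubeA_tuMz) - (eStripUpA_e1 *
    eStripTubeA_tuNz)

/-- A packed quantity. -/
def eStripTubeA_tuFl : Pack.Ex := (eStripUpA_f0 * eStripTubeA_tuNz) - (eStripUpA_N *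
    eStripTubeA_tuMz)

/-- A packed quantity. -/
def eStripTubeA_tuFh : Pack.Ex := ((eStripUpA_A0 * (eStripTubeA_tuMz * eStripTubeA_tuMz)) -
    (((eStripUpA_A1 + (eStripUpA_ud * eStripUpA_A0)) + eStripUpA_E0) * (eStripTubeA_tuNz *
    eStripTubeA_tuMz))) + (((eStripUpA_ud * eStripUpA_A1) + eStripUpA_e1) * (eStripTubeA_tuNz *
    eStripTubeA_tuNz))

/-- A packed quantity. -/
def eStripTubeA_tuT : Pack.Ex := (((((eStripTubeA_tuNu * eStripTubeA_tuMz) * eStripUpAK1) -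
    (eStripTubeA_tuNz * eStripTubeA_tuMu)) * (eStripUpA_u * eStripTubeA_tuEn)) +
    (((eStripTubeA_tuNv * eStripTubeA_tuMz) - (eStripTubeA_tuNz * eStripTubeA_tuMv)) *
    (eStripUpA_qu * eStripTubeA_tuFl))) - (eStripTubeA_tuMz * eStripTubeA_tuFh)

/-- A packed quantity. -/
def eStripTubeA_tuTop : Pack.Ex := (eStripUpA_upM * eStripTubeA_tuMz) - (((eN 20) * (eStripUpA_P *
    eStripTubeA_tuNz)) * eStripUpAK1)

/-- A packed quantity. -/
def eStripTubeA_tuMult : Pack.Ex := (eStripUpA_S * ((eStripTubeA_tuG * eStripTubeA_tuG) *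
    eStripUpA_qn)) * (((((eN 8) + ((eN 2) * eStripUpA_w)) + ((eN 2) * eStripUpA_d)) * eStripUpAK1)
    - ((eN 3) * eStripUpA_I))

/-- A packed quantity. -/
def eStripTubeA_tube : Pack.Ex := ((eN 80) * eStripTubeA_tuT) - ((eStripTubeA_tuMult *
    eStripTubeA_tuTop) * eStripUpAK1)

/-- A packed quantity. -/
def eStripTubeB_tuC : Pack.Ex := (eN 4) * ((eStripUpB_w + eStripUpB_I) * eStripUpB_I)

/-- A packed quantity. -/
def eStripTubeB_tuG : Pack.Ex := ((((eN 4) * eStripUpB_I) + ((eN 4) * eStripUpB_w)) * eStripUpBK1)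
    + ((eN 3) * eStripUpB_d)

/-- A packed quantity. -/
def eStripTubeB_tuNz : Pack.Ex := ((eStripTubeB_tuC * eStripUpB_D0) * eStripUpBK1) +
    (eStripTubeB_tuG * eStripUpB_N)

/-- A packed quantity. -/
def eStripTubeB_tuMz : Pack.Ex := (((eStripTubeB_tuC * eStripUpB_ud) * eStripUpBK1) * eStripUpBK2)
    + (eStripTubeB_tuG * eStripUpB_f0)

/-- A packed quantity. -/
def eStripTubeB_tuNu : Pack.Ex := ((eN 0) * eStripUpBK2) - (((eN 4) * (eStripUpB_I *
    eStripUpB_D0)) + ((eN 4) * eStripUpB_N))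

/-- A packed quantity. -/
def eStripTubeB_tuMu : Pack.Ex := ((((eStripTubeB_tuC * eStripUpB_d) * eStripUpBK1) * eStripUpBK2)
    + (eStripTubeB_tuG * (((eStripUpB_S * (eStripUpB_K * eStripUpB_d)) * eStripUpBK2) -
    ((eStripUpB_S * eStripUpB_q) * eStripUpBK1)))) - (((((eN 4) * (eStripUpB_I * eStripUpB_ud)) *
    eStripUpBK2) + ((eN 4) * eStripUpB_f0)) * eStripUpBK1)

/-- A packed quantity. -/
def eStripTubeB_tuNv : Pack.Ex := (((eStripTubeB_tuC * eStripUpB_d) * eStripUpBK1) * eStripUpBK2)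
    + (eStripTubeB_tuG * (eStripUpB_S * (((eStripUpB_K * eStripUpB_d) * eStripUpBK2) -
    (eStripUpB_a * eStripUpB_D0))))

/-- A packed quantity. -/
def eStripTubeB_tuMv : Pack.Ex := eStripTubeB_tuG * ((eStripUpB_b * eStripUpB_d) - (((eStripUpB_S
    * (eStripUpB_u * eStripUpB_d)) * eStripUpBK1) + (eStripUpB_S * (eStripUpB_a * eStripUpB_ud))))

/-- A packed quantity. -/
def eStripTubeB_tuEn : Pack.Ex := (eStripUpB_E0 * eStripTubeB_tuMz) - (eStripUpB_e1 *
    eStripTubeB_tuNz)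

/-- A packed quantity. -/
def eStripTubeB_tuFl : Pack.Ex := (eStripUpB_f0 * eStripTubeB_tuNz) - (eStripUpB_N *
    eStripTubeB_tuMz)

/-- A packed quantity. -/
def eStripTubeB_tuFh : Pack.Ex := ((eStripUpB_A0 * (eStripTubeB_tuMz * eStripTubeB_tuMz)) -
    ((((eStripUpB_A1 * eStripUpBK2) + (eStripUpB_ud * eStripUpB_A0)) + (eStripUpB_E0 * (Ex.pow
    eStripUpBK2 2))) * (eStripTubeB_tuNz * eStripTubeB_tuMz))) + ((((eStripUpB_ud * eStripUpB_A1)
    + (eStripUpB_e1 * eStripUpBK2)) * (eStripTubeB_tuNz * eStripTubeB_tuNz)) * eStripUpBK2)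

/-- A packed quantity. -/
def eStripTubeB_tuT : Pack.Ex := (((((((eStripTubeB_tuNu * eStripTubeB_tuMz) * eStripUpBK1) -
    (eStripTubeB_tuNz * eStripTubeB_tuMu)) * (eStripUpB_u * eStripTubeB_tuEn)) * eStripUpBK2) +
    (((eStripTubeB_tuNv * eStripTubeB_tuMz) - ((eStripTubeB_tuNz * eStripTubeB_tuMv) *
    eStripUpBK2)) * (eStripUpB_qu * eStripTubeB_tuFl))) * eStripUpBK2) - (eStripTubeB_tuMz *
    eStripTubeB_tuFh)

/-- A packed quantity. -/
def eStripTubeB_tuTop : Pack.Ex := (eStripUpB_upM * eStripTubeB_tuMz) - (((eN 20) * (eStripUpB_P *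
    eStripTubeB_tuNz)) * (Ex.pow eStripUpBK2 2))

/-- A packed quantity. -/
def eStripTubeB_tuMult : Pack.Ex := (eStripUpB_S * ((eStripTubeB_tuG * eStripTubeB_tuG) *
    eStripUpB_qn)) * (((((eN 8) + ((eN 2) * eStripUpB_w)) * eStripUpBK1) + ((eN 2) * eStripUpB_d))
    - (((eN 3) * eStripUpB_I) * eStripUpBK1))

/-- A packed quantity. -/
def eStripTubeB_tube : Pack.Ex := ((eN 80) * eStripTubeB_tuT) - ((eStripTubeB_tuMult *
    eStripTubeB_tuTop) * eStripUpBK2)

/-- A packed quantity. -/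
def eStripTubeE_tuC : Pack.Ex := (eN 4) * (((eLf_w eStripTubeV (eN 1)) + (eLf_I eStripTubeV (eN
    1))) * (eLf_I eStripTubeV (eN 1)))

/-- A packed quantity. -/
def eStripTubeE_tuG : Pack.Ex := ((((eN 4) * (eLf_I eStripTubeV (eN 1))) + ((eN 4) * (eLf_w
    eStripTubeV (eN 1)))) * (eN 100)) + ((eN 3) * (eLf_d eStripTubeV (eN 1)))

/-- A packed quantity. -/
def eStripTubeE_tuNz : Pack.Ex := ((eStripTubeE_tuC * (eLf_D0 eStripTubeV (eN 1))) * (Ex.pow (eN
    100) 3)) + (eStripTubeE_tuG * (eLf_N eStripTubeV (eN 1)))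

/-- A packed quantity. -/
def eStripTubeE_tuMz : Pack.Ex := ((eStripTubeE_tuC * (eLf_ud eStripTubeV (eN 1))) * (Ex.pow (eN
    100) 3)) + (eStripTubeE_tuG * (eLf_f0 eStripTubeV (eN 1)))

/-- A packed quantity. -/
def eStripTubeE_sevK : Pack.Ex := ((eN 100) * (eLf_b eStripTubeV (eN 1))) - ((eLf_a eStripTubeV
    (eN 1)) * ((eLf_u eStripTubeV (eN 1)) * ((eN 130) - ((eN 80) * (eLf_u eStripTubeV (eN 1))))))

/-- A packed quantity. -/
def eStripTubeE_sevPsi : Pack.Ex := (eLf_upPsi eStripTubeV (eN 1)) + ((eN 3) * (Ex.pow (eN 100)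
    2))

/-- A packed quantity. -/
def eStripTubeE_sevN : Pack.Ex := (((eN 100) * (Ex.pow (eN 100) 2)) + (eStripTubeE_sevK * (eLf_v
    eStripTubeV (eN 1)))) + ((eLf_I eStripTubeV (eN 1)) * eStripTubeE_sevPsi)

/-- A packed quantity. -/
def eStripTubeE_tuMix : Pack.Ex := ((eN 7) * ((eLf_upM eStripTubeV (eN 1)) * (eLf_upW eStripTubeV
    (eN 1)))) + ((eN 3) * (eStripTubeE_sevN * ((eN 20) * (eLf_P eStripTubeV (eN 1)))))

/-- A packed quantity. -/
def eStripTubeE_tuEntry : Pack.Ex := (eStripTubeE_tuNz * ((eN 200) * ((eLf_P eStripTubeV (eN 1)) *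
    (eLf_upW eStripTubeV (eN 1))))) - (eStripTubeE_tuMz * (eLf_flMixC eStripTubeV (eN 1)))

/-- A packed quantity. -/
def eStripTubeE_tuEntryS : Pack.Ex := (eStripTubeE_tuNz * ((eN 200) * ((eLf_P eStripTubeV (eN 1))
    * (eLf_upW eStripTubeV (eN 1))))) - (eStripTubeE_tuMz * eStripTubeE_tuMix)

/-- A packed quantity. -/
def eStripTubeE_tuLow : Pack.Ex := ((eLf_N eStripTubeV (eN 1)) * (eLf_upW eStripTubeV (eN 1))) -
    ((eLf_f0 eStripTubeV (eN 1)) * eStripTubeE_sevN)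

/-- The flow less a positive monomial. -/
def eStripTubeA_less : Pack.Ex :=
  eStripTubeA_tube - ((Ex.pow (Ex.var 0) 3) * ((Ex.pow (Ex.var 1) 4) * (Ex.pow (Ex.var 2) 4)))

/-- The flow less a positive monomial. -/
def eStripTubeB_less : Pack.Ex := ((eN 1099511627776) * eStripTubeB_tube) - (Ex.pow (Ex.var 0) 7)

/-- The entry less a positive monomial. -/
def eStripTubeE_less : Pack.Ex := eStripTubeE_tuEntry - (Ex.var 2)

/-- The entry less one. -/
def eStripTubeE_lessS : Pack.Ex := eStripTubeE_tuEntryS - (eN 1)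

/-- The flow at the upper band less one. -/
def eStripTubeE_lessLow : Pack.Ex := eStripTubeE_tuLow - (eN 1)

end Vale.Agent.P100.Calib.Band.AllLow
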