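import Vale.Agent.P100.Calib.SlabStripAtoms

/-!
# The quantities of the upper bands of the strip

Polynomials in the variables of `StripAtoms` and in `T = IT / I`.
-/

namespace Vale.Agent.P100.Calib.Band.StripAtoms

variable (p : StripAtoms)

/-- `IT / I`. -/
noncomputable def T : ℝ := p.IT / p.I

/-- The coefficient of `v` in the upper band, cleared. -/
def upK : ℝ := 100 * p.b - p.a * (p.u * (155 - 105 * p.u))

/-- Its derivative in `u`. -/
def upKu : ℝ := 0 - p.a * (155 - 210 * p.u)

/-- A coefficient of `upPsi`. -/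
def upP0 : ℝ := 653 * p.I + 189 * (p.a * p.I) - 828 * (p.I * p.I) - 398

/-- A coefficient of `upPsi`. -/
def upP1 : ℝ := 464 - 1676 * p.a + 1565 * (p.a * p.a) + p.I * (5790 * p.a + 1661 * (p.a * p.a) -
    2620)

/-- A coefficient of `upPsi`. -/
def upP2 : ℝ := 8980 * p.a - 1503 - 13330 * (p.a * p.a) + p.I * (4840 - 15870 * p.a + 1947 * (p.a
    * p.a))

/-- The correction of the upper band in `u`. -/
def upPsi : ℝ := p.upP0 + p.u * (p.upP1 + p.u * (p.upP2 + 60 * (p.u * p.u)))

/-- Its derivative. -/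
def upPsiU : ℝ := p.upP1 + p.u * (2 * p.upP2 + 240 * (p.u * p.u))

/-- The numerator of the upper band. -/
def upN : ℝ := 100 + p.upK * p.v + p.I * p.upPsi

/-- Its derivative in `u`. -/
def upNu : ℝ := p.upKu * p.v + p.I * p.upPsiU

/-- The denominator of the upper band. -/
def upW : ℝ := 100 * (p.b - p.u * p.a)

/-- `allEn` on the band, cleared. -/
def upEn : ℝ := p.E0 * p.upW - p.e1 * p.upN

/-- `allFlow` on the band, cleared. -/
def upFl : ℝ := p.f0 * p.upN - p.N * p.upW

/-- `allFh` on the band, cleared. -/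
def upFh : ℝ := p.A0 * (p.upW * p.upW) - (p.A1 + p.ud * p.A0 + p.E0) * (p.upN * p.upW) + (p.ud *
    p.A1 + p.e1) * (p.upN * p.upN)

/-- Minus the flow through the band, cleared. -/
def upFwd : ℝ := (p.upNu * p.upW + p.upN * (100 * p.a)) * (p.u * p.upEn) + p.upK * (p.qu *
    (p.upFl * p.upW)) - p.upFh * p.upW

/-- `allDen` on the band, cleared. -/
def upDen : ℝ := p.D0 * p.upW - p.ud * p.upN

/-- `K IT`. -/
def upKI : ℝ := p.K * p.IT

/-- Twenty times the coefficient of the exit band. -/
def upG : ℝ := 20 * (p.S * (p.v * p.q)) - (14 + 6 * p.u) * p.upKI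

/-- Its derivative in `u`. -/
def upGu : ℝ := 0 - 6 * p.upKI

/-- Its derivative in `v`. -/
def upGv : ℝ := 20 * (p.S * (1 + 2 * p.dv)) + (7 + 3 * p.u) * (2 * (p.a * p.IT) + p.K * (p.S *
    p.d))

/-- Twenty times the numerator of the exit band. -/
def upM : ℝ := 20 * p.K - p.w * p.upG

/-- A hundred times a part of the derivative of the exit band in `u`. -/
def upFU : ℝ := 5 * (p.w * p.upGu - p.upG)

/-- A hundred times a part of its derivative in `v`. -/
def upFV : ℝ := 100 * p.a + 5 * (p.w * p.upGv)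

/-- The value at `H = 0`. -/
def upC0 : ℝ := p.upFU * (p.u * p.E0) - p.upFV * (p.qu * p.N) + 100 * (p.P * p.A0)

/-- The linear coefficient. -/
def upC1 : ℝ := 100 * (p.a * (p.ud * (p.qu * p.N))) + p.upFV * (p.qu * p.f0) - 100 * (p.a * (p.qu
    * p.E0)) - p.upFU * (p.u * p.e1) - 100 * (p.P * (p.A1 + p.ud * p.A0 + p.E0))

/-- The quadratic coefficient. -/
def upC2 : ℝ := 100 * (p.a * (p.qu * p.e1)) - 100 * (p.a * (p.ud * (p.qu * p.f0))) + 100 * (p.P *
    (p.ud * p.A1 + p.e1))

/-- The value at the band, cleared. -/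
def upA : ℝ := p.upC2 * (p.upM * p.upM) + 20 * (p.upC1 * (p.upM * p.P)) + 400 * (p.upC0 * (p.P *
    p.P))

/-- The gap between the two bands, cleared. -/
def upGap : ℝ := p.upN * (20 * p.P) - p.upM * p.upW

/-- The value at the band, less a multiple of the gap. -/
noncomputable def upAm : ℝ := 5000 * p.upA - (888 - 1000 * p.u) * ((93 + 340 * p.d) * (p.w * (p.P
    * (p.K * (p.T * p.upGap)))))

/-- The slope at the band, cleared. -/
def upB : ℝ := 20 * (p.upC1 * p.P) + 2 * (p.upC2 * p.upM)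

/-- The slope where `d H = 1`, cleared. -/
def upC : ℝ := p.d * p.upC1 + 2 * p.upC2

end Vale.Agent.P100.Calib.Band.StripAtoms
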