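import Vale.Agent.P100.Calib.SlabAllLowExpr

/-!
# The packed numerators of the upper bands of the strip in the variables `(w, v, rho, tau)`

Each quantity of `StripAtoms` times powers of the denominators of the chart.
-/

namespace Vale.Agent.P100.Calib.Band.AllLow

open Pack

local instance stripUpAAdd : Add Pack.Ex := ⟨Ex.add⟩
local instance stripUpASub : Sub Pack.Ex := ⟨Ex.sub⟩
local instance stripUpAMul : Mul Pack.Ex := ⟨Ex.mul⟩

/-- A packed quantity. -/
def eStripUpASg : Pack.Ex := (eN 1) + ((Ex.var 1) * (Ex.var 2))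

/-- A packed quantity. -/
def eStripUpAK1 : Pack.Ex := (eN 2) * eStripUpASg

/-- A packed quantity. -/
def eStripUpA_w : Pack.Ex := Ex.var 0

/-- A packed quantity. -/
def eStripUpA_v : Pack.Ex := Ex.var 1

/-- A packed quantity. -/
def eStripUpA_I : Pack.Ex := (Ex.var 1) * (Ex.var 2)

/-- A packed quantity. -/
def eStripUpA_S : Pack.Ex := eN 2

/-- A packed quantity. -/
def eStripUpA_d : Pack.Ex := (Ex.var 3) * (Ex.var 2)

/-- A packed quantity. -/
def eStripUpA_a : Pack.Ex := (eN 1) - (eStripUpASg * ((Ex.var 3) * (Ex.var 2)))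

/-- A packed quantity. -/
def eStripUpA_b : Pack.Ex := (eN 1) + (eStripUpASg * ((Ex.var 3) * (Ex.var 2)))

/-- A packed quantity. -/
def eStripUpA_K : Pack.Ex := eStripUpAK1 - ((Ex.var 1) * ((eN 1) - (eStripUpASg * ((Ex.var 3) *
    (Ex.var 2)))))

/-- A packed quantity. -/
def eStripUpA_IT : Pack.Ex := ((Ex.var 1) * (Ex.var 2)) * ((eN 1) - (Ex.var 3))

/-- A packed quantity. -/
def eStripUpA_dv : Pack.Ex := ((Ex.var 3) * (Ex.var 2)) * (Ex.var 1)

/-- A packed quantity. -/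
def eStripUpA_T : Pack.Ex := (eN 1) - (Ex.var 3)

/-- A packed quantity. -/
def eStripUpA_q : Pack.Ex := (eN 1) + eStripUpA_dv

/-- A packed quantity. -/
def eStripUpA_D0 : Pack.Ex := (eN 2) + eStripUpA_dv

/-- A packed quantity. -/
def eStripUpA_u : Pack.Ex := (eN 1) - eStripUpA_w

/-- A packed quantity. -/
def eStripUpA_qu : Pack.Ex := eStripUpA_q * eStripUpA_u

/-- A packed quantity. -/
def eStripUpA_P : Pack.Ex := eStripUpA_b - (eStripUpA_a * eStripUpA_qu)

/-- A packed quantity. -/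
def eStripUpA_qn : Pack.Ex := (eStripUpA_b * eStripUpA_D0) - (eStripUpA_S * eStripUpA_qu)

/-- A packed quantity. -/
def eStripUpA_ud : Pack.Ex := eStripUpA_u * eStripUpA_d

/-- A packed quantity. -/
def eStripUpA_e1 : Pack.Ex := eStripUpA_ud * ((eStripUpA_qn * eStripUpAK1) - (eStripUpA_S *
    (eStripUpA_w * eStripUpA_b)))

/-- A packed quantity. -/
def eStripUpA_E0 : Pack.Ex := (eStripUpA_qn * eStripUpAK1) - (eStripUpA_S * (eStripUpA_w *
    (eStripUpA_b * eStripUpA_D0)))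

/-- A packed quantity. -/
def eStripUpA_f0 : Pack.Ex := (eStripUpA_qn * eStripUpAK1) + (eStripUpA_S * (eStripUpA_K *
    eStripUpA_ud))

/-- A packed quantity. -/
def eStripUpA_N : Pack.Ex := eStripUpA_S * (eStripUpA_K * eStripUpA_D0)

/-- A packed quantity. -/
def eStripUpA_A0 : Pack.Ex := eStripUpA_N + ((eStripUpA_S * (eStripUpA_v * eStripUpA_D0)) *
    eStripUpAK1)

/-- A packed quantity. -/
def eStripUpA_A1 : Pack.Ex := eStripUpA_f0 + ((eStripUpA_S * (eStripUpA_v * eStripUpA_ud)) *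
    eStripUpAK1)

/-- A packed quantity. -/
def eStripUpA_upK : Pack.Ex := ((eN 100) * eStripUpA_b) - (eStripUpA_a * (eStripUpA_u * ((eN 155)
    - ((eN 105) * eStripUpA_u))))

/-- A packed quantity. -/
def eStripUpA_upKu : Pack.Ex := ((eN 0) * eStripUpAK1) - (eStripUpA_a * ((eN 155) - ((eN 210) *
    eStripUpA_u)))

/-- A packed quantity. -/
def eStripUpA_upP0 : Pack.Ex := (((((eN 653) * eStripUpA_I) * eStripUpAK1) + ((eN 189) *
    (eStripUpA_a * eStripUpA_I))) - ((eN 828) * (eStripUpA_I * eStripUpA_I))) - ((eN 398) *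
    (Ex.pow eStripUpAK1 2))

/-- A packed quantity. -/
def eStripUpA_upP1 : Pack.Ex := ((((((eN 464) * eStripUpAK1) - ((eN 1676) * eStripUpA_a)) *
    eStripUpAK1) + ((eN 1565) * (eStripUpA_a * eStripUpA_a))) * eStripUpAK1) + (eStripUpA_I *
    (((((eN 5790) * eStripUpA_a) * eStripUpAK1) + ((eN 1661) * (eStripUpA_a * eStripUpA_a))) -
    ((eN 2620) * (Ex.pow eStripUpAK1 2))))

/-- A packed quantity. -/
def eStripUpA_upP2 : Pack.Ex := ((((((eN 8980) * eStripUpA_a) - ((eN 1503) * eStripUpAK1)) *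
    eStripUpAK1) - ((eN 13330) * (eStripUpA_a * eStripUpA_a))) * eStripUpAK1) + (eStripUpA_I *
    (((((eN 4840) * eStripUpAK1) - ((eN 15870) * eStripUpA_a)) * eStripUpAK1) + ((eN 1947) *
    (eStripUpA_a * eStripUpA_a))))

/-- A packed quantity. -/
def eStripUpA_upPsi : Pack.Ex := (eStripUpA_upP0 * eStripUpAK1) + (eStripUpA_u * (eStripUpA_upP1
    + (eStripUpA_u * (eStripUpA_upP2 + (((eN 60) * (eStripUpA_u * eStripUpA_u)) * (Ex.pow
    eStripUpAK1 3))))))

/-- A packed quantity. -/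
def eStripUpA_upPsiU : Pack.Ex := eStripUpA_upP1 + (eStripUpA_u * (((eN 2) * eStripUpA_upP2) +
    (((eN 240) * (eStripUpA_u * eStripUpA_u)) * (Ex.pow eStripUpAK1 3))))

/-- A packed quantity. -/
def eStripUpA_upN : Pack.Ex := ((((eN 100) * eStripUpAK1) + (eStripUpA_upK * eStripUpA_v)) *
    (Ex.pow eStripUpAK1 3)) + (eStripUpA_I * eStripUpA_upPsi)

/-- A packed quantity. -/
def eStripUpA_upNu : Pack.Ex := ((eStripUpA_upKu * eStripUpA_v) * (Ex.pow eStripUpAK1 3)) +
    (eStripUpA_I * eStripUpA_upPsiU)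

/-- A packed quantity. -/
def eStripUpA_upW : Pack.Ex := (eN 100) * (eStripUpA_b - (eStripUpA_u * eStripUpA_a))

/-- A packed quantity. -/
def eStripUpA_upEn : Pack.Ex := ((eStripUpA_E0 * eStripUpA_upW) * (Ex.pow eStripUpAK1 3)) -
    (eStripUpA_e1 * eStripUpA_upN)

/-- A packed quantity. -/
def eStripUpA_upFl : Pack.Ex := (eStripUpA_f0 * eStripUpA_upN) - ((eStripUpA_N * eStripUpA_upW) *
    (Ex.pow eStripUpAK1 3))

/-- A packed quantity. -/
def eStripUpA_upFh : Pack.Ex := ((((eStripUpA_A0 * (eStripUpA_upW * eStripUpA_upW)) * (Ex.pow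
    eStripUpAK1 3)) - (((eStripUpA_A1 + (eStripUpA_ud * eStripUpA_A0)) + eStripUpA_E0) *
    (eStripUpA_upN * eStripUpA_upW))) * (Ex.pow eStripUpAK1 3)) + (((eStripUpA_ud * eStripUpA_A1)
    + eStripUpA_e1) * (eStripUpA_upN * eStripUpA_upN))

/-- A packed quantity. -/
def eStripUpA_upFwd : Pack.Ex := ((((eStripUpA_upNu * eStripUpA_upW) + (eStripUpA_upN * ((eN 100)
    * eStripUpA_a))) * (eStripUpA_u * eStripUpA_upEn)) + ((eStripUpA_upK * (eStripUpA_qu *
    (eStripUpA_upFl * eStripUpA_upW))) * (Ex.pow eStripUpAK1 3))) - (eStripUpA_upFh *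
    eStripUpA_upW)

/-- A packed quantity. -/
def eStripUpA_upDen : Pack.Ex := ((eStripUpA_D0 * eStripUpA_upW) * (Ex.pow eStripUpAK1 3)) -
    (eStripUpA_ud * eStripUpA_upN)

/-- A packed quantity. -/
def eStripUpA_upKI : Pack.Ex := eStripUpA_K * eStripUpA_IT

/-- A packed quantity. -/
def eStripUpA_upG : Pack.Ex := (((eN 20) * (eStripUpA_S * (eStripUpA_v * eStripUpA_q))) *
    eStripUpAK1) - (((eN 14) + ((eN 6) * eStripUpA_u)) * eStripUpA_upKI)

/-- A packed quantity. -/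
def eStripUpA_upGu : Pack.Ex := ((eN 0) * (Ex.pow eStripUpAK1 2)) - ((eN 6) * eStripUpA_upKI)

/-- A packed quantity. -/
def eStripUpA_upGv : Pack.Ex := (((eN 20) * (eStripUpA_S * ((eN 1) + ((eN 2) * eStripUpA_dv)))) *
    eStripUpAK1) + (((eN 7) + ((eN 3) * eStripUpA_u)) * (((eN 2) * (eStripUpA_a * eStripUpA_IT))
    + (eStripUpA_K * (eStripUpA_S * eStripUpA_d))))

/-- A packed quantity. -/
def eStripUpA_upM : Pack.Ex := (((eN 20) * eStripUpA_K) * eStripUpAK1) - (eStripUpA_w *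
    eStripUpA_upG)

/-- A packed quantity. -/
def eStripUpA_upFU : Pack.Ex := (eN 5) * ((eStripUpA_w * eStripUpA_upGu) - eStripUpA_upG)

/-- A packed quantity. -/
def eStripUpA_upFV : Pack.Ex := (((eN 100) * eStripUpA_a) * eStripUpAK1) + ((eN 5) * (eStripUpA_w
    * eStripUpA_upGv))

/-- A packed quantity. -/
def eStripUpA_upC0 : Pack.Ex := ((eStripUpA_upFU * (eStripUpA_u * eStripUpA_E0)) -
    (eStripUpA_upFV * (eStripUpA_qu * eStripUpA_N))) + (((eN 100) * (eStripUpA_P * eStripUpA_A0))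
    * eStripUpAK1)

/-- A packed quantity. -/
def eStripUpA_upC1 : Pack.Ex := ((((((eN 100) * (eStripUpA_a * (eStripUpA_ud * (eStripUpA_qu *
    eStripUpA_N)))) * eStripUpAK1) + (eStripUpA_upFV * (eStripUpA_qu * eStripUpA_f0))) - (((eN
    100) * (eStripUpA_a * (eStripUpA_qu * eStripUpA_E0))) * eStripUpAK1)) - (eStripUpA_upFU *
    (eStripUpA_u * eStripUpA_e1))) - (((eN 100) * (eStripUpA_P * ((eStripUpA_A1 + (eStripUpA_ud *
    eStripUpA_A0)) + eStripUpA_E0))) * eStripUpAK1)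

/-- A packed quantity. -/
def eStripUpA_upC2 : Pack.Ex := (((eN 100) * (eStripUpA_a * (eStripUpA_qu * eStripUpA_e1))) -
    ((eN 100) * (eStripUpA_a * (eStripUpA_ud * (eStripUpA_qu * eStripUpA_f0))))) + ((eN 100) *
    (eStripUpA_P * ((eStripUpA_ud * eStripUpA_A1) + eStripUpA_e1)))

/-- A packed quantity. -/
def eStripUpA_upA : Pack.Ex := ((eStripUpA_upC2 * (eStripUpA_upM * eStripUpA_upM)) + ((eN 20) *
    (eStripUpA_upC1 * (eStripUpA_upM * eStripUpA_P)))) + (((eN 400) * (eStripUpA_upC0 *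
    (eStripUpA_P * eStripUpA_P))) * eStripUpAK1)

/-- A packed quantity. -/
def eStripUpA_upGap : Pack.Ex := (eStripUpA_upN * ((eN 20) * eStripUpA_P)) - ((eStripUpA_upM *
    eStripUpA_upW) * (Ex.pow eStripUpAK1 2))

/-- A packed quantity. -/
def eStripUpA_upAm : Pack.Ex := ((eN 5000) * eStripUpA_upA) - (((eN 888) - ((eN 1000) *
    eStripUpA_u)) * (((eN 93) + ((eN 340) * eStripUpA_d)) * (eStripUpA_w * (eStripUpA_P *
    (eStripUpA_K * (eStripUpA_T * eStripUpA_upGap))))))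

/-- A packed quantity. -/
def eStripUpA_upB : Pack.Ex := ((eN 20) * (eStripUpA_upC1 * eStripUpA_P)) + ((eN 2) *
    (eStripUpA_upC2 * eStripUpA_upM))

/-- A packed quantity. -/
def eStripUpA_upC : Pack.Ex := (eStripUpA_d * eStripUpA_upC1) + (((eN 2) * eStripUpA_upC2) *
    eStripUpAK1)

/-- A condition less a monomial. -/
def eStripUpAFwdLess : Pack.Ex := eStripUpA_upFwd - ((Ex.var 0) * ((Ex.var 1) * ((Ex.var 2) *
    (Ex.var 3))))

/-- A condition less a monomial. -/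
def eStripUpADenLess : Pack.Ex := eStripUpA_upDen - (eN 1)

/-- A condition less a monomial. -/
def eStripUpAEndLess : Pack.Ex := eStripUpA_upA - ((Ex.pow (Ex.var 0) 3) * ((Ex.var 1) * ((Ex.pow
    (Ex.var 2) 3) * (Ex.pow (Ex.var 3) 2))))

/-- A condition less a monomial. -/
def eStripUpAMidLess : Pack.Ex := eStripUpA_upAm - ((Ex.var 0) * ((Ex.var 1) * ((Ex.var 2) *
    (Ex.var 3))))

end Vale.Agent.P100.Calib.Band.AllLow
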