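import Vale.Agent.P100.Calib.SlabAllLow
import Vale.Agent.P100.Calib.SlabStripUpAtoms
import Vale.Agent.P100.Calib.SlabStripUpExprA

/-!
# The values of the packed numerators of the upper bands in the chart A of the strip

`StripUpChartA` relates a point of the chart to the variables.
-/

namespace Vale.Agent.P100.Calib.Band.AllLow

open Pack

local instance stripUpEvalAAdd : Add Pack.Ex := ⟨Ex.add⟩
local instance stripUpEvalASub : Sub Pack.Ex := ⟨Ex.sub⟩
local instance stripUpEvalAMul : Mul Pack.Ex := ⟨Ex.mul⟩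

/-- The values of the variables. -/
structure StripUpChartA (x : ℕ → ℝ) (p : StripAtoms) (k : ℝ) : Prop where
  hk : eStripUpAK1.eval x = k
  h_w : eStripUpA_w.eval x = p.w
  h_v : eStripUpA_v.eval x = p.v
  h_I : eStripUpA_I.eval x = p.I * (k)
  h_S : eStripUpA_S.eval x = p.S * (k)
  h_d : eStripUpA_d.eval x = p.d
  h_a : eStripUpA_a.eval x = p.a * (k)
  h_b : eStripUpA_b.eval x = p.b * (k)
  h_K : eStripUpA_K.eval x = p.K * (k)
  h_IT : eStripUpA_IT.eval x = p.IT * (k)
  h_dv : eStripUpA_dv.eval x = p.dv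
  h_T : eStripUpA_T.eval x = p.T

variable {x : ℕ → ℝ} {p : StripAtoms} {k : ℝ}

theorem evalUpA_q (h : StripUpChartA x p k) :
    eStripUpA_q.eval x = p.q := by
  simp only [eStripUpA_q, StripAtoms.q, eval_add', eval_num', h.h_dv]
  push_cast
  ring

theorem evalUpA_D0 (h : StripUpChartA x p k) :
    eStripUpA_D0.eval x = p.D0 := by
  simp only [eStripUpA_D0, StripAtoms.D0, eval_add', eval_num', h.h_dv]
  push_cast
  ring

theorem evalUpA_u (h : StripUpChartA x p k) :
    eStripUpA_u.eval x = p.u := by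
  simp only [eStripUpA_u, StripAtoms.u, eval_sub', eval_num', h.h_w]
  push_cast
  ring

theorem evalUpA_qu (h : StripUpChartA x p k) :
    eStripUpA_qu.eval x = p.qu := by
  simp only [eStripUpA_qu, StripAtoms.qu, eval_mul', evalUpA_q h, evalUpA_u h]

theorem evalUpA_P (h : StripUpChartA x p k) :
    eStripUpA_P.eval x = p.P * (k) := by
  simp only [eStripUpA_P, StripAtoms.P, eval_sub', eval_mul', h.h_b, h.h_a, evalUpA_qu h]
  ring

theorem evalUpA_qn (h : StripUpChartA x p k) :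
    eStripUpA_qn.eval x = p.qn * (k) := by
  simp only [eStripUpA_qn, StripAtoms.qn, eval_sub', eval_mul', h.h_b, evalUpA_D0 h, h.h_S,
    evalUpA_qu h]
  ring

theorem evalUpA_ud (h : StripUpChartA x p k) :
    eStripUpA_ud.eval x = p.ud := by
  simp only [eStripUpA_ud, StripAtoms.ud, eval_mul', evalUpA_u h, h.h_d]

theorem evalUpA_e1 (h : StripUpChartA x p k) :
    eStripUpA_e1.eval x = p.e1 * (k ^ 2) := by
  simp only [eStripUpA_e1, StripAtoms.e1, eval_sub', eval_mul', evalUpA_ud h, evalUpA_qn h, h.hk,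
    h.h_S, h.h_w, h.h_b]
  ring

theorem evalUpA_E0 (h : StripUpChartA x p k) :
    eStripUpA_E0.eval x = p.E0 * (k ^ 2) := by
  simp only [eStripUpA_E0, StripAtoms.E0, eval_sub', eval_mul', evalUpA_qn h, h.hk, h.h_S, h.h_w,
    h.h_b, evalUpA_D0 h]
  ring

theorem evalUpA_f0 (h : StripUpChartA x p k) :
    eStripUpA_f0.eval x = p.f0 * (k ^ 2) := by
  simp only [eStripUpA_f0, StripAtoms.f0, eval_add', eval_mul', evalUpA_qn h, h.hk, h.h_S, h.h_K,
    evalUpA_ud h]
  ring

theorem evalUpA_N (h : StripUpChartA x p k) :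
    eStripUpA_N.eval x = p.N * (k ^ 2) := by
  simp only [eStripUpA_N, StripAtoms.N, eval_mul', h.h_S, h.h_K, evalUpA_D0 h]
  ring

theorem evalUpA_A0 (h : StripUpChartA x p k) :
    eStripUpA_A0.eval x = p.A0 * (k ^ 2) := by
  simp only [eStripUpA_A0, StripAtoms.A0, eval_add', eval_mul', evalUpA_N h, h.h_S, h.h_v,
    evalUpA_D0 h, h.hk]
  ring

theorem evalUpA_A1 (h : StripUpChartA x p k) :
    eStripUpA_A1.eval x = p.A1 * (k ^ 2) := by
  simp only [eStripUpA_A1, StripAtoms.A1, eval_add', eval_mul', evalUpA_f0 h, h.h_S, h.h_v,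
    evalUpA_ud h, h.hk]
  ring

theorem evalUpA_upK (h : StripUpChartA x p k) :
    eStripUpA_upK.eval x = p.upK * (k) := by
  simp only [eStripUpA_upK, StripAtoms.upK, eval_sub', eval_mul', eval_num', h.h_b, h.h_a,
    evalUpA_u h]
  push_cast
  ring

theorem evalUpA_upKu (h : StripUpChartA x p k) :
    eStripUpA_upKu.eval x = p.upKu * (k) := by
  simp only [eStripUpA_upKu, StripAtoms.upKu, eval_sub', eval_mul', eval_num', h.hk, h.h_a,
    evalUpA_u h]
  push_cast
  ring

theorem evalUpA_upP0 (h : StripUpChartA x p k) :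
    eStripUpA_upP0.eval x = p.upP0 * (k ^ 2) := by
  simp only [eStripUpA_upP0, StripAtoms.upP0, eval_sub', eval_num', Ex.eval, h.h_I, h.hk, h.h_a]
  push_cast
  ring

theorem evalUpA_upP1 (h : StripUpChartA x p k) :
    eStripUpA_upP1.eval x = p.upP1 * (k ^ 3) := by
  simp only [eStripUpA_upP1, StripAtoms.upP1, eval_add', eval_sub', eval_num', Ex.eval, h.hk,
    h.h_a, h.h_I]
  push_cast
  ring

theorem evalUpA_upP2 (h : StripUpChartA x p k) :
    eStripUpA_upP2.eval x = p.upP2 * (k ^ 3) := by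
  simp only [eStripUpA_upP2, StripAtoms.upP2, eval_add', eval_sub', eval_mul', eval_num', h.h_a,
    h.hk, h.h_I]
  push_cast
  ring

theorem evalUpA_upPsi (h : StripUpChartA x p k) :
    eStripUpA_upPsi.eval x = p.upPsi * (k ^ 3) := by
  simp only [eStripUpA_upPsi, StripAtoms.upPsi, eval_add', eval_num', Ex.eval, evalUpA_upP0 h,
    h.hk, evalUpA_u h, evalUpA_upP1 h, evalUpA_upP2 h]
  push_cast
  ring

theorem evalUpA_upPsiU (h : StripUpChartA x p k) :
    eStripUpA_upPsiU.eval x = p.upPsiU * (k ^ 3) := by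
  simp only [eStripUpA_upPsiU, StripAtoms.upPsiU, eval_add', eval_num', Ex.eval, evalUpA_upP1 h,
    evalUpA_u h, evalUpA_upP2 h, h.hk]
  push_cast
  ring

theorem evalUpA_upN (h : StripUpChartA x p k) :
    eStripUpA_upN.eval x = p.upN * (k ^ 4) := by
  simp only [eStripUpA_upN, StripAtoms.upN, eval_add', eval_num', Ex.eval, h.hk, evalUpA_upK h,
    h.h_v, h.h_I, evalUpA_upPsi h]
  push_cast
  ring

theorem evalUpA_upNu (h : StripUpChartA x p k) :
    eStripUpA_upNu.eval x = p.upNu * (k ^ 4) := by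
  simp only [eStripUpA_upNu, StripAtoms.upNu, eval_add', Ex.eval, evalUpA_upKu h, h.h_v, h.hk,
    h.h_I, evalUpA_upPsiU h]
  ring

theorem evalUpA_upW (h : StripUpChartA x p k) :
    eStripUpA_upW.eval x = p.upW * (k) := by
  simp only [eStripUpA_upW, StripAtoms.upW, eval_sub', eval_mul', eval_num', h.h_b, evalUpA_u h,
    h.h_a]
  push_cast
  ring

theorem evalUpA_upEn (h : StripUpChartA x p k) :
    eStripUpA_upEn.eval x = p.upEn * (k ^ 6) := by
  simp only [eStripUpA_upEn, StripAtoms.upEn, eval_sub', Ex.eval, evalUpA_E0 h, evalUpA_upW h,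
    h.hk, evalUpA_e1 h, evalUpA_upN h]
  ring

theorem evalUpA_upFl (h : StripUpChartA x p k) :
    eStripUpA_upFl.eval x = p.upFl * (k ^ 6) := by
  simp only [eStripUpA_upFl, StripAtoms.upFl, eval_sub', Ex.eval, evalUpA_f0 h, evalUpA_upN h,
    evalUpA_N h, evalUpA_upW h, h.hk]
  ring

theorem evalUpA_upFh (h : StripUpChartA x p k) :
    eStripUpA_upFh.eval x = p.upFh * (k ^ 10) := by
  simp only [eStripUpA_upFh, StripAtoms.upFh, eval_add', eval_sub', Ex.eval, evalUpA_A0 h,
    evalUpA_upW h, h.hk, evalUpA_A1 h, evalUpA_ud h, evalUpA_E0 h, evalUpA_upN h, evalUpA_e1 h]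
  ring

theorem evalUpA_upFwd (h : StripUpChartA x p k) :
    eStripUpA_upFwd.eval x = p.upFwd * (k ^ 11) := by
  simp only [eStripUpA_upFwd, StripAtoms.upFwd, eval_sub', eval_num', Ex.eval, evalUpA_upNu h,
    evalUpA_upW h, evalUpA_upN h, h.h_a, evalUpA_u h, evalUpA_upEn h, evalUpA_upK h,
    evalUpA_qu h, evalUpA_upFl h, h.hk, evalUpA_upFh h]
  push_cast
  ring

theorem evalUpA_upDen (h : StripUpChartA x p k) :
    eStripUpA_upDen.eval x = p.upDen * (k ^ 4) := by
  simp only [eStripUpA_upDen, StripAtoms.upDen, eval_sub', Ex.eval, evalUpA_D0 h, evalUpA_upW h,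
    h.hk, evalUpA_ud h, evalUpA_upN h]
  ring

theorem evalUpA_upKI (h : StripUpChartA x p k) :
    eStripUpA_upKI.eval x = p.upKI * (k ^ 2) := by
  simp only [eStripUpA_upKI, StripAtoms.upKI, eval_mul', h.h_K, h.h_IT]
  ring

theorem evalUpA_upG (h : StripUpChartA x p k) :
    eStripUpA_upG.eval x = p.upG * (k ^ 2) := by
  simp only [eStripUpA_upG, StripAtoms.upG, eval_add', eval_sub', eval_mul', eval_num', h.h_S,
    h.h_v, evalUpA_q h, h.hk, evalUpA_u h, evalUpA_upKI h]
  push_cast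
  ring

theorem evalUpA_upGu (h : StripUpChartA x p k) :
    eStripUpA_upGu.eval x = p.upGu * (k ^ 2) := by
  simp only [eStripUpA_upGu, StripAtoms.upGu, eval_sub', eval_num', Ex.eval, h.hk, evalUpA_upKI h]
  push_cast
  ring

theorem evalUpA_upGv (h : StripUpChartA x p k) :
    eStripUpA_upGv.eval x = p.upGv * (k ^ 2) := by
  simp only [eStripUpA_upGv, StripAtoms.upGv, eval_add', eval_mul', eval_num', h.h_S, h.h_dv,
    h.hk, evalUpA_u h, h.h_a, h.h_IT, h.h_K, h.h_d]
  push_cast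
  ring

theorem evalUpA_upM (h : StripUpChartA x p k) :
    eStripUpA_upM.eval x = p.upM * (k ^ 2) := by
  simp only [eStripUpA_upM, StripAtoms.upM, eval_sub', eval_mul', eval_num', h.h_K, h.hk, h.h_w,
    evalUpA_upG h]
  push_cast
  ring

theorem evalUpA_upFU (h : StripUpChartA x p k) :
    eStripUpA_upFU.eval x = p.upFU * (k ^ 2) := by
  simp only [eStripUpA_upFU, StripAtoms.upFU, eval_sub', eval_mul', eval_num', h.h_w,
    evalUpA_upGu h, evalUpA_upG h]
  push_cast
  ring

theorem evalUpA_upFV (h : StripUpChartA x p k) :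
    eStripUpA_upFV.eval x = p.upFV * (k ^ 2) := by
  simp only [eStripUpA_upFV, StripAtoms.upFV, eval_add', eval_mul', eval_num', h.h_a, h.hk,
    h.h_w, evalUpA_upGv h]
  push_cast
  ring

theorem evalUpA_upC0 (h : StripUpChartA x p k) :
    eStripUpA_upC0.eval x = p.upC0 * (k ^ 4) := by
  simp only [eStripUpA_upC0, StripAtoms.upC0, eval_add', eval_sub', eval_mul', eval_num',
    evalUpA_upFU h, evalUpA_u h, evalUpA_E0 h, evalUpA_upFV h, evalUpA_qu h, evalUpA_N h,
    evalUpA_P h, evalUpA_A0 h, h.hk]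
  push_cast
  ring

theorem evalUpA_upC1 (h : StripUpChartA x p k) :
    eStripUpA_upC1.eval x = p.upC1 * (k ^ 4) := by
  simp only [eStripUpA_upC1, StripAtoms.upC1, eval_add', eval_sub', eval_mul', eval_num', h.h_a,
    evalUpA_ud h, evalUpA_qu h, evalUpA_N h, h.hk, evalUpA_upFV h, evalUpA_f0 h, evalUpA_E0 h,
    evalUpA_upFU h, evalUpA_u h, evalUpA_e1 h, evalUpA_P h, evalUpA_A1 h, evalUpA_A0 h]
  push_cast
  ring

theorem evalUpA_upC2 (h : StripUpChartA x p k) :
    eStripUpA_upC2.eval x = p.upC2 * (k ^ 3) := by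
  simp only [eStripUpA_upC2, StripAtoms.upC2, eval_add', eval_sub', eval_mul', eval_num', h.h_a,
    evalUpA_qu h, evalUpA_e1 h, evalUpA_ud h, evalUpA_f0 h, evalUpA_P h, evalUpA_A1 h]
  push_cast
  ring

theorem evalUpA_upA (h : StripUpChartA x p k) :
    eStripUpA_upA.eval x = p.upA * (k ^ 7) := by
  simp only [eStripUpA_upA, StripAtoms.upA, eval_add', eval_mul', eval_num', evalUpA_upC2 h,
    evalUpA_upM h, evalUpA_upC1 h, evalUpA_P h, evalUpA_upC0 h, h.hk]
  push_cast
  ring

theorem evalUpA_upGap (h : StripUpChartA x p k) :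
    eStripUpA_upGap.eval x = p.upGap * (k ^ 5) := by
  simp only [eStripUpA_upGap, StripAtoms.upGap, eval_sub', eval_num', Ex.eval, evalUpA_upN h,
    evalUpA_P h, evalUpA_upM h, evalUpA_upW h, h.hk]
  push_cast
  ring

theorem evalUpA_upAm (h : StripUpChartA x p k) :
    eStripUpA_upAm.eval x = p.upAm * (k ^ 7) := by
  simp only [eStripUpA_upAm, StripAtoms.upAm, eval_add', eval_sub', eval_mul', eval_num',
    evalUpA_upA h, evalUpA_u h, h.h_d, h.h_w, evalUpA_P h, h.h_K, h.h_T, evalUpA_upGap h]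
  push_cast
  ring

theorem evalUpA_upB (h : StripUpChartA x p k) :
    eStripUpA_upB.eval x = p.upB * (k ^ 5) := by
  simp only [eStripUpA_upB, StripAtoms.upB, eval_add', eval_mul', eval_num', evalUpA_upC1 h,
    evalUpA_P h, evalUpA_upC2 h, evalUpA_upM h]
  push_cast
  ring

theorem evalUpA_upC (h : StripUpChartA x p k) :
    eStripUpA_upC.eval x = p.upC * (k ^ 4) := by
  simp only [eStripUpA_upC, StripAtoms.upC, eval_add', eval_mul', eval_num', h.h_d,
    evalUpA_upC1 h, evalUpA_upC2 h, h.hk]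
  push_cast
  ring

end Vale.Agent.P100.Calib.Band.AllLow
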