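import Vale.Agent.P100.Calib.SlabAllLow
import Vale.Agent.P100.Calib.SlabStripUpAtoms
import Vale.Agent.P100.Calib.SlabStripUpExprB

/-!
# The values of the packed numerators of the upper bands in the chart B of the strip

`StripUpChartB` relates a point of the chart to the variables.
-/

namespace Vale.Agent.P100.Calib.Band.AllLow

open Pack

local instance stripUpEvalBAdd : Add Pack.Ex := ⟨Ex.add⟩
local instance stripUpEvalBSub : Sub Pack.Ex := ⟨Ex.sub⟩
local instance stripUpEvalBMul : Mul Pack.Ex := ⟨Ex.mul⟩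

/-- The values of the variables. -/
structure StripUpChartB (x : ℕ → ℝ) (p : StripAtoms) (k k₂ : ℝ) : Prop where
  hk : eStripUpBK1.eval x = k
  hk2 : eStripUpBK2.eval x = k₂
  h_w : eStripUpB_w.eval x = p.w
  h_v : eStripUpB_v.eval x = p.v * (k₂ ^ 2)
  h_I : eStripUpB_I.eval x = p.I
  h_S : eStripUpB_S.eval x = p.S
  h_d : eStripUpB_d.eval x = p.d * (k)
  h_a : eStripUpB_a.eval x = p.a * (k)
  h_b : eStripUpB_b.eval x = p.b * (k)
  h_K : eStripUpB_K.eval x = p.K
  h_IT : eStripUpB_IT.eval x = p.IT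
  h_dv : eStripUpB_dv.eval x = p.dv * (k₂)
  h_T : eStripUpB_T.eval x = p.T

variable {x : ℕ → ℝ} {p : StripAtoms} {k k₂ : ℝ}

theorem evalUpB_q (h : StripUpChartB x p k k₂) :
    eStripUpB_q.eval x = p.q * (k₂) := by
  simp only [eStripUpB_q, StripAtoms.q, eval_add', h.hk2, h.h_dv]
  ring

theorem evalUpB_D0 (h : StripUpChartB x p k k₂) :
    eStripUpB_D0.eval x = p.D0 * (k₂) := by
  simp only [eStripUpB_D0, StripAtoms.D0, eval_add', eval_mul', eval_num', h.hk2, h.h_dv]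
  push_cast
  ring

theorem evalUpB_u (h : StripUpChartB x p k k₂) :
    eStripUpB_u.eval x = p.u := by
  simp only [eStripUpB_u, StripAtoms.u, eval_sub', eval_num', h.h_w]
  push_cast
  ring

theorem evalUpB_qu (h : StripUpChartB x p k k₂) :
    eStripUpB_qu.eval x = p.qu * (k₂) := by
  simp only [eStripUpB_qu, StripAtoms.qu, eval_mul', evalUpB_q h, evalUpB_u h]
  ring

theorem evalUpB_P (h : StripUpChartB x p k k₂) :
    eStripUpB_P.eval x = p.P * (k * k₂) := by
  simp only [eStripUpB_P, StripAtoms.P, eval_sub', eval_mul', h.h_b, h.hk2, h.h_a, evalUpB_qu h]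
  ring

theorem evalUpB_qn (h : StripUpChartB x p k k₂) :
    eStripUpB_qn.eval x = p.qn * (k * k₂) := by
  simp only [eStripUpB_qn, StripAtoms.qn, eval_sub', eval_mul', h.h_b, evalUpB_D0 h, h.h_S,
    evalUpB_qu h, h.hk]
  ring

theorem evalUpB_ud (h : StripUpChartB x p k k₂) :
    eStripUpB_ud.eval x = p.ud * (k) := by
  simp only [eStripUpB_ud, StripAtoms.ud, eval_mul', evalUpB_u h, h.h_d]
  ring

theorem evalUpB_e1 (h : StripUpChartB x p k k₂) :
    eStripUpB_e1.eval x = p.e1 * (k ^ 2 * k₂) := by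
  simp only [eStripUpB_e1, StripAtoms.e1, eval_sub', eval_mul', evalUpB_ud h, evalUpB_qn h,
    h.h_S, h.h_w, h.h_b, h.hk2]
  ring

theorem evalUpB_E0 (h : StripUpChartB x p k k₂) :
    eStripUpB_E0.eval x = p.E0 * (k * k₂) := by
  simp only [eStripUpB_E0, StripAtoms.E0, eval_sub', eval_mul', evalUpB_qn h, h.h_S, h.h_w,
    h.h_b, evalUpB_D0 h]
  ring

theorem evalUpB_f0 (h : StripUpChartB x p k k₂) :
    eStripUpB_f0.eval x = p.f0 * (k * k₂) := by
  simp only [eStripUpB_f0, StripAtoms.f0, eval_add', eval_mul', evalUpB_qn h, h.h_S, h.h_K,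
    evalUpB_ud h, h.hk2]
  ring

theorem evalUpB_N (h : StripUpChartB x p k k₂) :
    eStripUpB_N.eval x = p.N * (k₂) := by
  simp only [eStripUpB_N, StripAtoms.N, eval_mul', h.h_S, h.h_K, evalUpB_D0 h]
  ring

theorem evalUpB_A0 (h : StripUpChartB x p k k₂) :
    eStripUpB_A0.eval x = p.A0 * (k₂ ^ 3) := by
  simp only [eStripUpB_A0, StripAtoms.A0, eval_add', Ex.eval, evalUpB_N h, h.hk2, h.h_S, h.h_v,
    evalUpB_D0 h]
  ring

theorem evalUpB_A1 (h : StripUpChartB x p k k₂) :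
    eStripUpB_A1.eval x = p.A1 * (k * k₂ ^ 2) := by
  simp only [eStripUpB_A1, StripAtoms.A1, eval_add', eval_mul', evalUpB_f0 h, h.hk2, h.h_S,
    h.h_v, evalUpB_ud h]
  ring

theorem evalUpB_upK (h : StripUpChartB x p k k₂) :
    eStripUpB_upK.eval x = p.upK * (k) := by
  simp only [eStripUpB_upK, StripAtoms.upK, eval_sub', eval_mul', eval_num', h.h_b, h.h_a,
    evalUpB_u h]
  push_cast
  ring

theorem evalUpB_upKu (h : StripUpChartB x p k k₂) :
    eStripUpB_upKu.eval x = p.upKu * (k) := by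
  simp only [eStripUpB_upKu, StripAtoms.upKu, eval_sub', eval_mul', eval_num', h.hk, h.h_a,
    evalUpB_u h]
  push_cast
  ring

theorem evalUpB_upP0 (h : StripUpChartB x p k k₂) :
    eStripUpB_upP0.eval x = p.upP0 * (k) := by
  simp only [eStripUpB_upP0, StripAtoms.upP0, eval_add', eval_sub', eval_mul', eval_num', h.h_I,
    h.hk, h.h_a]
  push_cast
  ring

theorem evalUpB_upP1 (h : StripUpChartB x p k k₂) :
    eStripUpB_upP1.eval x = p.upP1 * (k ^ 2) := by
  simp only [eStripUpB_upP1, StripAtoms.upP1, eval_add', eval_sub', eval_num', Ex.eval, h.hk,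
    h.h_a, h.h_I]
  push_cast
  ring

theorem evalUpB_upP2 (h : StripUpChartB x p k k₂) :
    eStripUpB_upP2.eval x = p.upP2 * (k ^ 2) := by
  simp only [eStripUpB_upP2, StripAtoms.upP2, eval_add', eval_sub', eval_mul', eval_num', h.h_a,
    h.hk, h.h_I]
  push_cast
  ring

theorem evalUpB_upPsi (h : StripUpChartB x p k k₂) :
    eStripUpB_upPsi.eval x = p.upPsi * (k ^ 2) := by
  simp only [eStripUpB_upPsi, StripAtoms.upPsi, eval_add', eval_num', Ex.eval, evalUpB_upP0 h,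
    h.hk, evalUpB_u h, evalUpB_upP1 h, evalUpB_upP2 h]
  push_cast
  ring

theorem evalUpB_upPsiU (h : StripUpChartB x p k k₂) :
    eStripUpB_upPsiU.eval x = p.upPsiU * (k ^ 2) := by
  simp only [eStripUpB_upPsiU, StripAtoms.upPsiU, eval_add', eval_num', Ex.eval, evalUpB_upP1 h,
    evalUpB_u h, evalUpB_upP2 h, h.hk]
  push_cast
  ring

theorem evalUpB_upN (h : StripUpChartB x p k k₂) :
    eStripUpB_upN.eval x = p.upN * (k ^ 2 * k₂ ^ 2) := by
  simp only [eStripUpB_upN, StripAtoms.upN, eval_add', eval_num', Ex.eval, h.hk, h.hk2,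
    evalUpB_upK h, h.h_v, h.h_I, evalUpB_upPsi h]
  push_cast
  ring

theorem evalUpB_upNu (h : StripUpChartB x p k k₂) :
    eStripUpB_upNu.eval x = p.upNu * (k ^ 2 * k₂ ^ 2) := by
  simp only [eStripUpB_upNu, StripAtoms.upNu, eval_add', Ex.eval, evalUpB_upKu h, h.h_v, h.hk,
    h.h_I, evalUpB_upPsiU h, h.hk2]
  ring

theorem evalUpB_upW (h : StripUpChartB x p k k₂) :
    eStripUpB_upW.eval x = p.upW * (k) := by
  simp only [eStripUpB_upW, StripAtoms.upW, eval_sub', eval_mul', eval_num', h.h_b, evalUpB_u h,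
    h.h_a]
  push_cast
  ring

theorem evalUpB_upEn (h : StripUpChartB x p k k₂) :
    eStripUpB_upEn.eval x = p.upEn * (k ^ 4 * k₂ ^ 3) := by
  simp only [eStripUpB_upEn, StripAtoms.upEn, eval_sub', Ex.eval, evalUpB_E0 h, evalUpB_upW h,
    h.hk, h.hk2, evalUpB_e1 h, evalUpB_upN h]
  ring

theorem evalUpB_upFl (h : StripUpChartB x p k k₂) :
    eStripUpB_upFl.eval x = p.upFl * (k ^ 3 * k₂ ^ 3) := by
  simp only [eStripUpB_upFl, StripAtoms.upFl, eval_sub', Ex.eval, evalUpB_f0 h, evalUpB_upN h,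
    evalUpB_N h, evalUpB_upW h, h.hk, h.hk2]
  ring

theorem evalUpB_upFh (h : StripUpChartB x p k k₂) :
    eStripUpB_upFh.eval x = p.upFh * (k ^ 6 * k₂ ^ 6) := by
  simp only [eStripUpB_upFh, StripAtoms.upFh, eval_add', eval_sub', Ex.eval, evalUpB_A0 h,
    evalUpB_upW h, h.hk, h.hk2, evalUpB_A1 h, evalUpB_ud h, evalUpB_E0 h, evalUpB_upN h,
    evalUpB_e1 h]
  ring

theorem evalUpB_upFwd (h : StripUpChartB x p k k₂) :
    eStripUpB_upFwd.eval x = p.upFwd * (k ^ 7 * k₂ ^ 6) := by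
  simp only [eStripUpB_upFwd, StripAtoms.upFwd, eval_sub', eval_num', Ex.eval, evalUpB_upNu h,
    evalUpB_upW h, evalUpB_upN h, h.h_a, evalUpB_u h, evalUpB_upEn h, evalUpB_upK h,
    evalUpB_qu h, evalUpB_upFl h, h.hk, h.hk2, evalUpB_upFh h]
  push_cast
  ring

theorem evalUpB_upDen (h : StripUpChartB x p k k₂) :
    eStripUpB_upDen.eval x = p.upDen * (k ^ 3 * k₂ ^ 2) := by
  simp only [eStripUpB_upDen, StripAtoms.upDen, eval_sub', Ex.eval, evalUpB_D0 h, evalUpB_upW h,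
    h.hk, h.hk2, evalUpB_ud h, evalUpB_upN h]
  ring

theorem evalUpB_upKI (h : StripUpChartB x p k k₂) :
    eStripUpB_upKI.eval x = p.upKI := by
  simp only [eStripUpB_upKI, StripAtoms.upKI, eval_mul', h.h_K, h.h_IT]

theorem evalUpB_upG (h : StripUpChartB x p k k₂) :
    eStripUpB_upG.eval x = p.upG * (k₂ ^ 3) := by
  simp only [eStripUpB_upG, StripAtoms.upG, eval_sub', eval_num', Ex.eval, h.h_S, h.h_v,
    evalUpB_q h, evalUpB_u h, evalUpB_upKI h, h.hk2]
  push_cast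
  ring

theorem evalUpB_upGu (h : StripUpChartB x p k k₂) :
    eStripUpB_upGu.eval x = p.upGu := by
  simp only [eStripUpB_upGu, StripAtoms.upGu, eval_sub', eval_mul', eval_num', evalUpB_upKI h]
  push_cast
  ring

theorem evalUpB_upGv (h : StripUpChartB x p k k₂) :
    eStripUpB_upGv.eval x = p.upGv * (k * k₂) := by
  simp only [eStripUpB_upGv, StripAtoms.upGv, eval_add', eval_mul', eval_num', h.h_S, h.hk2,
    h.h_dv, h.hk, evalUpB_u h, h.h_a, h.h_IT, h.h_K, h.h_d]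
  push_cast
  ring

theorem evalUpB_upM (h : StripUpChartB x p k k₂) :
    eStripUpB_upM.eval x = p.upM * (k₂ ^ 3) := by
  simp only [eStripUpB_upM, StripAtoms.upM, eval_sub', eval_num', Ex.eval, h.h_K, h.hk2, h.h_w,
    evalUpB_upG h]
  push_cast
  ring

theorem evalUpB_upFU (h : StripUpChartB x p k k₂) :
    eStripUpB_upFU.eval x = p.upFU * (k₂ ^ 3) := by
  simp only [eStripUpB_upFU, StripAtoms.upFU, eval_sub', eval_mul', eval_num', Ex.eval, h.h_w,
    evalUpB_upGu h, h.hk2, evalUpB_upG h]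
  push_cast
  ring

theorem evalUpB_upFV (h : StripUpChartB x p k k₂) :
    eStripUpB_upFV.eval x = p.upFV * (k * k₂) := by
  simp only [eStripUpB_upFV, StripAtoms.upFV, eval_add', eval_mul', eval_num', h.h_a, h.hk2,
    h.h_w, evalUpB_upGv h]
  push_cast
  ring

theorem evalUpB_upC0 (h : StripUpChartB x p k k₂) :
    eStripUpB_upC0.eval x = p.upC0 * (k * k₂ ^ 4) := by
  simp only [eStripUpB_upC0, StripAtoms.upC0, eval_add', eval_sub', eval_mul', eval_num',
    evalUpB_upFU h, evalUpB_u h, evalUpB_E0 h, evalUpB_upFV h, evalUpB_qu h, evalUpB_N h, h.hk2,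
    evalUpB_P h, evalUpB_A0 h]
  push_cast
  ring

theorem evalUpB_upC1 (h : StripUpChartB x p k k₂) :
    eStripUpB_upC1.eval x = p.upC1 * (k ^ 2 * k₂ ^ 4) := by
  simp only [eStripUpB_upC1, StripAtoms.upC1, eval_sub', eval_num', Ex.eval, h.h_a, evalUpB_ud h,
    evalUpB_qu h, evalUpB_N h, h.hk2, evalUpB_upFV h, evalUpB_f0 h, evalUpB_E0 h, evalUpB_upFU h,
    evalUpB_u h, evalUpB_e1 h, evalUpB_P h, evalUpB_A1 h, evalUpB_A0 h]
  push_cast
  ring

theorem evalUpB_upC2 (h : StripUpChartB x p k k₂) :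
    eStripUpB_upC2.eval x = p.upC2 * (k ^ 3 * k₂ ^ 3) := by
  simp only [eStripUpB_upC2, StripAtoms.upC2, eval_add', eval_sub', eval_mul', eval_num', h.h_a,
    evalUpB_qu h, evalUpB_e1 h, evalUpB_ud h, evalUpB_f0 h, h.hk2, evalUpB_P h, evalUpB_A1 h]
  push_cast
  ring

theorem evalUpB_upA (h : StripUpChartB x p k k₂) :
    eStripUpB_upA.eval x = p.upA * (k ^ 3 * k₂ ^ 9) := by
  simp only [eStripUpB_upA, StripAtoms.upA, eval_add', eval_num', Ex.eval, evalUpB_upC2 h,
    evalUpB_upM h, evalUpB_upC1 h, evalUpB_P h, h.hk2, evalUpB_upC0 h]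
  push_cast
  ring

theorem evalUpB_upGap (h : StripUpChartB x p k k₂) :
    eStripUpB_upGap.eval x = p.upGap * (k ^ 3 * k₂ ^ 3) := by
  simp only [eStripUpB_upGap, StripAtoms.upGap, eval_sub', eval_num', Ex.eval, evalUpB_upN h,
    evalUpB_P h, evalUpB_upM h, evalUpB_upW h, h.hk]
  push_cast
  ring

theorem evalUpB_upAm (h : StripUpChartB x p k k₂) :
    eStripUpB_upAm.eval x = p.upAm * (k ^ 5 * k₂ ^ 9) := by
  simp only [eStripUpB_upAm, StripAtoms.upAm, eval_sub', eval_num', Ex.eval, evalUpB_upA h, h.hk,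
    evalUpB_u h, h.h_d, h.h_w, evalUpB_P h, h.h_K, h.h_T, evalUpB_upGap h, h.hk2]
  push_cast
  ring

theorem evalUpB_upB (h : StripUpChartB x p k k₂) :
    eStripUpB_upB.eval x = p.upB * (k ^ 3 * k₂ ^ 6) := by
  simp only [eStripUpB_upB, StripAtoms.upB, eval_add', eval_mul', eval_num', evalUpB_upC1 h,
    evalUpB_P h, h.hk2, evalUpB_upC2 h, evalUpB_upM h]
  push_cast
  ring

theorem evalUpB_upC (h : StripUpChartB x p k k₂) :
    eStripUpB_upC.eval x = p.upC * (k ^ 3 * k₂ ^ 4) := by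
  simp only [eStripUpB_upC, StripAtoms.upC, eval_add', eval_mul', eval_num', h.h_d,
    evalUpB_upC1 h, evalUpB_upC2 h, h.hk2]
  push_cast
  ring

end Vale.Agent.P100.Calib.Band.AllLow
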