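import Vale.Agent.P100.Calib.SlabStripTubeAtoms
import Vale.Agent.P100.Calib.SlabStripTubeExpr
import Vale.Agent.P100.Calib.SlabStripUpEvalA
import Vale.Agent.P100.Calib.SlabStripUpEvalB
import Vale.Agent.P100.Calib.SlabStripLeftEval

/-!
# The values of the packed numerators of the band of the radial speed near `u = 1`
-/

set_option linter.unusedVariables false
set_option linter.unusedSimpArgs false

namespace Vale.Agent.P100.Calib.Band.AllLow

open Pack

local instance stripTubeEvalAdd : Add Pack.Ex := ⟨Ex.add⟩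
local instance stripTubeEvalSub : Sub Pack.Ex := ⟨Ex.sub⟩
local instance stripTubeEvalMul : Mul Pack.Ex := ⟨Ex.mul⟩

variable {x : ℕ → ℝ} {p : StripAtoms} {k k₂ : ℝ}

theorem evalTubeA_tuC (h : StripUpChartA x p k) :
    (eStripTubeA_tuC).eval x = p.tuC * (k ^ 2) := by
  simp only [eStripTubeA_tuC, StripAtoms.tuC, eval_add', eval_sub', eval_mul', eval_num', Ex.eval,
      h.h_I, h.h_w, h.hk]
  try push_cast
  ring

theorem evalTubeA_tuG (h : StripUpChartA x p k) :
    (eStripTubeA_tuG).eval x = p.tuG * (k) := by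
  simp only [eStripTubeA_tuG, StripAtoms.tuG, eval_add', eval_sub', eval_mul', eval_num', Ex.eval,
      h.h_I, h.h_d, h.h_w, h.hk]
  try push_cast
  ring

theorem evalTubeA_tuNz (h : StripUpChartA x p k) :
    (eStripTubeA_tuNz).eval x = p.tuNz * (k ^ 3) := by
  simp only [eStripTubeA_tuNz, StripAtoms.tuNz, eval_add', eval_sub', eval_mul', eval_num', Ex.eval,
      evalTubeA_tuC h, evalTubeA_tuG h, evalUpA_D0 h, evalUpA_N h, h.hk]
  try push_cast
  ring

theorem evalTubeA_tuMz (h : StripUpChartA x p k) :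
    (eStripTubeA_tuMz).eval x = p.tuMz * (k ^ 3) := by
  simp only [eStripTubeA_tuMz, StripAtoms.tuMz, eval_add', eval_sub', eval_mul', eval_num', Ex.eval,
      evalTubeA_tuC h, evalTubeA_tuG h, evalUpA_f0 h, evalUpA_ud h, h.hk]
  try push_cast
  ring

theorem evalTubeA_tuNu (h : StripUpChartA x p k) :
    (eStripTubeA_tuNu).eval x = p.tuNu * (k ^ 2) := by
  simp only [eStripTubeA_tuNu, StripAtoms.tuNu, eval_add', eval_sub', eval_mul', eval_num', Ex.eval,
      evalUpA_D0 h, evalUpA_N h, h.h_I, h.hk]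
  try push_cast
  ring

theorem evalTubeA_tuMu (h : StripUpChartA x p k) :
    (eStripTubeA_tuMu).eval x = p.tuMu * (k ^ 3) := by
  simp only [eStripTubeA_tuMu, StripAtoms.tuMu, eval_add', eval_sub', eval_mul', eval_num', Ex.eval,
      evalTubeA_tuC h, evalTubeA_tuG h, evalUpA_f0 h, evalUpA_q h, evalUpA_ud h, h.h_I, h.h_K,
      h.h_S, h.h_d, h.hk]
  try push_cast
  ring

theorem evalTubeA_tuNv (h : StripUpChartA x p k) :
    (eStripTubeA_tuNv).eval x = p.tuNv * (k ^ 3) := by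
  simp only [eStripTubeA_tuNv, StripAtoms.tuNv, eval_add', eval_sub', eval_mul', eval_num', Ex.eval,
      evalTubeA_tuC h, evalTubeA_tuG h, evalUpA_D0 h, h.h_K, h.h_S, h.h_a, h.h_d, h.hk]
  try push_cast
  ring

theorem evalTubeA_tuMv (h : StripUpChartA x p k) :
    (eStripTubeA_tuMv).eval x = p.tuMv * (k ^ 3) := by
  simp only [eStripTubeA_tuMv, StripAtoms.tuMv, eval_add', eval_sub', eval_mul', eval_num', Ex.eval,
      evalTubeA_tuG h, evalUpA_u h, evalUpA_ud h, h.h_S, h.h_a, h.h_b, h.h_d, h.hk]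
  try push_cast
  ring

theorem evalTubeA_tuEn (h : StripUpChartA x p k) :
    (eStripTubeA_tuEn).eval x = p.tuEn * (k ^ 5) := by
  simp only [eStripTubeA_tuEn, StripAtoms.tuEn, eval_add', eval_sub', eval_mul', eval_num', Ex.eval,
      evalTubeA_tuMz h, evalTubeA_tuNz h, evalUpA_E0 h, evalUpA_e1 h]
  try push_cast
  ring

theorem evalTubeA_tuFl (h : StripUpChartA x p k) :
    (eStripTubeA_tuFl).eval x = p.tuFl * (k ^ 5) := by
  simp only [eStripTubeA_tuFl, StripAtoms.tuFl, eval_add', eval_sub', eval_mul', eval_num', Ex.eval,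
      evalTubeA_tuMz h, evalTubeA_tuNz h, evalUpA_N h, evalUpA_f0 h]
  try push_cast
  ring

theorem evalTubeA_tuFh (h : StripUpChartA x p k) :
    (eStripTubeA_tuFh).eval x = p.tuFh * (k ^ 8) := by
  simp only [eStripTubeA_tuFh, StripAtoms.tuFh, eval_add', eval_sub', eval_mul', eval_num', Ex.eval,
      evalTubeA_tuMz h, evalTubeA_tuNz h, evalUpA_A0 h, evalUpA_A1 h, evalUpA_E0 h, evalUpA_e1 h,
      evalUpA_ud h]
  try push_cast
  ring

theorem evalTubeA_tuT (h : StripUpChartA x p k) :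
    (eStripTubeA_tuT).eval x = p.tuT * (k ^ 11) := by
  simp only [eStripTubeA_tuT, StripAtoms.tuT, eval_add', eval_sub', eval_mul', eval_num', Ex.eval,
      evalTubeA_tuEn h, evalTubeA_tuFh h, evalTubeA_tuFl h, evalTubeA_tuMu h, evalTubeA_tuMv h,
      evalTubeA_tuMz h, evalTubeA_tuNu h, evalTubeA_tuNv h, evalTubeA_tuNz h, evalUpA_qu h,
      evalUpA_u h, h.hk]
  try push_cast
  ring

theorem evalTubeA_tuTop (h : StripUpChartA x p k) :
    (eStripTubeA_tuTop).eval x = p.tuTop * (k ^ 5) := by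
  simp only [eStripTubeA_tuTop, StripAtoms.tuTop, eval_add', eval_sub', eval_mul', eval_num',
      Ex.eval, evalTubeA_tuMz h, evalTubeA_tuNz h, evalUpA_P h, evalUpA_upM h, h.hk]
  try push_cast
  ring

theorem evalTubeA_tuMult (h : StripUpChartA x p k) :
    (eStripTubeA_tuMult).eval x = p.tuMult * (k ^ 5) := by
  simp only [eStripTubeA_tuMult, StripAtoms.tuMult, eval_add', eval_sub', eval_mul', eval_num',
      Ex.eval, evalTubeA_tuG h, evalUpA_qn h, h.h_I, h.h_S, h.h_d, h.h_w, h.hk]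
  try push_cast
  ring

theorem evalTubeA_tube (h : StripUpChartA x p k) :
    (eStripTubeA_tube).eval x = p.tube * (k ^ 11) := by
  simp only [eStripTubeA_tube, StripAtoms.tube, eval_add', eval_sub', eval_mul', eval_num', Ex.eval,
      evalTubeA_tuMult h, evalTubeA_tuT h, evalTubeA_tuTop h, h.hk]
  try push_cast
  ring

theorem evalTubeB_tuC (h : StripUpChartB x p k k₂) :
    (eStripTubeB_tuC).eval x = p.tuC := by
  simp only [eStripTubeB_tuC, StripAtoms.tuC, eval_add', eval_sub', eval_mul', eval_num', Ex.eval,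
      h.h_I, h.h_w]
  try push_cast
  ring

theorem evalTubeB_tuG (h : StripUpChartB x p k k₂) :
    (eStripTubeB_tuG).eval x = p.tuG * (k) := by
  simp only [eStripTubeB_tuG, StripAtoms.tuG, eval_add', eval_sub', eval_mul', eval_num', Ex.eval,
      h.h_I, h.h_d, h.h_w, h.hk]
  try push_cast
  ring

theorem evalTubeB_tuNz (h : StripUpChartB x p k k₂) :
    (eStripTubeB_tuNz).eval x = p.tuNz * (k * k₂) := by
  simp only [eStripTubeB_tuNz, StripAtoms.tuNz, eval_add', eval_sub', eval_mul', eval_num', Ex.eval,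
      evalTubeB_tuC h, evalTubeB_tuG h, evalUpB_D0 h, evalUpB_N h, h.hk]
  try push_cast
  ring

theorem evalTubeB_tuMz (h : StripUpChartB x p k k₂) :
    (eStripTubeB_tuMz).eval x = p.tuMz * (k ^ 2 * k₂) := by
  simp only [eStripTubeB_tuMz, StripAtoms.tuMz, eval_add', eval_sub', eval_mul', eval_num', Ex.eval,
      evalTubeB_tuC h, evalTubeB_tuG h, evalUpB_f0 h, evalUpB_ud h, h.hk, h.hk2]
  try push_cast
  ring

theorem evalTubeB_tuNu (h : StripUpChartB x p k k₂) :
    (eStripTubeB_tuNu).eval x = p.tuNu * (k₂) := by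
  simp only [eStripTubeB_tuNu, StripAtoms.tuNu, eval_add', eval_sub', eval_mul', eval_num', Ex.eval,
      evalUpB_D0 h, evalUpB_N h, h.h_I, h.hk2]
  try push_cast
  ring

theorem evalTubeB_tuMu (h : StripUpChartB x p k k₂) :
    (eStripTubeB_tuMu).eval x = p.tuMu * (k ^ 2 * k₂) := by
  simp only [eStripTubeB_tuMu, StripAtoms.tuMu, eval_add', eval_sub', eval_mul', eval_num', Ex.eval,
      evalTubeB_tuC h, evalTubeB_tuG h, evalUpB_f0 h, evalUpB_q h, evalUpB_ud h, h.h_I, h.h_K,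
      h.h_S, h.h_d, h.hk, h.hk2]
  try push_cast
  ring

theorem evalTubeB_tuNv (h : StripUpChartB x p k k₂) :
    (eStripTubeB_tuNv).eval x = p.tuNv * (k ^ 2 * k₂) := by
  simp only [eStripTubeB_tuNv, StripAtoms.tuNv, eval_add', eval_sub', eval_mul', eval_num', Ex.eval,
      evalTubeB_tuC h, evalTubeB_tuG h, evalUpB_D0 h, h.h_K, h.h_S, h.h_a, h.h_d, h.hk, h.hk2]
  try push_cast
  ring

theorem evalTubeB_tuMv (h : StripUpChartB x p k k₂) :
    (eStripTubeB_tuMv).eval x = p.tuMv * (k ^ 3) := by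
  simp only [eStripTubeB_tuMv, StripAtoms.tuMv, eval_add', eval_sub', eval_mul', eval_num', Ex.eval,
      evalTubeB_tuG h, evalUpB_u h, evalUpB_ud h, h.h_S, h.h_a, h.h_b, h.h_d, h.hk]
  try push_cast
  ring

theorem evalTubeB_tuEn (h : StripUpChartB x p k k₂) :
    (eStripTubeB_tuEn).eval x = p.tuEn * (k ^ 3 * k₂ ^ 2) := by
  simp only [eStripTubeB_tuEn, StripAtoms.tuEn, eval_add', eval_sub', eval_mul', eval_num', Ex.eval,
      evalTubeB_tuMz h, evalTubeB_tuNz h, evalUpB_E0 h, evalUpB_e1 h]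
  try push_cast
  ring

theorem evalTubeB_tuFl (h : StripUpChartB x p k k₂) :
    (eStripTubeB_tuFl).eval x = p.tuFl * (k ^ 2 * k₂ ^ 2) := by
  simp only [eStripTubeB_tuFl, StripAtoms.tuFl, eval_add', eval_sub', eval_mul', eval_num', Ex.eval,
      evalTubeB_tuMz h, evalTubeB_tuNz h, evalUpB_N h, evalUpB_f0 h]
  try push_cast
  ring

theorem evalTubeB_tuFh (h : StripUpChartB x p k k₂) :
    (eStripTubeB_tuFh).eval x = p.tuFh * (k ^ 4 * k₂ ^ 5) := by
  simp only [eStripTubeB_tuFh, StripAtoms.tuFh, eval_add', eval_sub', eval_mul', eval_num', Ex.eval,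
      evalTubeB_tuMz h, evalTubeB_tuNz h, evalUpB_A0 h, evalUpB_A1 h, evalUpB_E0 h, evalUpB_e1 h,
      evalUpB_ud h, h.hk2]
  try push_cast
  ring

theorem evalTubeB_tuT (h : StripUpChartB x p k k₂) :
    (eStripTubeB_tuT).eval x = p.tuT * (k ^ 6 * k₂ ^ 6) := by
  simp only [eStripTubeB_tuT, StripAtoms.tuT, eval_add', eval_sub', eval_mul', eval_num', Ex.eval,
      evalTubeB_tuEn h, evalTubeB_tuFh h, evalTubeB_tuFl h, evalTubeB_tuMu h, evalTubeB_tuMv h,
      evalTubeB_tuMz h, evalTubeB_tuNu h, evalTubeB_tuNv h, evalTubeB_tuNz h, evalUpB_qu h,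
      evalUpB_u h, h.hk, h.hk2]
  try push_cast
  ring

theorem evalTubeB_tuTop (h : StripUpChartB x p k k₂) :
    (eStripTubeB_tuTop).eval x = p.tuTop * (k ^ 2 * k₂ ^ 4) := by
  simp only [eStripTubeB_tuTop, StripAtoms.tuTop, eval_add', eval_sub', eval_mul', eval_num',
      Ex.eval, evalTubeB_tuMz h, evalTubeB_tuNz h, evalUpB_P h, evalUpB_upM h, h.hk2]
  try push_cast
  ring

theorem evalTubeB_tuMult (h : StripUpChartB x p k k₂) :
    (eStripTubeB_tuMult).eval x = p.tuMult * (k ^ 4 * k₂) := by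
  simp only [eStripTubeB_tuMult, StripAtoms.tuMult, eval_add', eval_sub', eval_mul', eval_num',
      Ex.eval, evalTubeB_tuG h, evalUpB_qn h, h.h_I, h.h_S, h.h_d, h.h_w, h.hk]
  try push_cast
  ring

theorem evalTubeB_tube (h : StripUpChartB x p k k₂) :
    (eStripTubeB_tube).eval x = p.tube * (k ^ 6 * k₂ ^ 6) := by
  simp only [eStripTubeB_tube, StripAtoms.tube, eval_add', eval_sub', eval_mul', eval_num', Ex.eval,
      evalTubeB_tuMult h, evalTubeB_tuT h, evalTubeB_tuTop h, h.hk2]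
  try push_cast
  ring

theorem evalTubeE_tuC (h : StripLeftPoint x p eStripTubeV (eN 1) 1) :
    eStripTubeE_tuC.eval x = p.tuC * ((100 : ℝ) ^ 0) := by
  simp only [eStripTubeE_tuC, StripAtoms.tuC, eval_add', eval_sub', eval_mul', eval_num', Ex.eval,
      h.h_I, h.h_w]
  try push_cast
  ring

theorem evalTubeE_tuG (h : StripLeftPoint x p eStripTubeV (eN 1) 1) :
    eStripTubeE_tuG.eval x = p.tuG * ((100 : ℝ) ^ 1) := by
  simp only [eStripTubeE_tuG, StripAtoms.tuG, eval_add', eval_sub', eval_mul', eval_num', Ex.eval,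
      h.h_I, h.h_d, h.h_w]
  try push_cast
  ring

theorem evalTubeE_tuNz (h : StripLeftPoint x p eStripTubeV (eN 1) 1) :
    eStripTubeE_tuNz.eval x = p.tuNz * ((100 : ℝ) ^ 5) := by
  simp only [eStripTubeE_tuNz, StripAtoms.tuNz, eval_add', eval_sub', eval_mul', eval_num', Ex.eval,
      evalLf_D0 h, evalLf_N h, evalTubeE_tuC h, evalTubeE_tuG h]
  try push_cast
  ring

theorem evalTubeE_tuMz (h : StripLeftPoint x p eStripTubeV (eN 1) 1) :
    eStripTubeE_tuMz.eval x = p.tuMz * ((100 : ℝ) ^ 4) := by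
  simp only [eStripTubeE_tuMz, StripAtoms.tuMz, eval_add', eval_sub', eval_mul', eval_num', Ex.eval,
      evalLf_f0 h, evalLf_ud h, evalTubeE_tuC h, evalTubeE_tuG h]
  try push_cast
  ring

theorem evalTubeE_sevK (h : StripLeftPoint x p eStripTubeV (eN 1) 1) :
    eStripTubeE_sevK.eval x = p.sevK * ((100 : ℝ) ^ 1) := by
  simp only [eStripTubeE_sevK, StripAtoms.sevK, eval_add', eval_sub', eval_mul', eval_num', Ex.eval,
      evalLf_u h, h.h_a, h.h_b]
  try push_cast
  ring

theorem evalTubeE_sevPsi (h : StripLeftPoint x p eStripTubeV (eN 1) 1) :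
    eStripTubeE_sevPsi.eval x = p.sevPsi * ((100 : ℝ) ^ 2) := by
  simp only [eStripTubeE_sevPsi, StripAtoms.sevPsi, eval_add', eval_sub', eval_mul', eval_num',
      Ex.eval, evalLf_upPsi h]
  try push_cast
  ring

theorem evalTubeE_sevN (h : StripLeftPoint x p eStripTubeV (eN 1) 1) :
    eStripTubeE_sevN.eval x = p.sevN * ((100 : ℝ) ^ 2) := by
  simp only [eStripTubeE_sevN, StripAtoms.sevN, eval_add', eval_sub', eval_mul', eval_num', Ex.eval,
      evalTubeE_sevK h, evalTubeE_sevPsi h, h.h_I, h.h_v]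
  try push_cast
  ring

theorem evalTubeE_tuMix (h : StripLeftPoint x p eStripTubeV (eN 1) 1) :
    eStripTubeE_tuMix.eval x = p.tuMix * ((100 : ℝ) ^ 5) := by
  simp only [eStripTubeE_tuMix, StripAtoms.tuMix, eval_add', eval_sub', eval_mul', eval_num',
      Ex.eval, evalLf_P h, evalLf_upM h, evalLf_upW h, evalTubeE_sevN h]
  try push_cast
  ring

theorem evalTubeE_tuEntry (h : StripLeftPoint x p eStripTubeV (eN 1) 1) :
    eStripTubeE_tuEntry.eval x = p.tuEntry * ((100 : ℝ) ^ 9) := by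
  simp only [eStripTubeE_tuEntry, StripAtoms.tuEntry, eval_add', eval_sub', eval_mul', eval_num',
      Ex.eval, evalLf_P h, evalLf_flMixC h, evalLf_upW h, evalTubeE_tuMz h, evalTubeE_tuNz h]
  try push_cast
  ring

theorem evalTubeE_tuEntryS (h : StripLeftPoint x p eStripTubeV (eN 1) 1) :
    eStripTubeE_tuEntryS.eval x = p.tuEntryS * ((100 : ℝ) ^ 9) := by
  simp only [eStripTubeE_tuEntryS, StripAtoms.tuEntryS, eval_add', eval_sub', eval_mul', eval_num',
      Ex.eval, evalLf_P h, evalLf_upW h, evalTubeE_tuMix h, evalTubeE_tuMz h, evalTubeE_tuNz h]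
  try push_cast
  ring

theorem evalTubeE_tuLow (h : StripLeftPoint x p eStripTubeV (eN 1) 1) :
    eStripTubeE_tuLow.eval x = p.tuLow * ((100 : ℝ) ^ 5) := by
  simp only [eStripTubeE_tuLow, StripAtoms.tuLow, eval_add', eval_sub', eval_mul', eval_num',
      Ex.eval, evalLf_N h, evalLf_f0 h, evalLf_upW h, evalTubeE_sevN h]
  try push_cast
  ring

end Vale.Agent.P100.Calib.Band.AllLow
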