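import Vale.Agent.P100.Calib.SlabAllLow
import Vale.Agent.P100.Calib.SlabStripUpAtoms
import Vale.Agent.P100.Calib.SlabStripUpExprC

/-!
# The values of the packed numerators of the upper bands in the chart C of the strip

`StripUpChartC` relates a point of the chart to the variables.
-/

namespace Vale.Agent.P100.Calib.Band.AllLow

open Pack

local instance stripUpEvalCAdd : Add Pack.Ex := ⟨Ex.add⟩
local instance stripUpEvalCSub : Sub Pack.Ex := ⟨Ex.sub⟩
local instance stripUpEvalCMul : Mul Pack.Ex := ⟨Ex.mul⟩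

/-- The values of the variables. -/
structure StripUpChartC (x : ℕ → ℝ) (p : StripAtoms) (k k₂ : ℝ) : Prop where
  hk : eStripUpCK1.eval x = k
  hk2 : eStripUpCK2.eval x = k₂
  h_w : eStripUpC_w.eval x = p.w
  h_v : eStripUpC_v.eval x = p.v
  h_I : eStripUpC_I.eval x = p.I * (k)
  h_S : eStripUpC_S.eval x = p.S * (k)
  h_d : eStripUpC_d.eval x = p.d * (k)
  h_a : eStripUpC_a.eval x = p.a * (k)
  h_b : eStripUpC_b.eval x = p.b * (k)
  h_K : eStripUpC_K.eval x = p.K * (k)
  h_IT : eStripUpC_IT.eval x = p.IT * (k ^ 2)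
  h_dv : eStripUpC_dv.eval x = p.dv * (k)
  h_T : eStripUpC_T.eval x = p.T * (k * k₂)

variable {x : ℕ → ℝ} {p : StripAtoms} {k k₂ : ℝ}

theorem evalUpC_q (h : StripUpChartC x p k k₂) :
    eStripUpC_q.eval x = p.q * (k) := by
  simp only [eStripUpC_q, StripAtoms.q, eval_add', h.hk, h.h_dv]
  ring

theorem evalUpC_D0 (h : StripUpChartC x p k k₂) :
    eStripUpC_D0.eval x = p.D0 * (k) := by
  simp only [eStripUpC_D0, StripAtoms.D0, eval_add', eval_mul', eval_num', h.hk, h.h_dv]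
  push_cast
  ring

theorem evalUpC_u (h : StripUpChartC x p k k₂) :
    eStripUpC_u.eval x = p.u := by
  simp only [eStripUpC_u, StripAtoms.u, eval_sub', eval_num', h.h_w]
  push_cast
  ring

theorem evalUpC_qu (h : StripUpChartC x p k k₂) :
    eStripUpC_qu.eval x = p.qu * (k) := by
  simp only [eStripUpC_qu, StripAtoms.qu, eval_mul', evalUpC_q h, evalUpC_u h]
  ring

theorem evalUpC_P (h : StripUpChartC x p k k₂) :
    eStripUpC_P.eval x = p.P * (k ^ 2) := by
  simp only [eStripUpC_P, StripAtoms.P, eval_sub', eval_mul', h.h_b, h.hk, h.h_a, evalUpC_qu h]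
  ring

theorem evalUpC_qn (h : StripUpChartC x p k k₂) :
    eStripUpC_qn.eval x = p.qn * (k ^ 2) := by
  simp only [eStripUpC_qn, StripAtoms.qn, eval_sub', eval_mul', h.h_b, evalUpC_D0 h, h.h_S,
    evalUpC_qu h]
  ring

theorem evalUpC_ud (h : StripUpChartC x p k k₂) :
    eStripUpC_ud.eval x = p.ud * (k) := by
  simp only [eStripUpC_ud, StripAtoms.ud, eval_mul', evalUpC_u h, h.h_d]
  ring

theorem evalUpC_e1 (h : StripUpChartC x p k k₂) :
    eStripUpC_e1.eval x = p.e1 * (k ^ 3) := by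
  simp only [eStripUpC_e1, StripAtoms.e1, eval_sub', eval_mul', evalUpC_ud h, evalUpC_qn h,
    h.h_S, h.h_w, h.h_b]
  ring

theorem evalUpC_E0 (h : StripUpChartC x p k k₂) :
    eStripUpC_E0.eval x = p.E0 * (k ^ 3) := by
  simp only [eStripUpC_E0, StripAtoms.E0, eval_sub', eval_mul', evalUpC_qn h, h.hk, h.h_S, h.h_w,
    h.h_b, evalUpC_D0 h]
  ring

theorem evalUpC_f0 (h : StripUpChartC x p k k₂) :
    eStripUpC_f0.eval x = p.f0 * (k ^ 3) := by
  simp only [eStripUpC_f0, StripAtoms.f0, eval_add', eval_mul', evalUpC_qn h, h.hk, h.h_S, h.h_K,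
    evalUpC_ud h]
  ring

theorem evalUpC_N (h : StripUpChartC x p k k₂) :
    eStripUpC_N.eval x = p.N * (k ^ 3) := by
  simp only [eStripUpC_N, StripAtoms.N, eval_mul', h.h_S, h.h_K, evalUpC_D0 h]
  ring

theorem evalUpC_A0 (h : StripUpChartC x p k k₂) :
    eStripUpC_A0.eval x = p.A0 * (k ^ 3) := by
  simp only [eStripUpC_A0, StripAtoms.A0, eval_add', eval_mul', evalUpC_N h, h.h_S, h.h_v,
    evalUpC_D0 h, h.hk]
  ring

theorem evalUpC_A1 (h : StripUpChartC x p k k₂) :
    eStripUpC_A1.eval x = p.A1 * (k ^ 3) := by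
  simp only [eStripUpC_A1, StripAtoms.A1, eval_add', eval_mul', evalUpC_f0 h, h.h_S, h.h_v,
    evalUpC_ud h, h.hk]
  ring

theorem evalUpC_upK (h : StripUpChartC x p k k₂) :
    eStripUpC_upK.eval x = p.upK * (k) := by
  simp only [eStripUpC_upK, StripAtoms.upK, eval_sub', eval_mul', eval_num', h.h_b, h.h_a,
    evalUpC_u h]
  push_cast
  ring

theorem evalUpC_upKu (h : StripUpChartC x p k k₂) :
    eStripUpC_upKu.eval x = p.upKu * (k) := by
  simp only [eStripUpC_upKu, StripAtoms.upKu, eval_sub', eval_mul', eval_num', h.hk, h.h_a,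
    evalUpC_u h]
  push_cast
  ring

theorem evalUpC_upP0 (h : StripUpChartC x p k k₂) :
    eStripUpC_upP0.eval x = p.upP0 * (k ^ 2) := by
  simp only [eStripUpC_upP0, StripAtoms.upP0, eval_sub', eval_num', Ex.eval, h.h_I, h.hk, h.h_a]
  push_cast
  ring

theorem evalUpC_upP1 (h : StripUpChartC x p k k₂) :
    eStripUpC_upP1.eval x = p.upP1 * (k ^ 3) := by
  simp only [eStripUpC_upP1, StripAtoms.upP1, eval_add', eval_sub', eval_num', Ex.eval, h.hk,
    h.h_a, h.h_I]
  push_cast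
  ring

theorem evalUpC_upP2 (h : StripUpChartC x p k k₂) :
    eStripUpC_upP2.eval x = p.upP2 * (k ^ 3) := by
  simp only [eStripUpC_upP2, StripAtoms.upP2, eval_add', eval_sub', eval_mul', eval_num', h.h_a,
    h.hk, h.h_I]
  push_cast
  ring

theorem evalUpC_upPsi (h : StripUpChartC x p k k₂) :
    eStripUpC_upPsi.eval x = p.upPsi * (k ^ 3) := by
  simp only [eStripUpC_upPsi, StripAtoms.upPsi, eval_add', eval_num', Ex.eval, evalUpC_upP0 h,
    h.hk, evalUpC_u h, evalUpC_upP1 h, evalUpC_upP2 h]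
  push_cast
  ring

theorem evalUpC_upPsiU (h : StripUpChartC x p k k₂) :
    eStripUpC_upPsiU.eval x = p.upPsiU * (k ^ 3) := by
  simp only [eStripUpC_upPsiU, StripAtoms.upPsiU, eval_add', eval_num', Ex.eval, evalUpC_upP1 h,
    evalUpC_u h, evalUpC_upP2 h, h.hk]
  push_cast
  ring

theorem evalUpC_upN (h : StripUpChartC x p k k₂) :
    eStripUpC_upN.eval x = p.upN * (k ^ 4) := by
  simp only [eStripUpC_upN, StripAtoms.upN, eval_add', eval_num', Ex.eval, h.hk, evalUpC_upK h,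
    h.h_v, h.h_I, evalUpC_upPsi h]
  push_cast
  ring

theorem evalUpC_upNu (h : StripUpChartC x p k k₂) :
    eStripUpC_upNu.eval x = p.upNu * (k ^ 4) := by
  simp only [eStripUpC_upNu, StripAtoms.upNu, eval_add', Ex.eval, evalUpC_upKu h, h.h_v, h.hk,
    h.h_I, evalUpC_upPsiU h]
  ring

theorem evalUpC_upW (h : StripUpChartC x p k k₂) :
    eStripUpC_upW.eval x = p.upW * (k) := by
  simp only [eStripUpC_upW, StripAtoms.upW, eval_sub', eval_mul', eval_num', h.h_b, evalUpC_u h,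
    h.h_a]
  push_cast
  ring

theorem evalUpC_upEn (h : StripUpChartC x p k k₂) :
    eStripUpC_upEn.eval x = p.upEn * (k ^ 7) := by
  simp only [eStripUpC_upEn, StripAtoms.upEn, eval_sub', Ex.eval, evalUpC_E0 h, evalUpC_upW h,
    h.hk, evalUpC_e1 h, evalUpC_upN h]
  ring

theorem evalUpC_upFl (h : StripUpChartC x p k k₂) :
    eStripUpC_upFl.eval x = p.upFl * (k ^ 7) := by
  simp only [eStripUpC_upFl, StripAtoms.upFl, eval_sub', Ex.eval, evalUpC_f0 h, evalUpC_upN h,
    evalUpC_N h, evalUpC_upW h, h.hk]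
  ring

theorem evalUpC_upFh (h : StripUpChartC x p k k₂) :
    eStripUpC_upFh.eval x = p.upFh * (k ^ 12) := by
  simp only [eStripUpC_upFh, StripAtoms.upFh, eval_add', eval_sub', Ex.eval, evalUpC_A0 h,
    evalUpC_upW h, h.hk, evalUpC_A1 h, evalUpC_ud h, evalUpC_E0 h, evalUpC_upN h, evalUpC_e1 h]
  ring

theorem evalUpC_upFwd (h : StripUpChartC x p k k₂) :
    eStripUpC_upFwd.eval x = p.upFwd * (k ^ 13) := by
  simp only [eStripUpC_upFwd, StripAtoms.upFwd, eval_sub', eval_num', Ex.eval, evalUpC_upNu h,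
    evalUpC_upW h, evalUpC_upN h, h.h_a, evalUpC_u h, evalUpC_upEn h, evalUpC_upK h,
    evalUpC_qu h, evalUpC_upFl h, h.hk, evalUpC_upFh h]
  push_cast
  ring

theorem evalUpC_upDen (h : StripUpChartC x p k k₂) :
    eStripUpC_upDen.eval x = p.upDen * (k ^ 5) := by
  simp only [eStripUpC_upDen, StripAtoms.upDen, eval_sub', Ex.eval, evalUpC_D0 h, evalUpC_upW h,
    h.hk, evalUpC_ud h, evalUpC_upN h]
  ring

theorem evalUpC_upKI (h : StripUpChartC x p k k₂) :
    eStripUpC_upKI.eval x = p.upKI * (k ^ 3) := by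
  simp only [eStripUpC_upKI, StripAtoms.upKI, eval_mul', h.h_K, h.h_IT]
  ring

theorem evalUpC_upG (h : StripUpChartC x p k k₂) :
    eStripUpC_upG.eval x = p.upG * (k ^ 3) := by
  simp only [eStripUpC_upG, StripAtoms.upG, eval_add', eval_sub', eval_mul', eval_num', h.h_S,
    h.h_v, evalUpC_q h, h.hk, evalUpC_u h, evalUpC_upKI h]
  push_cast
  ring

theorem evalUpC_upGu (h : StripUpChartC x p k k₂) :
    eStripUpC_upGu.eval x = p.upGu * (k ^ 3) := by
  simp only [eStripUpC_upGu, StripAtoms.upGu, eval_sub', eval_num', Ex.eval, h.hk, evalUpC_upKI h]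
  push_cast
  ring

theorem evalUpC_upGv (h : StripUpChartC x p k k₂) :
    eStripUpC_upGv.eval x = p.upGv * (k ^ 3) := by
  simp only [eStripUpC_upGv, StripAtoms.upGv, eval_add', eval_mul', eval_num', h.h_S, h.hk,
    h.h_dv, evalUpC_u h, h.h_a, h.h_IT, h.h_K, h.h_d]
  push_cast
  ring

theorem evalUpC_upM (h : StripUpChartC x p k k₂) :
    eStripUpC_upM.eval x = p.upM * (k ^ 3) := by
  simp only [eStripUpC_upM, StripAtoms.upM, eval_sub', eval_num', Ex.eval, h.h_K, h.hk, h.h_w,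
    evalUpC_upG h]
  push_cast
  ring

theorem evalUpC_upFU (h : StripUpChartC x p k k₂) :
    eStripUpC_upFU.eval x = p.upFU * (k ^ 3) := by
  simp only [eStripUpC_upFU, StripAtoms.upFU, eval_sub', eval_mul', eval_num', h.h_w,
    evalUpC_upGu h, evalUpC_upG h]
  push_cast
  ring

theorem evalUpC_upFV (h : StripUpChartC x p k k₂) :
    eStripUpC_upFV.eval x = p.upFV * (k ^ 3) := by
  simp only [eStripUpC_upFV, StripAtoms.upFV, eval_add', eval_num', Ex.eval, h.h_a, h.hk, h.h_w,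
    evalUpC_upGv h]
  push_cast
  ring

theorem evalUpC_upC0 (h : StripUpChartC x p k k₂) :
    eStripUpC_upC0.eval x = p.upC0 * (k ^ 7) := by
  simp only [eStripUpC_upC0, StripAtoms.upC0, eval_add', eval_sub', eval_num', Ex.eval,
    evalUpC_upFU h, evalUpC_u h, evalUpC_E0 h, h.hk, evalUpC_upFV h, evalUpC_qu h, evalUpC_N h,
    evalUpC_P h, evalUpC_A0 h]
  push_cast
  ring

theorem evalUpC_upC1 (h : StripUpChartC x p k k₂) :
    eStripUpC_upC1.eval x = p.upC1 * (k ^ 7) := by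
  simp only [eStripUpC_upC1, StripAtoms.upC1, eval_sub', eval_num', Ex.eval, h.h_a, evalUpC_ud h,
    evalUpC_qu h, evalUpC_N h, h.hk, evalUpC_upFV h, evalUpC_f0 h, evalUpC_E0 h, evalUpC_upFU h,
    evalUpC_u h, evalUpC_e1 h, evalUpC_P h, evalUpC_A1 h, evalUpC_A0 h]
  push_cast
  ring

theorem evalUpC_upC2 (h : StripUpChartC x p k k₂) :
    eStripUpC_upC2.eval x = p.upC2 * (k ^ 6) := by
  simp only [eStripUpC_upC2, StripAtoms.upC2, eval_add', eval_sub', eval_mul', eval_num', h.h_a,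
    evalUpC_qu h, evalUpC_e1 h, h.hk, evalUpC_ud h, evalUpC_f0 h, evalUpC_P h, evalUpC_A1 h]
  push_cast
  ring

theorem evalUpC_upA (h : StripUpChartC x p k k₂) :
    eStripUpC_upA.eval x = p.upA * (k ^ 12) := by
  simp only [eStripUpC_upA, StripAtoms.upA, eval_add', eval_mul', eval_num', evalUpC_upC2 h,
    evalUpC_upM h, evalUpC_upC1 h, evalUpC_P h, evalUpC_upC0 h, h.hk]
  push_cast
  ring

theorem evalUpC_upGap (h : StripUpChartC x p k k₂) :
    eStripUpC_upGap.eval x = p.upGap * (k ^ 6) := by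
  simp only [eStripUpC_upGap, StripAtoms.upGap, eval_sub', eval_num', Ex.eval, evalUpC_upN h,
    evalUpC_P h, evalUpC_upM h, evalUpC_upW h, h.hk]
  push_cast
  ring

theorem evalUpC_upAm (h : StripUpChartC x p k k₂) :
    eStripUpC_upAm.eval x = p.upAm * (k ^ 12 * k₂) := by
  simp only [eStripUpC_upAm, StripAtoms.upAm, eval_add', eval_sub', eval_mul', eval_num',
    evalUpC_upA h, h.hk2, evalUpC_u h, h.hk, h.h_d, h.h_w, evalUpC_P h, h.h_K, h.h_T,
    evalUpC_upGap h]
  push_cast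
  ring

theorem evalUpC_upB (h : StripUpChartC x p k k₂) :
    eStripUpC_upB.eval x = p.upB * (k ^ 9) := by
  simp only [eStripUpC_upB, StripAtoms.upB, eval_add', eval_mul', eval_num', evalUpC_upC1 h,
    evalUpC_P h, evalUpC_upC2 h, evalUpC_upM h]
  push_cast
  ring

theorem evalUpC_upC (h : StripUpChartC x p k k₂) :
    eStripUpC_upC.eval x = p.upC * (k ^ 8) := by
  simp only [eStripUpC_upC, StripAtoms.upC, eval_add', eval_num', Ex.eval, h.h_d, evalUpC_upC1 h,
    evalUpC_upC2 h, h.hk]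
  push_cast
  ring

end Vale.Agent.P100.Calib.Band.AllLow
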