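import Vale.Agent.P100.Calib.SlabStripUpEvalA
import Vale.Agent.P100.Calib.SlabStripUpEvalB
import Vale.Agent.P100.Calib.SlabStripUpEvalC
import Vale.Agent.P100.Calib.SlabStripSigns

/-!
# The charts of the upper bands of the strip

The three charts: `(w, v, rho, tau)` for `v < 1/5`, `rho < 2/5`,
`(w, v, rho, theta)` for `v < 1/5`, `rho >= 2/5` and `(w, K, I, tau)` otherwise,
`rho = 2 I / (S v)`, `tau = S d v / (2 I)`, `theta = d / (19/50 - 2 I)`, `K = 1 - a v`.
-/

namespace Vale.Agent.P100.Calib.Band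

open Vale.Agent.P100.Bubble Chart

namespace AllLow


open Pack

local instance stripUpSignsAdd : Add Pack.Ex := ⟨Ex.add⟩
local instance stripUpSignsSub : Sub Pack.Ex := ⟨Ex.sub⟩
local instance stripUpSignsMul : Mul Pack.Ex := ⟨Ex.mul⟩

/-- `T = 1 - tau`. -/
theorem stripAt_T {a b u v t : ℝ} (hI : 0 < allStabI a b)
    (ht : t * (2 * allStabI a b) = (a + b) * ((b - a) * v)) : (stripAt a b u v).T = 1 - t := by
  simp only [stripAt, StripAtoms.T]
  rw [div_eq_iff hI.ne']
  linear_combination (1 / 2) * ht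

/-- The chart A. -/
theorem strip_up_chart_A {a b u v : ℝ} (h : StripPlace a b u v)
    (hr5 : 5 * allStabI a b < (a + b) * v) : ∃ r t, StripUpChartA (stabPt (1 - u) v r t) (stripAt a b u v) (2 / (a + b)) ∧
      0 < r ∧ r < 2 / 5 ∧ 0 < t ∧ t < 1 := by
  obtain ⟨hI0, hI20, ha, hd, hu, hu1, hv, hav, hlo, hhi⟩ := h
  obtain ⟨t, ht⟩ : ∃ t, t = (a + b) * ((b - a) * v) / (2 * allStabI a b) := ⟨_, rfl⟩
  have hte : t * (2 * allStabI a b) = (a + b) * ((b - a) * v) := by
    rw [ht, div_mul_cancel₀ _ (by positivity)]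
  have eT := stripAt_T (u := u) hI0 hte
  simp only [stripAt] at eT
  obtain ⟨I, hI⟩ : ∃ I, I = allStabI a b := ⟨_, rfl⟩
  rw [← hI] at hI0 hI20 hlo hhi ht hte eT
  have hS : a + b = 1 - 2 * I := by simp only [hI, allStabI]; ring
  have hS0 : 0 < a + b := by linarith
  have ht0 : 0 < t := ht ▸ by positivity
  have ht1 : t < 1 := by rw [ht, div_lt_one (by positivity)]; exact hhi
  have hw0 : 0 < 1 - u := by linarith
  obtain ⟨r, hr⟩ : ∃ r, r = 2 * I / ((a + b) * v) := ⟨_, rfl⟩
  have hre : r * ((a + b) * v) = 2 * I := by rw [hr, div_mul_cancel₀ _ (by positivity)]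
  have hr0 : 0 < r := hr ▸ by positivity
  have htr : t * r = b - a := by rw [hr, ht]; field_simp
  have hk : 1 + v * r = 1 / (a + b) := by
    rw [eq_div_iff hS0.ne']
    linear_combination hre + hS
  have e2 : (a + b) * (1 + v * r) = 1 := by rw [hk]; field_simp
  have e3 : 2 * I * (1 + v * r) = v * r := by linear_combination (1 + v * r) * hS - e2
  rw [← hI] at hr5
  have hr25 : r < 2 / 5 := by
    refine lt_of_mul_lt_mul_right (a := (a + b) * v) ?_ (by positivity)
    rw [hre]
    linarith
  set p := stripAt a b u v with hp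
  have hk : (2 : ℝ) / (a + b) = 2 * (1 + v * r) := by rw [hk]; ring
  have hC : StripUpChartA (stabPt (1 - u) v r t) p (2 / (a + b)) := by
    constructor <;>
      simp only [eStripUpAK1, eStripUpASg, eStripUpA_w, eStripUpA_v, eStripUpA_I,
        eStripUpA_S, eStripUpA_d, eStripUpA_a, eStripUpA_b, eStripUpA_K, eStripUpA_IT,
        eStripUpA_dv, eStripUpA_T, hp, stripAt, ← hI, eT, Ex.eval, eval_add', eval_sub',
        eval_mul', eval_num', stabPt, hk] <;>
      norm_num
    · linarith
    · linear_combination -2 * e2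
    · linarith
    · linear_combination -e2 - (1 + v * r) * htr
    · linear_combination -e2 + (1 + v * r) * htr
    · linear_combination v * e2 + v * (1 + v * r) * htr
    · linear_combination -(1 - t) * e3 - (1 + v * r) * hte
    · exact Or.inl htr
  exact ⟨r, t, hC, hr0, hr25, ht0, ht1⟩

/-- The chart C. -/
theorem strip_up_chart_C {a b u v : ℝ} (h : StripPlace a b u v)
    (hr5 : (a + b) * v ≤ 5 * allStabI a b) : ∃ r th, StripUpChartC (stabPt (1 - u) v r th) (stripAt a b u v) (100 / (a + b)) r ∧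
      2 / 5 ≤ r ∧ r < 7 / 6 ∧ (1 / 9 ≤ v → r < 51 / 50) ∧ 0 < th ∧ th < 1 := by
  obtain ⟨hI0, hI20, ha, hd, hu, hu1, hv, hav, hlo, hhi⟩ := h
  obtain ⟨t, ht⟩ : ∃ t, t = (a + b) * ((b - a) * v) / (2 * allStabI a b) := ⟨_, rfl⟩
  have hte : t * (2 * allStabI a b) = (a + b) * ((b - a) * v) := by
    rw [ht, div_mul_cancel₀ _ (by positivity)]
  have eT := stripAt_T (u := u) hI0 hte
  simp only [stripAt] at eT
  obtain ⟨I, hI⟩ : ∃ I, I = allStabI a b := ⟨_, rfl⟩
  rw [← hI] at hI0 hI20 hlo hhi ht hte eT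
  have hS : a + b = 1 - 2 * I := by simp only [hI, allStabI]; ring
  have hS0 : 0 < a + b := by linarith
  have ht0 : 0 < t := ht ▸ by positivity
  have ht1 : t < 1 := by rw [ht, div_lt_one (by positivity)]; exact hhi
  have hw0 : 0 < 1 - u := by linarith
  obtain ⟨r, hr⟩ : ∃ r, r = 2 * I / ((a + b) * v) := ⟨_, rfl⟩
  have hre : r * ((a + b) * v) = 2 * I := by rw [hr, div_mul_cancel₀ _ (by positivity)]
  have hr0 : 0 < r := hr ▸ by positivity
  have htr : t * r = b - a := by rw [hr, ht]; field_simp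
  have hk : 1 + v * r = 1 / (a + b) := by
    rw [eq_div_iff hS0.ne']
    linear_combination hre + hS
  have e2 : (a + b) * (1 + v * r) = 1 := by rw [hk]; field_simp
  have e3 : 2 * I * (1 + v * r) = v * r := by linear_combination (1 + v * r) * hS - e2
  rw [← hI] at hr5
  have hr25 : 2 / 5 ≤ r := by
    refine le_of_mul_le_mul_right ?_ (show 0 < (a + b) * v by positivity)
    rw [hre]
    linarith
  have hr76 : r < 7 / 6 := by
    refine lt_of_mul_lt_mul_right (a := (a + b) * v) ?_ (by positivity)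
    rw [hre]
    have h1 : a * I ≤ 1 / 2 * I := mul_le_mul_of_nonneg_right (by linarith) hI0.le
    have h2 := mul_le_mul_of_nonneg_right
      (show 6 * (1 + 2 * a * I) ≤ 7 * (a + b) by linarith) hv.le
    linarith
  have hr51 : 1 / 9 ≤ v → r < 51 / 50 := fun h1 => by
    refine lt_of_mul_lt_mul_right (a := (a + b) * v) ?_ (by positivity)
    rw [hre]
    have := mul_le_mul (show 9 / 10 ≤ a + b by linarith) h1 (by norm_num) hS0.le
    linarith
  have hden : 0 < 19 / 50 - 2 * I := by linarith
  obtain ⟨th, hth⟩ : ∃ th, th = (b - a) / (19 / 50 - 2 * I) := ⟨_, rfl⟩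
  have hthe : th * (19 / 50 - 2 * I) = b - a := by rw [hth, div_mul_cancel₀ _ hden.ne']
  have hth0 : 0 < th := hth ▸ div_pos hd hden
  have hth1 : th < 1 := by rw [hth, div_lt_one hden]; linarith
  set p := stripAt a b u v with hp
  have hk : (100 : ℝ) / (a + b) = 100 * (1 + v * r) := by rw [hk]; ring
  have hTh : th * (19 * (1 + v * r) - 50 * (v * r)) = 50 * (1 + v * r) * (b - a) := by
    linear_combination 50 * (1 + v * r) * hthe + 50 * th * e3
  have hC : StripUpChartC (stabPt (1 - u) v r th) p (100 / (a + b)) r := by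
    constructor <;>
      simp only [eStripUpCK1, eStripUpCK2, eStripUpCSg, eStripUpCTh, eStripUpC_w,
        eStripUpC_v, eStripUpC_I, eStripUpC_S, eStripUpC_d, eStripUpC_a, eStripUpC_b,
        eStripUpC_K, eStripUpC_IT, eStripUpC_dv, eStripUpC_T, hp, stripAt, ← hI, eT, Ex.eval,
        eval_add', eval_sub', eval_mul', eval_num', stabPt, hk] <;>
      norm_num
    all_goals first
      | linarith
      | linear_combination -100 * e2
      | linear_combination -50 * e3
      | linear_combination 2 * hTh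
      | linear_combination -50 * e2 - hTh
      | linear_combination -50 * e2 + hTh
      | linear_combination 50 * v * e2 + v * hTh
      | linear_combination 2 * v * hTh
      | linear_combination -5000 * (1 + v * r) * e3 - 100 * v * hTh + 5000 * (1 + v * r) * (b - a) * v * e2
      | linear_combination -2 * hTh + 100 * (1 + v * r) * htr
  exact ⟨r, th, hC, hr25, hr76, hr51, hth0, hth1⟩

/-- The chart B. -/
theorem strip_up_chart_B {a b u v : ℝ} (h : StripPlace a b u v) (hy : 1 / 5 ≤ v) :
    ∃ t, StripUpChartB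
      (stabPt (1 - u) (1 - a * v) (allStabI a b) t) (stripAt a b u v) ((a + b) ^ 2 * v) (a + b) ∧
      1 - a * v < 938 / 1000 ∧ 0 < t ∧ t < 1 := by
  obtain ⟨hI0, hI20, ha, hd, hu, hu1, hv, hav, hlo, hhi⟩ := h
  obtain ⟨t, ht⟩ : ∃ t, t = (a + b) * ((b - a) * v) / (2 * allStabI a b) := ⟨_, rfl⟩
  have hte : t * (2 * allStabI a b) = (a + b) * ((b - a) * v) := by
    rw [ht, div_mul_cancel₀ _ (by positivity)]
  have eT := stripAt_T (u := u) hI0 hte
  simp only [stripAt] at eT
  obtain ⟨I, hI⟩ : ∃ I, I = allStabI a b := ⟨_, rfl⟩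
  rw [← hI] at hI0 hI20 hlo hhi ht hte eT
  have hS : a + b = 1 - 2 * I := by simp only [hI, allStabI]; ring
  have hS0 : 0 < a + b := by linarith
  have ht0 : 0 < t := ht ▸ by positivity
  have ht1 : t < 1 := by rw [ht, div_lt_one (by positivity)]; exact hhi
  have hw0 : 0 < 1 - u := by linarith
  have hK : 1 - a * v < 938 / 1000 := by
    linarith [mul_lt_mul_of_pos_right ha hv]
  have hK0 : 0 < 1 - a * v := by linarith
  set p := stripAt a b u v with hp
  have hC : StripUpChartB (stabPt (1 - u) (1 - a * v) I t) p ((a + b) ^ 2 * v) (a + b) := by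
    constructor <;>
      simp only [eStripUpBK1, eStripUpBK2, eStripUpBS0, eStripUpBY, eStripUpBIt, eStripUpB_w,
        eStripUpB_v, eStripUpB_I, eStripUpB_S, eStripUpB_d, eStripUpB_a, eStripUpB_b,
        eStripUpB_K, eStripUpB_IT, eStripUpB_dv, eStripUpB_T, hp, stripAt, ← hI, eT, Ex.eval,
        eval_add', eval_sub', eval_mul', eval_num', stabPt] <;>
      norm_num <;> (try rw [show (1 : ℝ) - 2 * I = a + b from hS.symm]) <;>
      first
      | linear_combination hte
      | linear_combination (a + b) * hte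
      | linear_combination (1 / 2) * hte
      | ring
  exact ⟨t, hI ▸ hC, hK, ht0, ht1⟩

end AllLow

end Vale.Agent.P100.Calib.Band
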