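import Vale.Agent.P100.Calib.SlabStripTubeCheck
import Vale.Agent.P100.Calib.SlabStripTubeEval
import Vale.Agent.P100.Calib.SlabStripUpCharts
import Vale.Agent.P100.Calib.SlabStripLeftSigns
import Vale.Agent.P100.Calib.SlabStripSevFwd

/-!
# The closed conditions of the band of the radial speed near `u = 1` in the strip

The band is `4 (I + w) I Den - (4 I + 4 w + 3 d) Flow`, `w = 1 - u`. From `u = 7/10` on its zero
carries a flow to its positive side wherever the exit band is nonnegative, in every dimension from
seven on.
-/

set_option linter.unusedVariables false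

namespace Vale.Agent.P100.Calib.Band

open Vale.Agent.P100.Bubble Chart

/-- What the chart says in the strip from dimension seven on. -/
structure TubePlace (a b u v : ℝ) : Prop where
  I_pos : 0 < allStabI a b
  I_le : allStabI a b ≤ 1 / 7
  a_gt : 31 / 100 < a
  d_pos : 0 < b - a
  u_pos : 0 < u
  u_lt : u < 1
  v_pos : 0 < v
  av : a * v < 1
  low : 2 * allStabI a b < (1 + 2 * a * allStabI a b) * v
  high : (a + b) * ((b - a) * v) < 2 * allStabI a b

theorem tubePlace_of {N a b u v : ℝ} (hb : SlabBoxAll N a b) (h7 : 7 ≤ N) (ha : 31 / 100 < a)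
    (hu : 0 < u) (hu1 : u < 1) (hv : VRange N a b v) : TubePlace a b u v := by
  rcases le_or_gt 20 N with h | h
  · obtain ⟨h1, h2, h3, h4, h5, h6, h8, h9, h10, h11⟩ := stripPlace_of hb h ha hu hu1 hv
    exact ⟨h1, by linarith, h3, h4, h5, h6, h8, h9, h10, h11⟩
  · obtain ⟨h1, h2, h3, h4, h5, h6, h8, h9, h10, h11⟩ := sevPlace_of hb h7 h ha hu hu1 hv
    exact ⟨by linarith, h2, h3, h4, h5, h6, h8, h9, h10, h11⟩

namespace AllLow

open Pack

local instance stripTubeSignsAdd : Add Pack.Ex := ⟨Ex.add⟩
local instance stripTubeSignsSub : Sub Pack.Ex := ⟨Ex.sub⟩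
local instance stripTubeSignsMul : Mul Pack.Ex := ⟨Ex.mul⟩

/-- The chart A. -/
theorem strip_tube_chart_A {a b u v : ℝ} (h : TubePlace a b u v) :
    ∃ r t, StripUpChartA (stabPt (1 - u) v r t) (stripAt a b u v) (2 / (a + b)) ∧
      0 < r ∧ r < 8 / 5 ∧ 0 < t ∧ t < 1 := by
  obtain ⟨hI0, hI7, ha, hd, hu, hu1, hv, hav, hlo, hhi⟩ := h
  obtain ⟨t, ht⟩ : ∃ t, t = (a + b) * ((b - a) * v) / (2 * allStabI a b) := ⟨_, rfl⟩
  have hte : t * (2 * allStabI a b) = (a + b) * ((b - a) * v) := by
    rw [ht, div_mul_cancel₀ _ (by positivity)]
  have eT := stripAt_T (u := u) hI0 hte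
  simp only [stripAt] at eT
  obtain ⟨I, hI⟩ : ∃ I, I = allStabI a b := ⟨_, rfl⟩
  rw [← hI] at hI0 hI7 hlo hhi ht hte eT
  have hS : a + b = 1 - 2 * I := by simp only [hI, allStabI]; ring
  have hS0 : 0 < a + b := by linarith
  have ht0 : 0 < t := ht ▸ by positivity
  have ht1 : t < 1 := by rw [ht, div_lt_one (by positivity)]; exact hhi
  obtain ⟨r, hr⟩ : ∃ r, r = 2 * I / ((a + b) * v) := ⟨_, rfl⟩
  have hre : r * ((a + b) * v) = 2 * I := by rw [hr, div_mul_cancel₀ _ (by positivity)]
  have hr0 : 0 < r := hr ▸ by positivity
  have htr : t * r = b - a := by rw [hr, ht]; field_simp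
  have hk : 1 + v * r = 1 / (a + b) := by
    rw [eq_div_iff hS0.ne']
    linear_combination hre + hS
  have e2 : (a + b) * (1 + v * r) = 1 := by rw [hk]; field_simp
  have e3 : 2 * I * (1 + v * r) = v * r := by linear_combination (1 + v * r) * hS - e2
  have hr85 : r < 8 / 5 := by
    refine lt_of_mul_lt_mul_right (a := (a + b) * v) ?_ (by positivity)
    rw [hre]
    have h1 : a * I ≤ 1 / 2 * I := mul_le_mul_of_nonneg_right (by linarith) hI0.le
    have h2 := mul_le_mul_of_nonneg_right
      (show 5 * (1 + 2 * a * I) ≤ 8 * (a + b) by linarith) hv.le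
    linarith
  set p := stripAt a b u v with hp
  have hk : (2 : ℝ) / (a + b) = 2 * (1 + v * r) := by rw [hk]; ring
  have hC : StripUpChartA (stabPt (1 - u) v r t) p (2 / (a + b)) := by
    constructor <;>
      simp only [eStripUpAK1, eStripUpASg, eStripUpA_w, eStripUpA_v, eStripUpA_I,
        eStripUpA_S, eStripUpA_d, eStripUpA_a, eStripUpA_b, eStripUpA_K, eStripUpA_IT,
        eStripUpA_dv, eStripUpA_T, hp, stripAt, ← hI, eT, Ex.eval, eval_add', eval_sub',
        eval_mul', eval_num', stabPt, hk] <;>
      norm_num
    · linarith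
    · linear_combination -2 * e2
    · linarith
    · linear_combination -e2 - (1 + v * r) * htr
    · linear_combination -e2 + (1 + v * r) * htr
    · linear_combination v * e2 + v * (1 + v * r) * htr
    · linear_combination -(1 - t) * e3 - (1 + v * r) * hte
    · exact Or.inl htr
  exact ⟨r, t, hC, hr0, hr85, ht0, ht1⟩

/-- The chart B. -/
theorem strip_tube_chart_B {a b u v : ℝ} (h : TubePlace a b u v) (hy : 1 ≤ v) :
    ∃ t, StripUpChartB
      (stabPt (1 - u) (1 - a * v) (allStabI a b) t) (stripAt a b u v) ((a + b) ^ 2 * v) (a + b) ∧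
      1 - a * v < 7 / 10 ∧ 0 < t ∧ t < 1 := by
  obtain ⟨hI0, hI7, ha, hd, hu, hu1, hv, hav, hlo, hhi⟩ := h
  obtain ⟨t, ht⟩ : ∃ t, t = (a + b) * ((b - a) * v) / (2 * allStabI a b) := ⟨_, rfl⟩
  have hte : t * (2 * allStabI a b) = (a + b) * ((b - a) * v) := by
    rw [ht, div_mul_cancel₀ _ (by positivity)]
  have eT := stripAt_T (u := u) hI0 hte
  simp only [stripAt] at eT
  obtain ⟨I, hI⟩ : ∃ I, I = allStabI a b := ⟨_, rfl⟩
  rw [← hI] at hI0 hI7 hlo hhi ht hte eT
  have hS : a + b = 1 - 2 * I := by simp only [hI, allStabI]; ring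
  have hS0 : 0 < a + b := by linarith
  have ht0 : 0 < t := ht ▸ by positivity
  have ht1 : t < 1 := by rw [ht, div_lt_one (by positivity)]; exact hhi
  have hK : 1 - a * v < 7 / 10 := by
    linarith [mul_lt_mul_of_pos_right ha hv]
  set p := stripAt a b u v with hp
  have hC : StripUpChartB (stabPt (1 - u) (1 - a * v) I t) p ((a + b) ^ 2 * v) (a + b) := by
    constructor <;>
      simp only [eStripUpBK1, eStripUpBK2, eStripUpBS0, eStripUpBY, eStripUpBIt, eStripUpB_w,
        eStripUpB_v, eStripUpB_I, eStripUpB_S, eStripUpB_d, eStripUpB_a, eStripUpB_b,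
        eStripUpB_K, eStripUpB_IT, eStripUpB_dv, eStripUpB_T, hp, stripAt, ← hI, eT, Ex.eval,
        eval_add', eval_sub', eval_mul', eval_num', stabPt] <;>
      norm_num <;> (try rw [show (1 : ℝ) - 2 * I = a + b from hS.symm]) <;>
      first
      | linear_combination hte
      | linear_combination (a + b) * hte
      | linear_combination (1 / 2) * hte
      | ring
  exact ⟨t, hI ▸ hC, hK, ht0, ht1⟩

theorem strip_tube_cube {a b u v : ℝ} (h : TubePlace a b u v) (hu : 7 / 10 ≤ u) :
    0 ≤ (stripAt a b u v).tuMz ∧ 0 < (stripAt a b u v).tube := by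
  obtain ⟨hI0, hI7, ha, hd, hu0, hu1, hv, hav, -, -⟩ := id h
  have hS0 : 0 < a + b := by linarith
  have hw0 : 0 < 1 - u := by linarith
  rcases lt_or_ge v 1 with hy | hy
  · obtain ⟨r, t, hC, hr0, hr85, ht0, ht1⟩ := strip_tube_chart_A h
    have hpt := strip_point (C := stripTubeABox) (y₀ := 1 - u) (y₁ := v) (y₂ := r) (y₃ := t)
      (by simp only [stripTubeABox]
          exact strip_back (den := 10) (by norm_num) (by push_cast; linarith)
            (by push_cast; linarith))
      (by simp only [stripTubeABox]
          exact side_point (den := 1) (by norm_num) (by push_cast; linarith)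
            (by push_cast; linarith))
      (by simp only [stripTubeABox]
          exact side_point (den := 5) (by norm_num) (by push_cast; linarith)
            (by push_cast; linarith))
      (by simp only [stripTubeABox]
          exact side_point (den := 1) (by norm_num) (by push_cast; linarith)
            (by push_cast; linarith))
    have h1 : 0 ≤ eStripTubeA_less.eval (stabPt (1 - u) v r t) :=
      nonneg_of_checkFour stripTubeA_ok hpt
    have h2 : 0 ≤ eStripTubeA_tuMz.eval (stabPt (1 - u) v r t) :=
      nonneg_of_checkFour stripTubeAMz_ok hpt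
    rw [evalTubeA_tuMz hC] at h2
    simp only [eStripTubeA_less, eval_sub', evalTubeA_tube hC] at h1
    simp only [Ex.eval, eval_mul', stabPt] at h1
    norm_num at h1
    have h0 : 0 < (1 - u) ^ 3 * (v ^ 4 * r ^ 4) := by positivity
    exact ⟨nonneg_of_mul_nonneg_left h2 (by positivity),
      pos_of_mul_pos_left (show 0 < (stripAt a b u v).tube * (2 / (a + b)) ^ 11 by linarith)
        (by positivity)⟩
  · obtain ⟨t, hC, hK, ht0, ht1⟩ := strip_tube_chart_B h hy
    have hK0 : 0 < 1 - a * v := by linarith
    have hpt := strip_point (C := stripTubeBBox) (y₀ := 1 - u) (y₁ := 1 - a * v)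
      (y₂ := allStabI a b) (y₃ := t)
      (by simp only [stripTubeBBox]
          exact strip_back (den := 10) (by norm_num) (by push_cast; linarith)
            (by push_cast; linarith))
      (by simp only [stripTubeBBox]
          exact side_point (den := 10) (by norm_num) (by push_cast; linarith)
            (by push_cast; linarith))
      (by simp only [stripTubeBBox]
          exact strip_back (den := 7) (by norm_num) (by push_cast; linarith)
            (by push_cast; linarith))
      (by simp only [stripTubeBBox]
          exact side_point (den := 1) (by norm_num) (by push_cast; linarith)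
            (by push_cast; linarith))
    have h1 : 0 ≤ eStripTubeB_less.eval (stabPt (1 - u) (1 - a * v) (allStabI a b) t) :=
      nonneg_of_checkFour stripTubeB_ok hpt
    have h2 : 0 ≤ eStripTubeB_tuMz.eval (stabPt (1 - u) (1 - a * v) (allStabI a b) t) :=
      nonneg_of_checkFour stripTubeBMz_ok hpt
    rw [evalTubeB_tuMz hC] at h2
    simp only [eStripTubeB_less, eval_sub', eval_mul', eval_num', evalTubeB_tube hC] at h1
    simp only [Ex.eval, stabPt] at h1
    norm_num at h1
    have h0 : 0 < (1 - u) ^ 7 := by positivity
    exact ⟨nonneg_of_mul_nonneg_left h2 (by positivity),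
      pos_of_mul_pos_left (show 0 < (stripAt a b u v).tube * (((a + b) ^ 2 * v) ^ 6 * (a + b) ^ 6)
        by linarith) (by positivity)⟩

/-- The chart of the entry. -/
theorem strip_tube_chart_E {a b u v : ℝ} (h : TubePlace a b u v) :
    ∃ θ, 0 < θ ∧ θ < 1 ∧
      StripLeftPoint (stabPt u (v / (2 * allStabI a b)) (allStabI a b) θ) (stripAt a b u v)
        eStripTubeV (eN 1) 1 := by
  obtain ⟨hI0, hI7, ha, hd, -, -, -, -, -, -⟩ := h
  have hD : 0 < 19 / 50 - 2 * allStabI a b := by linarith
  refine ⟨(b - a) / (19 / 50 - 2 * allStabI a b), div_pos hd hD, ?_, stripLeftPoint_of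
    (div_mul_cancel₀ _ hD.ne') (by simp only [eval_num']; norm_num) ?_⟩
  · rw [div_lt_one hD]
    simp only [allStabI]
    linarith
  · simp only [eStripTubeV, eval_mul', eval_num', Ex.eval, stabPt]
    push_cast
    field_simp
    ring

/-- The band at its entry for `N` at least twenty. -/
theorem strip_tube_entry {a b u v : ℝ} (h : TubePlace a b u v) (h20 : allStabI a b ≤ 1 / 20)
    (hu : 67 / 100 < u) (hu7 : u ≤ 7 / 10) (hlo : 2 * allStabI a b * (6 / 5) < v)
    (hhi : v ≤ 2 * allStabI a b * 6) : 0 < (stripAt a b u v).tuEntry := by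
  obtain ⟨θ, h0, h1, hC⟩ := strip_tube_chart_E h
  have hI0 := h.I_pos
  have hX0 : 6 / 5 < v / (2 * allStabI a b) := by
    rw [lt_div_iff₀ (by positivity)]
    linarith
  have hX1 : v / (2 * allStabI a b) ≤ 6 := by
    rw [div_le_iff₀ (by positivity)]
    linarith
  have hb : 0 ≤ eStripTubeE_less.eval
      (stabPt u (v / (2 * allStabI a b)) (allStabI a b) θ) :=
    nonneg_of_checkFour stripTubeE_ok (strip_point
      (by simp only [stripTubeEBox]
          exact strip_back (den := 100) (by norm_num) (by push_cast; linarith)
            (by push_cast; linarith))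
      (by simp only [stripTubeEBox]
          exact strip_back (den := 5) (by norm_num) (by push_cast; linarith)
            (by push_cast; linarith))
      (by simp only [stripTubeEBox]
          exact strip_back (den := 20) (by norm_num) (by push_cast; linarith)
            (by push_cast; linarith))
      (by simp only [stripTubeEBox]
          exact side_point (den := 1) (by norm_num) (by push_cast; linarith)
            (by push_cast; linarith)))
  simp only [eStripTubeE_less, eval_sub', evalTubeE_tuEntry hC] at hb
  simp only [Ex.eval, stabPt] at hb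
  norm_num at hb
  linarith

/-- The band at its entry for `N` below twenty, and the lower end of `v` there. -/
theorem strip_tube_entry_sev {a b u v : ℝ} (h : TubePlace a b u v) (h20 : 1 / 20 < allStabI a b)
    (hu : 67 / 100 < u) (hu7 : u ≤ 7 / 10) :
    (2 * allStabI a b * (7 / 5) ≤ v → 0 < (stripAt a b u v).tuEntryS) ∧
      (v ≤ 2 * allStabI a b * (7 / 5) → 0 < (stripAt a b u v).tuLow) := by
  obtain ⟨θ, h0, h1, hC⟩ := strip_tube_chart_E h
  obtain ⟨hI0, hI7, ha, hd, -, -, hv, hav, hlo, -⟩ := h
  have hv3 : v < 100 / 31 := by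
    linarith [mul_lt_mul_of_pos_right ha hv]
  refine ⟨fun hX => ?_, fun hX => ?_⟩
  · have hX0 : 7 / 5 ≤ v / (2 * allStabI a b) := by
      rw [le_div_iff₀ (by positivity)]
      linarith
    have hX1 : v / (2 * allStabI a b) < 33 := by
      rw [div_lt_iff₀ (by positivity)]
      linarith
    have hb : 0 ≤ eStripTubeE_lessS.eval
        (stabPt u (v / (2 * allStabI a b)) (allStabI a b) θ) :=
      nonneg_of_checkFour stripTubeES_ok (strip_point
        (by simp only [stripTubeESBox]
            exact strip_back (den := 100) (by norm_num) (by push_cast; linarith)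
              (by push_cast; linarith))
        (by simp only [stripTubeESBox]
            exact side_point (den := 5) (by norm_num) (by push_cast; linarith)
              (by push_cast; linarith))
        (by simp only [stripTubeESBox]
            exact strip_back (den := 140) (by norm_num) (by push_cast; linarith)
              (by push_cast; linarith))
        (by simp only [stripTubeESBox]
            exact side_point (den := 1) (by norm_num) (by push_cast; linarith)
              (by push_cast; linarith)))
    simp only [eStripTubeE_lessS, eval_sub', eval_num',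
      evalTubeE_tuEntryS hC] at hb
    push_cast at hb
    linarith
  · have hX0 : 7 / 8 < v / (2 * allStabI a b) := by
      rw [lt_div_iff₀ (by positivity)]
      have h2 : a * allStabI a b ≤ 1 / 2 * (1 / 7) :=
        mul_le_mul (by simp only [allStabI] at hI0; linarith) hI7 hI0.le (by norm_num)
      have h3 := mul_le_mul_of_nonneg_right (show 1 + 2 * a * allStabI a b ≤ 8 / 7 by linarith) hv.le
      linarith
    have hX1 : v / (2 * allStabI a b) ≤ 7 / 5 := by
      rw [div_le_iff₀ (by positivity)]
      linarith
    have hb : 0 ≤ eStripTubeE_lessLow.eval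
        (stabPt u (v / (2 * allStabI a b)) (allStabI a b) θ) :=
      nonneg_of_checkFour stripTubeELow_ok (strip_point
        (by simp only [stripTubeELowBox]
            exact strip_back (den := 100) (by norm_num) (by push_cast; linarith)
              (by push_cast; linarith))
        (by simp only [stripTubeELowBox]
            exact strip_back (den := 40) (by norm_num) (by push_cast; linarith)
              (by push_cast; linarith))
        (by simp only [stripTubeELowBox]
            exact strip_back (den := 140) (by norm_num) (by push_cast; linarith)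
              (by push_cast; linarith))
        (by simp only [stripTubeELowBox]
            exact side_point (den := 1) (by norm_num) (by push_cast; linarith)
              (by push_cast; linarith)))
    simp only [eStripTubeE_lessLow, eval_sub', eval_num',
      evalTubeE_tuLow hC] at hb
    push_cast at hb
    linarith

end AllLow

/-- The conditions on the zero of the band. -/
theorem strip_tube_conds {a b u v : ℝ} (h : TubePlace a b u v) (hu : 7 / 10 ≤ u)
    (htop : 0 ≤ (stripAt a b u v).tuTop) :
    0 < (stripAt a b u v).tuT := by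
  obtain ⟨-, hc⟩ := AllLow.strip_tube_cube h hu
  obtain ⟨hI0, hI7, ha, hd, hu0, hu1, hv, hav, -, -⟩ := h
  set p := stripAt a b u v with hp
  have hb : 0 < b := by linarith
  have hK : 0 < 1 - a * v := by linarith
  have hS0 : 0 < a + b := by linarith
  have hw : 0 < 1 - u := by linarith
  have hqn : 0 ≤ p.qn := by
    have e : p.qn = (1 - u) * ((2 - (a + b)) * b + b * ((b - a) * v)) +
        u * ((b - a) * (1 - a * v)) + (a + b) * ((1 - u) * b) := by
      simp only [hp, stripAt, StripAtoms.qn, StripAtoms.D0, StripAtoms.qu, StripAtoms.q,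
        StripAtoms.u]
      ring
    have h2 : 0 ≤ 2 - (a + b) := by
      simp only [allStabI] at hI0
      linarith
    rw [e]
    positivity
  have hm : 0 ≤ p.tuMult := by
    have h8 : 0 ≤ 8 + 2 * p.w + 2 * p.d - 3 * p.I := by
      simp only [hp, stripAt]
      linarith
    have hS : 0 ≤ p.S := hS0.le
    exact mul_nonneg (mul_nonneg hS (mul_nonneg (mul_self_nonneg _) hqn)) h8
  have := mul_nonneg hm htop
  simp only [StripAtoms.tube] at hc
  linarith

end Vale.Agent.P100.Calib.Band
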