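import Vale.Agent.P100.Calib.SlabStripUpSigns

/-!
# The upper band of the strip up to `u = 111/125`

`100 H (b - u a) < 100 + (100 b - a u (155 - 105 u)) v + I psi`, `psi` of degree four in `u`, on
orbits, for real `N >= 20` and `31/100 < a`. It is a band from the centre.
-/

open Set Filter Topology

namespace Vale.Agent.P100.Calib.Band

open Vale.Agent.P100.Bubble Chart

/-- The value of the correction at the centre. -/
def stripUpP0 (I a : ℝ) : ℝ := 653 * I + 189 * (a * I) - 828 * (I * I) - 398

/-- The linear coefficient of the correction. -/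
def stripUpP1 (I a : ℝ) : ℝ :=
  464 - 1676 * a + 1565 * (a * a) + I * (5790 * a + 1661 * (a * a) - 2620)

/-- The quadratic coefficient of the correction. -/
def stripUpP2 (I a : ℝ) : ℝ :=
  8980 * a - 1503 - 13330 * (a * a) + I * (4840 - 15870 * a + 1947 * (a * a))

/-- A hundred times the numerator of the band. -/
noncomputable def stripUpN (a b u v : ℝ) : ℝ :=
  100 + (100 * b - a * (u * (155 - 105 * u))) * v + allStabI a b *
    (stripUpP0 (allStabI a b) a + u * (stripUpP1 (allStabI a b) a +
      u * (stripUpP2 (allStabI a b) a + 60 * (u * u))))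

/-- Its derivative in `u`. -/
noncomputable def stripUpNu (a b u v : ℝ) : ℝ :=
  -(a * (155 - 210 * u)) * v + allStabI a b *
    (stripUpP1 (allStabI a b) a + u * (2 * stripUpP2 (allStabI a b) a + 240 * (u * u)))

/-- **The upper band of the strip.** -/
noncomputable def stripUp (a b u v : ℝ) : ℝ := stripUpN a b u v / (100 * allPole a b u)

/-- Its derivative in `u`. -/
noncomputable def stripUpGu (a b u v : ℝ) : ℝ :=
  (stripUpNu a b u v * allPole a b u - stripUpN a b u v * allPole' a b u) /
    (100 * allPole a b u ^ 2)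

/-- Its derivative in `v`. -/
noncomputable def stripUpGv (a b u : ℝ) : ℝ :=
  (100 * b - a * (u * (155 - 105 * u))) / (100 * allPole a b u)

theorem hasGradTwo_stripUp {a b : ℝ} (ha : 0 < a) (hd : 0 < b - a) :
    HasGradTwo (stripUp a b) (stripUpGu a b) (fun u _ => stripUpGv a b u) := by
  intro u v du dv t hu hv
  have hp := allPole_pos (u := u t) ha hd
  set I := allStabI a b with hI
  have hK := (((hu.fun_mul ((hu.const_mul 105).const_sub 155)).const_mul a).const_sub (100 * b))
  have h1 := (((hu.fun_mul hu).const_mul 60).const_add (stripUpP2 I a))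
  have h2 := ((hu.fun_mul h1).const_add (stripUpP1 I a))
  have h3 := (((hu.fun_mul h2).const_add (stripUpP0 I a)).const_mul I)
  have hN : HasDerivAt (fun s => stripUpN a b (u s) (v s))
      (stripUpNu a b (u t) (v t) * du + (100 * b - a * (u t * (155 - 105 * u t))) * dv) t := by
    refine (((hK.fun_mul hv).const_add 100).fun_add h3).congr_deriv ?_
    simp only [stripUpNu, ← hI]
    ring
  refine (hN.fun_div (((hasDerivAt_allPole a b (u t)).comp t hu).const_mul 100)
    (by positivity)).congr_deriv ?_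
  simp only [stripUpGu, stripUpGv, Function.comp_apply]
  generalize stripUpNu a b (u t) (v t) = A
  generalize 100 * b - a * (u t * (155 - 105 * u t)) = B
  generalize stripUpN a b (u t) (v t) = C
  generalize allPole' a b (u t) = P'
  generalize allPole a b (u t) = P at hp ⊢
  field_simp
  ring

theorem continuous_stripUp {a b : ℝ} (ha : 0 < a) (hd : 0 < b - a) :
    Continuous (fun w : ℝ × ℝ => stripUp a b w.1 w.2) ∧
      Continuous (fun w : ℝ × ℝ => stripUpGu a b w.1 w.2) ∧
      Continuous (fun w : ℝ × ℝ => stripUpGv a b w.1) := by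
  have cp : Continuous fun w : ℝ × ℝ => allPole a b w.1 := by unfold allPole; fun_prop
  have cp' : Continuous fun w : ℝ × ℝ => allPole' a b w.1 := by unfold allPole'; fun_prop
  have hp : ∀ w : ℝ × ℝ, allPole a b w.1 ≠ 0 := fun w => (allPole_pos ha hd).ne'
  have cN : Continuous fun w : ℝ × ℝ => stripUpN a b w.1 w.2 := by unfold stripUpN; fun_prop
  refine ⟨?_, ?_, ?_⟩
  · exact cN.div (continuous_const.mul cp) fun w => mul_ne_zero (by norm_num) (hp w)
  · refine Continuous.div ?_ (continuous_const.mul (cp.pow 2))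
      fun w => mul_ne_zero (by norm_num) (pow_ne_zero 2 (hp w))
    exact ((by unfold stripUpNu; fun_prop : Continuous fun w : ℝ × ℝ =>
        stripUpNu a b w.1 w.2).mul cp).sub (cN.mul cp')
  · exact Continuous.div (by fun_prop) (continuous_const.mul cp)
      fun w => mul_ne_zero (by norm_num) (hp w)

/-- The band in the variables of `StripAtoms`. -/
theorem stripUp_eq {a b u v : ℝ} (hu : u ≤ 1) :
    stripUp a b u v = (stripAt a b u v).upN / (stripAt a b u v).upW ∧
      stripUpGu a b u v = ((stripAt a b u v).upNu * (stripAt a b u v).upW +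
        (stripAt a b u v).upN * (100 * a)) / (stripAt a b u v).upW ^ 2 ∧
      stripUpGv a b u = (stripAt a b u v).upK / (stripAt a b u v).upW := by
  obtain ⟨h1, h2⟩ := allPole_eq (a := a) (b := b) hu
  have eW : (stripAt a b u v).upW = 100 * (b - u * a) := by
    simp only [stripAt, StripAtoms.upW, StripAtoms.u]
    ring
  have eN : (stripAt a b u v).upN = stripUpN a b u v := by
    simp only [stripAt, StripAtoms.upN, StripAtoms.upK, StripAtoms.upPsi, StripAtoms.upP0,
      StripAtoms.upP1, StripAtoms.upP2, StripAtoms.u, stripUpN, stripUpP0, stripUpP1, stripUpP2]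
    ring
  have eNu : (stripAt a b u v).upNu = stripUpNu a b u v := by
    simp only [stripAt, StripAtoms.upNu, StripAtoms.upKu, StripAtoms.upPsiU,
      StripAtoms.upP1, StripAtoms.upP2, StripAtoms.u, stripUpNu, stripUpP1, stripUpP2]
    ring
  have eK : (stripAt a b u v).upK = 100 * b - a * (u * (155 - 105 * u)) := by
    simp only [stripAt, StripAtoms.upK, StripAtoms.u]
    ring
  rw [eW, eN, eNu, eK]
  refine ⟨by rw [stripUp, h1], ?_, by rw [stripUpGv, h1]⟩
  rw [stripUpGu, h1, h2]
  rcases eq_or_ne (b - u * a) 0 with h | h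
  · simp [h]
  · field_simp
    ring

/-- The band at the centre. -/
theorem stripUp_start {a b v : ℝ} (hI0 : 0 < allStabI a b) (hI20 : allStabI a b ≤ 1 / 20)
    (ha : 31 / 100 < a) (hd : 0 < b - a) (hlo : 2 * allStabI a b ≤ (1 + 2 * a * allStabI a b) * v) :
    allHc a b v ≤ stripUp a b 0 v := by
  obtain ⟨hp, -⟩ := allPole_eq (a := a) (b := b) zero_le_one
  obtain ⟨I, hI⟩ : ∃ I, I = allStabI a b := ⟨_, rfl⟩
  simp only [allHc, stripUp, stripUpN, hp, ← hI]
  rw [← hI] at hI0 hI20 hlo
  obtain rfl : b = 1 - 2 * I - a := by simp only [allStabI] at hI; linarith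
  have hb : 0 < 1 - 2 * I - a := by linarith
  have hd' : 0 ≤ 1 - 2 * I - 2 * a := by linarith
  have hk : 0 < 1 + 2 * a * I := by positivity
  have h1 : 0 ≤ (4 + (1 + 2 * I) * (stripUpP0 I a / 100)) +
      2 * ((1 - 2 * I - 2 * a) * v) := by
    refine nonneg_of_mul_nonneg_left (b := 1 + 2 * a * I) ?_ hk
    have := mul_le_mul_of_nonneg_left hlo hd'
    have h1 := mul_nonneg hI0.le hd'
    have h2 := mul_nonneg hI0.le (sub_nonneg.2 hI20)
    have h3 := mul_nonneg hI0.le (sub_nonneg.2 ha.le)
    have h4 := mul_nonneg h1 (sub_nonneg.2 hI20)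
    have h5 := mul_nonneg h3 (sub_nonneg.2 hI20)
    have h6 := mul_nonneg h1 hI0.le
    have h7 := mul_nonneg h3 hI0.le
    have h8 := mul_nonneg h3 hd'
    simp only [stripUpP0]
    nlinarith
  simp only [show (2 : ℝ) - (a + (1 - 2 * I - a)) = 1 + 2 * I by ring, mul_zero, zero_mul,
    sub_zero, add_zero]
  rw [div_le_div_iff₀ (by positivity) (by positivity)]
  have e := mul_nonneg (mul_nonneg hI0.le hb.le) h1
  linarith

namespace AllLow

/-- The signs on the band. -/
theorem strip_up_signs {a b u v : ℝ} (hP : StripPlace a b u v) (hu : u ≤ 111 / 125) :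
    0 < allDen a b u v (stripUp a b u v) ∧
      allDot a b u v (stripUp a b u v) (-stripUpGu a b u v) (-stripUpGv a b u) 1 < 0 := by
  have hc := strip_up_conds hP
  have hF := hc.fwd hu
  have hD := hc.den hu
  obtain ⟨e1, e2, e3⟩ := stripUp_eq (a := a) (b := b) (v := v) hP.u_lt.le
  rw [e1, e2, e3]
  obtain ⟨hI0, hI20, ha, hd, hu0, hu1, hv, hav, hlo, hhi⟩ := hP
  set p := stripAt a b u v with hp
  have hW : 0 < p.upW := by
    simp only [hp, stripAt, StripAtoms.upW, StripAtoms.u]
    linarith [mul_le_mul_of_nonneg_right hu1.le (show 0 ≤ a by linarith)]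
  have k1 : allDen a b u v (p.upN / p.upW) * p.upW = p.upDen := by
    have e : p.upDen = p.D0 * p.upW - p.ud * p.upN := rfl
    have ed : p.D0 = 2 + (b - a) * v ∧ p.ud = u * (b - a) :=
      ⟨rfl, by simp only [hp, stripAt, StripAtoms.ud, StripAtoms.u]; ring⟩
    rw [e, ed.1, ed.2, allDen]
    field_simp
  have k2 : allDot a b u v (p.upN / p.upW) (-((p.upNu * p.upW + p.upN * (100 * a)) / p.upW ^ 2))
      (-(p.upK / p.upW)) 1 * p.upW ^ 3 = -p.upFwd := by
    have eE : ∀ H, allEn a b u v H = p.E0 - p.e1 * H := fun H => by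
      simp only [hp, stripAt, StripAtoms.E0, StripAtoms.e1, StripAtoms.qn, StripAtoms.D0,
        StripAtoms.qu, StripAtoms.q, StripAtoms.ud, StripAtoms.u, allEn, allQn, allDen]
      ring
    have eF : ∀ H, allFlow a b u v H = p.f0 * H - p.N := fun H => by
      simp only [hp, stripAt, StripAtoms.f0, StripAtoms.N, StripAtoms.qn, StripAtoms.D0,
        StripAtoms.qu, StripAtoms.q, StripAtoms.ud, StripAtoms.u, allFlow, allQn, allDen]
      ring
    have eH : ∀ H, allFh a b u v H =
        p.A0 - (p.A1 + p.ud * p.A0 + p.E0) * H + (p.ud * p.A1 + p.e1) * H ^ 2 := fun H => by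
      simp only [hp, stripAt, StripAtoms.A0, StripAtoms.A1, StripAtoms.N, StripAtoms.f0,
        StripAtoms.E0, StripAtoms.e1, StripAtoms.qn, StripAtoms.D0, StripAtoms.qu, StripAtoms.q,
        StripAtoms.ud, StripAtoms.u, allFh, allEn, allFlow, allQn, allDen]
      ring
    have equ : p.qu = (1 + (b - a) * v) * u ∧ p.u = u ∧ p.a = a := by
      simp only [hp, stripAt, StripAtoms.qu, StripAtoms.q, StripAtoms.u]
      refine ⟨by ring, by ring, trivial⟩
    simp only [allDot, eE, eF, eH, StripAtoms.upFwd, StripAtoms.upEn, StripAtoms.upFl,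
      StripAtoms.upFh, equ.1, equ.2.1, equ.2.2]
    field_simp
    ring
  exact ⟨pos_of_mul_pos_left (by rw [k1]; exact hD) hW.le,
    neg_of_mul_neg_left (by rw [k2]; linarith) (pow_pos hW 3).le⟩

end AllLow

variable {N p q : ℝ} {S : Set ℝ} {R x y s dx dy : ℝ → ℝ}

/-- **The upper band of the strip up to `u = 111/125`** for real `N ≥ 20` and
`31/100 < 1/(p+1)`. -/
theorem orbit_strip_up_all (hf : IsOrbitFns N p q S R x y s dx dy)
    (hb : SlabBoxAll N (1 / (p + 1)) (1 / (q + 1))) (h20 : 20 ≤ N) (ha : 31 / 100 < 1 / (p + 1))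
    {w : ℝ} (hw : w ∈ S) (hw0 : 0 < R w) (hwu : uOf N (R w) (x w) ≤ 111 / 125) :
    hOf N (R w) (x w) (y w) w / (1 / (q + 1) - 1 / (p + 1)) <
      stripUp (1 / (p + 1)) (1 / (q + 1)) (uOf N (R w) (x w))
        (vOf (1 / (p + 1)) (1 / (q + 1)) (y w / x w)) := by
  obtain ⟨ha0, hb0, hd, -⟩ := hb.facts
  obtain ⟨c1, c2, c3⟩ := continuous_stripUp ha0 hd
  have hN : 0 < N := by linarith
  have hIN : N * allStabI (1 / (p + 1)) (1 / (q + 1)) = 1 := by
    have := hb.dim
    simp only [allStabI]
    linarith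
  have key := band_step_all hf hb (e := -1) (u₁ := 111 / 125) (by norm_num)
    (hasGradTwo_stripUp ha0 hd) c1 c2 c3 (fun _ _ => True) (fun _ _ _ _ => trivial)
    (fun v hlo _ _ => ?_) (fun u v hu hu1 hu8 hv _ => ?_) hw hw0 hwu
  · linarith
  · generalize 1 / (p + 1) = al at *
    generalize 1 / (q + 1) = be at *
    have hI0 : 0 < allStabI al be := pos_of_mul_pos_right (hIN ▸ one_pos) hN.le
    have hI20 : allStabI al be ≤ 1 / 20 := by
      refine le_of_mul_le_mul_left (a := N) ?_ hN
      linarith
    have hl : 2 * allStabI al be ≤ (1 + 2 * al * allStabI al be) * v := by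
      refine le_of_mul_le_mul_left (a := N) ?_ hN
      have e : N * ((1 + 2 * al * allStabI al be) * v) = (N + 2 * al) * v := by
        linear_combination 2 * al * v * hIN
      linarith
    have := stripUp_start hI0 hI20 ha hd hl
    linarith
  · obtain ⟨h1, h2⟩ := AllLow.strip_up_signs (stripPlace_of hb h20 ha hu hu1 hv) hu8
    exact ⟨h1, by linarith⟩

end Vale.Agent.P100.Calib.Band
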