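import Vale.Agent.P100.Calib.SlabStripUpExprA

/-!
# The checks of the upper bands of the strip in the chart A

Each check is a definition, so that they are compiled one after another.
-/

set_option linter.defProp false

namespace Vale.Agent.P100.Calib.Band.AllLow

open Pack

/-- A box. -/
def stripUpAFwdBox : ℕ → Chart
  | 0 => ⟨14, 125, 125, 125⟩ | 1 => ⟨0, 1, 5, 5⟩ | 2 => ⟨0, 2, 5, 5⟩ | _ => ⟨0, 1, 1, 1⟩

/-- The check of this box. -/
def stripUpAFwd_ok : checkFour stripUpAFwdBox 250 11 14 19 8 eStripUpAFwdLess = true := by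
  decide +kernel

/-- A box. -/
def stripUpADenBox : ℕ → Chart
  | 0 => ⟨14, 125, 125, 125⟩ | 1 => ⟨0, 1, 5, 5⟩ | 2 => ⟨0, 2, 5, 5⟩ | _ => ⟨0, 1, 1, 1⟩

/-- The check of this box. -/
def stripUpADen_ok : checkFour stripUpADenBox 100 5 5 7 3 eStripUpADenLess = true := by
  decide +kernel

/-- A box. -/
def stripUpAEndBox : ℕ → Chart
  | 0 => ⟨0, 14, 125, 125⟩ | 1 => ⟨0, 1, 5, 5⟩ | 2 => ⟨0, 2, 5, 5⟩ | _ => ⟨0, 1, 1, 1⟩

/-- The check of this box. -/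
def stripUpAEnd_ok : checkFour stripUpAEndBox 180 7 11 14 9 eStripUpAEndLess = true := by
  decide +kernel

/-- A box. -/
def stripUpAMidOneBox : ℕ → Chart
  | 0 => ⟨56, 125, 500, 500⟩ | 1 => ⟨0, 1, 5, 5⟩ | 2 => ⟨0, 2, 5, 5⟩ | _ => ⟨0, 1, 1, 1⟩

/-- The check of this box. -/
def stripUpAMidOne_ok : checkFour stripUpAMidOneBox 220 8 11 15 9 eStripUpAMidLess = true := by
  decide +kernel

/-- A box. -/
def stripUpAMidTwoBox : ℕ → Chart
  | 0 => ⟨25, 56, 100, 100⟩ | 1 => ⟨0, 1, 5, 5⟩ | 2 => ⟨0, 2, 5, 5⟩ | _ => ⟨0, 1, 1, 1⟩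

/-- The check of this box. -/
def stripUpAMidTwo_ok : checkFour stripUpAMidTwoBox 200 8 11 15 9 eStripUpAMidLess = true := by
  decide +kernel

/-- A box. -/
def stripUpASlopeBox : ℕ → Chart
  | 0 => ⟨0, 14, 25, 25⟩ | 1 => ⟨0, 1, 5, 5⟩ | 2 => ⟨0, 2, 5, 5⟩ | _ => ⟨0, 1, 1, 1⟩

/-- The check of this box. -/
def stripUpASlope_ok : checkFour stripUpASlopeBox 130 5 8 11 7 eStripUpA_upB = true := by
  decide +kernel

/-- A box. -/
def stripUpATopBox : ℕ → Chart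
  | 0 => ⟨0, 14, 25, 25⟩ | 1 => ⟨0, 1, 5, 5⟩ | 2 => ⟨0, 2, 5, 5⟩ | _ => ⟨0, 1, 1, 1⟩

/-- The check of this box. -/
def stripUpATop_ok : checkFour stripUpATopBox 100 4 6 9 6 eStripUpA_upC = true := by
  decide +kernel

end Vale.Agent.P100.Calib.Band.AllLow
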