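import Vale.Agent.P100.Calib.SlabStripUpExprB

/-!
# The checks of the upper bands of the strip in the chart B

Each check is a definition, so that they are compiled one after another.
-/

set_option linter.defProp false

namespace Vale.Agent.P100.Calib.Band.AllLow

open Pack

/-- A box. -/
def stripUpBFwdOneBox : ℕ → Chart
  | 0 => ⟨28, 175, 250, 250⟩ | 1 => ⟨0, 469, 500, 500⟩ | 2 => ⟨1, 0, 20, 20⟩ | _ => ⟨0, 1, 1, 1⟩

/-- The check of this box. -/
def stripUpBFwdOne_ok : checkFour stripUpBFwdOneBox 370 11 8 25 10 eStripUpBFwdLess = true := by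
  decide +kernel

/-- A box. -/
def stripUpBFwdTwoBox : ℕ → Chart
  | 0 => ⟨7, 10, 10, 10⟩ | 1 => ⟨0, 469, 500, 500⟩ | 2 => ⟨1, 0, 20, 20⟩ | _ => ⟨0, 1, 1, 1⟩

/-- The check of this box. -/
def stripUpBFwdTwo_ok : checkFour stripUpBFwdTwoBox 320 11 8 25 10 eStripUpBFwdLess = true := by
  decide +kernel

/-- A box. -/
def stripUpBDenBox : ℕ → Chart
  | 0 => ⟨14, 125, 125, 125⟩ | 1 => ⟨0, 469, 500, 500⟩ | 2 => ⟨1, 0, 20, 20⟩ | _ => ⟨0, 1, 1, 1⟩

/-- The check of this box. -/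
def stripUpBDen_ok : checkFour stripUpBDenBox 150 5 3 10 4 eStripUpBDenLess = true := by
  decide +kernel

/-- A box. -/
def stripUpBEndBox : ℕ → Chart
  | 0 => ⟨0, 14, 125, 125⟩ | 1 => ⟨0, 469, 500, 500⟩ | 2 => ⟨1, 0, 20, 20⟩ | _ => ⟨0, 1, 1, 1⟩

/-- The check of this box. -/
def stripUpBEnd_ok : checkFour stripUpBEndBox 230 7 4 18 8 eStripUpBEndLess = true := by
  decide +kernel

/-- A box. -/
def stripUpBMidBox : ℕ → Chart
  | 0 => ⟨14, 70, 125, 125⟩ | 1 => ⟨0, 469, 500, 500⟩ | 2 => ⟨1, 0, 20, 20⟩ | _ => ⟨0, 1, 1, 1⟩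

/-- The check of this box. -/
def stripUpBMid_ok : checkFour stripUpBMidBox 310 8 7 21 10 eStripUpBMidLess = true := by
  decide +kernel

/-- A box. -/
def stripUpBSlopeBox : ℕ → Chart
  | 0 => ⟨0, 14, 25, 25⟩ | 1 => ⟨0, 469, 500, 500⟩ | 2 => ⟨1, 0, 20, 20⟩ | _ => ⟨0, 1, 1, 1⟩

/-- The check of this box. -/
def stripUpBSlope_ok : checkFour stripUpBSlopeBox 170 5 3 14 6 eStripUpB_upB = true := by
  decide +kernel

/-- A box. -/
def stripUpBTopBox : ℕ → Chart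
  | 0 => ⟨0, 14, 25, 25⟩ | 1 => ⟨0, 469, 500, 500⟩ | 2 => ⟨1, 0, 20, 20⟩ | _ => ⟨0, 1, 1, 1⟩

/-- The check of this box. -/
def stripUpBTop_ok : checkFour stripUpBTopBox 130 4 2 12 6 eStripUpB_upC = true := by
  decide +kernel

end Vale.Agent.P100.Calib.Band.AllLow
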