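import Vale.Agent.P100.Calib.SlabStripUpExprC

/-!
# The checks of the upper bands of the strip in the chart C

Each check is a definition, so that they are compiled one after another.
-/

set_option linter.defProp false

namespace Vale.Agent.P100.Calib.Band.AllLow

open Pack

/-- A box. -/
def stripUpCFwdOneBox : ℕ → Chart
  | 0 => ⟨14, 125, 125, 125⟩ | 1 => ⟨0, 1, 9, 9⟩ | 2 => ⟨12, 35, 30, 30⟩ | _ => ⟨0, 1, 1, 1⟩

/-- The check of this box. -/
def stripUpCFwdOne_ok : checkFour stripUpCFwdOneBox 360 11 16 13 8 eStripUpCFwdLess = true := by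
  decide +kernel

/-- A box. -/
def stripUpCFwdTwoBox : ℕ → Chart
  | 0 => ⟨14, 125, 125, 125⟩ | 1 => ⟨5, 9, 45, 45⟩ | 2 => ⟨20, 51, 50, 50⟩ | _ => ⟨0, 1, 1, 1⟩

/-- The check of this box. -/
def stripUpCFwdTwo_ok : checkFour stripUpCFwdTwoBox 410 11 16 13 8 eStripUpCFwdLess = true := by
  decide +kernel

/-- A box. -/
def stripUpCDenBox : ℕ → Chart
  | 0 => ⟨14, 125, 125, 125⟩ | 1 => ⟨0, 1, 5, 5⟩ | 2 => ⟨12, 35, 30, 30⟩ | _ => ⟨0, 1, 1, 1⟩

/-- The check of this box. -/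
def stripUpCDen_ok : checkFour stripUpCDenBox 140 5 6 5 3 eStripUpCDenLess = true := by
  decide +kernel

/-- A box. -/
def stripUpCEndBox : ℕ → Chart
  | 0 => ⟨0, 14, 125, 125⟩ | 1 => ⟨0, 1, 5, 5⟩ | 2 => ⟨12, 35, 30, 30⟩ | _ => ⟨0, 1, 1, 1⟩

/-- The check of this box. -/
def stripUpCEnd_ok : checkFour stripUpCEndBox 300 7 16 12 9 eStripUpCEndLess = true := by
  decide +kernel

/-- A box. -/
def stripUpCMidBox : ℕ → Chart
  | 0 => ⟨14, 70, 125, 125⟩ | 1 => ⟨0, 1, 5, 5⟩ | 2 => ⟨12, 35, 30, 30⟩ | _ => ⟨0, 1, 1, 1⟩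

/-- The check of this box. -/
def stripUpCMid_ok : checkFour stripUpCMidBox 330 8 16 13 9 eStripUpCMidLess = true := by
  decide +kernel

/-- A box. -/
def stripUpCSlopeBox : ℕ → Chart
  | 0 => ⟨0, 14, 25, 25⟩ | 1 => ⟨0, 1, 5, 5⟩ | 2 => ⟨12, 35, 30, 30⟩ | _ => ⟨0, 1, 1, 1⟩

/-- The check of this box. -/
def stripUpCSlope_ok : checkFour stripUpCSlopeBox 210 5 12 9 7 eStripUpC_upB = true := by
  decide +kernel

/-- A box. -/
def stripUpCTopBox : ℕ → Chart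
  | 0 => ⟨0, 14, 25, 25⟩ | 1 => ⟨0, 1, 5, 5⟩ | 2 => ⟨12, 35, 30, 30⟩ | _ => ⟨0, 1, 1, 1⟩

/-- The check of this box. -/
def stripUpCTop_ok : checkFour stripUpCTopBox 180 4 10 8 6 eStripUpC_upC = true := by
  decide +kernel

end Vale.Agent.P100.Calib.Band.AllLow
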