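import Vale.Agent.P100.Calib.SlabStripUpCharts
import Vale.Agent.P100.Calib.SlabStripUpCheckA
import Vale.Agent.P100.Calib.SlabStripUpCheckB
import Vale.Agent.P100.Calib.SlabStripUpCheckC

/-!
# The closed conditions of the upper bands of the strip

They are proved in three charts: `(w, v, rho, tau)` for `v < 1/5`, `rho < 2/5`,
`(w, v, rho, theta)` for `v < 1/5`, `rho >= 2/5` and `(w, K, I, tau)` otherwise,
`rho = 2 I / (S v)`, `tau = S d v / (2 I)`, `theta = d / (19/50 - 2 I)`, `K = 1 - a v`.
-/

namespace Vale.Agent.P100.Calib.Band

open Vale.Agent.P100.Bubble Chart

/-- The closed conditions of the two bands. -/
structure StripUpConds (a b u v : ℝ) : Prop where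
  fwd : u ≤ 111 / 125 → 0 < (stripAt a b u v).upFwd
  den : u ≤ 111 / 125 → 0 < (stripAt a b u v).upDen
  last : 111 / 125 < u → 0 < (stripAt a b u v).upA
  mid : 11 / 25 < u → u ≤ 111 / 125 → 0 < (stripAt a b u v).upAm
  slope : 11 / 25 < u → 0 ≤ (stripAt a b u v).upB
  top : 11 / 25 < u → 0 ≤ (stripAt a b u v).upC

namespace AllLow

open Pack

local instance stripUpCondAdd : Add Pack.Ex := ⟨Ex.add⟩
local instance stripUpCondSub : Sub Pack.Ex := ⟨Ex.sub⟩
local instance stripUpCondMul : Mul Pack.Ex := ⟨Ex.mul⟩

theorem strip_up_conds_A {a b u v : ℝ} (h : StripPlace a b u v) (hy : v < 1 / 5)
    (hr5 : 5 * allStabI a b < (a + b) * v) : StripUpConds a b u v := by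
  obtain ⟨r, t, hC, hr0, hr25, ht0, ht1⟩ := strip_up_chart_A h hr5
  obtain ⟨hI0, hI20, ha, hd, hu, hu1, hv, hav, hlo, hhi⟩ := h
  have hS0 : 0 < a + b := by linarith [hu]
  have hw0 : 0 < 1 - u := by linarith
  refine ⟨?_, ?_, ?_, ?_, ?_, ?_⟩
  · intro hu8
    have hb1 : 0 ≤ eStripUpAFwdLess.eval (stabPt (1 - u) v r t) := by
      exact nonneg_of_checkFour stripUpAFwd_ok (strip_point
        (by simp only [stripUpAFwdBox]
            exact side_point (den := 125) (by norm_num) (by push_cast; linarith)
              (by push_cast; linarith))
        (by simp only [stripUpAFwdBox]
            exact side_point (den := 5) (by norm_num) (by push_cast; linarith)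
              (by push_cast; linarith))
        (by simp only [stripUpAFwdBox]
            exact side_point (den := 5) (by norm_num) (by push_cast; linarith)
              (by push_cast; linarith))
        (by simp only [stripUpAFwdBox]
            exact side_point (den := 1) (by norm_num) (by push_cast; linarith)
              (by push_cast; linarith)))
    simp only [eStripUpAFwdLess, eval_sub', eval_mul', evalUpA_upFwd hC] at hb1
    simp only [Ex.eval, stabPt] at hb1
    norm_num at hb1
    have : 0 < (1 - u) * (v * (r * (t))) := by positivity
    refine pos_of_mul_pos_left (b := (2 / (a + b)) ^ 11) ?_ (by positivity)
    linarith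
  · intro hu8
    have hb1 : 0 ≤ eStripUpADenLess.eval (stabPt (1 - u) v r t) := by
      exact nonneg_of_checkFour stripUpADen_ok (strip_point
        (by simp only [stripUpADenBox]
            exact side_point (den := 125) (by norm_num) (by push_cast; linarith)
              (by push_cast; linarith))
        (by simp only [stripUpADenBox]
            exact side_point (den := 5) (by norm_num) (by push_cast; linarith)
              (by push_cast; linarith))
        (by simp only [stripUpADenBox]
            exact side_point (den := 5) (by norm_num) (by push_cast; linarith)
              (by push_cast; linarith))
        (by simp only [stripUpADenBox]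
            exact side_point (den := 1) (by norm_num) (by push_cast; linarith)
              (by push_cast; linarith)))
    simp only [eStripUpADenLess, eval_sub', eval_num', evalUpA_upDen hC] at hb1
    norm_num at hb1
    refine pos_of_mul_pos_left (b := (2 / (a + b)) ^ 4) ?_ (by positivity)
    linarith
  · intro hu8
    have hb1 : 0 ≤ eStripUpAEndLess.eval (stabPt (1 - u) v r t) := by
      exact nonneg_of_checkFour stripUpAEnd_ok (strip_point
        (by simp only [stripUpAEndBox]
            exact side_point (den := 125) (by norm_num) (by push_cast; linarith)
              (by push_cast; linarith))
        (by simp only [stripUpAEndBox]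
            exact side_point (den := 5) (by norm_num) (by push_cast; linarith)
              (by push_cast; linarith))
        (by simp only [stripUpAEndBox]
            exact side_point (den := 5) (by norm_num) (by push_cast; linarith)
              (by push_cast; linarith))
        (by simp only [stripUpAEndBox]
            exact side_point (den := 1) (by norm_num) (by push_cast; linarith)
              (by push_cast; linarith)))
    simp only [eStripUpAEndLess, eval_sub', eval_mul', evalUpA_upA hC] at hb1
    simp only [Ex.eval, stabPt] at hb1
    norm_num at hb1
    have : 0 < (1 - u) ^ 3 * (v * (r ^ 3 * (t ^ 2))) := by positivity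
    refine pos_of_mul_pos_left (b := (2 / (a + b)) ^ 7) ?_ (by positivity)
    linarith
  · intro hu4 hu8
    have hb1 : 0 ≤ eStripUpAMidLess.eval (stabPt (1 - u) v r t) := by
      rcases lt_or_ge (1 - u) (1 / 4) with h1 | h1
      ·
        exact nonneg_of_checkFour stripUpAMidOne_ok (strip_point
          (by simp only [stripUpAMidOneBox]
              exact side_point (den := 500) (by norm_num) (by push_cast; linarith)
                (by push_cast; linarith))
          (by simp only [stripUpAMidOneBox]
              exact side_point (den := 5) (by norm_num) (by push_cast; linarith)
                (by push_cast; linarith))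
          (by simp only [stripUpAMidOneBox]
              exact side_point (den := 5) (by norm_num) (by push_cast; linarith)
                (by push_cast; linarith))
          (by simp only [stripUpAMidOneBox]
              exact side_point (den := 1) (by norm_num) (by push_cast; linarith)
                (by push_cast; linarith)))
      ·
        exact nonneg_of_checkFour stripUpAMidTwo_ok (strip_point
          (by simp only [stripUpAMidTwoBox]
              exact side_point (den := 100) (by norm_num) (by push_cast; linarith)
                (by push_cast; linarith))
          (by simp only [stripUpAMidTwoBox]
              exact side_point (den := 5) (by norm_num) (by push_cast; linarith)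
                (by push_cast; linarith))
          (by simp only [stripUpAMidTwoBox]
              exact side_point (den := 5) (by norm_num) (by push_cast; linarith)
                (by push_cast; linarith))
          (by simp only [stripUpAMidTwoBox]
              exact side_point (den := 1) (by norm_num) (by push_cast; linarith)
                (by push_cast; linarith)))
    simp only [eStripUpAMidLess, eval_sub', eval_mul', evalUpA_upAm hC] at hb1
    simp only [Ex.eval, stabPt] at hb1
    norm_num at hb1
    have : 0 < (1 - u) * (v * (r * (t))) := by positivity
    refine pos_of_mul_pos_left (b := (2 / (a + b)) ^ 7) ?_ (by positivity)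
    linarith
  · intro hu4
    have hb1 : 0 ≤ eStripUpA_upB.eval (stabPt (1 - u) v r t) := by
      exact nonneg_of_checkFour stripUpASlope_ok (strip_point
        (by simp only [stripUpASlopeBox]
            exact side_point (den := 25) (by norm_num) (by push_cast; linarith)
              (by push_cast; linarith))
        (by simp only [stripUpASlopeBox]
            exact side_point (den := 5) (by norm_num) (by push_cast; linarith)
              (by push_cast; linarith))
        (by simp only [stripUpASlopeBox]
            exact side_point (den := 5) (by norm_num) (by push_cast; linarith)
              (by push_cast; linarith))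
        (by simp only [stripUpASlopeBox]
            exact side_point (den := 1) (by norm_num) (by push_cast; linarith)
              (by push_cast; linarith)))
    rw [evalUpA_upB hC] at hb1
    exact nonneg_of_mul_nonneg_left hb1 (by positivity)
  · intro hu4
    have hb1 : 0 ≤ eStripUpA_upC.eval (stabPt (1 - u) v r t) := by
      exact nonneg_of_checkFour stripUpATop_ok (strip_point
        (by simp only [stripUpATopBox]
            exact side_point (den := 25) (by norm_num) (by push_cast; linarith)
              (by push_cast; linarith))
        (by simp only [stripUpATopBox]
            exact side_point (den := 5) (by norm_num) (by push_cast; linarith)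
              (by push_cast; linarith))
        (by simp only [stripUpATopBox]
            exact side_point (den := 5) (by norm_num) (by push_cast; linarith)
              (by push_cast; linarith))
        (by simp only [stripUpATopBox]
            exact side_point (den := 1) (by norm_num) (by push_cast; linarith)
              (by push_cast; linarith)))
    rw [evalUpA_upC hC] at hb1
    exact nonneg_of_mul_nonneg_left hb1 (by positivity)

theorem strip_up_conds_C {a b u v : ℝ} (h : StripPlace a b u v) (hy : v < 1 / 5)
    (hr5 : (a + b) * v ≤ 5 * allStabI a b) : StripUpConds a b u v := by
  obtain ⟨r, th, hC, hr25, hr76, hr51, hth0, hth1⟩ := strip_up_chart_C h hr5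
  have hr0 : 0 < r := by linarith
  obtain ⟨hI0, hI20, ha, hd, hu, hu1, hv, hav, hlo, hhi⟩ := h
  have hS0 : 0 < a + b := by linarith [hu]
  have hw0 : 0 < 1 - u := by linarith
  refine ⟨?_, ?_, ?_, ?_, ?_, ?_⟩
  · intro hu8
    have hb1 : 0 ≤ eStripUpCFwdLess.eval (stabPt (1 - u) v r th) := by
      rcases lt_or_ge v (1 / 9) with h1 | h1
      ·
        exact nonneg_of_checkFour stripUpCFwdOne_ok (strip_point
          (by simp only [stripUpCFwdOneBox]
              exact side_point (den := 125) (by norm_num) (by push_cast; linarith)
                (by push_cast; linarith))
          (by simp only [stripUpCFwdOneBox]
              exact side_point (den := 9) (by norm_num) (by push_cast; linarith)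
                (by push_cast; linarith))
          (by simp only [stripUpCFwdOneBox]
              exact side_point (den := 30) (by norm_num) (by push_cast; linarith)
                (by push_cast; linarith))
          (by simp only [stripUpCFwdOneBox]
              exact side_point (den := 1) (by norm_num) (by push_cast; linarith)
                (by push_cast; linarith)))
      ·
        have hr51 := hr51 h1
        exact nonneg_of_checkFour stripUpCFwdTwo_ok (strip_point
          (by simp only [stripUpCFwdTwoBox]
              exact side_point (den := 125) (by norm_num) (by push_cast; linarith)
                (by push_cast; linarith))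
          (by simp only [stripUpCFwdTwoBox]
              exact side_point (den := 45) (by norm_num) (by push_cast; linarith)
                (by push_cast; linarith))
          (by simp only [stripUpCFwdTwoBox]
              exact side_point (den := 50) (by norm_num) (by push_cast; linarith)
                (by push_cast; linarith))
          (by simp only [stripUpCFwdTwoBox]
              exact side_point (den := 1) (by norm_num) (by push_cast; linarith)
                (by push_cast; linarith)))
    simp only [eStripUpCFwdLess, eval_sub', eval_mul', evalUpC_upFwd hC] at hb1
    simp only [Ex.eval, stabPt] at hb1
    norm_num at hb1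
    have : 0 < (1 - u) * (v * (r * (th))) := by positivity
    refine pos_of_mul_pos_left (b := (100 / (a + b)) ^ 13) ?_ (by positivity)
    linarith
  · intro hu8
    have hb1 : 0 ≤ eStripUpCDenLess.eval (stabPt (1 - u) v r th) := by
      exact nonneg_of_checkFour stripUpCDen_ok (strip_point
        (by simp only [stripUpCDenBox]
            exact side_point (den := 125) (by norm_num) (by push_cast; linarith)
              (by push_cast; linarith))
        (by simp only [stripUpCDenBox]
            exact side_point (den := 5) (by norm_num) (by push_cast; linarith)
              (by push_cast; linarith))
        (by simp only [stripUpCDenBox]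
            exact side_point (den := 30) (by norm_num) (by push_cast; linarith)
              (by push_cast; linarith))
        (by simp only [stripUpCDenBox]
            exact side_point (den := 1) (by norm_num) (by push_cast; linarith)
              (by push_cast; linarith)))
    simp only [eStripUpCDenLess, eval_sub', eval_num', evalUpC_upDen hC] at hb1
    norm_num at hb1
    refine pos_of_mul_pos_left (b := (100 / (a + b)) ^ 5) ?_ (by positivity)
    linarith
  · intro hu8
    have hb1 : 0 ≤ eStripUpCEndLess.eval (stabPt (1 - u) v r th) := by
      exact nonneg_of_checkFour stripUpCEnd_ok (strip_point
        (by simp only [stripUpCEndBox]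
            exact side_point (den := 125) (by norm_num) (by push_cast; linarith)
              (by push_cast; linarith))
        (by simp only [stripUpCEndBox]
            exact side_point (den := 5) (by norm_num) (by push_cast; linarith)
              (by push_cast; linarith))
        (by simp only [stripUpCEndBox]
            exact side_point (den := 30) (by norm_num) (by push_cast; linarith)
              (by push_cast; linarith))
        (by simp only [stripUpCEndBox]
            exact side_point (den := 1) (by norm_num) (by push_cast; linarith)
              (by push_cast; linarith)))
    simp only [eStripUpCEndLess, eval_sub', eval_mul', evalUpC_upA hC] at hb1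
    simp only [Ex.eval, stabPt] at hb1
    norm_num at hb1
    have : 0 < (1 - u) ^ 2 * (v * (r ^ 2 * (th))) := by positivity
    refine pos_of_mul_pos_left (b := (100 / (a + b)) ^ 12) ?_ (by positivity)
    linarith
  · intro hu4 hu8
    have hb1 : 0 ≤ eStripUpCMidLess.eval (stabPt (1 - u) v r th) := by
      exact nonneg_of_checkFour stripUpCMid_ok (strip_point
        (by simp only [stripUpCMidBox]
            exact side_point (den := 125) (by norm_num) (by push_cast; linarith)
              (by push_cast; linarith))
        (by simp only [stripUpCMidBox]
            exact side_point (den := 5) (by norm_num) (by push_cast; linarith)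
              (by push_cast; linarith))
        (by simp only [stripUpCMidBox]
            exact side_point (den := 30) (by norm_num) (by push_cast; linarith)
              (by push_cast; linarith))
        (by simp only [stripUpCMidBox]
            exact side_point (den := 1) (by norm_num) (by push_cast; linarith)
              (by push_cast; linarith)))
    simp only [eStripUpCMidLess, eval_sub', eval_mul', evalUpC_upAm hC] at hb1
    simp only [Ex.eval, stabPt] at hb1
    norm_num at hb1
    have : 0 < (1 - u) * (v * (r * (th))) := by positivity
    refine pos_of_mul_pos_left (b := (100 / (a + b)) ^ 12 * r) ?_ (by positivity)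
    linarith
  · intro hu4
    have hb1 : 0 ≤ eStripUpC_upB.eval (stabPt (1 - u) v r th) := by
      exact nonneg_of_checkFour stripUpCSlope_ok (strip_point
        (by simp only [stripUpCSlopeBox]
            exact side_point (den := 25) (by norm_num) (by push_cast; linarith)
              (by push_cast; linarith))
        (by simp only [stripUpCSlopeBox]
            exact side_point (den := 5) (by norm_num) (by push_cast; linarith)
              (by push_cast; linarith))
        (by simp only [stripUpCSlopeBox]
            exact side_point (den := 30) (by norm_num) (by push_cast; linarith)
              (by push_cast; linarith))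
        (by simp only [stripUpCSlopeBox]
            exact side_point (den := 1) (by norm_num) (by push_cast; linarith)
              (by push_cast; linarith)))
    rw [evalUpC_upB hC] at hb1
    exact nonneg_of_mul_nonneg_left hb1 (by positivity)
  · intro hu4
    have hb1 : 0 ≤ eStripUpC_upC.eval (stabPt (1 - u) v r th) := by
      exact nonneg_of_checkFour stripUpCTop_ok (strip_point
        (by simp only [stripUpCTopBox]
            exact side_point (den := 25) (by norm_num) (by push_cast; linarith)
              (by push_cast; linarith))
        (by simp only [stripUpCTopBox]
            exact side_point (den := 5) (by norm_num) (by push_cast; linarith)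
              (by push_cast; linarith))
        (by simp only [stripUpCTopBox]
            exact side_point (den := 30) (by norm_num) (by push_cast; linarith)
              (by push_cast; linarith))
        (by simp only [stripUpCTopBox]
            exact side_point (den := 1) (by norm_num) (by push_cast; linarith)
              (by push_cast; linarith)))
    rw [evalUpC_upC hC] at hb1
    exact nonneg_of_mul_nonneg_left hb1 (by positivity)

theorem strip_up_conds_B {a b u v : ℝ} (h : StripPlace a b u v) (hy : 1 / 5 ≤ v) :
    StripUpConds a b u v := by
  obtain ⟨t, hC, hK, ht0, ht1⟩ := strip_up_chart_B h hy
  obtain ⟨hI0, hI20, ha, hd, hu, hu1, hv, hav, hlo, hhi⟩ := h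
  have hS0 : 0 < a + b := by linarith [hu]
  have hw0 : 0 < 1 - u := by linarith
  have hK0 : 0 < 1 - a * v := by linarith
  obtain ⟨I, hI⟩ : ∃ I, I = allStabI a b := ⟨_, rfl⟩
  rw [← hI] at hI0 hI20 hC
  refine ⟨?_, ?_, ?_, ?_, ?_, ?_⟩
  · intro hu8
    have hb1 : 0 ≤ eStripUpBFwdLess.eval (stabPt (1 - u) (1 - a * v) I t) := by
      rcases lt_or_ge (1 - u) (7 / 10) with h1 | h1
      ·
        exact nonneg_of_checkFour stripUpBFwdOne_ok (strip_point
          (by simp only [stripUpBFwdOneBox]
              exact side_point (den := 250) (by norm_num) (by push_cast; linarith)
                (by push_cast; linarith))
          (by simp only [stripUpBFwdOneBox]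
              exact side_point (den := 500) (by norm_num) (by push_cast; linarith)
                (by push_cast; linarith))
          (by simp only [stripUpBFwdOneBox]
              exact strip_back (den := 20) (by norm_num) (by push_cast; linarith)
                (by push_cast; linarith))
          (by simp only [stripUpBFwdOneBox]
              exact side_point (den := 1) (by norm_num) (by push_cast; linarith)
                (by push_cast; linarith)))
      ·
        exact nonneg_of_checkFour stripUpBFwdTwo_ok (strip_point
          (by simp only [stripUpBFwdTwoBox]
              exact side_point (den := 10) (by norm_num) (by push_cast; linarith)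
                (by push_cast; linarith))
          (by simp only [stripUpBFwdTwoBox]
              exact side_point (den := 500) (by norm_num) (by push_cast; linarith)
                (by push_cast; linarith))
          (by simp only [stripUpBFwdTwoBox]
              exact strip_back (den := 20) (by norm_num) (by push_cast; linarith)
                (by push_cast; linarith))
          (by simp only [stripUpBFwdTwoBox]
              exact side_point (den := 1) (by norm_num) (by push_cast; linarith)
                (by push_cast; linarith)))
    simp only [eStripUpBFwdLess, eval_sub', eval_mul', evalUpB_upFwd hC] at hb1
    simp only [Ex.eval, stabPt] at hb1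
    norm_num at hb1
    have : 0 < (1 - u) ^ 3 * ((1 - a * v) * (I ^ 3 * (t ^ 2))) := by positivity
    refine pos_of_mul_pos_left (b := ((a + b) ^ 2 * v) ^ 7 * (a + b) ^ 6) ?_ (by positivity)
    linarith
  · intro hu8
    have hb1 : 0 ≤ eStripUpBDenLess.eval (stabPt (1 - u) (1 - a * v) I t) := by
      exact nonneg_of_checkFour stripUpBDen_ok (strip_point
        (by simp only [stripUpBDenBox]
            exact side_point (den := 125) (by norm_num) (by push_cast; linarith)
              (by push_cast; linarith))
        (by simp only [stripUpBDenBox]
            exact side_point (den := 500) (by norm_num) (by push_cast; linarith)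
              (by push_cast; linarith))
        (by simp only [stripUpBDenBox]
            exact strip_back (den := 20) (by norm_num) (by push_cast; linarith)
              (by push_cast; linarith))
        (by simp only [stripUpBDenBox]
            exact side_point (den := 1) (by norm_num) (by push_cast; linarith)
              (by push_cast; linarith)))
    simp only [eStripUpBDenLess, eval_sub', eval_mul', evalUpB_upDen hC] at hb1
    simp only [Ex.eval, stabPt] at hb1
    norm_num at hb1
    have : 0 < (1 - u) * ((1 - a * v) * (I * (t))) := by positivity
    refine pos_of_mul_pos_left (b := ((a + b) ^ 2 * v) ^ 3 * (a + b) ^ 2) ?_ (by positivity)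
    linarith
  · intro hu8
    have hb1 : 0 ≤ eStripUpBEndLess.eval (stabPt (1 - u) (1 - a * v) I t) := by
      exact nonneg_of_checkFour stripUpBEnd_ok (strip_point
        (by simp only [stripUpBEndBox]
            exact side_point (den := 125) (by norm_num) (by push_cast; linarith)
              (by push_cast; linarith))
        (by simp only [stripUpBEndBox]
            exact side_point (den := 500) (by norm_num) (by push_cast; linarith)
              (by push_cast; linarith))
        (by simp only [stripUpBEndBox]
            exact strip_back (den := 20) (by norm_num) (by push_cast; linarith)
              (by push_cast; linarith))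
        (by simp only [stripUpBEndBox]
            exact side_point (den := 1) (by norm_num) (by push_cast; linarith)
              (by push_cast; linarith)))
    simp only [eStripUpBEndLess, eval_sub', eval_mul', evalUpB_upA hC] at hb1
    simp only [Ex.eval, stabPt] at hb1
    norm_num at hb1
    have : 0 < (1 - u) ^ 3 * ((1 - a * v) ^ 2 * (I ^ 3 * (t ^ 2))) := by positivity
    refine pos_of_mul_pos_left (b := ((a + b) ^ 2 * v) ^ 3 * (a + b) ^ 9) ?_ (by positivity)
    linarith
  · intro hu4 hu8
    have hb1 : 0 ≤ eStripUpBMidLess.eval (stabPt (1 - u) (1 - a * v) I t) := by
      exact nonneg_of_checkFour stripUpBMid_ok (strip_point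
        (by simp only [stripUpBMidBox]
            exact side_point (den := 125) (by norm_num) (by push_cast; linarith)
              (by push_cast; linarith))
        (by simp only [stripUpBMidBox]
            exact side_point (den := 500) (by norm_num) (by push_cast; linarith)
              (by push_cast; linarith))
        (by simp only [stripUpBMidBox]
            exact strip_back (den := 20) (by norm_num) (by push_cast; linarith)
              (by push_cast; linarith))
        (by simp only [stripUpBMidBox]
            exact side_point (den := 1) (by norm_num) (by push_cast; linarith)
              (by push_cast; linarith)))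
    simp only [eStripUpBMidLess, eval_sub', eval_mul', evalUpB_upAm hC] at hb1
    simp only [Ex.eval, stabPt] at hb1
    norm_num at hb1
    have : 0 < (1 - u) * ((1 - a * v) * (I * (t))) := by positivity
    refine pos_of_mul_pos_left (b := ((a + b) ^ 2 * v) ^ 5 * (a + b) ^ 9) ?_ (by positivity)
    linarith
  · intro hu4
    have hb1 : 0 ≤ eStripUpB_upB.eval (stabPt (1 - u) (1 - a * v) I t) := by
      exact nonneg_of_checkFour stripUpBSlope_ok (strip_point
        (by simp only [stripUpBSlopeBox]
            exact side_point (den := 25) (by norm_num) (by push_cast; linarith)
              (by push_cast; linarith))
        (by simp only [stripUpBSlopeBox]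
            exact side_point (den := 500) (by norm_num) (by push_cast; linarith)
              (by push_cast; linarith))
        (by simp only [stripUpBSlopeBox]
            exact strip_back (den := 20) (by norm_num) (by push_cast; linarith)
              (by push_cast; linarith))
        (by simp only [stripUpBSlopeBox]
            exact side_point (den := 1) (by norm_num) (by push_cast; linarith)
              (by push_cast; linarith)))
    rw [evalUpB_upB hC] at hb1
    exact nonneg_of_mul_nonneg_left hb1 (by positivity)
  · intro hu4
    have hb1 : 0 ≤ eStripUpB_upC.eval (stabPt (1 - u) (1 - a * v) I t) := by
      exact nonneg_of_checkFour stripUpBTop_ok (strip_point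
        (by simp only [stripUpBTopBox]
            exact side_point (den := 25) (by norm_num) (by push_cast; linarith)
              (by push_cast; linarith))
        (by simp only [stripUpBTopBox]
            exact side_point (den := 500) (by norm_num) (by push_cast; linarith)
              (by push_cast; linarith))
        (by simp only [stripUpBTopBox]
            exact strip_back (den := 20) (by norm_num) (by push_cast; linarith)
              (by push_cast; linarith))
        (by simp only [stripUpBTopBox]
            exact side_point (den := 1) (by norm_num) (by push_cast; linarith)
              (by push_cast; linarith)))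
    rw [evalUpB_upC hC] at hb1
    exact nonneg_of_mul_nonneg_left hb1 (by positivity)

/-- **The closed conditions of the upper bands.** -/
theorem strip_up_conds {a b u v : ℝ} (h : StripPlace a b u v) : StripUpConds a b u v := by
  rcases lt_or_ge v (1 / 5) with h1 | h1
  · rcases lt_or_ge (5 * allStabI a b) ((a + b) * v) with h2 | h2
    · exact strip_up_conds_A h h1 h2
    · exact strip_up_conds_C h h1 h2
  · exact strip_up_conds_B h h1

end AllLow

end Vale.Agent.P100.Calib.Band
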