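import Vale.Agent.P100.Calib.SlabTailExpr
import Vale.Agent.P100.Calib.SlabRungChecks

/-!
# Expressions of the band past 3/5, low piece
-/

namespace Vale.Agent.P100.Calib.Band

open BoxPos

/-- A coefficient. -/
def lowTailA0 : Ex := Ex.add (Ex.add (eC 19540 10000) (Ex.mul (eC 227422 10000) eD)) (Ex.mul (eC 113009 10000) (Ex.mul eD eD))

/-- A coefficient. -/
def lowTailA1 : Ex := Ex.add (Ex.add (eC 37400 10000) (Ex.mul (eC 114342 10000) eD)) (Ex.mul (eC (-2421164) 10000) (Ex.mul eD eD))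

/-- A coefficient. -/
def lowTailA2 : Ex := Ex.add (Ex.add (eC 6793 10000) (Ex.mul (eC (-125600) 10000) eD)) (Ex.mul (eC 1039934 10000) (Ex.mul eD eD))

/-- A coefficient. -/
def lowTailPa : Ex := eC 1373 10000

/-- A coefficient. -/
def lowTailPb : Ex := eC 362 10000

/-- The numerator. -/
def lowTailN : Ex := eTailN lowTailA0 lowTailA1 lowTailA2 lowTailPa lowTailPb

/-- The denominator. -/
def lowTailG : Ex := eTailG lowTailPa lowTailPb

/-- The derivative numerator. -/
def lowTailM : Ex := eTailM lowTailA0 lowTailA1 lowTailA2 lowTailPa lowTailPb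

/-- The condition. -/
def lowTailCond (i j : ℕ) : Ex := eTailCond lowTailN lowTailG lowTailM i j

/-- The packing. -/
def lowTailCfg : Cfg := ⟨600, ⟨9, 3, 14, 6⟩⟩

/-- A box in ten-thousandths. -/
def lowTailBox (a b x y p q : ℤ) : Box :=
  ⟨⟨a, b, 10000⟩, ⟨x, y, 10000⟩, ⟨p, q, 10000⟩, sideS⟩

end Vale.Agent.P100.Calib.Band
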