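import Vale.Agent.P100.Calib.SlabTailLowDefs
import Vale.Agent.P100.Calib.BoxPosFast

/-!
# The start of the band past 3/5, low piece
-/

namespace Vale.Agent.P100.Calib.Band

open BoxPos

/-- The start condition. -/
def lowTailBefore : Ex :=
  Ex.sub (Ex.mul (Ex.mul (Ex.sub (eC 3 5) eU) (Ex.sub (eC 3 5) eU)) lowTailG)
    (Ex.mul (Ex.mul eD eU) (Ex.sub lowTailN (Ex.mul (Ex.add (Ex.add (Ex.sub (eC 119 100) (Ex.mul (eC 67 20) eD)) (Ex.mul (Ex.sub (eC 31 20) (Ex.mul (eC 69 10) eD)) eU)) (Ex.mul (Ex.add (eC 11 20) (Ex.mul (eC 2 5) eD)) (Ex.mul eU eU))) lowTailG)))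

/-- The gap to the earlier band. -/
def lowTailGap : Ex := Ex.sub (Ex.mul (Ex.add (Ex.add (Ex.sub (eC 119 100) (Ex.mul (eC 67 20) eD)) (Ex.mul (Ex.sub (eC 31 20) (Ex.mul (eC 69 10) eD)) eU)) (Ex.mul (Ex.add (eC 11 20) (Ex.mul (eC 2 5) eD)) (Ex.mul eU eU))) lowTailG) lowTailN

theorem low_tail_before_check : lowTailBefore.checkQuick lowTailCfg
    (lowTailBox 0 5500 3300 3301 0 501) = true := by decide +kernel

theorem low_tail_gap_check : lowTailGap.checkQuick lowTailCfg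
    (lowTailBox 5500 6001 3300 3301 0 501) = true := by decide +kernel

end Vale.Agent.P100.Calib.Band
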