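import Vale.Agent.P100.Calib.SlabTailMidDefs
import Vale.Agent.P100.Calib.BoxPosFast

/-!
# Certificates of the band past 3/5, mid piece, part 0
-/

namespace Vale.Agent.P100.Calib.Band

open BoxPos

theorem mid_tail_0 : (midTailCond 0 0).checkQuick midTailCfg
    (midTailBox 6000 8000 3300 27012 500 1201) = true := by decide +kernel

theorem mid_tail_1 : (midTailCond 0 166).checkQuick midTailCfg
    (midTailBox 8000 8586 3300 22488 500 1201) = true := by decide +kernel

theorem mid_tail_2 : (midTailCond 0 479).checkQuick midTailCfg
    (midTailBox 8586 9000 3300 22488 500 1201) = true := by decide +kernel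

theorem mid_tail_3 : (midTailCond 0 0).checkQuick midTailCfg
    (midTailBox 8000 9000 22488 41677 500 1201) = true := by decide +kernel

theorem mid_tail_4 : (midTailCond 0 685).checkQuick midTailCfg
    (midTailBox 9000 9293 3300 22488 500 850) = true := by decide +kernel

theorem mid_tail_5 : (midTailCond 0 669).checkQuick midTailCfg
    (midTailBox 9000 9293 3300 22488 850 1201) = true := by decide +kernel

theorem mid_tail_6 : (midTailCond 0 1200).checkQuick midTailCfg
    (midTailBox 9293 9500 3300 22488 500 850) = true := by decide +kernel

theorem mid_tail_7 : (midTailCond 0 842).checkQuick midTailCfg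
    (midTailBox 9293 9500 3300 22488 850 1201) = true := by decide +kernel

theorem mid_tail_8 : (midTailCond 0 0).checkQuick midTailCfg
    (midTailBox 9000 9500 22488 41677 500 1201) = true := by decide +kernel

theorem mid_tail_9 : (midTailCond 0 1502).checkQuick midTailCfg
    (midTailBox 9500 9646 3300 22488 500 850) = true := by decide +kernel

theorem mid_tail_10 : (midTailCond 0 1393).checkQuick midTailCfg
    (midTailBox 9500 9646 3300 22488 850 1201) = true := by decide +kernel

theorem mid_tail_11 : (midTailCond 0 2116).checkQuick midTailCfg
    (midTailBox 9646 9750 3300 22488 500 1201) = true := by decide +kernel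

theorem mid_tail_12 : (midTailCond 0 0).checkQuick midTailCfg
    (midTailBox 9500 9750 22488 41677 500 1201) = true := by decide +kernel

theorem mid_tail_13 : (midTailCond 0 5705).checkQuick midTailCfg
    (midTailBox 9750 9876 3300 22488 500 1201) = true := by decide +kernel

theorem mid_tail_14 : (midTailCond 0 0).checkQuick midTailCfg
    (midTailBox 9750 9824 22488 41677 500 1201) = true := by decide +kernel

theorem mid_tail_15 : (midTailCond 0 1266).checkQuick midTailCfg
    (midTailBox 9824 9876 22488 38836 500 850) = true := by decide +kernel

theorem mid_tail_16 : (midTailCond 0 0).checkQuick midTailCfg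
    (midTailBox 9824 9876 22488 41677 850 1201) = true := by decide +kernel

end Vale.Agent.P100.Calib.Band
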