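import Vale.Agent.P100.Calib.SlabTailExpr
import Vale.Agent.P100.Calib.SlabRungChecks

/-!
# Expressions of the band past 3/5, mid piece
-/

namespace Vale.Agent.P100.Calib.Band

open BoxPos

/-- A coefficient. -/
def midTailA0 : Ex := Ex.add (eC 25153 10000) (Ex.mul (eC 186684 10000) eD)

/-- A coefficient. -/
def midTailA1 : Ex := Ex.add (eC 31755 10000) (Ex.mul (eC (-75720) 10000) eD)

/-- A coefficient. -/
def midTailA2 : Ex := Ex.add (eC 1904 10000) (Ex.mul (eC (-21095) 10000) eD)

/-- A coefficient. -/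
def midTailPa : Ex := eC 1200 10000

/-- A coefficient. -/
def midTailPb : Ex := eC 40 10000

/-- The numerator. -/
def midTailN : Ex := eTailN midTailA0 midTailA1 midTailA2 midTailPa midTailPb

/-- The denominator. -/
def midTailG : Ex := eTailG midTailPa midTailPb

/-- The derivative numerator. -/
def midTailM : Ex := eTailM midTailA0 midTailA1 midTailA2 midTailPa midTailPb

/-- The condition. -/
def midTailCond (i j : ℕ) : Ex := eTailCond midTailN midTailG midTailM i j

/-- The packing. -/
def midTailCfg : Cfg := ⟨500, ⟨9, 3, 11, 6⟩⟩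

/-- A box in ten-thousandths. -/
def midTailBox (a b x y p q : ℤ) : Box :=
  ⟨⟨a, b, 10000⟩, ⟨x, y, 10000⟩, ⟨p, q, 10000⟩, sideS⟩

end Vale.Agent.P100.Calib.Band
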