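import Vale.Agent.P100.Calib.SlabTailMidDefs
import Vale.Agent.P100.Calib.SlabTailExit
import Vale.Agent.P100.Calib.BoxPosFast

/-!
# Certificates of the exit curve to 79/80, mid piece
-/

namespace Vale.Agent.P100.Calib.Band

open BoxPos

/-- A coefficient. -/
def midCF0 : Ex := Ex.add (eC 77743 10000) (Ex.mul (eC (-60214) 10000) eD)

/-- A coefficient. -/
def midCF1 : Ex := Ex.add (eC 18134 10000) (Ex.mul (eC 2854 10000) eD)

/-- A coefficient. -/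
def midCF3 : Ex := Ex.add (eC 55858 10000) (Ex.mul (eC (-40967) 10000) eD)

/-- A coefficient. -/
def midCA : Ex := Ex.add (Ex.add (eC 1800 10000) (Ex.mul (eC 8000 10000) eD)) (Ex.mul (eC 15000 10000) (Ex.mul eD eD))

/-- A coefficient. -/
def midCB : Ex := eC 173 10000

/-- A coefficient. -/
def midCL : Ex := Ex.add (Ex.add (Ex.sub (eC 119 100) (Ex.mul (eC 67 20) eD)) (Ex.mul (Ex.sub (eC 31 20) (Ex.mul (eC 69 10) eD)) eU)) (Ex.mul (Ex.add (eC 11 20) (Ex.mul (eC 2 5) eD)) (Ex.mul eU eU))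

/-- A numerator. -/
def midXLow : Ex := eExitPH (eCurveA midCF0 midCF1 midCF3 midCA midCB) (eCurveW midCA midCB) (eCurveGW midCF1 midCF3 midCA midCB) midCL (eC 1)

/-- A numerator. -/
def midXHigh : Ex := eExitPH (eCurveA midCF0 midCF1 midCF3 midCA midCB) (eCurveW midCA midCB) (eCurveGW midCF1 midCF3 midCA midCB) midTailN midTailG

/-- A numerator. -/
def midSLow : Ex := eSlopePH (eCurveA midCF0 midCF1 midCF3 midCA midCB) (eCurveW midCA midCB) (eCurveGW midCF1 midCF3 midCA midCB) midCL (eC 1)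

/-- A numerator. -/
def midSHigh : Ex := eSlopePH (eCurveA midCF0 midCF1 midCF3 midCA midCB) (eCurveW midCA midCB) (eCurveGW midCF1 midCF3 midCA midCB) midTailN midTailG

/-- The end condition. -/
def midEnd : Ex := Ex.sub (eCurveA midCF0 midCF1 midCF3 midCA midCB) (Ex.mul (eC 89 20) (eCurveW midCA midCB))

theorem mid_xlow_0 : midXLow.checkQuick ⟨600, ⟨12, 0, 17, 4⟩⟩
    ⟨⟨0, 4000, 10000⟩, ⟨3300, 3301, 10000⟩, ⟨500, 1201, 10000⟩, sideS⟩ = true := by decide +kernel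

theorem mid_xlow_4000 : midXLow.checkQuick ⟨600, ⟨12, 0, 17, 4⟩⟩
    ⟨⟨4000, 6001, 10000⟩, ⟨3300, 3301, 10000⟩, ⟨500, 1201, 10000⟩, sideS⟩ = true := by decide +kernel

theorem mid_xhigh_6000 : midXHigh.checkQuick ⟨600, ⟨12, 0, 17, 4⟩⟩
    ⟨⟨6000, 8000, 10000⟩, ⟨3300, 3301, 10000⟩, ⟨500, 1201, 10000⟩, sideS⟩ = true := by decide +kernel

theorem mid_xhigh_8000 : midXHigh.checkQuick ⟨600, ⟨12, 0, 17, 4⟩⟩
    ⟨⟨8000, 9000, 10000⟩, ⟨3300, 3301, 10000⟩, ⟨500, 1201, 10000⟩, sideS⟩ = true := by decide +kernel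

theorem mid_xhigh_9000 : midXHigh.checkQuick ⟨600, ⟨12, 0, 17, 4⟩⟩
    ⟨⟨9000, 9500, 10000⟩, ⟨3300, 3301, 10000⟩, ⟨500, 1201, 10000⟩, sideS⟩ = true := by decide +kernel

theorem mid_xhigh_9500 : midXHigh.checkQuick ⟨600, ⟨12, 0, 17, 4⟩⟩
    ⟨⟨9500, 9750, 10000⟩, ⟨3300, 3301, 10000⟩, ⟨500, 1201, 10000⟩, sideS⟩ = true := by decide +kernel

theorem mid_xhigh_9750 : midXHigh.checkQuick ⟨600, ⟨12, 0, 17, 4⟩⟩
    ⟨⟨9750, 9876, 10000⟩, ⟨3300, 3301, 10000⟩, ⟨500, 1201, 10000⟩, sideS⟩ = true := by decide +kernel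

theorem mid_slow_0 : midSLow.checkQuick ⟨460, ⟨10, 0, 13, 2⟩⟩
    ⟨⟨0, 4000, 10000⟩, ⟨3300, 3301, 10000⟩, ⟨500, 1201, 10000⟩, sideS⟩ = true := by decide +kernel

theorem mid_slow_4000 : midSLow.checkQuick ⟨460, ⟨10, 0, 13, 2⟩⟩
    ⟨⟨4000, 6001, 10000⟩, ⟨3300, 3301, 10000⟩, ⟨500, 1201, 10000⟩, sideS⟩ = true := by decide +kernel

theorem mid_shigh_6000 : midSHigh.checkQuick ⟨460, ⟨10, 0, 13, 2⟩⟩
    ⟨⟨6000, 8000, 10000⟩, ⟨3300, 3301, 10000⟩, ⟨500, 1201, 10000⟩, sideS⟩ = true := by decide +kernel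

theorem mid_shigh_8000 : midSHigh.checkQuick ⟨460, ⟨10, 0, 13, 2⟩⟩
    ⟨⟨8000, 9000, 10000⟩, ⟨3300, 3301, 10000⟩, ⟨500, 1201, 10000⟩, sideS⟩ = true := by decide +kernel

theorem mid_shigh_9000 : midSHigh.checkQuick ⟨460, ⟨10, 0, 13, 2⟩⟩
    ⟨⟨9000, 9500, 10000⟩, ⟨3300, 3301, 10000⟩, ⟨500, 1201, 10000⟩, sideS⟩ = true := by decide +kernel

theorem mid_shigh_9500 : midSHigh.checkQuick ⟨460, ⟨10, 0, 13, 2⟩⟩
    ⟨⟨9500, 9750, 10000⟩, ⟨3300, 3301, 10000⟩, ⟨500, 1201, 10000⟩, sideS⟩ = true := by decide +kernel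

theorem mid_shigh_9750 : midSHigh.checkQuick ⟨460, ⟨10, 0, 13, 2⟩⟩
    ⟨⟨9750, 9876, 10000⟩, ⟨3300, 3301, 10000⟩, ⟨500, 1201, 10000⟩, sideS⟩ = true := by decide +kernel

theorem mid_end_check : midEnd.checkQuick ⟨420, ⟨8, 3, 9, 4⟩⟩
    ⟨⟨9875, 9876, 10000⟩, ⟨3300, 3301, 10000⟩, ⟨500, 1201, 10000⟩, sideS⟩ = true := by decide +kernel

end Vale.Agent.P100.Calib.Band
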