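import Vale.Agent.P100.Calib.SlabTailMidStart
import Vale.Agent.P100.Calib.SlabTailMidChecksA
import Vale.Agent.P100.Calib.SlabTailSide
import Vale.Agent.P100.Calib.SlabFarBands

/-!
# The signs of the lower band past `3/5`, mid piece
-/

namespace Vale.Agent.P100.Calib.Band

open BoxPos Bubble Chart

theorem mid_tail_sign_0 {u v d S' : ℝ} (hu : 6000 / 10000 ≤ u) (hu1 : u < 8000 / 10000)
    (hv : 33 / 100 ≤ v) (hv1 : v ≤ 89 / 20) (hphi : u ≤ 9 / 10 → v < phiTwo u)
    (hA : (3 / 5 - d) * v < 2) (hD : d * v < 2 / 3) (h0 : 1 / 20 ≤ d) (h1 : d ≤ 3 / 25)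
    (hS : sideS.Mem S') : ∃ i j : ℕ, 0 < (midTailCond i j).val u v d S' := by
  have hb27012 : v < 27012 / 10000 := by
    refine ((hphi (by linarith)).trans_le (phiTwo_mono (w := 8000 / 10000) (by linarith) (by linarith) (by norm_num))).trans_le ?_
    norm_num [phiTwo, phiG]
  exact ⟨0, 0, Ex.pos_of_checkQuick mid_tail_0 (side_mem_four (by push_cast; linarith) (by push_cast; linarith))
    (side_mem_four (by push_cast; linarith) (by push_cast; linarith))
    (side_mem_four (by push_cast; linarith) (by push_cast; linarith)) hS⟩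

theorem mid_tail_sign_1 {u v d S' : ℝ} (hu : 8000 / 10000 ≤ u) (hu1 : u < 9000 / 10000)
    (hv : 33 / 100 ≤ v) (hv1 : v ≤ 89 / 20) (hphi : u ≤ 9 / 10 → v < phiTwo u)
    (hA : (3 / 5 - d) * v < 2) (hD : d * v < 2 / 3) (h0 : 1 / 20 ≤ d) (h1 : d ≤ 3 / 25)
    (hS : sideS.Mem S') : ∃ i j : ℕ, 0 < (midTailCond i j).val u v d S' := by
  have hb41677 : v < 41677 / 10000 := by
    have := mul_le_mul_of_nonneg_right (show 3 / 5 - (1201 : ℝ) / 10000 ≤ 3 / 5 - d by linarith) (show 0 ≤ v by linarith)
    linarith
  rcases lt_or_ge v (22488 / 10000) with g2 | g2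
  · rcases lt_or_ge u (8586 / 10000) with g4 | g4
    · exact ⟨0, 166, Ex.pos_of_checkQuick mid_tail_1 (side_mem_four (by push_cast; linarith) (by push_cast; linarith))
        (side_mem_four (by push_cast; linarith) (by push_cast; linarith))
        (side_mem_four (by push_cast; linarith) (by push_cast; linarith)) hS⟩
    · exact ⟨0, 479, Ex.pos_of_checkQuick mid_tail_2 (side_mem_four (by push_cast; linarith) (by push_cast; linarith))
        (side_mem_four (by push_cast; linarith) (by push_cast; linarith))
        (side_mem_four (by push_cast; linarith) (by push_cast; linarith)) hS⟩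
  · exact ⟨0, 0, Ex.pos_of_checkQuick mid_tail_3 (side_mem_four (by push_cast; linarith) (by push_cast; linarith))
      (side_mem_four (by push_cast; linarith) (by push_cast; linarith))
      (side_mem_four (by push_cast; linarith) (by push_cast; linarith)) hS⟩

theorem mid_tail_sign_2 {u v d S' : ℝ} (hu : 9000 / 10000 ≤ u) (hu1 : u < 9500 / 10000)
    (hv : 33 / 100 ≤ v) (hv1 : v ≤ 89 / 20) (hphi : u ≤ 9 / 10 → v < phiTwo u)
    (hA : (3 / 5 - d) * v < 2) (hD : d * v < 2 / 3) (h0 : 1 / 20 ≤ d) (h1 : d ≤ 3 / 25)
    (hS : sideS.Mem S') : ∃ i j : ℕ, 0 < (midTailCond i j).val u v d S' := by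
  have hb41677 : v < 41677 / 10000 := by
    have := mul_le_mul_of_nonneg_right (show 3 / 5 - (1201 : ℝ) / 10000 ≤ 3 / 5 - d by linarith) (show 0 ≤ v by linarith)
    linarith
  rcases lt_or_ge v (22488 / 10000) with g2 | g2
  · rcases lt_or_ge u (9293 / 10000) with g4 | g4
    · rcases lt_or_ge d (850 / 10000) with g6 | g6
      · exact ⟨0, 685, Ex.pos_of_checkQuick mid_tail_4 (side_mem_four (by push_cast; linarith) (by push_cast; linarith))
          (side_mem_four (by push_cast; linarith) (by push_cast; linarith))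
          (side_mem_four (by push_cast; linarith) (by push_cast; linarith)) hS⟩
      · exact ⟨0, 669, Ex.pos_of_checkQuick mid_tail_5 (side_mem_four (by push_cast; linarith) (by push_cast; linarith))
          (side_mem_four (by push_cast; linarith) (by push_cast; linarith))
          (side_mem_four (by push_cast; linarith) (by push_cast; linarith)) hS⟩
    · rcases lt_or_ge d (850 / 10000) with g6 | g6
      · exact ⟨0, 1200, Ex.pos_of_checkQuick mid_tail_6 (side_mem_four (by push_cast; linarith) (by push_cast; linarith))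
          (side_mem_four (by push_cast; linarith) (by push_cast; linarith))
          (side_mem_four (by push_cast; linarith) (by push_cast; linarith)) hS⟩
      · exact ⟨0, 842, Ex.pos_of_checkQuick mid_tail_7 (side_mem_four (by push_cast; linarith) (by push_cast; linarith))
          (side_mem_four (by push_cast; linarith) (by push_cast; linarith))
          (side_mem_four (by push_cast; linarith) (by push_cast; linarith)) hS⟩
  · exact ⟨0, 0, Ex.pos_of_checkQuick mid_tail_8 (side_mem_four (by push_cast; linarith) (by push_cast; linarith))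
      (side_mem_four (by push_cast; linarith) (by push_cast; linarith))
      (side_mem_four (by push_cast; linarith) (by push_cast; linarith)) hS⟩

theorem mid_tail_sign_3 {u v d S' : ℝ} (hu : 9500 / 10000 ≤ u) (hu1 : u < 9750 / 10000)
    (hv : 33 / 100 ≤ v) (hv1 : v ≤ 89 / 20) (hphi : u ≤ 9 / 10 → v < phiTwo u)
    (hA : (3 / 5 - d) * v < 2) (hD : d * v < 2 / 3) (h0 : 1 / 20 ≤ d) (h1 : d ≤ 3 / 25)
    (hS : sideS.Mem S') : ∃ i j : ℕ, 0 < (midTailCond i j).val u v d S' := by
  have hb41677 : v < 41677 / 10000 := by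
    have := mul_le_mul_of_nonneg_right (show 3 / 5 - (1201 : ℝ) / 10000 ≤ 3 / 5 - d by linarith) (show 0 ≤ v by linarith)
    linarith
  rcases lt_or_ge v (22488 / 10000) with g2 | g2
  · rcases lt_or_ge u (9646 / 10000) with g4 | g4
    · rcases lt_or_ge d (850 / 10000) with g6 | g6
      · exact ⟨0, 1502, Ex.pos_of_checkQuick mid_tail_9 (side_mem_four (by push_cast; linarith) (by push_cast; linarith))
          (side_mem_four (by push_cast; linarith) (by push_cast; linarith))
          (side_mem_four (by push_cast; linarith) (by push_cast; linarith)) hS⟩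
      · exact ⟨0, 1393, Ex.pos_of_checkQuick mid_tail_10 (side_mem_four (by push_cast; linarith) (by push_cast; linarith))
          (side_mem_four (by push_cast; linarith) (by push_cast; linarith))
          (side_mem_four (by push_cast; linarith) (by push_cast; linarith)) hS⟩
    · exact ⟨0, 2116, Ex.pos_of_checkQuick mid_tail_11 (side_mem_four (by push_cast; linarith) (by push_cast; linarith))
        (side_mem_four (by push_cast; linarith) (by push_cast; linarith))
        (side_mem_four (by push_cast; linarith) (by push_cast; linarith)) hS⟩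
  · exact ⟨0, 0, Ex.pos_of_checkQuick mid_tail_12 (side_mem_four (by push_cast; linarith) (by push_cast; linarith))
      (side_mem_four (by push_cast; linarith) (by push_cast; linarith))
      (side_mem_four (by push_cast; linarith) (by push_cast; linarith)) hS⟩

theorem mid_tail_sign_4 {u v d S' : ℝ} (hu : 9750 / 10000 ≤ u) (hu1 : u < 9876 / 10000)
    (hv : 33 / 100 ≤ v) (hv1 : v ≤ 89 / 20) (hphi : u ≤ 9 / 10 → v < phiTwo u)
    (hA : (3 / 5 - d) * v < 2) (hD : d * v < 2 / 3) (h0 : 1 / 20 ≤ d) (h1 : d ≤ 3 / 25)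
    (hS : sideS.Mem S') : ∃ i j : ℕ, 0 < (midTailCond i j).val u v d S' := by
  have hb41677 : v < 41677 / 10000 := by
    have := mul_le_mul_of_nonneg_right (show 3 / 5 - (1201 : ℝ) / 10000 ≤ 3 / 5 - d by linarith) (show 0 ≤ v by linarith)
    linarith
  rcases lt_or_ge v (22488 / 10000) with g2 | g2
  · exact ⟨0, 5705, Ex.pos_of_checkQuick mid_tail_13 (side_mem_four (by push_cast; linarith) (by push_cast; linarith))
      (side_mem_four (by push_cast; linarith) (by push_cast; linarith))
      (side_mem_four (by push_cast; linarith) (by push_cast; linarith)) hS⟩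
  · rcases lt_or_ge u (9824 / 10000) with g4 | g4
    · exact ⟨0, 0, Ex.pos_of_checkQuick mid_tail_14 (side_mem_four (by push_cast; linarith) (by push_cast; linarith))
        (side_mem_four (by push_cast; linarith) (by push_cast; linarith))
        (side_mem_four (by push_cast; linarith) (by push_cast; linarith)) hS⟩
    · rcases lt_or_ge d (850 / 10000) with g6 | g6
      · have hb38836 : v < 38836 / 10000 := by
          have := mul_le_mul_of_nonneg_right (show 3 / 5 - (850 : ℝ) / 10000 ≤ 3 / 5 - d by linarith) (show 0 ≤ v by linarith)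
          linarith
        exact ⟨0, 1266, Ex.pos_of_checkQuick mid_tail_15 (side_mem_four (by push_cast; linarith) (by push_cast; linarith))
          (side_mem_four (by push_cast; linarith) (by push_cast; linarith))
          (side_mem_four (by push_cast; linarith) (by push_cast; linarith)) hS⟩
      · exact ⟨0, 0, Ex.pos_of_checkQuick mid_tail_16 (side_mem_four (by push_cast; linarith) (by push_cast; linarith))
          (side_mem_four (by push_cast; linarith) (by push_cast; linarith))
          (side_mem_four (by push_cast; linarith) (by push_cast; linarith)) hS⟩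

/-- The band. -/
noncomputable def lowTailMid (d : ℝ) : ℝ → ℝ :=
  tailL (25153 / 10000 + 186684 / 10000 * d) (31755 / 10000 - 75720 / 10000 * d) (1904 / 10000 - 21095 / 10000 * d) (1200 / 10000) (40 / 10000) d

theorem mid_tail_sign {u v d S' : ℝ} (hu : 3 / 5 ≤ u) (hu1 : u ≤ 79 / 80)
    (hv : 33 / 100 ≤ v) (hv1 : v ≤ 89 / 20) (hphi : u ≤ 9 / 10 → v < phiTwo u)
    (hA : (3 / 5 - d) * v < 2) (hD : d * v < 2 / 3) (h0 : 1 / 20 ≤ d) (h1 : d ≤ 3 / 25)
    (hS : sideS.Mem S') : ∃ i j : ℕ, 0 < (midTailCond i j).val u v d S' := by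
  rcases lt_or_ge u (8000 / 10000) with g0 | g0
  · exact mid_tail_sign_0 (by linarith) g0 hv hv1 hphi hA hD h0 h1 hS
  rcases lt_or_ge u (9000 / 10000) with g1 | g1
  · exact mid_tail_sign_1 (by linarith) g1 hv hv1 hphi hA hD h0 h1 hS
  rcases lt_or_ge u (9500 / 10000) with g2 | g2
  · exact mid_tail_sign_2 (by linarith) g2 hv hv1 hphi hA hD h0 h1 hS
  rcases lt_or_ge u (9750 / 10000) with g3 | g3
  · exact mid_tail_sign_3 (by linarith) g3 hv hv1 hphi hA hD h0 h1 hS
  exact mid_tail_sign_4 (by linarith) (by linarith) hv hv1 hphi hA hD h0 h1 hS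

theorem mid_tail_val {u v d S' : ℝ} :
    midTailN.val u v d S' = tailN (25153 / 10000 + 186684 / 10000 * d) (31755 / 10000 - 75720 / 10000 * d) (1904 / 10000 - 21095 / 10000 * d) (1200 / 10000) (40 / 10000) u ∧
      midTailG.val u v d S' = tailG (1200 / 10000) (40 / 10000) d u ∧
      midTailM.val u v d S' = tailM (25153 / 10000 + 186684 / 10000 * d) (31755 / 10000 - 75720 / 10000 * d) (1904 / 10000 - 21095 / 10000 * d) (1200 / 10000) (40 / 10000) d u := by
  refine ⟨?_, ?_, ?_⟩ <;>
    simp only [midTailN, midTailG, midTailM, val_tailN, val_tailG, val_tailM, midTailA0, midTailA1,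
      midTailA2, midTailPa, midTailPb, Ex.val] <;>
    push_cast <;> ring_nf

theorem mid_tail_before {u d : ℝ} (hu : 0 ≤ u) (hu1 : u ≤ 3 / 5) (h0 : 1 / 20 ≤ d) (h1 : d ≤ 3 / 25)
    {S' : ℝ} (hS : sideS.Mem S') :
    d * (u * (lowTailMid d u - ((119 / 100 - 67 / 20 * d) + (31 / 20 - 69 / 10 * d) * u + (11 / 20 + 2 / 5 * d) * u ^ 2))) ≤ (3 / 5 - u) ^ 2 := by
  have key := Ex.pos_of_checkQuick mid_tail_before_check (y₀ := u) (y₁ := 33 / 100) (y₂ := d)
    (y₃ := S') (side_mem_four (by push_cast; linarith) (by push_cast; linarith))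
    (side_mem_four (by norm_num) (by norm_num)) (side_mem_four (by push_cast; linarith) (by push_cast; linarith)) hS
  have hd : 0 ≤ d := by linarith
  have hG := tailG_pos (a := 1200 / 10000) (b := 40 / 10000) hd (u := u) (by linarith) (by linarith)
  rw [midTailBefore] at key
  simp only [Ex.val, mid_tail_val.1, mid_tail_val.2.1] at key
  rw [tailN_eq (d := d) hd (show u < 1 + 1200 / 10000 by linarith) (show u < 1 + 40 / 10000 by linarith)] at key
  refine le_of_mul_le_mul_right ?_ hG
  simp only [lowTailMid]
  push_cast at key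
  linarith

end Vale.Agent.P100.Calib.Band
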