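import Vale.Agent.P100.Calib.SlabTailMidDefs
import Vale.Agent.P100.Calib.BoxPosFast

/-!
# The start of the band past 3/5, mid piece
-/

namespace Vale.Agent.P100.Calib.Band

open BoxPos

/-- The start condition. -/
def midTailBefore : Ex :=
  Ex.sub (Ex.mul (Ex.mul (Ex.sub (eC 3 5) eU) (Ex.sub (eC 3 5) eU)) midTailG)
    (Ex.mul (Ex.mul eD eU) (Ex.sub midTailN (Ex.mul (Ex.add (Ex.add (Ex.sub (eC 119 100) (Ex.mul (eC 67 20) eD)) (Ex.mul (Ex.sub (eC 31 20) (Ex.mul (eC 69 10) eD)) eU)) (Ex.mul (Ex.add (eC 11 20) (Ex.mul (eC 2 5) eD)) (Ex.mul eU eU))) midTailG)))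

theorem mid_tail_before_check : midTailBefore.checkQuick midTailCfg
    (midTailBox 0 6001 3300 3301 500 1201) = true := by decide +kernel

end Vale.Agent.P100.Calib.Band
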