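import Vale.Agent.P100.Calib.SlabTailTopDefs
import Vale.Agent.P100.Calib.BoxPosFast

/-!
# Certificates of the band past 3/5, top piece, part 0
-/

namespace Vale.Agent.P100.Calib.Band

open BoxPos

theorem top_tail_0 : (topTailCond 0 0).checkQuick topTailCfg
    (topTailBox 6000 8000 3300 22211 1200 2001) = true := by decide +kernel

theorem top_tail_1 : (topTailCond 0 391).checkQuick topTailCfg
    (topTailBox 8000 8586 3300 15717 1200 2001) = true := by decide +kernel

theorem top_tail_2 : (topTailCond 0 664).checkQuick topTailCfg
    (topTailBox 8586 9000 3300 15717 1200 1600) = true := by decide +kernel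

theorem top_tail_3 : (topTailCond 0 3355).checkQuick topTailCfg
    (topTailBox 8586 9000 3300 9508 1600 2001) = true := by decide +kernel

theorem top_tail_4 : (topTailCond 0 159).checkQuick topTailCfg
    (topTailBox 8586 9000 9508 15717 1600 2001) = true := by decide +kernel

theorem top_tail_5 : (topTailCond 0 0).checkQuick topTailCfg
    (topTailBox 8000 9000 15717 28135 1200 2001) = true := by decide +kernel

theorem top_tail_6 : (topTailCond 0 2118).checkQuick topTailCfg
    (topTailBox 9000 9293 3300 13600 1200 1600) = true := by decide +kernel

theorem top_tail_7 : (topTailCond 0 0).checkQuick topTailCfg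
    (topTailBox 9000 9293 13600 23900 1200 1600) = true := by decide +kernel

theorem top_tail_8 : (topTailCond 0 750).checkQuick topTailCfg
    (topTailBox 9000 9293 3300 13600 1600 2001) = true := by decide +kernel

theorem top_tail_9 : (topTailCond 0 0).checkQuick topTailCfg
    (topTailBox 9000 9293 13600 23900 1600 2001) = true := by decide +kernel

theorem top_tail_10 : (topTailCond 0 3748).checkQuick topTailCfg
    (topTailBox 9293 9500 3300 13600 1200 1600) = true := by decide +kernel

theorem top_tail_11 : (topTailCond 0 0).checkQuick topTailCfg
    (topTailBox 9293 9500 13600 23900 1200 1600) = true := by decide +kernel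

theorem top_tail_12 : (topTailCond 0 781).checkQuick topTailCfg
    (topTailBox 9293 9500 3300 13600 1600 2001) = true := by decide +kernel

theorem top_tail_13 : (topTailCond 0 0).checkQuick topTailCfg
    (topTailBox 9293 9500 13600 23900 1600 2001) = true := by decide +kernel

theorem top_tail_14 : (topTailCond 7464 0).checkQuick topTailCfg
    (topTailBox 9000 9293 23900 33837 1200 2001) = true := by decide +kernel

theorem top_tail_15 : (topTailCond 11978 0).checkQuick topTailCfg
    (topTailBox 9293 9500 23900 44501 1200 1600) = true := by decide +kernel

theorem top_tail_16 : (topTailCond 9773 0).checkQuick topTailCfg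
    (topTailBox 9293 9500 23900 32784 1600 2001) = true := by decide +kernel

theorem top_tail_17 : (topTailCond 138078 0).checkQuick topTailCfg
    (topTailBox 9293 9500 32784 41668 1600 2001) = true := by decide +kernel

theorem top_tail_18 : (topTailCond 0 4355).checkQuick topTailCfg
    (topTailBox 9500 9646 3300 13600 1200 1600) = true := by decide +kernel

theorem top_tail_19 : (topTailCond 0 0).checkQuick topTailCfg
    (topTailBox 9500 9646 13600 23900 1200 1600) = true := by decide +kernel

theorem top_tail_20 : (topTailCond 0 2426).checkQuick topTailCfg
    (topTailBox 9500 9646 3300 13600 1600 2001) = true := by decide +kernel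

theorem top_tail_21 : (topTailCond 0 0).checkQuick topTailCfg
    (topTailBox 9500 9646 13600 23900 1600 2001) = true := by decide +kernel

theorem top_tail_22 : (topTailCond 0 690).checkQuick topTailCfg
    (topTailBox 9646 9750 3300 23900 1200 1600) = true := by decide +kernel

theorem top_tail_23 : (topTailCond 0 4349).checkQuick topTailCfg
    (topTailBox 9646 9750 3300 13600 1600 2001) = true := by decide +kernel

theorem top_tail_24 : (topTailCond 0 0).checkQuick topTailCfg
    (topTailBox 9646 9750 13600 23900 1600 2001) = true := by decide +kernel

theorem top_tail_25 : (topTailCond 0 0).checkQuick topTailCfg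
    (topTailBox 9500 9646 23900 34200 1200 1600) = true := by decide +kernel

theorem top_tail_26 : (topTailCond 218048 0).checkQuick topTailCfg
    (topTailBox 9500 9646 34200 44501 1200 1600) = true := by decide +kernel

theorem top_tail_27 : (topTailCond 11463 0).checkQuick topTailCfg
    (topTailBox 9500 9646 23900 32784 1600 2001) = true := by decide +kernel

theorem top_tail_28 : (topTailCond 137258 0).checkQuick topTailCfg
    (topTailBox 9500 9646 32784 41668 1600 2001) = true := by decide +kernel

theorem top_tail_29 : (topTailCond 5052 0).checkQuick topTailCfg
    (topTailBox 9646 9750 23900 34200 1200 1600) = true := by decide +kernel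

theorem top_tail_30 : (topTailCond 227367 0).checkQuick topTailCfg
    (topTailBox 9646 9750 34200 44501 1200 1600) = true := by decide +kernel

theorem top_tail_31 : (topTailCond 12114 0).checkQuick topTailCfg
    (topTailBox 9646 9703 23900 32784 1600 2001) = true := by decide +kernel

theorem top_tail_32 : (topTailCond 10713 0).checkQuick topTailCfg
    (topTailBox 9703 9750 23900 32784 1600 1800) = true := by decide +kernel

theorem top_tail_33 : (topTailCond 10935 0).checkQuick topTailCfg
    (topTailBox 9703 9750 23900 28342 1800 2001) = true := by decide +kernel

theorem top_tail_34 : (topTailCond 67532 0).checkQuick topTailCfg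
    (topTailBox 9703 9750 28342 32784 1800 2001) = true := by decide +kernel

theorem top_tail_35 : (topTailCond 122923 0).checkQuick topTailCfg
    (topTailBox 9646 9750 32784 41668 1600 2001) = true := by decide +kernel

theorem top_tail_36 : (topTailCond 0 892).checkQuick topTailCfg
    (topTailBox 9750 9824 3300 23900 1200 1600) = true := by decide +kernel

theorem top_tail_37 : (topTailCond 0 9133).checkQuick topTailCfg
    (topTailBox 9750 9824 3300 13600 1600 2001) = true := by decide +kernel

theorem top_tail_38 : (topTailCond 0 0).checkQuick topTailCfg
    (topTailBox 9750 9824 13600 23900 1600 2001) = true := by decide +kernel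

theorem top_tail_39 : (topTailCond 0 1052).checkQuick topTailCfg
    (topTailBox 9824 9876 3300 23900 1200 1600) = true := by decide +kernel

end Vale.Agent.P100.Calib.Band
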