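import Vale.Agent.P100.Calib.SlabTailTopDefs
import Vale.Agent.P100.Calib.BoxPosFast

/-!
# Certificates of the band past 3/5, top piece, part 1
-/

namespace Vale.Agent.P100.Calib.Band

open BoxPos

theorem top_tail_40 : (topTailCond 0 0).checkQuick topTailCfg
    (topTailBox 9824 9876 3300 23900 1600 2001) = true := by decide +kernel

theorem top_tail_41 : (topTailCond 8351 0).checkQuick topTailCfg
    (topTailBox 9750 9824 23900 34200 1200 1600) = true := by decide +kernel

theorem top_tail_42 : (topTailCond 228761 0).checkQuick topTailCfg
    (topTailBox 9750 9824 34200 44501 1200 1600) = true := by decide +kernel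

theorem top_tail_43 : (topTailCond 12425 0).checkQuick topTailCfg
    (topTailBox 9750 9790 23900 32784 1600 1800) = true := by decide +kernel

theorem top_tail_44 : (topTailCond 13141 0).checkQuick topTailCfg
    (topTailBox 9750 9790 23900 28342 1800 2001) = true := by decide +kernel

theorem top_tail_45 : (topTailCond 41859 0).checkQuick topTailCfg
    (topTailBox 9750 9790 28342 32784 1800 2001) = true := by decide +kernel

theorem top_tail_46 : (topTailCond 0 0).checkQuick topTailCfg
    (topTailBox 9790 9824 23900 28342 1600 1800) = true := by decide +kernel

theorem top_tail_47 : (topTailCond 25351 0).checkQuick topTailCfg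
    (topTailBox 9790 9824 28342 32784 1600 1800) = true := by decide +kernel

theorem top_tail_48 : (topTailCond 12438 0).checkQuick topTailCfg
    (topTailBox 9790 9808 23900 28342 1800 2001) = true := by decide +kernel

theorem top_tail_49 : (topTailCond 11364 0).checkQuick topTailCfg
    (topTailBox 9808 9824 23900 28342 1800 1900) = true := by decide +kernel

theorem top_tail_50 : (topTailCond 10402 0).checkQuick topTailCfg
    (topTailBox 9808 9824 23900 26121 1900 2001) = true := by decide +kernel

theorem top_tail_51 : (topTailCond 39099 0).checkQuick topTailCfg
    (topTailBox 9808 9824 26121 28342 1900 2001) = true := by decide +kernel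

theorem top_tail_52 : (topTailCond 75805 0).checkQuick topTailCfg
    (topTailBox 9790 9824 28342 32784 1800 2001) = true := by decide +kernel

theorem top_tail_53 : (topTailCond 90548 0).checkQuick topTailCfg
    (topTailBox 9750 9824 32784 41668 1600 2001) = true := by decide +kernel

theorem top_tail_54 : (topTailCond 9832 0).checkQuick topTailCfg
    (topTailBox 9824 9876 23900 34200 1200 1600) = true := by decide +kernel

theorem top_tail_55 : (topTailCond 163928 0).checkQuick topTailCfg
    (topTailBox 9824 9876 34200 44501 1200 1600) = true := by decide +kernel

theorem top_tail_56 : (topTailCond 0 0).checkQuick topTailCfg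
    (topTailBox 9824 9852 23900 28342 1600 1800) = true := by decide +kernel

theorem top_tail_57 : (topTailCond 25535 0).checkQuick topTailCfg
    (topTailBox 9824 9852 28342 32784 1600 1800) = true := by decide +kernel

theorem top_tail_58 : (topTailCond 11415 0).checkQuick topTailCfg
    (topTailBox 9824 9839 23900 28342 1800 1900) = true := by decide +kernel

theorem top_tail_59 : (topTailCond 9618 0).checkQuick topTailCfg
    (topTailBox 9824 9839 23900 26121 1900 2001) = true := by decide +kernel

theorem top_tail_60 : (topTailCond 25963 0).checkQuick topTailCfg
    (topTailBox 9824 9839 26121 28342 1900 2001) = true := by decide +kernel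

theorem top_tail_61 : (topTailCond 12343 0).checkQuick topTailCfg
    (topTailBox 9839 9852 23900 28342 1800 1900) = true := by decide +kernel

theorem top_tail_62 : (topTailCond 9910 0).checkQuick topTailCfg
    (topTailBox 9839 9852 23900 26121 1900 2001) = true := by decide +kernel

theorem top_tail_63 : (topTailCond 22671 0).checkQuick topTailCfg
    (topTailBox 9839 9852 26121 28342 1900 2001) = true := by decide +kernel

theorem top_tail_64 : (topTailCond 118657 0).checkQuick topTailCfg
    (topTailBox 9824 9852 28342 32784 1800 2001) = true := by decide +kernel

theorem top_tail_65 : (topTailCond 0 0).checkQuick topTailCfg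
    (topTailBox 9852 9876 23900 28342 1600 1800) = true := by decide +kernel

theorem top_tail_66 : (topTailCond 25658 0).checkQuick topTailCfg
    (topTailBox 9852 9876 28342 32784 1600 1800) = true := by decide +kernel

theorem top_tail_67 : (topTailCond 12972 0).checkQuick topTailCfg
    (topTailBox 9852 9865 23900 28342 1800 1900) = true := by decide +kernel

theorem top_tail_68 : (topTailCond 8518 0).checkQuick topTailCfg
    (topTailBox 9852 9865 23900 26121 1900 2001) = true := by decide +kernel

theorem top_tail_69 : (topTailCond 19488 0).checkQuick topTailCfg
    (topTailBox 9852 9865 26121 28342 1900 2001) = true := by decide +kernel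

theorem top_tail_70 : (topTailCond 12981 0).checkQuick topTailCfg
    (topTailBox 9865 9876 23900 28342 1800 1900) = true := by decide +kernel

theorem top_tail_71 : (topTailCond 0 0).checkQuick topTailCfg
    (topTailBox 9865 9876 23900 26121 1900 2001) = true := by decide +kernel

theorem top_tail_72 : (topTailCond 19049 0).checkQuick topTailCfg
    (topTailBox 9865 9876 26121 28342 1900 2001) = true := by decide +kernel

theorem top_tail_73 : (topTailCond 163807 0).checkQuick topTailCfg
    (topTailBox 9852 9876 28342 32784 1800 2001) = true := by decide +kernel

theorem top_tail_74 : (topTailCond 163807 0).checkQuick topTailCfg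
    (topTailBox 9824 9876 32784 41668 1600 2001) = true := by decide +kernel

end Vale.Agent.P100.Calib.Band
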