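import Vale.Agent.P100.Calib.SlabTailExpr
import Vale.Agent.P100.Calib.SlabRungChecks

/-!
# Expressions of the band past 3/5, top piece
-/

namespace Vale.Agent.P100.Calib.Band

open BoxPos

/-- A coefficient. -/
def topTailA0 : Ex := Ex.add (eC 48300 10000) (Ex.mul (eC (-78000) 10000) eD)

/-- A coefficient. -/
def topTailA1 : Ex := Ex.add (eC (-281) 10000) (Ex.mul (eC 279249 10000) eD)

/-- A coefficient. -/
def topTailA2 : Ex := Ex.add (eC 7517 10000) (Ex.mul (eC (-70471) 10000) eD)

/-- A coefficient. -/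
def topTailPa : Ex := eC 1655 10000

/-- A coefficient. -/
def topTailPb : Ex := eC 293 10000

/-- The numerator. -/
def topTailN : Ex := eTailN topTailA0 topTailA1 topTailA2 topTailPa topTailPb

/-- The denominator. -/
def topTailG : Ex := eTailG topTailPa topTailPb

/-- The derivative numerator. -/
def topTailM : Ex := eTailM topTailA0 topTailA1 topTailA2 topTailPa topTailPb

/-- The condition. -/
def topTailCond (i j : ℕ) : Ex := eTailCond topTailN topTailG topTailM i j

/-- The packing. -/
def topTailCfg : Cfg := ⟨500, ⟨9, 3, 11, 6⟩⟩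

/-- A box in ten-thousandths. -/
def topTailBox (a b x y p q : ℤ) : Box :=
  ⟨⟨a, b, 10000⟩, ⟨x, y, 10000⟩, ⟨p, q, 10000⟩, sideS⟩

end Vale.Agent.P100.Calib.Band
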