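import Vale.Agent.P100.Calib.SlabTailTopDefs
import Vale.Agent.P100.Calib.SlabTailExit
import Vale.Agent.P100.Calib.BoxPosFast

/-!
# Certificates of the exit curve to 79/80, top piece
-/

namespace Vale.Agent.P100.Calib.Band

open BoxPos

/-- A coefficient. -/
def topCF0 : Ex := Ex.add (eC 64790 10000) (Ex.mul (eC (-129110) 10000) eD)

/-- A coefficient. -/
def topCF1 : Ex := Ex.add (eC 34317 10000) (Ex.mul (eC (-68165) 10000) eD)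

/-- A coefficient. -/
def topCF3 : Ex := Ex.add (eC 34688 10000) (Ex.mul (eC (-116052) 10000) eD)

/-- A coefficient. -/
def topCA : Ex := Ex.add (Ex.add (eC 2360 10000) (Ex.mul (eC (-2752) 10000) eD)) (Ex.mul (eC (-20835) 10000) (Ex.mul eD eD))

/-- A coefficient. -/
def topCB : Ex := eC 258 10000

/-- A coefficient. -/
def topCL : Ex := Ex.add (Ex.add (Ex.sub (eC 4 5) (Ex.mul (eC 31 25) eD)) (Ex.mul (Ex.sub (eC 42 25) (Ex.mul (eC 29 5) eD)) eU)) (Ex.mul (Ex.sub (eC 1 4) (Ex.mul (eC 9 2) eD)) (Ex.mul eU eU))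

/-- A numerator. -/
def topXLow : Ex := eExitPH (eCurveA topCF0 topCF1 topCF3 topCA topCB) (eCurveW topCA topCB) (eCurveGW topCF1 topCF3 topCA topCB) topCL (eC 1)

/-- A numerator. -/
def topXHigh : Ex := eExitPH (eCurveA topCF0 topCF1 topCF3 topCA topCB) (eCurveW topCA topCB) (eCurveGW topCF1 topCF3 topCA topCB) topTailN topTailG

/-- A numerator. -/
def topSLow : Ex := eSlopePH (eCurveA topCF0 topCF1 topCF3 topCA topCB) (eCurveW topCA topCB) (eCurveGW topCF1 topCF3 topCA topCB) topCL (eC 1)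

/-- A numerator. -/
def topSHigh : Ex := eSlopePH (eCurveA topCF0 topCF1 topCF3 topCA topCB) (eCurveW topCA topCB) (eCurveGW topCF1 topCF3 topCA topCB) topTailN topTailG

/-- The end condition. -/
def topEnd : Ex := Ex.sub (Ex.sub (eC 0) (eLieE topTailN topTailG)) (Ex.mul topTailG (Ex.sub (Ex.mul (eCurveW topCA topCB) eV) (eCurveA topCF0 topCF1 topCF3 topCA topCB)))

theorem top_xlow_0 : topXLow.checkQuick ⟨600, ⟨12, 0, 17, 4⟩⟩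
    ⟨⟨0, 4000, 10000⟩, ⟨3300, 3301, 10000⟩, ⟨1200, 2001, 10000⟩, sideS⟩ = true := by decide +kernel

theorem top_xlow_4000 : topXLow.checkQuick ⟨600, ⟨12, 0, 17, 4⟩⟩
    ⟨⟨4000, 6001, 10000⟩, ⟨3300, 3301, 10000⟩, ⟨1200, 2001, 10000⟩, sideS⟩ = true := by decide +kernel

theorem top_xhigh_6000 : topXHigh.checkQuick ⟨600, ⟨12, 0, 17, 4⟩⟩
    ⟨⟨6000, 8000, 10000⟩, ⟨3300, 3301, 10000⟩, ⟨1200, 2001, 10000⟩, sideS⟩ = true := by decide +kernel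

theorem top_xhigh_8000 : topXHigh.checkQuick ⟨600, ⟨12, 0, 17, 4⟩⟩
    ⟨⟨8000, 9000, 10000⟩, ⟨3300, 3301, 10000⟩, ⟨1200, 2001, 10000⟩, sideS⟩ = true := by decide +kernel

theorem top_xhigh_9000 : topXHigh.checkQuick ⟨600, ⟨12, 0, 17, 4⟩⟩
    ⟨⟨9000, 9500, 10000⟩, ⟨3300, 3301, 10000⟩, ⟨1200, 2001, 10000⟩, sideS⟩ = true := by decide +kernel

theorem top_xhigh_9500 : topXHigh.checkQuick ⟨600, ⟨12, 0, 17, 4⟩⟩
    ⟨⟨9500, 9750, 10000⟩, ⟨3300, 3301, 10000⟩, ⟨1200, 2001, 10000⟩, sideS⟩ = true := by decide +kernel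

theorem top_xhigh_9750 : topXHigh.checkQuick ⟨600, ⟨12, 0, 17, 4⟩⟩
    ⟨⟨9750, 9876, 10000⟩, ⟨3300, 3301, 10000⟩, ⟨1200, 2001, 10000⟩, sideS⟩ = true := by decide +kernel

theorem top_slow_0 : topSLow.checkQuick ⟨460, ⟨10, 0, 13, 2⟩⟩
    ⟨⟨0, 4000, 10000⟩, ⟨3300, 3301, 10000⟩, ⟨1200, 2001, 10000⟩, sideS⟩ = true := by decide +kernel

theorem top_slow_4000 : topSLow.checkQuick ⟨460, ⟨10, 0, 13, 2⟩⟩
    ⟨⟨4000, 6001, 10000⟩, ⟨3300, 3301, 10000⟩, ⟨1200, 2001, 10000⟩, sideS⟩ = true := by decide +kernel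

theorem top_shigh_6000 : topSHigh.checkQuick ⟨460, ⟨10, 0, 13, 2⟩⟩
    ⟨⟨6000, 8000, 10000⟩, ⟨3300, 3301, 10000⟩, ⟨1200, 2001, 10000⟩, sideS⟩ = true := by decide +kernel

theorem top_shigh_8000 : topSHigh.checkQuick ⟨460, ⟨10, 0, 13, 2⟩⟩
    ⟨⟨8000, 9000, 10000⟩, ⟨3300, 3301, 10000⟩, ⟨1200, 2001, 10000⟩, sideS⟩ = true := by decide +kernel

theorem top_shigh_9000 : topSHigh.checkQuick ⟨460, ⟨10, 0, 13, 2⟩⟩
    ⟨⟨9000, 9500, 10000⟩, ⟨3300, 3301, 10000⟩, ⟨1200, 2001, 10000⟩, sideS⟩ = true := by decide +kernel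

theorem top_shigh_9500 : topSHigh.checkQuick ⟨460, ⟨10, 0, 13, 2⟩⟩
    ⟨⟨9500, 9750, 10000⟩, ⟨3300, 3301, 10000⟩, ⟨1200, 2001, 10000⟩, sideS⟩ = true := by decide +kernel

theorem top_shigh_9750 : topSHigh.checkQuick ⟨460, ⟨10, 0, 13, 2⟩⟩
    ⟨⟨9750, 9876, 10000⟩, ⟨3300, 3301, 10000⟩, ⟨1200, 2001, 10000⟩, sideS⟩ = true := by decide +kernel

theorem top_end_check : topEnd.checkQuick ⟨420, ⟨8, 3, 9, 4⟩⟩
    ⟨⟨9875, 9876, 10000⟩, ⟨32000, 44501, 10000⟩, ⟨1200, 2001, 10000⟩, sideS⟩ = true := by decide +kernel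

end Vale.Agent.P100.Calib.Band
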