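import Vale.Agent.P100.Calib.SlabTailTopStart
import Vale.Agent.P100.Calib.SlabTailTopChecksA
import Vale.Agent.P100.Calib.SlabTailTopChecksB
import Vale.Agent.P100.Calib.SlabTailSide
import Vale.Agent.P100.Calib.SlabFarBands

/-!
# The signs of the lower band past `3/5`, top piece
-/

namespace Vale.Agent.P100.Calib.Band

open BoxPos Bubble Chart

theorem top_tail_sign_0 {u v d S' : ℝ} (hu : 6000 / 10000 ≤ u) (hu1 : u < 8000 / 10000)
    (hv : 33 / 100 ≤ v) (hv1 : v ≤ 89 / 20) (hphi : u ≤ 19 / 20 → v < phiFarTop d u)
    (hA : (3 / 5 - d) * v < 2) (hD : d * v < 2 / 3) (h0 : 3 / 25 ≤ d) (h1 : d ≤ 1 / 5)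
    (hS : sideS.Mem S') : ∃ i j : ℕ, 0 < (topTailCond i j).val u v d S' := by
  have hb22211 : v < 22211 / 10000 := by
    refine ((hphi (by linarith)).trans_le (phiFarTop_mono (b := 8000 / 10000) (by linarith) (by linarith) (by linarith) (by linarith) (by norm_num))).trans_le ?_
    norm_num [phiFarTop, phiG]
    linarith
  exact ⟨0, 0, Ex.pos_of_checkQuick top_tail_0 (side_mem_four (by push_cast; linarith) (by push_cast; linarith))
    (side_mem_four (by push_cast; linarith) (by push_cast; linarith))
    (side_mem_four (by push_cast; linarith) (by push_cast; linarith)) hS⟩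

theorem top_tail_sign_1 {u v d S' : ℝ} (hu : 8000 / 10000 ≤ u) (hu1 : u < 9000 / 10000)
    (hv : 33 / 100 ≤ v) (hv1 : v ≤ 89 / 20) (hphi : u ≤ 19 / 20 → v < phiFarTop d u)
    (hA : (3 / 5 - d) * v < 2) (hD : d * v < 2 / 3) (h0 : 3 / 25 ≤ d) (h1 : d ≤ 1 / 5)
    (hS : sideS.Mem S') : ∃ i j : ℕ, 0 < (topTailCond i j).val u v d S' := by
  have hb28135 : v < 28135 / 10000 := by
    refine ((hphi (by linarith)).trans_le (phiFarTop_mono (b := 9000 / 10000) (by linarith) (by linarith) (by linarith) (by linarith) (by norm_num))).trans_le ?_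
    norm_num [phiFarTop, phiG]
    linarith
  rcases lt_or_ge v (15717 / 10000) with g2 | g2
  · rcases lt_or_ge u (8586 / 10000) with g4 | g4
    · exact ⟨0, 391, Ex.pos_of_checkQuick top_tail_1 (side_mem_four (by push_cast; linarith) (by push_cast; linarith))
        (side_mem_four (by push_cast; linarith) (by push_cast; linarith))
        (side_mem_four (by push_cast; linarith) (by push_cast; linarith)) hS⟩
    · rcases lt_or_ge d (1600 / 10000) with g6 | g6
      · exact ⟨0, 664, Ex.pos_of_checkQuick top_tail_2 (side_mem_four (by push_cast; linarith) (by push_cast; linarith))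
          (side_mem_four (by push_cast; linarith) (by push_cast; linarith))
          (side_mem_four (by push_cast; linarith) (by push_cast; linarith)) hS⟩
      · rcases lt_or_ge v (9508 / 10000) with g8 | g8
        · exact ⟨0, 3355, Ex.pos_of_checkQuick top_tail_3 (side_mem_four (by push_cast; linarith) (by push_cast; linarith))
            (side_mem_four (by push_cast; linarith) (by push_cast; linarith))
            (side_mem_four (by push_cast; linarith) (by push_cast; linarith)) hS⟩
        · exact ⟨0, 159, Ex.pos_of_checkQuick top_tail_4 (side_mem_four (by push_cast; linarith) (by push_cast; linarith))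
            (side_mem_four (by push_cast; linarith) (by push_cast; linarith))
            (side_mem_four (by push_cast; linarith) (by push_cast; linarith)) hS⟩
  · exact ⟨0, 0, Ex.pos_of_checkQuick top_tail_5 (side_mem_four (by push_cast; linarith) (by push_cast; linarith))
      (side_mem_four (by push_cast; linarith) (by push_cast; linarith))
      (side_mem_four (by push_cast; linarith) (by push_cast; linarith)) hS⟩

theorem top_tail_part_0 {u v d S' : ℝ} (hu : 9000 / 10000 ≤ u) (hu1 : u < 9500 / 10000)
    (hv : 33 / 100 ≤ v) (hv1 : v ≤ 89 / 20) (hphi : u ≤ 19 / 20 → v < phiFarTop d u)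
    (hA : (3 / 5 - d) * v < 2) (hD : d * v < 2 / 3) (h0 : 3 / 25 ≤ d) (h1 : d ≤ 1 / 5)
    (e0 : v < 23900 / 10000)
    (hS : sideS.Mem S') : ∃ i j : ℕ, 0 < (topTailCond i j).val u v d S' := by
  rcases lt_or_ge u (9293 / 10000) with g2 | g2
  · rcases lt_or_ge d (1600 / 10000) with g4 | g4
    · rcases lt_or_ge v (13600 / 10000) with g6 | g6
      · exact ⟨0, 2118, Ex.pos_of_checkQuick top_tail_6 (side_mem_four (by push_cast; linarith) (by push_cast; linarith))
          (side_mem_four (by push_cast; linarith) (by push_cast; linarith))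
          (side_mem_four (by push_cast; linarith) (by push_cast; linarith)) hS⟩
      · exact ⟨0, 0, Ex.pos_of_checkQuick top_tail_7 (side_mem_four (by push_cast; linarith) (by push_cast; linarith))
          (side_mem_four (by push_cast; linarith) (by push_cast; linarith))
          (side_mem_four (by push_cast; linarith) (by push_cast; linarith)) hS⟩
    · rcases lt_or_ge v (13600 / 10000) with g6 | g6
      · exact ⟨0, 750, Ex.pos_of_checkQuick top_tail_8 (side_mem_four (by push_cast; linarith) (by push_cast; linarith))
          (side_mem_four (by push_cast; linarith) (by push_cast; linarith))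
          (side_mem_four (by push_cast; linarith) (by push_cast; linarith)) hS⟩
      · exact ⟨0, 0, Ex.pos_of_checkQuick top_tail_9 (side_mem_four (by push_cast; linarith) (by push_cast; linarith))
          (side_mem_four (by push_cast; linarith) (by push_cast; linarith))
          (side_mem_four (by push_cast; linarith) (by push_cast; linarith)) hS⟩
  · rcases lt_or_ge d (1600 / 10000) with g4 | g4
    · rcases lt_or_ge v (13600 / 10000) with g6 | g6
      · exact ⟨0, 3748, Ex.pos_of_checkQuick top_tail_10 (side_mem_four (by push_cast; linarith) (by push_cast; linarith))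
          (side_mem_four (by push_cast; linarith) (by push_cast; linarith))
          (side_mem_four (by push_cast; linarith) (by push_cast; linarith)) hS⟩
      · exact ⟨0, 0, Ex.pos_of_checkQuick top_tail_11 (side_mem_four (by push_cast; linarith) (by push_cast; linarith))
          (side_mem_four (by push_cast; linarith) (by push_cast; linarith))
          (side_mem_four (by push_cast; linarith) (by push_cast; linarith)) hS⟩
    · rcases lt_or_ge v (13600 / 10000) with g6 | g6
      · exact ⟨0, 781, Ex.pos_of_checkQuick top_tail_12 (side_mem_four (by push_cast; linarith) (by push_cast; linarith))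
          (side_mem_four (by push_cast; linarith) (by push_cast; linarith))
          (side_mem_four (by push_cast; linarith) (by push_cast; linarith)) hS⟩
      · exact ⟨0, 0, Ex.pos_of_checkQuick top_tail_13 (side_mem_four (by push_cast; linarith) (by push_cast; linarith))
          (side_mem_four (by push_cast; linarith) (by push_cast; linarith))
          (side_mem_four (by push_cast; linarith) (by push_cast; linarith)) hS⟩

theorem top_tail_sign_2 {u v d S' : ℝ} (hu : 9000 / 10000 ≤ u) (hu1 : u < 9500 / 10000)
    (hv : 33 / 100 ≤ v) (hv1 : v ≤ 89 / 20) (hphi : u ≤ 19 / 20 → v < phiFarTop d u)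
    (hA : (3 / 5 - d) * v < 2) (hD : d * v < 2 / 3) (h0 : 3 / 25 ≤ d) (h1 : d ≤ 1 / 5)
    (hS : sideS.Mem S') : ∃ i j : ℕ, 0 < (topTailCond i j).val u v d S' := by
  rcases lt_or_ge v (23900 / 10000) with g2 | g2
  · exact top_tail_part_0 hu hu1 hv hv1 hphi hA hD h0 h1 (by linarith) hS
  · rcases lt_or_ge u (9293 / 10000) with g4 | g4
    · have hb33837 : v < 33837 / 10000 := by
        refine ((hphi (by linarith)).trans_le (phiFarTop_mono (b := 9293 / 10000) (by linarith) (by linarith) (by linarith) (by linarith) (by norm_num))).trans_le ?_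
        norm_num [phiFarTop, phiG]
        linarith
      exact ⟨7464, 0, Ex.pos_of_checkQuick top_tail_14 (side_mem_four (by push_cast; linarith) (by push_cast; linarith))
        (side_mem_four (by push_cast; linarith) (by push_cast; linarith))
        (side_mem_four (by push_cast; linarith) (by push_cast; linarith)) hS⟩
    · rcases lt_or_ge d (1600 / 10000) with g6 | g6
      · exact ⟨11978, 0, Ex.pos_of_checkQuick top_tail_15 (side_mem_four (by push_cast; linarith) (by push_cast; linarith))
          (side_mem_four (by push_cast; linarith) (by push_cast; linarith))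
          (side_mem_four (by push_cast; linarith) (by push_cast; linarith)) hS⟩
      · have hb41668 : v < 41668 / 10000 := by
          have := mul_le_mul_of_nonneg_right (show (1600 : ℝ) / 10000 ≤ d by linarith) (show 0 ≤ v by linarith)
          linarith
        rcases lt_or_ge v (32784 / 10000) with g8 | g8
        · exact ⟨9773, 0, Ex.pos_of_checkQuick top_tail_16 (side_mem_four (by push_cast; linarith) (by push_cast; linarith))
            (side_mem_four (by push_cast; linarith) (by push_cast; linarith))
            (side_mem_four (by push_cast; linarith) (by push_cast; linarith)) hS⟩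
        · exact ⟨138078, 0, Ex.pos_of_checkQuick top_tail_17 (side_mem_four (by push_cast; linarith) (by push_cast; linarith))
            (side_mem_four (by push_cast; linarith) (by push_cast; linarith))
            (side_mem_four (by push_cast; linarith) (by push_cast; linarith)) hS⟩

theorem top_tail_part_3 {u v d S' : ℝ} (hu : 9500 / 10000 ≤ u) (hu1 : u < 9750 / 10000)
    (hv : 33 / 100 ≤ v) (hv1 : v ≤ 89 / 20) (hphi : u ≤ 19 / 20 → v < phiFarTop d u)
    (hA : (3 / 5 - d) * v < 2) (hD : d * v < 2 / 3) (h0 : 3 / 25 ≤ d) (h1 : d ≤ 1 / 5)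
    (e0 : 23900 / 10000 ≤ v)
    (e1 : 9646 / 10000 ≤ u)
    (hS : sideS.Mem S') : ∃ i j : ℕ, 0 < (topTailCond i j).val u v d S' := by
  rcases lt_or_ge d (1600 / 10000) with g2 | g2
  · rcases lt_or_ge v (34200 / 10000) with g4 | g4
    · exact ⟨5052, 0, Ex.pos_of_checkQuick top_tail_29 (side_mem_four (by push_cast; linarith) (by push_cast; linarith))
        (side_mem_four (by push_cast; linarith) (by push_cast; linarith))
        (side_mem_four (by push_cast; linarith) (by push_cast; linarith)) hS⟩
    · exact ⟨227367, 0, Ex.pos_of_checkQuick top_tail_30 (side_mem_four (by push_cast; linarith) (by push_cast; linarith))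
        (side_mem_four (by push_cast; linarith) (by push_cast; linarith))
        (side_mem_four (by push_cast; linarith) (by push_cast; linarith)) hS⟩
  · have hb41668 : v < 41668 / 10000 := by
      have := mul_le_mul_of_nonneg_right (show (1600 : ℝ) / 10000 ≤ d by linarith) (show 0 ≤ v by linarith)
      linarith
    rcases lt_or_ge v (32784 / 10000) with g4 | g4
    · rcases lt_or_ge u (9703 / 10000) with g6 | g6
      · exact ⟨12114, 0, Ex.pos_of_checkQuick top_tail_31 (side_mem_four (by push_cast; linarith) (by push_cast; linarith))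
          (side_mem_four (by push_cast; linarith) (by push_cast; linarith))
          (side_mem_four (by push_cast; linarith) (by push_cast; linarith)) hS⟩
      · rcases lt_or_ge d (1800 / 10000) with g8 | g8
        · exact ⟨10713, 0, Ex.pos_of_checkQuick top_tail_32 (side_mem_four (by push_cast; linarith) (by push_cast; linarith))
            (side_mem_four (by push_cast; linarith) (by push_cast; linarith))
            (side_mem_four (by push_cast; linarith) (by push_cast; linarith)) hS⟩
        · rcases lt_or_ge v (28342 / 10000) with g10 | g10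
          · exact ⟨10935, 0, Ex.pos_of_checkQuick top_tail_33 (side_mem_four (by push_cast; linarith) (by push_cast; linarith))
              (side_mem_four (by push_cast; linarith) (by push_cast; linarith))
              (side_mem_four (by push_cast; linarith) (by push_cast; linarith)) hS⟩
          · exact ⟨67532, 0, Ex.pos_of_checkQuick top_tail_34 (side_mem_four (by push_cast; linarith) (by push_cast; linarith))
              (side_mem_four (by push_cast; linarith) (by push_cast; linarith))
              (side_mem_four (by push_cast; linarith) (by push_cast; linarith)) hS⟩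
    · exact ⟨122923, 0, Ex.pos_of_checkQuick top_tail_35 (side_mem_four (by push_cast; linarith) (by push_cast; linarith))
        (side_mem_four (by push_cast; linarith) (by push_cast; linarith))
        (side_mem_four (by push_cast; linarith) (by push_cast; linarith)) hS⟩

theorem top_tail_part_2 {u v d S' : ℝ} (hu : 9500 / 10000 ≤ u) (hu1 : u < 9750 / 10000)
    (hv : 33 / 100 ≤ v) (hv1 : v ≤ 89 / 20) (hphi : u ≤ 19 / 20 → v < phiFarTop d u)
    (hA : (3 / 5 - d) * v < 2) (hD : d * v < 2 / 3) (h0 : 3 / 25 ≤ d) (h1 : d ≤ 1 / 5)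
    (e0 : 23900 / 10000 ≤ v)
    (hS : sideS.Mem S') : ∃ i j : ℕ, 0 < (topTailCond i j).val u v d S' := by
  rcases lt_or_ge u (9646 / 10000) with g2 | g2
  · rcases lt_or_ge d (1600 / 10000) with g4 | g4
    · rcases lt_or_ge v (34200 / 10000) with g6 | g6
      · exact ⟨0, 0, Ex.pos_of_checkQuick top_tail_25 (side_mem_four (by push_cast; linarith) (by push_cast; linarith))
          (side_mem_four (by push_cast; linarith) (by push_cast; linarith))
          (side_mem_four (by push_cast; linarith) (by push_cast; linarith)) hS⟩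
      · exact ⟨218048, 0, Ex.pos_of_checkQuick top_tail_26 (side_mem_four (by push_cast; linarith) (by push_cast; linarith))
          (side_mem_four (by push_cast; linarith) (by push_cast; linarith))
          (side_mem_four (by push_cast; linarith) (by push_cast; linarith)) hS⟩
    · have hb41668 : v < 41668 / 10000 := by
        have := mul_le_mul_of_nonneg_right (show (1600 : ℝ) / 10000 ≤ d by linarith) (show 0 ≤ v by linarith)
        linarith
      rcases lt_or_ge v (32784 / 10000) with g6 | g6
      · exact ⟨11463, 0, Ex.pos_of_checkQuick top_tail_27 (side_mem_four (by push_cast; linarith) (by push_cast; linarith))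
          (side_mem_four (by push_cast; linarith) (by push_cast; linarith))
          (side_mem_four (by push_cast; linarith) (by push_cast; linarith)) hS⟩
      · exact ⟨137258, 0, Ex.pos_of_checkQuick top_tail_28 (side_mem_four (by push_cast; linarith) (by push_cast; linarith))
          (side_mem_four (by push_cast; linarith) (by push_cast; linarith))
          (side_mem_four (by push_cast; linarith) (by push_cast; linarith)) hS⟩
  · exact top_tail_part_3 hu hu1 hv hv1 hphi hA hD h0 h1 (by linarith) (by linarith) hS

theorem top_tail_part_1 {u v d S' : ℝ} (hu : 9500 / 10000 ≤ u) (hu1 : u < 9750 / 10000)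
    (hv : 33 / 100 ≤ v) (hv1 : v ≤ 89 / 20) (hphi : u ≤ 19 / 20 → v < phiFarTop d u)
    (hA : (3 / 5 - d) * v < 2) (hD : d * v < 2 / 3) (h0 : 3 / 25 ≤ d) (h1 : d ≤ 1 / 5)
    (e0 : v < 23900 / 10000)
    (hS : sideS.Mem S') : ∃ i j : ℕ, 0 < (topTailCond i j).val u v d S' := by
  rcases lt_or_ge u (9646 / 10000) with g2 | g2
  · rcases lt_or_ge d (1600 / 10000) with g4 | g4
    · rcases lt_or_ge v (13600 / 10000) with g6 | g6
      · exact ⟨0, 4355, Ex.pos_of_checkQuick top_tail_18 (side_mem_four (by push_cast; linarith) (by push_cast; linarith))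
          (side_mem_four (by push_cast; linarith) (by push_cast; linarith))
          (side_mem_four (by push_cast; linarith) (by push_cast; linarith)) hS⟩
      · exact ⟨0, 0, Ex.pos_of_checkQuick top_tail_19 (side_mem_four (by push_cast; linarith) (by push_cast; linarith))
          (side_mem_four (by push_cast; linarith) (by push_cast; linarith))
          (side_mem_four (by push_cast; linarith) (by push_cast; linarith)) hS⟩
    · rcases lt_or_ge v (13600 / 10000) with g6 | g6
      · exact ⟨0, 2426, Ex.pos_of_checkQuick top_tail_20 (side_mem_four (by push_cast; linarith) (by push_cast; linarith))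
          (side_mem_four (by push_cast; linarith) (by push_cast; linarith))
          (side_mem_four (by push_cast; linarith) (by push_cast; linarith)) hS⟩
      · exact ⟨0, 0, Ex.pos_of_checkQuick top_tail_21 (side_mem_four (by push_cast; linarith) (by push_cast; linarith))
          (side_mem_four (by push_cast; linarith) (by push_cast; linarith))
          (side_mem_four (by push_cast; linarith) (by push_cast; linarith)) hS⟩
  · rcases lt_or_ge d (1600 / 10000) with g4 | g4
    · exact ⟨0, 690, Ex.pos_of_checkQuick top_tail_22 (side_mem_four (by push_cast; linarith) (by push_cast; linarith))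
        (side_mem_four (by push_cast; linarith) (by push_cast; linarith))
        (side_mem_four (by push_cast; linarith) (by push_cast; linarith)) hS⟩
    · rcases lt_or_ge v (13600 / 10000) with g6 | g6
      · exact ⟨0, 4349, Ex.pos_of_checkQuick top_tail_23 (side_mem_four (by push_cast; linarith) (by push_cast; linarith))
          (side_mem_four (by push_cast; linarith) (by push_cast; linarith))
          (side_mem_four (by push_cast; linarith) (by push_cast; linarith)) hS⟩
      · exact ⟨0, 0, Ex.pos_of_checkQuick top_tail_24 (side_mem_four (by push_cast; linarith) (by push_cast; linarith))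
          (side_mem_four (by push_cast; linarith) (by push_cast; linarith))
          (side_mem_four (by push_cast; linarith) (by push_cast; linarith)) hS⟩

theorem top_tail_sign_3 {u v d S' : ℝ} (hu : 9500 / 10000 ≤ u) (hu1 : u < 9750 / 10000)
    (hv : 33 / 100 ≤ v) (hv1 : v ≤ 89 / 20) (hphi : u ≤ 19 / 20 → v < phiFarTop d u)
    (hA : (3 / 5 - d) * v < 2) (hD : d * v < 2 / 3) (h0 : 3 / 25 ≤ d) (h1 : d ≤ 1 / 5)
    (hS : sideS.Mem S') : ∃ i j : ℕ, 0 < (topTailCond i j).val u v d S' := by
  rcases lt_or_ge v (23900 / 10000) with g2 | g2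
  · exact top_tail_part_1 hu hu1 hv hv1 hphi hA hD h0 h1 (by linarith) hS
  · exact top_tail_part_2 hu hu1 hv hv1 hphi hA hD h0 h1 (by linarith) hS

theorem top_tail_part_17 {u v d S' : ℝ} (hu : 9750 / 10000 ≤ u) (hu1 : u < 9876 / 10000)
    (hv : 33 / 100 ≤ v) (hv1 : v ≤ 89 / 20) (hphi : u ≤ 19 / 20 → v < phiFarTop d u)
    (hA : (3 / 5 - d) * v < 2) (hD : d * v < 2 / 3) (h0 : 3 / 25 ≤ d) (h1 : d ≤ 1 / 5)
    (e0 : 23900 / 10000 ≤ v)
    (e1 : 9824 / 10000 ≤ u)
    (e2 : 1600 / 10000 ≤ d)
    (e3 : v < 41668 / 10000)
    (e4 : v < 32784 / 10000)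
    (e5 : 9852 / 10000 ≤ u)
    (e6 : 1800 / 10000 ≤ d)
    (e7 : v < 28342 / 10000)
    (hS : sideS.Mem S') : ∃ i j : ℕ, 0 < (topTailCond i j).val u v d S' := by
  rcases lt_or_ge u (9865 / 10000) with g2 | g2
  · rcases lt_or_ge d (1900 / 10000) with g4 | g4
    · exact ⟨12972, 0, Ex.pos_of_checkQuick top_tail_67 (side_mem_four (by push_cast; linarith) (by push_cast; linarith))
        (side_mem_four (by push_cast; linarith) (by push_cast; linarith))
        (side_mem_four (by push_cast; linarith) (by push_cast; linarith)) hS⟩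
    · rcases lt_or_ge v (26121 / 10000) with g6 | g6
      · exact ⟨8518, 0, Ex.pos_of_checkQuick top_tail_68 (side_mem_four (by push_cast; linarith) (by push_cast; linarith))
          (side_mem_four (by push_cast; linarith) (by push_cast; linarith))
          (side_mem_four (by push_cast; linarith) (by push_cast; linarith)) hS⟩
      · exact ⟨19488, 0, Ex.pos_of_checkQuick top_tail_69 (side_mem_four (by push_cast; linarith) (by push_cast; linarith))
          (side_mem_four (by push_cast; linarith) (by push_cast; linarith))
          (side_mem_four (by push_cast; linarith) (by push_cast; linarith)) hS⟩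
  · rcases lt_or_ge d (1900 / 10000) with g4 | g4
    · exact ⟨12981, 0, Ex.pos_of_checkQuick top_tail_70 (side_mem_four (by push_cast; linarith) (by push_cast; linarith))
        (side_mem_four (by push_cast; linarith) (by push_cast; linarith))
        (side_mem_four (by push_cast; linarith) (by push_cast; linarith)) hS⟩
    · rcases lt_or_ge v (26121 / 10000) with g6 | g6
      · exact ⟨0, 0, Ex.pos_of_checkQuick top_tail_71 (side_mem_four (by push_cast; linarith) (by push_cast; linarith))
          (side_mem_four (by push_cast; linarith) (by push_cast; linarith))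
          (side_mem_four (by push_cast; linarith) (by push_cast; linarith)) hS⟩
      · exact ⟨19049, 0, Ex.pos_of_checkQuick top_tail_72 (side_mem_four (by push_cast; linarith) (by push_cast; linarith))
          (side_mem_four (by push_cast; linarith) (by push_cast; linarith))
          (side_mem_four (by push_cast; linarith) (by push_cast; linarith)) hS⟩

theorem top_tail_part_16 {u v d S' : ℝ} (hu : 9750 / 10000 ≤ u) (hu1 : u < 9876 / 10000)
    (hv : 33 / 100 ≤ v) (hv1 : v ≤ 89 / 20) (hphi : u ≤ 19 / 20 → v < phiFarTop d u)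
    (hA : (3 / 5 - d) * v < 2) (hD : d * v < 2 / 3) (h0 : 3 / 25 ≤ d) (h1 : d ≤ 1 / 5)
    (e0 : 23900 / 10000 ≤ v)
    (e1 : 9824 / 10000 ≤ u)
    (e2 : 1600 / 10000 ≤ d)
    (e3 : v < 41668 / 10000)
    (e4 : v < 32784 / 10000)
    (e5 : 9852 / 10000 ≤ u)
    (e6 : 1800 / 10000 ≤ d)
    (hS : sideS.Mem S') : ∃ i j : ℕ, 0 < (topTailCond i j).val u v d S' := by
  rcases lt_or_ge v (28342 / 10000) with g2 | g2
  · exact top_tail_part_17 hu hu1 hv hv1 hphi hA hD h0 h1 (by linarith) (by linarith) (by linarith) (by linarith) (by linarith) (by linarith) (by linarith) (by linarith) hS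
  · exact ⟨163807, 0, Ex.pos_of_checkQuick top_tail_73 (side_mem_four (by push_cast; linarith) (by push_cast; linarith))
      (side_mem_four (by push_cast; linarith) (by push_cast; linarith))
      (side_mem_four (by push_cast; linarith) (by push_cast; linarith)) hS⟩

theorem top_tail_part_15 {u v d S' : ℝ} (hu : 9750 / 10000 ≤ u) (hu1 : u < 9876 / 10000)
    (hv : 33 / 100 ≤ v) (hv1 : v ≤ 89 / 20) (hphi : u ≤ 19 / 20 → v < phiFarTop d u)
    (hA : (3 / 5 - d) * v < 2) (hD : d * v < 2 / 3) (h0 : 3 / 25 ≤ d) (h1 : d ≤ 1 / 5)
    (e0 : 23900 / 10000 ≤ v)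
    (e1 : 9824 / 10000 ≤ u)
    (e2 : 1600 / 10000 ≤ d)
    (e3 : v < 41668 / 10000)
    (e4 : v < 32784 / 10000)
    (e5 : 9852 / 10000 ≤ u)
    (hS : sideS.Mem S') : ∃ i j : ℕ, 0 < (topTailCond i j).val u v d S' := by
  rcases lt_or_ge d (1800 / 10000) with g2 | g2
  · rcases lt_or_ge v (28342 / 10000) with g4 | g4
    · exact ⟨0, 0, Ex.pos_of_checkQuick top_tail_65 (side_mem_four (by push_cast; linarith) (by push_cast; linarith))
        (side_mem_four (by push_cast; linarith) (by push_cast; linarith))
        (side_mem_four (by push_cast; linarith) (by push_cast; linarith)) hS⟩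
    · exact ⟨25658, 0, Ex.pos_of_checkQuick top_tail_66 (side_mem_four (by push_cast; linarith) (by push_cast; linarith))
        (side_mem_four (by push_cast; linarith) (by push_cast; linarith))
        (side_mem_four (by push_cast; linarith) (by push_cast; linarith)) hS⟩
  · exact top_tail_part_16 hu hu1 hv hv1 hphi hA hD h0 h1 (by linarith) (by linarith) (by linarith) (by linarith) (by linarith) (by linarith) (by linarith) hS

theorem top_tail_part_14 {u v d S' : ℝ} (hu : 9750 / 10000 ≤ u) (hu1 : u < 9876 / 10000)
    (hv : 33 / 100 ≤ v) (hv1 : v ≤ 89 / 20) (hphi : u ≤ 19 / 20 → v < phiFarTop d u)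
    (hA : (3 / 5 - d) * v < 2) (hD : d * v < 2 / 3) (h0 : 3 / 25 ≤ d) (h1 : d ≤ 1 / 5)
    (e0 : 23900 / 10000 ≤ v)
    (e1 : 9824 / 10000 ≤ u)
    (e2 : 1600 / 10000 ≤ d)
    (e3 : v < 41668 / 10000)
    (e4 : v < 32784 / 10000)
    (e5 : u < 9852 / 10000)
    (e6 : 1800 / 10000 ≤ d)
    (e7 : v < 28342 / 10000)
    (hS : sideS.Mem S') : ∃ i j : ℕ, 0 < (topTailCond i j).val u v d S' := by
  rcases lt_or_ge u (9839 / 10000) with g2 | g2
  · rcases lt_or_ge d (1900 / 10000) with g4 | g4
    · exact ⟨11415, 0, Ex.pos_of_checkQuick top_tail_58 (side_mem_four (by push_cast; linarith) (by push_cast; linarith))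
        (side_mem_four (by push_cast; linarith) (by push_cast; linarith))
        (side_mem_four (by push_cast; linarith) (by push_cast; linarith)) hS⟩
    · rcases lt_or_ge v (26121 / 10000) with g6 | g6
      · exact ⟨9618, 0, Ex.pos_of_checkQuick top_tail_59 (side_mem_four (by push_cast; linarith) (by push_cast; linarith))
          (side_mem_four (by push_cast; linarith) (by push_cast; linarith))
          (side_mem_four (by push_cast; linarith) (by push_cast; linarith)) hS⟩
      · exact ⟨25963, 0, Ex.pos_of_checkQuick top_tail_60 (side_mem_four (by push_cast; linarith) (by push_cast; linarith))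
          (side_mem_four (by push_cast; linarith) (by push_cast; linarith))
          (side_mem_four (by push_cast; linarith) (by push_cast; linarith)) hS⟩
  · rcases lt_or_ge d (1900 / 10000) with g4 | g4
    · exact ⟨12343, 0, Ex.pos_of_checkQuick top_tail_61 (side_mem_four (by push_cast; linarith) (by push_cast; linarith))
        (side_mem_four (by push_cast; linarith) (by push_cast; linarith))
        (side_mem_four (by push_cast; linarith) (by push_cast; linarith)) hS⟩
    · rcases lt_or_ge v (26121 / 10000) with g6 | g6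
      · exact ⟨9910, 0, Ex.pos_of_checkQuick top_tail_62 (side_mem_four (by push_cast; linarith) (by push_cast; linarith))
          (side_mem_four (by push_cast; linarith) (by push_cast; linarith))
          (side_mem_four (by push_cast; linarith) (by push_cast; linarith)) hS⟩
      · exact ⟨22671, 0, Ex.pos_of_checkQuick top_tail_63 (side_mem_four (by push_cast; linarith) (by push_cast; linarith))
          (side_mem_four (by push_cast; linarith) (by push_cast; linarith))
          (side_mem_four (by push_cast; linarith) (by push_cast; linarith)) hS⟩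

theorem top_tail_part_13 {u v d S' : ℝ} (hu : 9750 / 10000 ≤ u) (hu1 : u < 9876 / 10000)
    (hv : 33 / 100 ≤ v) (hv1 : v ≤ 89 / 20) (hphi : u ≤ 19 / 20 → v < phiFarTop d u)
    (hA : (3 / 5 - d) * v < 2) (hD : d * v < 2 / 3) (h0 : 3 / 25 ≤ d) (h1 : d ≤ 1 / 5)
    (e0 : 23900 / 10000 ≤ v)
    (e1 : 9824 / 10000 ≤ u)
    (e2 : 1600 / 10000 ≤ d)
    (e3 : v < 41668 / 10000)
    (e4 : v < 32784 / 10000)
    (e5 : u < 9852 / 10000)
    (e6 : 1800 / 10000 ≤ d)
    (hS : sideS.Mem S') : ∃ i j : ℕ, 0 < (topTailCond i j).val u v d S' := by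
  rcases lt_or_ge v (28342 / 10000) with g2 | g2
  · exact top_tail_part_14 hu hu1 hv hv1 hphi hA hD h0 h1 (by linarith) (by linarith) (by linarith) (by linarith) (by linarith) (by linarith) (by linarith) (by linarith) hS
  · exact ⟨118657, 0, Ex.pos_of_checkQuick top_tail_64 (side_mem_four (by push_cast; linarith) (by push_cast; linarith))
      (side_mem_four (by push_cast; linarith) (by push_cast; linarith))
      (side_mem_four (by push_cast; linarith) (by push_cast; linarith)) hS⟩

theorem top_tail_part_12 {u v d S' : ℝ} (hu : 9750 / 10000 ≤ u) (hu1 : u < 9876 / 10000)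
    (hv : 33 / 100 ≤ v) (hv1 : v ≤ 89 / 20) (hphi : u ≤ 19 / 20 → v < phiFarTop d u)
    (hA : (3 / 5 - d) * v < 2) (hD : d * v < 2 / 3) (h0 : 3 / 25 ≤ d) (h1 : d ≤ 1 / 5)
    (e0 : 23900 / 10000 ≤ v)
    (e1 : 9824 / 10000 ≤ u)
    (e2 : 1600 / 10000 ≤ d)
    (e3 : v < 41668 / 10000)
    (e4 : v < 32784 / 10000)
    (e5 : u < 9852 / 10000)
    (hS : sideS.Mem S') : ∃ i j : ℕ, 0 < (topTailCond i j).val u v d S' := by
  rcases lt_or_ge d (1800 / 10000) with g2 | g2
  · rcases lt_or_ge v (28342 / 10000) with g4 | g4
    · exact ⟨0, 0, Ex.pos_of_checkQuick top_tail_56 (side_mem_four (by push_cast; linarith) (by push_cast; linarith))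
        (side_mem_four (by push_cast; linarith) (by push_cast; linarith))
        (side_mem_four (by push_cast; linarith) (by push_cast; linarith)) hS⟩
    · exact ⟨25535, 0, Ex.pos_of_checkQuick top_tail_57 (side_mem_four (by push_cast; linarith) (by push_cast; linarith))
        (side_mem_four (by push_cast; linarith) (by push_cast; linarith))
        (side_mem_four (by push_cast; linarith) (by push_cast; linarith)) hS⟩
  · exact top_tail_part_13 hu hu1 hv hv1 hphi hA hD h0 h1 (by linarith) (by linarith) (by linarith) (by linarith) (by linarith) (by linarith) (by linarith) hS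

theorem top_tail_part_11 {u v d S' : ℝ} (hu : 9750 / 10000 ≤ u) (hu1 : u < 9876 / 10000)
    (hv : 33 / 100 ≤ v) (hv1 : v ≤ 89 / 20) (hphi : u ≤ 19 / 20 → v < phiFarTop d u)
    (hA : (3 / 5 - d) * v < 2) (hD : d * v < 2 / 3) (h0 : 3 / 25 ≤ d) (h1 : d ≤ 1 / 5)
    (e0 : 23900 / 10000 ≤ v)
    (e1 : 9824 / 10000 ≤ u)
    (e2 : 1600 / 10000 ≤ d)
    (e3 : v < 41668 / 10000)
    (e4 : v < 32784 / 10000)
    (hS : sideS.Mem S') : ∃ i j : ℕ, 0 < (topTailCond i j).val u v d S' := by
  rcases lt_or_ge u (9852 / 10000) with g2 | g2
  · exact top_tail_part_12 hu hu1 hv hv1 hphi hA hD h0 h1 (by linarith) (by linarith) (by linarith) (by linarith) (by linarith) (by linarith) hS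
  · exact top_tail_part_15 hu hu1 hv hv1 hphi hA hD h0 h1 (by linarith) (by linarith) (by linarith) (by linarith) (by linarith) (by linarith) hS

theorem top_tail_part_10 {u v d S' : ℝ} (hu : 9750 / 10000 ≤ u) (hu1 : u < 9876 / 10000)
    (hv : 33 / 100 ≤ v) (hv1 : v ≤ 89 / 20) (hphi : u ≤ 19 / 20 → v < phiFarTop d u)
    (hA : (3 / 5 - d) * v < 2) (hD : d * v < 2 / 3) (h0 : 3 / 25 ≤ d) (h1 : d ≤ 1 / 5)
    (e0 : 23900 / 10000 ≤ v)
    (e1 : 9824 / 10000 ≤ u)
    (e2 : 1600 / 10000 ≤ d)
    (hS : sideS.Mem S') : ∃ i j : ℕ, 0 < (topTailCond i j).val u v d S' := by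
  have hb41668 : v < 41668 / 10000 := by
    have := mul_le_mul_of_nonneg_right (show (1600 : ℝ) / 10000 ≤ d by linarith) (show 0 ≤ v by linarith)
    linarith
  rcases lt_or_ge v (32784 / 10000) with g2 | g2
  · exact top_tail_part_11 hu hu1 hv hv1 hphi hA hD h0 h1 (by linarith) (by linarith) (by linarith) (by linarith) (by linarith) hS
  · exact ⟨163807, 0, Ex.pos_of_checkQuick top_tail_74 (side_mem_four (by push_cast; linarith) (by push_cast; linarith))
      (side_mem_four (by push_cast; linarith) (by push_cast; linarith))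
      (side_mem_four (by push_cast; linarith) (by push_cast; linarith)) hS⟩

theorem top_tail_part_9 {u v d S' : ℝ} (hu : 9750 / 10000 ≤ u) (hu1 : u < 9876 / 10000)
    (hv : 33 / 100 ≤ v) (hv1 : v ≤ 89 / 20) (hphi : u ≤ 19 / 20 → v < phiFarTop d u)
    (hA : (3 / 5 - d) * v < 2) (hD : d * v < 2 / 3) (h0 : 3 / 25 ≤ d) (h1 : d ≤ 1 / 5)
    (e0 : 23900 / 10000 ≤ v)
    (e1 : 9824 / 10000 ≤ u)
    (hS : sideS.Mem S') : ∃ i j : ℕ, 0 < (topTailCond i j).val u v d S' := by
  rcases lt_or_ge d (1600 / 10000) with g2 | g2
  · rcases lt_or_ge v (34200 / 10000) with g4 | g4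
    · exact ⟨9832, 0, Ex.pos_of_checkQuick top_tail_54 (side_mem_four (by push_cast; linarith) (by push_cast; linarith))
        (side_mem_four (by push_cast; linarith) (by push_cast; linarith))
        (side_mem_four (by push_cast; linarith) (by push_cast; linarith)) hS⟩
    · exact ⟨163928, 0, Ex.pos_of_checkQuick top_tail_55 (side_mem_four (by push_cast; linarith) (by push_cast; linarith))
        (side_mem_four (by push_cast; linarith) (by push_cast; linarith))
        (side_mem_four (by push_cast; linarith) (by push_cast; linarith)) hS⟩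
  · exact top_tail_part_10 hu hu1 hv hv1 hphi hA hD h0 h1 (by linarith) (by linarith) (by linarith) hS

theorem top_tail_part_8 {u v d S' : ℝ} (hu : 9750 / 10000 ≤ u) (hu1 : u < 9876 / 10000)
    (hv : 33 / 100 ≤ v) (hv1 : v ≤ 89 / 20) (hphi : u ≤ 19 / 20 → v < phiFarTop d u)
    (hA : (3 / 5 - d) * v < 2) (hD : d * v < 2 / 3) (h0 : 3 / 25 ≤ d) (h1 : d ≤ 1 / 5)
    (e0 : 23900 / 10000 ≤ v)
    (e1 : u < 9824 / 10000)
    (e2 : 1600 / 10000 ≤ d)
    (e3 : v < 41668 / 10000)
    (e4 : v < 32784 / 10000)
    (e5 : 9790 / 10000 ≤ u)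
    (hS : sideS.Mem S') : ∃ i j : ℕ, 0 < (topTailCond i j).val u v d S' := by
  rcases lt_or_ge d (1800 / 10000) with g2 | g2
  · rcases lt_or_ge v (28342 / 10000) with g4 | g4
    · exact ⟨0, 0, Ex.pos_of_checkQuick top_tail_46 (side_mem_four (by push_cast; linarith) (by push_cast; linarith))
        (side_mem_four (by push_cast; linarith) (by push_cast; linarith))
        (side_mem_four (by push_cast; linarith) (by push_cast; linarith)) hS⟩
    · exact ⟨25351, 0, Ex.pos_of_checkQuick top_tail_47 (side_mem_four (by push_cast; linarith) (by push_cast; linarith))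
        (side_mem_four (by push_cast; linarith) (by push_cast; linarith))
        (side_mem_four (by push_cast; linarith) (by push_cast; linarith)) hS⟩
  · rcases lt_or_ge v (28342 / 10000) with g4 | g4
    · rcases lt_or_ge u (9808 / 10000) with g6 | g6
      · exact ⟨12438, 0, Ex.pos_of_checkQuick top_tail_48 (side_mem_four (by push_cast; linarith) (by push_cast; linarith))
          (side_mem_four (by push_cast; linarith) (by push_cast; linarith))
          (side_mem_four (by push_cast; linarith) (by push_cast; linarith)) hS⟩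
      · rcases lt_or_ge d (1900 / 10000) with g8 | g8
        · exact ⟨11364, 0, Ex.pos_of_checkQuick top_tail_49 (side_mem_four (by push_cast; linarith) (by push_cast; linarith))
            (side_mem_four (by push_cast; linarith) (by push_cast; linarith))
            (side_mem_four (by push_cast; linarith) (by push_cast; linarith)) hS⟩
        · rcases lt_or_ge v (26121 / 10000) with g10 | g10
          · exact ⟨10402, 0, Ex.pos_of_checkQuick top_tail_50 (side_mem_four (by push_cast; linarith) (by push_cast; linarith))
              (side_mem_four (by push_cast; linarith) (by push_cast; linarith))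
              (side_mem_four (by push_cast; linarith) (by push_cast; linarith)) hS⟩
          · exact ⟨39099, 0, Ex.pos_of_checkQuick top_tail_51 (side_mem_four (by push_cast; linarith) (by push_cast; linarith))
              (side_mem_four (by push_cast; linarith) (by push_cast; linarith))
              (side_mem_four (by push_cast; linarith) (by push_cast; linarith)) hS⟩
    · exact ⟨75805, 0, Ex.pos_of_checkQuick top_tail_52 (side_mem_four (by push_cast; linarith) (by push_cast; linarith))
        (side_mem_four (by push_cast; linarith) (by push_cast; linarith))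
        (side_mem_four (by push_cast; linarith) (by push_cast; linarith)) hS⟩

theorem top_tail_part_7 {u v d S' : ℝ} (hu : 9750 / 10000 ≤ u) (hu1 : u < 9876 / 10000)
    (hv : 33 / 100 ≤ v) (hv1 : v ≤ 89 / 20) (hphi : u ≤ 19 / 20 → v < phiFarTop d u)
    (hA : (3 / 5 - d) * v < 2) (hD : d * v < 2 / 3) (h0 : 3 / 25 ≤ d) (h1 : d ≤ 1 / 5)
    (e0 : 23900 / 10000 ≤ v)
    (e1 : u < 9824 / 10000)
    (e2 : 1600 / 10000 ≤ d)
    (e3 : v < 41668 / 10000)
    (e4 : v < 32784 / 10000)
    (hS : sideS.Mem S') : ∃ i j : ℕ, 0 < (topTailCond i j).val u v d S' := by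
  rcases lt_or_ge u (9790 / 10000) with g2 | g2
  · rcases lt_or_ge d (1800 / 10000) with g4 | g4
    · exact ⟨12425, 0, Ex.pos_of_checkQuick top_tail_43 (side_mem_four (by push_cast; linarith) (by push_cast; linarith))
        (side_mem_four (by push_cast; linarith) (by push_cast; linarith))
        (side_mem_four (by push_cast; linarith) (by push_cast; linarith)) hS⟩
    · rcases lt_or_ge v (28342 / 10000) with g6 | g6
      · exact ⟨13141, 0, Ex.pos_of_checkQuick top_tail_44 (side_mem_four (by push_cast; linarith) (by push_cast; linarith))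
          (side_mem_four (by push_cast; linarith) (by push_cast; linarith))
          (side_mem_four (by push_cast; linarith) (by push_cast; linarith)) hS⟩
      · exact ⟨41859, 0, Ex.pos_of_checkQuick top_tail_45 (side_mem_four (by push_cast; linarith) (by push_cast; linarith))
          (side_mem_four (by push_cast; linarith) (by push_cast; linarith))
          (side_mem_four (by push_cast; linarith) (by push_cast; linarith)) hS⟩
  · exact top_tail_part_8 hu hu1 hv hv1 hphi hA hD h0 h1 (by linarith) (by linarith) (by linarith) (by linarith) (by linarith) (by linarith) hS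

theorem top_tail_part_6 {u v d S' : ℝ} (hu : 9750 / 10000 ≤ u) (hu1 : u < 9876 / 10000)
    (hv : 33 / 100 ≤ v) (hv1 : v ≤ 89 / 20) (hphi : u ≤ 19 / 20 → v < phiFarTop d u)
    (hA : (3 / 5 - d) * v < 2) (hD : d * v < 2 / 3) (h0 : 3 / 25 ≤ d) (h1 : d ≤ 1 / 5)
    (e0 : 23900 / 10000 ≤ v)
    (e1 : u < 9824 / 10000)
    (e2 : 1600 / 10000 ≤ d)
    (hS : sideS.Mem S') : ∃ i j : ℕ, 0 < (topTailCond i j).val u v d S' := by
  have hb41668 : v < 41668 / 10000 := by
    have := mul_le_mul_of_nonneg_right (show (1600 : ℝ) / 10000 ≤ d by linarith) (show 0 ≤ v by linarith)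
    linarith
  rcases lt_or_ge v (32784 / 10000) with g2 | g2
  · exact top_tail_part_7 hu hu1 hv hv1 hphi hA hD h0 h1 (by linarith) (by linarith) (by linarith) (by linarith) (by linarith) hS
  · exact ⟨90548, 0, Ex.pos_of_checkQuick top_tail_53 (side_mem_four (by push_cast; linarith) (by push_cast; linarith))
      (side_mem_four (by push_cast; linarith) (by push_cast; linarith))
      (side_mem_four (by push_cast; linarith) (by push_cast; linarith)) hS⟩

theorem top_tail_part_5 {u v d S' : ℝ} (hu : 9750 / 10000 ≤ u) (hu1 : u < 9876 / 10000)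
    (hv : 33 / 100 ≤ v) (hv1 : v ≤ 89 / 20) (hphi : u ≤ 19 / 20 → v < phiFarTop d u)
    (hA : (3 / 5 - d) * v < 2) (hD : d * v < 2 / 3) (h0 : 3 / 25 ≤ d) (h1 : d ≤ 1 / 5)
    (e0 : 23900 / 10000 ≤ v)
    (e1 : u < 9824 / 10000)
    (hS : sideS.Mem S') : ∃ i j : ℕ, 0 < (topTailCond i j).val u v d S' := by
  rcases lt_or_ge d (1600 / 10000) with g2 | g2
  · rcases lt_or_ge v (34200 / 10000) with g4 | g4
    · exact ⟨8351, 0, Ex.pos_of_checkQuick top_tail_41 (side_mem_four (by push_cast; linarith) (by push_cast; linarith))
        (side_mem_four (by push_cast; linarith) (by push_cast; linarith))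
        (side_mem_four (by push_cast; linarith) (by push_cast; linarith)) hS⟩
    · exact ⟨228761, 0, Ex.pos_of_checkQuick top_tail_42 (side_mem_four (by push_cast; linarith) (by push_cast; linarith))
        (side_mem_four (by push_cast; linarith) (by push_cast; linarith))
        (side_mem_four (by push_cast; linarith) (by push_cast; linarith)) hS⟩
  · exact top_tail_part_6 hu hu1 hv hv1 hphi hA hD h0 h1 (by linarith) (by linarith) (by linarith) hS

theorem top_tail_part_4 {u v d S' : ℝ} (hu : 9750 / 10000 ≤ u) (hu1 : u < 9876 / 10000)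
    (hv : 33 / 100 ≤ v) (hv1 : v ≤ 89 / 20) (hphi : u ≤ 19 / 20 → v < phiFarTop d u)
    (hA : (3 / 5 - d) * v < 2) (hD : d * v < 2 / 3) (h0 : 3 / 25 ≤ d) (h1 : d ≤ 1 / 5)
    (e0 : 23900 / 10000 ≤ v)
    (hS : sideS.Mem S') : ∃ i j : ℕ, 0 < (topTailCond i j).val u v d S' := by
  rcases lt_or_ge u (9824 / 10000) with g2 | g2
  · exact top_tail_part_5 hu hu1 hv hv1 hphi hA hD h0 h1 (by linarith) (by linarith) hS
  · exact top_tail_part_9 hu hu1 hv hv1 hphi hA hD h0 h1 (by linarith) (by linarith) hS

theorem top_tail_sign_4 {u v d S' : ℝ} (hu : 9750 / 10000 ≤ u) (hu1 : u < 9876 / 10000)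
    (hv : 33 / 100 ≤ v) (hv1 : v ≤ 89 / 20) (hphi : u ≤ 19 / 20 → v < phiFarTop d u)
    (hA : (3 / 5 - d) * v < 2) (hD : d * v < 2 / 3) (h0 : 3 / 25 ≤ d) (h1 : d ≤ 1 / 5)
    (hS : sideS.Mem S') : ∃ i j : ℕ, 0 < (topTailCond i j).val u v d S' := by
  rcases lt_or_ge v (23900 / 10000) with g2 | g2
  · rcases lt_or_ge u (9824 / 10000) with g4 | g4
    · rcases lt_or_ge d (1600 / 10000) with g6 | g6
      · exact ⟨0, 892, Ex.pos_of_checkQuick top_tail_36 (side_mem_four (by push_cast; linarith) (by push_cast; linarith))
          (side_mem_four (by push_cast; linarith) (by push_cast; linarith))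
          (side_mem_four (by push_cast; linarith) (by push_cast; linarith)) hS⟩
      · rcases lt_or_ge v (13600 / 10000) with g8 | g8
        · exact ⟨0, 9133, Ex.pos_of_checkQuick top_tail_37 (side_mem_four (by push_cast; linarith) (by push_cast; linarith))
            (side_mem_four (by push_cast; linarith) (by push_cast; linarith))
            (side_mem_four (by push_cast; linarith) (by push_cast; linarith)) hS⟩
        · exact ⟨0, 0, Ex.pos_of_checkQuick top_tail_38 (side_mem_four (by push_cast; linarith) (by push_cast; linarith))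
            (side_mem_four (by push_cast; linarith) (by push_cast; linarith))
            (side_mem_four (by push_cast; linarith) (by push_cast; linarith)) hS⟩
    · rcases lt_or_ge d (1600 / 10000) with g6 | g6
      · exact ⟨0, 1052, Ex.pos_of_checkQuick top_tail_39 (side_mem_four (by push_cast; linarith) (by push_cast; linarith))
          (side_mem_four (by push_cast; linarith) (by push_cast; linarith))
          (side_mem_four (by push_cast; linarith) (by push_cast; linarith)) hS⟩
      · exact ⟨0, 0, Ex.pos_of_checkQuick top_tail_40 (side_mem_four (by push_cast; linarith) (by push_cast; linarith))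
          (side_mem_four (by push_cast; linarith) (by push_cast; linarith))
          (side_mem_four (by push_cast; linarith) (by push_cast; linarith)) hS⟩
  · exact top_tail_part_4 hu hu1 hv hv1 hphi hA hD h0 h1 (by linarith) hS

/-- The band. -/
noncomputable def lowTailTop (d : ℝ) : ℝ → ℝ :=
  tailL (48300 / 10000 - 78000 / 10000 * d) (-281 / 10000 + 279249 / 10000 * d) (7517 / 10000 - 70471 / 10000 * d) (1655 / 10000) (293 / 10000) d

theorem top_tail_sign {u v d S' : ℝ} (hu : 3 / 5 ≤ u) (hu1 : u ≤ 79 / 80)
    (hv : 33 / 100 ≤ v) (hv1 : v ≤ 89 / 20) (hphi : u ≤ 19 / 20 → v < phiFarTop d u)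
    (hA : (3 / 5 - d) * v < 2) (hD : d * v < 2 / 3) (h0 : 3 / 25 ≤ d) (h1 : d ≤ 1 / 5)
    (hS : sideS.Mem S') : ∃ i j : ℕ, 0 < (topTailCond i j).val u v d S' := by
  rcases lt_or_ge u (8000 / 10000) with g0 | g0
  · exact top_tail_sign_0 (by linarith) g0 hv hv1 hphi hA hD h0 h1 hS
  rcases lt_or_ge u (9000 / 10000) with g1 | g1
  · exact top_tail_sign_1 (by linarith) g1 hv hv1 hphi hA hD h0 h1 hS
  rcases lt_or_ge u (9500 / 10000) with g2 | g2
  · exact top_tail_sign_2 (by linarith) g2 hv hv1 hphi hA hD h0 h1 hS
  rcases lt_or_ge u (9750 / 10000) with g3 | g3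
  · exact top_tail_sign_3 (by linarith) g3 hv hv1 hphi hA hD h0 h1 hS
  exact top_tail_sign_4 (by linarith) (by linarith) hv hv1 hphi hA hD h0 h1 hS

theorem top_tail_val {u v d S' : ℝ} :
    topTailN.val u v d S' = tailN (48300 / 10000 - 78000 / 10000 * d) (-281 / 10000 + 279249 / 10000 * d) (7517 / 10000 - 70471 / 10000 * d) (1655 / 10000) (293 / 10000) u ∧
      topTailG.val u v d S' = tailG (1655 / 10000) (293 / 10000) d u ∧
      topTailM.val u v d S' = tailM (48300 / 10000 - 78000 / 10000 * d) (-281 / 10000 + 279249 / 10000 * d) (7517 / 10000 - 70471 / 10000 * d) (1655 / 10000) (293 / 10000) d u := by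
  refine ⟨?_, ?_, ?_⟩ <;>
    simp only [topTailN, topTailG, topTailM, val_tailN, val_tailG, val_tailM, topTailA0, topTailA1,
      topTailA2, topTailPa, topTailPb, Ex.val] <;>
    push_cast <;> ring_nf

theorem top_tail_before {u d : ℝ} (hu : 0 ≤ u) (hu1 : u ≤ 3 / 5) (h0 : 3 / 25 ≤ d) (h1 : d ≤ 1 / 5)
    {S' : ℝ} (hS : sideS.Mem S') :
    d * (u * (lowTailTop d u - ((4 / 5 - 31 / 25 * d) + (42 / 25 - 29 / 5 * d) * u + (1 / 4 - 9 / 2 * d) * u ^ 2))) ≤ (3 / 5 - u) ^ 2 := by
  have key := Ex.pos_of_checkQuick top_tail_before_check (y₀ := u) (y₁ := 33 / 100) (y₂ := d)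
    (y₃ := S') (side_mem_four (by push_cast; linarith) (by push_cast; linarith))
    (side_mem_four (by norm_num) (by norm_num)) (side_mem_four (by push_cast; linarith) (by push_cast; linarith)) hS
  have hd : 0 ≤ d := by linarith
  have hG := tailG_pos (a := 1655 / 10000) (b := 293 / 10000) hd (u := u) (by linarith) (by linarith)
  rw [topTailBefore] at key
  simp only [Ex.val, top_tail_val.1, top_tail_val.2.1] at key
  rw [tailN_eq (d := d) hd (show u < 1 + 1655 / 10000 by linarith) (show u < 1 + 293 / 10000 by linarith)] at key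
  refine le_of_mul_le_mul_right ?_ hG
  simp only [lowTailTop]
  push_cast at key
  linarith

end Vale.Agent.P100.Calib.Band
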