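import Vale.Agent.P100.Calib.SlabTailTopDefs
import Vale.Agent.P100.Calib.BoxPosFast

/-!
# The start of the band past 3/5, top piece
-/

namespace Vale.Agent.P100.Calib.Band

open BoxPos

/-- The start condition. -/
def topTailBefore : Ex :=
  Ex.sub (Ex.mul (Ex.mul (Ex.sub (eC 3 5) eU) (Ex.sub (eC 3 5) eU)) topTailG)
    (Ex.mul (Ex.mul eD eU) (Ex.sub topTailN (Ex.mul (Ex.add (Ex.add (Ex.sub (eC 4 5) (Ex.mul (eC 31 25) eD)) (Ex.mul (Ex.sub (eC 42 25) (Ex.mul (eC 29 5) eD)) eU)) (Ex.mul (Ex.sub (eC 1 4) (Ex.mul (eC 9 2) eD)) (Ex.mul eU eU))) topTailG)))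

theorem top_tail_before_check : topTailBefore.checkQuick topTailCfg
    (topTailBox 0 6001 3300 3301 1200 2001) = true := by decide +kernel

end Vale.Agent.P100.Calib.Band
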