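import Vale.Agent.P100.Calib.SlabTailExpr
import Vale.Agent.P100.Calib.SlabForwardUpper

/-!
# Tilted upper bands past `u = 3/5`

`a = A₀/(D (e + k d)) + B + C (u - 3/5)/(e + q)` with `e = 1 - u`, `D = 1 + A₁ d + A₂ d²`, and the
numerator of its rung at `τ = a + b v`.
-/

namespace Vale.Agent.P100.Calib.Band

open BoxPos

local instance upperAdd : Add Ex := ⟨Ex.add⟩
local instance upperSub : Sub Ex := ⟨Ex.sub⟩
local instance upperMul : Mul Ex := ⟨Ex.mul⟩

/-- The band. -/
noncomputable def upA (A₀ den p q B C u : ℝ) : ℝ :=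
  A₀ / (den * (1 - u + p)) + B + C * ((u - 3 / 5) / (1 - u + q))

/-- Its derivative. -/
noncomputable def upD (A₀ den p q C u : ℝ) : ℝ :=
  A₀ / den / (1 - u + p) ^ 2 + C * ((2 / 5 + q) / (1 - u + q) ^ 2)

/-- The denominator. -/
noncomputable def upG (den p q u : ℝ) : ℝ := (1 - u + p) * (1 - u + q) * den

/-- The numerator. -/
noncomputable def upN (A₀ den p q B C u : ℝ) : ℝ :=
  A₀ * (1 - u + q) + B * upG den p q u + C * (u - 3 / 5) * (1 - u + p) * den

/-- `G ^ 2` times the derivative. -/
noncomputable def upM (A₀ den p q C u : ℝ) : ℝ :=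
  A₀ * den * ((1 - u + q) * (1 - u + q)) +
    C * (2 / 5 + q) * ((1 - u + p) * (1 - u + p)) * (den * den)

theorem upG_pos {den p q u : ℝ} (hden : 0 < den) (hp : u < 1 + p) (hq : u < 1 + q) :
    0 < upG den p q u :=
  mul_pos (mul_pos (by linarith) (by linarith)) hden

theorem upN_eq {A₀ den p q B C u : ℝ} (hden : 0 < den) (hp : u < 1 + p) (hq : u < 1 + q) :
    upN A₀ den p q B C u = upA A₀ den p q B C u * upG den p q u := by
  have h1 : 1 - u + p ≠ 0 := by linarith
  have h2 : 1 - u + q ≠ 0 := by linarith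
  simp only [upN, upA, upG]
  generalize 1 - u + p = P at h1 ⊢
  generalize 1 - u + q = Q at h2 ⊢
  field_simp

theorem upM_eq {A₀ den p q C u : ℝ} (hden : 0 < den) (hp : u < 1 + p) (hq : u < 1 + q) :
    upM A₀ den p q C u = upD A₀ den p q C u * upG den p q u ^ 2 := by
  have h1 : 1 - u + p ≠ 0 := by linarith
  have h2 : 1 - u + q ≠ 0 := by linarith
  simp only [upM, upD, upG]
  generalize 1 - u + p = P at h1 ⊢
  generalize 1 - u + q = Q at h2 ⊢
  field_simp

theorem hasDerivAt_up {A₀ den p q B C u : ℝ} (hden : 0 < den) (hp : u < 1 + p) (hq : u < 1 + q) :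
    HasDerivAt (upA A₀ den p q B C) (upD A₀ den p q C u) u := by
  have h1 : (1 : ℝ) - u + p ≠ 0 := by linarith
  refine ((((hasDerivAt_const u A₀).fun_div
    ((((hasDerivAt_id u).const_sub 1).add_const p).const_mul den)
    (mul_ne_zero hden.ne' (by simpa using h1))).add_const B).fun_add
    ((((hasDerivAt_id u).sub_const (3 / 5)).fun_div (((hasDerivAt_id u).const_sub 1).add_const q)
      (by simp only [id_eq]; linarith)).const_mul C)).congr_deriv ?_
  simp only [upD, id_eq]
  generalize hP : 1 - u + p = P at h1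
  field_simp
  ring

/-- `upG`. -/
def eUpG (den p q : Ex) : Ex := (eC 1 - eU + p) * (eC 1 - eU + q) * den

/-- `upN`. -/
def eUpN (A₀ den p q B C : Ex) : Ex :=
  A₀ * (eC 1 - eU + q) + B * eUpG den p q + C * (eU - eC 3 5) * (eC 1 - eU + p) * den

/-- `upM`. -/
def eUpM (A₀ den p q C : Ex) : Ex :=
  A₀ * den * ((eC 1 - eU + q) * (eC 1 - eU + q)) +
    C * (eC 2 5 + q) * ((eC 1 - eU + p) * (eC 1 - eU + p)) * (den * den)

/-- The condition of the rung: `upperV - i lieE - j dv`, `i`, `j` in thousandths. -/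
def eUpCond (N G M b : Ex) (i j : ℕ) : Ex :=
  let n := N + b * eV * G
  eB * b * eU * (G * G) * eDvH n G + eB * eU * M * eLieE n G -
    G * (eLieA n G - n * eB * eLieE n G) -
    eC i 1000 * (G * G * eLieE n G) - eC j 1000 * (G * G * eDvH n G)

theorem val_addU (a b : Ex) (u v d S : ℝ) :
    (a + b).val u v d S = a.val u v d S + b.val u v d S := rfl

theorem val_subU (a b : Ex) (u v d S : ℝ) :
    (a - b).val u v d S = a.val u v d S - b.val u v d S := rfl

theorem val_mulU (a b : Ex) (u v d S : ℝ) :
    (a * b).val u v d S = a.val u v d S * b.val u v d S := rfl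

variable (A₀ den p q B C : Ex) (u v d S : ℝ)

theorem val_upG : (eUpG den p q).val u v d S =
    upG (den.val u v d S) (p.val u v d S) (q.val u v d S) u := by
  simp only [eUpG, val_mulU, val_addU, val_subU, Ex.val, upG]
  push_cast
  ring

theorem val_upN : (eUpN A₀ den p q B C).val u v d S = upN (A₀.val u v d S) (den.val u v d S)
    (p.val u v d S) (q.val u v d S) (B.val u v d S) (C.val u v d S) u := by
  simp only [eUpN, val_mulU, val_addU, val_subU, val_upG, Ex.val, upN]
  push_cast
  ring

theorem val_upM : (eUpM A₀ den p q C).val u v d S = upM (A₀.val u v d S) (den.val u v d S)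
    (p.val u v d S) (q.val u v d S) (C.val u v d S) u := by
  simp only [eUpM, val_mulU, val_addU, val_subU, Ex.val, upM]
  push_cast
  ring

/-- The condition gives `upperV > 0` where `lieE` and `dv` are positive. -/
theorem upperV_pos_of_cond {N G M b : Ex} {i j : ℕ} {a a' β : ℝ}
    (h : 0 < (eUpCond N G M b i j).val u v d S) (hG : 0 < G.val u v d S)
    (hn : N.val u v d S = a * G.val u v d S)
    (hm : M.val u v d S = a' * G.val u v d S ^ 2) (hβ : b.val u v d S = β)
    (he : 0 < lieE S d u v (a + β * v) 1) (hp : 0 < exitP S d u v (a + β * v) 1 0) :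
    0 < upperV S d u v (a + β * v) β a' := by
  obtain ⟨hB, hA, hQ⟩ := val_rat_parts u v d S
  have hn' : (N + b * eV * G).val u v d S = (a + β * v) * G.val u v d S := by
    simp only [val_addU, val_mulU, Ex.val, hn, hβ]
    ring
  have e1 : (eLieE (N + b * eV * G) G).val u v d S =
      G.val u v d S * lieE S d u v (a + β * v) 1 := by
    rw [val_lieE, hn']
    simp only [lieE]
    ring
  have e2 : (eDvH (N + b * eV * G) G).val u v d S =
      G.val u v d S * exitP S d u v (a + β * v) 1 0 := by
    generalize hN : N + b * eV * G = n at hn' ⊢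
    simp only [eDvH, val_addT, val_subT, val_mulT, Ex.val, hB, hA, hQ, exitP, bandD, bandK, hn']
    push_cast
    ring
  have e3 : (eLieA (N + b * eV * G) G).val u v d S -
      (N + b * eV * G).val u v d S * bandB S d * (eLieE (N + b * eV * G) G).val u v d S =
      G.val u v d S ^ 2 * lieT S d u v (a + β * v) 0 0 := by
    rw [e1, val_lieA, hn']
    simp only [lieA, lieE, lieT, bandK, bandD]
    generalize bandB S d = B
    generalize bandQ S d u v = Q
    ring
  simp only [eUpCond, val_subU, val_mulU, val_addU (eB * b * eU * (G * G) * _), e1, e2, hB, hm,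
    hβ] at h e3
  rw [e3] at h
  simp only [Ex.val, Int.cast_natCast, Nat.cast_ofNat] at h
  set g := G.val u v d S
  have h1 := mul_nonneg (show (0 : ℝ) ≤ i / 1000 by positivity)
    (mul_nonneg (pow_nonneg hG.le 3) he.le)
  have h2 := mul_nonneg (show (0 : ℝ) ≤ j / 1000 by positivity)
    (mul_nonneg (pow_nonneg hG.le 3) hp.le)
  refine pos_of_mul_pos_right (a := g ^ 3) ?_ (pow_nonneg hG.le 3)
  simp only [upperV]
  linarith

end Vale.Agent.P100.Calib.Band
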