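import Vale.Agent.P100.Calib.SlabUpperExpr
import Vale.Agent.P100.Calib.SlabRungChecks
import Vale.Agent.P100.Calib.BoxPosFast

/-!
Mid Certificates of the tilted upper band, mid piece
-/

namespace Vale.Agent.P100.Calib.Band

open BoxPos

/-- A coefficient. -/
def midUA : Ex := eC 6366 10000

/-- A coefficient. -/
def midUDen : Ex := Ex.add (Ex.add (eC 1) (Ex.mul (eC 74368 10000) eD)) (Ex.mul (eC 64 10000) (Ex.mul eD eD))

/-- A coefficient. -/
def midUP : Ex := Ex.mul (eC 8381 10000) eD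

/-- A coefficient. -/
def midUQ : Ex := eC 1000 10000

/-- A coefficient. -/
def midUB : Ex := Ex.add (eC 17465 10000) (Ex.mul (eC (-76155) 10000) eD)

/-- A coefficient. -/
def midUC : Ex := Ex.add (eC (-4805) 10000) (Ex.mul (eC 22219 10000) eD)

/-- A coefficient. -/
def midUb : Ex := Ex.add (eC 17704 10000) (Ex.mul (eC (-84200) 10000) eD)

/-- The denominator. -/
def midUpG : Ex := eUpG midUDen midUP midUQ

/-- The numerator. -/
def midUpN : Ex := eUpN midUA midUDen midUP midUQ midUB midUC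

/-- The slope numerator. -/
def midUpM : Ex := eUpM midUA midUDen midUP midUQ midUC

/-- The condition. -/
def midUpCond (i j : ℕ) : Ex := eUpCond midUpN midUpG midUpM midUb i j

/-- The start condition. -/
def midUpBefore : Ex :=
  Ex.sub (Ex.mul (Ex.mul (Ex.mul (eC 50) (Ex.sub (eC 3 5) eU)) (Ex.sub (eC 3 5) eU)) midUpG)
    (Ex.mul (Ex.mul eD eU) (Ex.sub (Ex.sub (Ex.mul (Ex.add (Ex.add (Ex.sub (eC 161 100) (Ex.mul (eC 28 5) eD))
      (Ex.mul (Ex.sub (eC 7 10) (Ex.mul (eC 4) eD)) eU)) (Ex.mul (Ex.sub (eC 89 20) (Ex.mul (eC 45 2) eD))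
      (Ex.mul eU eU))) midUpG) midUpN) (Ex.mul (Ex.mul midUb (eC 33 100)) midUpG)))

/-- The packing. -/
def midUpCfg : Cfg := ⟨640, ⟨9, 3, 16, 6⟩⟩

theorem mid_up_0 : (midUpCond 0 439).checkQuick midUpCfg
    ⟨⟨6000, 7171, 10000⟩, ⟨3300, 15156, 10000⟩, ⟨500, 850, 10000⟩, sideS⟩ = true := by decide +kernel

theorem mid_up_1 : (midUpCond 0 391).checkQuick midUpCfg
    ⟨⟨6000, 7171, 10000⟩, ⟨3300, 15156, 10000⟩, ⟨850, 1201, 10000⟩, sideS⟩ = true := by decide +kernel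

theorem mid_up_2 : (midUpCond 0 489).checkQuick midUpCfg
    ⟨⟨7171, 7621, 10000⟩, ⟨3300, 9228, 10000⟩, ⟨500, 675, 10000⟩, sideS⟩ = true := by decide +kernel

theorem mid_up_3 : (midUpCond 0 477).checkQuick midUpCfg
    ⟨⟨7171, 7621, 10000⟩, ⟨3300, 9228, 10000⟩, ⟨675, 850, 10000⟩, sideS⟩ = true := by decide +kernel

theorem mid_up_4 : (midUpCond 0 580).checkQuick midUpCfg
    ⟨⟨7621, 8000, 10000⟩, ⟨3300, 9228, 10000⟩, ⟨500, 850, 10000⟩, sideS⟩ = true := by decide +kernel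

theorem mid_up_5 : (midUpCond 0 0).checkQuick midUpCfg
    ⟨⟨7171, 8000, 10000⟩, ⟨9228, 15156, 10000⟩, ⟨500, 850, 10000⟩, sideS⟩ = true := by decide +kernel

theorem mid_up_6 : (midUpCond 0 453).checkQuick midUpCfg
    ⟨⟨7171, 8000, 10000⟩, ⟨3300, 9228, 10000⟩, ⟨850, 1201, 10000⟩, sideS⟩ = true := by decide +kernel

theorem mid_up_7 : (midUpCond 0 0).checkQuick midUpCfg
    ⟨⟨7171, 8000, 10000⟩, ⟨9228, 15156, 10000⟩, ⟨850, 1201, 10000⟩, sideS⟩ = true := by decide +kernel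

theorem mid_up_8 : (midUpCond 0 0).checkQuick midUpCfg
    ⟨⟨6000, 8000, 10000⟩, ⟨15156, 27012, 10000⟩, ⟨500, 1201, 10000⟩, sideS⟩ = true := by decide +kernel

theorem mid_up_9 : (midUpCond 0 749).checkQuick midUpCfg
    ⟨⟨8000, 8317, 10000⟩, ⟨3300, 8097, 10000⟩, ⟨500, 675, 10000⟩, sideS⟩ = true := by decide +kernel

theorem mid_up_10 : (midUpCond 0 0).checkQuick midUpCfg
    ⟨⟨8000, 8317, 10000⟩, ⟨8097, 12894, 10000⟩, ⟨500, 675, 10000⟩, sideS⟩ = true := by decide +kernel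

theorem mid_up_11 : (midUpCond 0 626).checkQuick midUpCfg
    ⟨⟨8000, 8317, 10000⟩, ⟨3300, 8097, 10000⟩, ⟨675, 850, 10000⟩, sideS⟩ = true := by decide +kernel

theorem mid_up_12 : (midUpCond 0 0).checkQuick midUpCfg
    ⟨⟨8000, 8317, 10000⟩, ⟨8097, 12894, 10000⟩, ⟨675, 850, 10000⟩, sideS⟩ = true := by decide +kernel

theorem mid_up_13 : (midUpCond 0 529).checkQuick midUpCfg
    ⟨⟨8317, 8585, 10000⟩, ⟨3300, 12894, 10000⟩, ⟨500, 850, 10000⟩, sideS⟩ = true := by decide +kernel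

theorem mid_up_14 : (midUpCond 0 0).checkQuick midUpCfg
    ⟨⟨8000, 8585, 10000⟩, ⟨12894, 22488, 10000⟩, ⟨500, 850, 10000⟩, sideS⟩ = true := by decide +kernel

theorem mid_up_15 : (midUpCond 0 533).checkQuick midUpCfg
    ⟨⟨8000, 8317, 10000⟩, ⟨3300, 8097, 10000⟩, ⟨850, 1025, 10000⟩, sideS⟩ = true := by decide +kernel

theorem mid_up_16 : (midUpCond 0 0).checkQuick midUpCfg
    ⟨⟨8000, 8317, 10000⟩, ⟨8097, 12894, 10000⟩, ⟨850, 1025, 10000⟩, sideS⟩ = true := by decide +kernel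

theorem mid_up_17 : (midUpCond 0 462).checkQuick midUpCfg
    ⟨⟨8000, 8317, 10000⟩, ⟨3300, 8097, 10000⟩, ⟨1025, 1201, 10000⟩, sideS⟩ = true := by decide +kernel

theorem mid_up_18 : (midUpCond 0 0).checkQuick midUpCfg
    ⟨⟨8000, 8317, 10000⟩, ⟨8097, 12894, 10000⟩, ⟨1025, 1201, 10000⟩, sideS⟩ = true := by decide +kernel

theorem mid_up_19 : (midUpCond 0 839).checkQuick midUpCfg
    ⟨⟨8317, 8585, 10000⟩, ⟨3300, 8097, 10000⟩, ⟨850, 1025, 10000⟩, sideS⟩ = true := by decide +kernel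

theorem mid_up_20 : (midUpCond 0 0).checkQuick midUpCfg
    ⟨⟨8317, 8585, 10000⟩, ⟨8097, 12894, 10000⟩, ⟨850, 1025, 10000⟩, sideS⟩ = true := by decide +kernel

theorem mid_up_21 : (midUpCond 0 738).checkQuick midUpCfg
    ⟨⟨8317, 8585, 10000⟩, ⟨3300, 8097, 10000⟩, ⟨1025, 1201, 10000⟩, sideS⟩ = true := by decide +kernel

theorem mid_up_22 : (midUpCond 0 0).checkQuick midUpCfg
    ⟨⟨8317, 8585, 10000⟩, ⟨8097, 12894, 10000⟩, ⟨1025, 1201, 10000⟩, sideS⟩ = true := by decide +kernel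

theorem mid_up_23 : (midUpCond 0 0).checkQuick midUpCfg
    ⟨⟨8000, 8585, 10000⟩, ⟨12894, 22488, 10000⟩, ⟨850, 1201, 10000⟩, sideS⟩ = true := by decide +kernel

theorem mid_up_24 : (midUpCond 0 14415).checkQuick midUpCfg
    ⟨⟨8585, 8810, 10000⟩, ⟨3300, 8097, 10000⟩, ⟨500, 675, 10000⟩, sideS⟩ = true := by decide +kernel

theorem mid_up_25 : (midUpCond 0 347).checkQuick midUpCfg
    ⟨⟨8585, 8810, 10000⟩, ⟨8097, 12894, 10000⟩, ⟨500, 675, 10000⟩, sideS⟩ = true := by decide +kernel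

theorem mid_up_26 : (midUpCond 0 424).checkQuick midUpCfg
    ⟨⟨8585, 8810, 10000⟩, ⟨3300, 12894, 10000⟩, ⟨675, 850, 10000⟩, sideS⟩ = true := by decide +kernel

theorem mid_up_27 : (midUpCond 0 534).checkQuick midUpCfg
    ⟨⟨8810, 9000, 10000⟩, ⟨3300, 12894, 10000⟩, ⟨500, 850, 10000⟩, sideS⟩ = true := by decide +kernel

theorem mid_up_28 : (midUpCond 0 0).checkQuick midUpCfg
    ⟨⟨8585, 9000, 10000⟩, ⟨12894, 22488, 10000⟩, ⟨500, 850, 10000⟩, sideS⟩ = true := by decide +kernel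

theorem mid_up_29 : (midUpCond 0 443).checkQuick midUpCfg
    ⟨⟨8585, 8810, 10000⟩, ⟨3300, 12894, 10000⟩, ⟨850, 1025, 10000⟩, sideS⟩ = true := by decide +kernel

theorem mid_up_30 : (midUpCond 0 8977).checkQuick midUpCfg
    ⟨⟨8585, 8810, 10000⟩, ⟨3300, 8097, 10000⟩, ⟨1025, 1201, 10000⟩, sideS⟩ = true := by decide +kernel

theorem mid_up_31 : (midUpCond 0 0).checkQuick midUpCfg
    ⟨⟨8585, 8810, 10000⟩, ⟨8097, 12894, 10000⟩, ⟨1025, 1201, 10000⟩, sideS⟩ = true := by decide +kernel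

theorem mid_up_32 : (midUpCond 0 355).checkQuick midUpCfg
    ⟨⟨8810, 9000, 10000⟩, ⟨3300, 12894, 10000⟩, ⟨850, 1201, 10000⟩, sideS⟩ = true := by decide +kernel

theorem mid_up_33 : (midUpCond 0 0).checkQuick midUpCfg
    ⟨⟨8585, 9000, 10000⟩, ⟨12894, 22488, 10000⟩, ⟨850, 1201, 10000⟩, sideS⟩ = true := by decide +kernel

theorem mid_up_34 : (midUpCond 0 0).checkQuick midUpCfg
    ⟨⟨8000, 9000, 10000⟩, ⟨22488, 41677, 10000⟩, ⟨500, 1201, 10000⟩, sideS⟩ = true := by decide +kernel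

theorem mid_up_35 : (midUpCond 0 244).checkQuick midUpCfg
    ⟨⟨9000, 9500, 10000⟩, ⟨3300, 22488, 10000⟩, ⟨500, 1201, 10000⟩, sideS⟩ = true := by decide +kernel

theorem mid_up_36 : (midUpCond 0 0).checkQuick midUpCfg
    ⟨⟨9000, 9500, 10000⟩, ⟨22488, 41677, 10000⟩, ⟨500, 1201, 10000⟩, sideS⟩ = true := by decide +kernel

theorem mid_up_37 : (midUpCond 0 0).checkQuick midUpCfg
    ⟨⟨9500, 9647, 10000⟩, ⟨3300, 22488, 10000⟩, ⟨500, 1201, 10000⟩, sideS⟩ = true := by decide +kernel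

theorem mid_up_38 : (midUpCond 0 0).checkQuick midUpCfg
    ⟨⟨9647, 9751, 10000⟩, ⟨3300, 22488, 10000⟩, ⟨500, 1201, 10000⟩, sideS⟩ = true := by decide +kernel

theorem mid_up_39 : (midUpCond 3533 0).checkQuick midUpCfg
    ⟨⟨9500, 9647, 10000⟩, ⟨22488, 41677, 10000⟩, ⟨500, 1201, 10000⟩, sideS⟩ = true := by decide +kernel

theorem mid_up_40 : (midUpCond 0 0).checkQuick midUpCfg
    ⟨⟨9647, 9703, 10000⟩, ⟨22488, 30662, 10000⟩, ⟨500, 850, 10000⟩, sideS⟩ = true := by decide +kernel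

theorem mid_up_41 : (midUpCond 0 0).checkQuick midUpCfg
    ⟨⟨9703, 9751, 10000⟩, ⟨22488, 26575, 10000⟩, ⟨500, 675, 10000⟩, sideS⟩ = true := by decide +kernel

theorem mid_up_42 : (midUpCond 21373 0).checkQuick midUpCfg
    ⟨⟨9703, 9751, 10000⟩, ⟨26575, 30662, 10000⟩, ⟨500, 675, 10000⟩, sideS⟩ = true := by decide +kernel

theorem mid_up_43 : (midUpCond 0 0).checkQuick midUpCfg
    ⟨⟨9703, 9751, 10000⟩, ⟨22488, 30662, 10000⟩, ⟨675, 850, 10000⟩, sideS⟩ = true := by decide +kernel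

theorem mid_up_44 : (midUpCond 860337 0).checkQuick midUpCfg
    ⟨⟨9647, 9751, 10000⟩, ⟨30662, 38836, 10000⟩, ⟨500, 850, 10000⟩, sideS⟩ = true := by decide +kernel

theorem mid_up_45 : (midUpCond 0 0).checkQuick midUpCfg
    ⟨⟨9647, 9751, 10000⟩, ⟨22488, 41677, 10000⟩, ⟨850, 1201, 10000⟩, sideS⟩ = true := by decide +kernel

theorem mid_up_before_a : midUpBefore.checkQuick midUpCfg
    ⟨⟨0, 4000, 10000⟩, ⟨3300, 3301, 10000⟩, ⟨500, 1201, 10000⟩, sideS⟩ = true := by decide +kernel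

theorem mid_up_before_b : midUpBefore.checkQuick midUpCfg
    ⟨⟨4000, 5500, 10000⟩, ⟨3300, 3301, 10000⟩, ⟨500, 1201, 10000⟩, sideS⟩ = true := by decide +kernel

theorem mid_up_before_c : midUpBefore.checkQuick midUpCfg
    ⟨⟨5500, 6001, 10000⟩, ⟨3300, 3301, 10000⟩, ⟨500, 850, 10000⟩, sideS⟩ = true := by decide +kernel

theorem mid_up_before_e : midUpBefore.checkQuick midUpCfg
    ⟨⟨5500, 6001, 10000⟩, ⟨3300, 3301, 10000⟩, ⟨850, 1201, 10000⟩, sideS⟩ = true := by decide +kernel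

end Vale.Agent.P100.Calib.Band
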