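import Vale.Agent.P100.Calib.SlabUpperMidChecks
import Vale.Agent.P100.Calib.SlabTailSide
import Vale.Agent.P100.Calib.SlabRungs

/-!
# The signs of the tilted upper band, mid piece
-/

namespace Vale.Agent.P100.Calib.Band

open BoxPos Bubble Chart

theorem mid_up_part_1 {u v d S' : ℝ} (hu : 6000 / 10000 ≤ u) (hu1 : u < 8000 / 10000)
    (hv : 33 / 100 ≤ v) (hv1 : v ≤ 89 / 20) (hphi : u ≤ 9 / 10 → v < phiTwo u)
    (hA : (3 / 5 - d) * v < 2) (hD : d * v < 2 / 3) (h0 : 1 / 20 ≤ d) (h1 : d ≤ 3 / 25)
    (e0 : v < 27012 / 10000)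
    (e1 : v < 15156 / 10000)
    (e2 : 7171 / 10000 ≤ u)
    (hS : sideS.Mem S') : ∃ i j : ℕ, 0 < (midUpCond i j).val u v d S' := by
  rcases lt_or_ge d (850 / 10000) with g2 | g2
  · rcases lt_or_ge v (9228 / 10000) with g4 | g4
    · rcases lt_or_ge u (7621 / 10000) with g6 | g6
      · rcases lt_or_ge d (675 / 10000) with g8 | g8
        · exact ⟨0, 489, Ex.pos_of_checkQuick mid_up_2 (side_mem_four (by push_cast; linarith) (by push_cast; linarith))
            (side_mem_four (by push_cast; linarith) (by push_cast; linarith))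
            (side_mem_four (by push_cast; linarith) (by push_cast; linarith)) hS⟩
        · exact ⟨0, 477, Ex.pos_of_checkQuick mid_up_3 (side_mem_four (by push_cast; linarith) (by push_cast; linarith))
            (side_mem_four (by push_cast; linarith) (by push_cast; linarith))
            (side_mem_four (by push_cast; linarith) (by push_cast; linarith)) hS⟩
      · exact ⟨0, 580, Ex.pos_of_checkQuick mid_up_4 (side_mem_four (by push_cast; linarith) (by push_cast; linarith))
          (side_mem_four (by push_cast; linarith) (by push_cast; linarith))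
          (side_mem_four (by push_cast; linarith) (by push_cast; linarith)) hS⟩
    · exact ⟨0, 0, Ex.pos_of_checkQuick mid_up_5 (side_mem_four (by push_cast; linarith) (by push_cast; linarith))
        (side_mem_four (by push_cast; linarith) (by push_cast; linarith))
        (side_mem_four (by push_cast; linarith) (by push_cast; linarith)) hS⟩
  · rcases lt_or_ge v (9228 / 10000) with g4 | g4
    · exact ⟨0, 453, Ex.pos_of_checkQuick mid_up_6 (side_mem_four (by push_cast; linarith) (by push_cast; linarith))
        (side_mem_four (by push_cast; linarith) (by push_cast; linarith))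
        (side_mem_four (by push_cast; linarith) (by push_cast; linarith)) hS⟩
    · exact ⟨0, 0, Ex.pos_of_checkQuick mid_up_7 (side_mem_four (by push_cast; linarith) (by push_cast; linarith))
        (side_mem_four (by push_cast; linarith) (by push_cast; linarith))
        (side_mem_four (by push_cast; linarith) (by push_cast; linarith)) hS⟩

theorem mid_up_part_0 {u v d S' : ℝ} (hu : 6000 / 10000 ≤ u) (hu1 : u < 8000 / 10000)
    (hv : 33 / 100 ≤ v) (hv1 : v ≤ 89 / 20) (hphi : u ≤ 9 / 10 → v < phiTwo u)
    (hA : (3 / 5 - d) * v < 2) (hD : d * v < 2 / 3) (h0 : 1 / 20 ≤ d) (h1 : d ≤ 3 / 25)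
    (e0 : v < 27012 / 10000)
    (e1 : v < 15156 / 10000)
    (hS : sideS.Mem S') : ∃ i j : ℕ, 0 < (midUpCond i j).val u v d S' := by
  rcases lt_or_ge u (7171 / 10000) with g2 | g2
  · rcases lt_or_ge d (850 / 10000) with g4 | g4
    · exact ⟨0, 439, Ex.pos_of_checkQuick mid_up_0 (side_mem_four (by push_cast; linarith) (by push_cast; linarith))
        (side_mem_four (by push_cast; linarith) (by push_cast; linarith))
        (side_mem_four (by push_cast; linarith) (by push_cast; linarith)) hS⟩
    · exact ⟨0, 391, Ex.pos_of_checkQuick mid_up_1 (side_mem_four (by push_cast; linarith) (by push_cast; linarith))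
        (side_mem_four (by push_cast; linarith) (by push_cast; linarith))
        (side_mem_four (by push_cast; linarith) (by push_cast; linarith)) hS⟩
  · exact mid_up_part_1 hu hu1 hv hv1 hphi hA hD h0 h1 (by linarith) (by linarith) (by linarith) hS

theorem mid_up_sign_0 {u v d S' : ℝ} (hu : 6000 / 10000 ≤ u) (hu1 : u < 8000 / 10000)
    (hv : 33 / 100 ≤ v) (hv1 : v ≤ 89 / 20) (hphi : u ≤ 9 / 10 → v < phiTwo u)
    (hA : (3 / 5 - d) * v < 2) (hD : d * v < 2 / 3) (h0 : 1 / 20 ≤ d) (h1 : d ≤ 3 / 25)
    (hS : sideS.Mem S') : ∃ i j : ℕ, 0 < (midUpCond i j).val u v d S' := by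
  have hb27012 : v < 27012 / 10000 := by
    refine ((hphi (by linarith)).trans_le (phiTwo_mono (w := 8000 / 10000) (by linarith) (by linarith) (by norm_num))).trans_le ?_
    norm_num [phiTwo, phiG]
  rcases lt_or_ge v (15156 / 10000) with g2 | g2
  · exact mid_up_part_0 hu hu1 hv hv1 hphi hA hD h0 h1 (by linarith) (by linarith) hS
  · exact ⟨0, 0, Ex.pos_of_checkQuick mid_up_8 (side_mem_four (by push_cast; linarith) (by push_cast; linarith))
      (side_mem_four (by push_cast; linarith) (by push_cast; linarith))
      (side_mem_four (by push_cast; linarith) (by push_cast; linarith)) hS⟩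

theorem mid_up_part_7 {u v d S' : ℝ} (hu : 8000 / 10000 ≤ u) (hu1 : u < 9000 / 10000)
    (hv : 33 / 100 ≤ v) (hv1 : v ≤ 89 / 20) (hphi : u ≤ 9 / 10 → v < phiTwo u)
    (hA : (3 / 5 - d) * v < 2) (hD : d * v < 2 / 3) (h0 : 1 / 20 ≤ d) (h1 : d ≤ 3 / 25)
    (e0 : v < 41677 / 10000)
    (e1 : v < 22488 / 10000)
    (e2 : 8585 / 10000 ≤ u)
    (hS : sideS.Mem S') : ∃ i j : ℕ, 0 < (midUpCond i j).val u v d S' := by
  rcases lt_or_ge d (850 / 10000) with g2 | g2
  · rcases lt_or_ge v (12894 / 10000) with g4 | g4
    · rcases lt_or_ge u (8810 / 10000) with g6 | g6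
      · rcases lt_or_ge d (675 / 10000) with g8 | g8
        · rcases lt_or_ge v (8097 / 10000) with g10 | g10
          · exact ⟨0, 14415, Ex.pos_of_checkQuick mid_up_24 (side_mem_four (by push_cast; linarith) (by push_cast; linarith))
              (side_mem_four (by push_cast; linarith) (by push_cast; linarith))
              (side_mem_four (by push_cast; linarith) (by push_cast; linarith)) hS⟩
          · exact ⟨0, 347, Ex.pos_of_checkQuick mid_up_25 (side_mem_four (by push_cast; linarith) (by push_cast; linarith))
              (side_mem_four (by push_cast; linarith) (by push_cast; linarith))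
              (side_mem_four (by push_cast; linarith) (by push_cast; linarith)) hS⟩
        · exact ⟨0, 424, Ex.pos_of_checkQuick mid_up_26 (side_mem_four (by push_cast; linarith) (by push_cast; linarith))
            (side_mem_four (by push_cast; linarith) (by push_cast; linarith))
            (side_mem_four (by push_cast; linarith) (by push_cast; linarith)) hS⟩
      · exact ⟨0, 534, Ex.pos_of_checkQuick mid_up_27 (side_mem_four (by push_cast; linarith) (by push_cast; linarith))
          (side_mem_four (by push_cast; linarith) (by push_cast; linarith))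
          (side_mem_four (by push_cast; linarith) (by push_cast; linarith)) hS⟩
    · exact ⟨0, 0, Ex.pos_of_checkQuick mid_up_28 (side_mem_four (by push_cast; linarith) (by push_cast; linarith))
        (side_mem_four (by push_cast; linarith) (by push_cast; linarith))
        (side_mem_four (by push_cast; linarith) (by push_cast; linarith)) hS⟩
  · rcases lt_or_ge v (12894 / 10000) with g4 | g4
    · rcases lt_or_ge u (8810 / 10000) with g6 | g6
      · rcases lt_or_ge d (1025 / 10000) with g8 | g8
        · exact ⟨0, 443, Ex.pos_of_checkQuick mid_up_29 (side_mem_four (by push_cast; linarith) (by push_cast; linarith))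
            (side_mem_four (by push_cast; linarith) (by push_cast; linarith))
            (side_mem_four (by push_cast; linarith) (by push_cast; linarith)) hS⟩
        · rcases lt_or_ge v (8097 / 10000) with g10 | g10
          · exact ⟨0, 8977, Ex.pos_of_checkQuick mid_up_30 (side_mem_four (by push_cast; linarith) (by push_cast; linarith))
              (side_mem_four (by push_cast; linarith) (by push_cast; linarith))
              (side_mem_four (by push_cast; linarith) (by push_cast; linarith)) hS⟩
          · exact ⟨0, 0, Ex.pos_of_checkQuick mid_up_31 (side_mem_four (by push_cast; linarith) (by push_cast; linarith))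
              (side_mem_four (by push_cast; linarith) (by push_cast; linarith))
              (side_mem_four (by push_cast; linarith) (by push_cast; linarith)) hS⟩
      · exact ⟨0, 355, Ex.pos_of_checkQuick mid_up_32 (side_mem_four (by push_cast; linarith) (by push_cast; linarith))
          (side_mem_four (by push_cast; linarith) (by push_cast; linarith))
          (side_mem_four (by push_cast; linarith) (by push_cast; linarith)) hS⟩
    · exact ⟨0, 0, Ex.pos_of_checkQuick mid_up_33 (side_mem_four (by push_cast; linarith) (by push_cast; linarith))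
        (side_mem_four (by push_cast; linarith) (by push_cast; linarith))
        (side_mem_four (by push_cast; linarith) (by push_cast; linarith)) hS⟩

theorem mid_up_part_6 {u v d S' : ℝ} (hu : 8000 / 10000 ≤ u) (hu1 : u < 9000 / 10000)
    (hv : 33 / 100 ≤ v) (hv1 : v ≤ 89 / 20) (hphi : u ≤ 9 / 10 → v < phiTwo u)
    (hA : (3 / 5 - d) * v < 2) (hD : d * v < 2 / 3) (h0 : 1 / 20 ≤ d) (h1 : d ≤ 3 / 25)
    (e0 : v < 41677 / 10000)
    (e1 : v < 22488 / 10000)
    (e2 : u < 8585 / 10000)
    (e3 : 850 / 10000 ≤ d)
    (e4 : v < 12894 / 10000)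
    (hS : sideS.Mem S') : ∃ i j : ℕ, 0 < (midUpCond i j).val u v d S' := by
  rcases lt_or_ge u (8317 / 10000) with g2 | g2
  · rcases lt_or_ge d (1025 / 10000) with g4 | g4
    · rcases lt_or_ge v (8097 / 10000) with g6 | g6
      · exact ⟨0, 533, Ex.pos_of_checkQuick mid_up_15 (side_mem_four (by push_cast; linarith) (by push_cast; linarith))
          (side_mem_four (by push_cast; linarith) (by push_cast; linarith))
          (side_mem_four (by push_cast; linarith) (by push_cast; linarith)) hS⟩
      · exact ⟨0, 0, Ex.pos_of_checkQuick mid_up_16 (side_mem_four (by push_cast; linarith) (by push_cast; linarith))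
          (side_mem_four (by push_cast; linarith) (by push_cast; linarith))
          (side_mem_four (by push_cast; linarith) (by push_cast; linarith)) hS⟩
    · rcases lt_or_ge v (8097 / 10000) with g6 | g6
      · exact ⟨0, 462, Ex.pos_of_checkQuick mid_up_17 (side_mem_four (by push_cast; linarith) (by push_cast; linarith))
          (side_mem_four (by push_cast; linarith) (by push_cast; linarith))
          (side_mem_four (by push_cast; linarith) (by push_cast; linarith)) hS⟩
      · exact ⟨0, 0, Ex.pos_of_checkQuick mid_up_18 (side_mem_four (by push_cast; linarith) (by push_cast; linarith))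
          (side_mem_four (by push_cast; linarith) (by push_cast; linarith))
          (side_mem_four (by push_cast; linarith) (by push_cast; linarith)) hS⟩
  · rcases lt_or_ge d (1025 / 10000) with g4 | g4
    · rcases lt_or_ge v (8097 / 10000) with g6 | g6
      · exact ⟨0, 839, Ex.pos_of_checkQuick mid_up_19 (side_mem_four (by push_cast; linarith) (by push_cast; linarith))
          (side_mem_four (by push_cast; linarith) (by push_cast; linarith))
          (side_mem_four (by push_cast; linarith) (by push_cast; linarith)) hS⟩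
      · exact ⟨0, 0, Ex.pos_of_checkQuick mid_up_20 (side_mem_four (by push_cast; linarith) (by push_cast; linarith))
          (side_mem_four (by push_cast; linarith) (by push_cast; linarith))
          (side_mem_four (by push_cast; linarith) (by push_cast; linarith)) hS⟩
    · rcases lt_or_ge v (8097 / 10000) with g6 | g6
      · exact ⟨0, 738, Ex.pos_of_checkQuick mid_up_21 (side_mem_four (by push_cast; linarith) (by push_cast; linarith))
          (side_mem_four (by push_cast; linarith) (by push_cast; linarith))
          (side_mem_four (by push_cast; linarith) (by push_cast; linarith)) hS⟩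
      · exact ⟨0, 0, Ex.pos_of_checkQuick mid_up_22 (side_mem_four (by push_cast; linarith) (by push_cast; linarith))
          (side_mem_four (by push_cast; linarith) (by push_cast; linarith))
          (side_mem_four (by push_cast; linarith) (by push_cast; linarith)) hS⟩

theorem mid_up_part_5 {u v d S' : ℝ} (hu : 8000 / 10000 ≤ u) (hu1 : u < 9000 / 10000)
    (hv : 33 / 100 ≤ v) (hv1 : v ≤ 89 / 20) (hphi : u ≤ 9 / 10 → v < phiTwo u)
    (hA : (3 / 5 - d) * v < 2) (hD : d * v < 2 / 3) (h0 : 1 / 20 ≤ d) (h1 : d ≤ 3 / 25)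
    (e0 : v < 41677 / 10000)
    (e1 : v < 22488 / 10000)
    (e2 : u < 8585 / 10000)
    (e3 : 850 / 10000 ≤ d)
    (hS : sideS.Mem S') : ∃ i j : ℕ, 0 < (midUpCond i j).val u v d S' := by
  rcases lt_or_ge v (12894 / 10000) with g2 | g2
  · exact mid_up_part_6 hu hu1 hv hv1 hphi hA hD h0 h1 (by linarith) (by linarith) (by linarith) (by linarith) (by linarith) hS
  · exact ⟨0, 0, Ex.pos_of_checkQuick mid_up_23 (side_mem_four (by push_cast; linarith) (by push_cast; linarith))
      (side_mem_four (by push_cast; linarith) (by push_cast; linarith))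
      (side_mem_four (by push_cast; linarith) (by push_cast; linarith)) hS⟩

theorem mid_up_part_4 {u v d S' : ℝ} (hu : 8000 / 10000 ≤ u) (hu1 : u < 9000 / 10000)
    (hv : 33 / 100 ≤ v) (hv1 : v ≤ 89 / 20) (hphi : u ≤ 9 / 10 → v < phiTwo u)
    (hA : (3 / 5 - d) * v < 2) (hD : d * v < 2 / 3) (h0 : 1 / 20 ≤ d) (h1 : d ≤ 3 / 25)
    (e0 : v < 41677 / 10000)
    (e1 : v < 22488 / 10000)
    (e2 : u < 8585 / 10000)
    (e3 : d < 850 / 10000)
    (hS : sideS.Mem S') : ∃ i j : ℕ, 0 < (midUpCond i j).val u v d S' := by
  rcases lt_or_ge v (12894 / 10000) with g2 | g2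
  · rcases lt_or_ge u (8317 / 10000) with g4 | g4
    · rcases lt_or_ge d (675 / 10000) with g6 | g6
      · rcases lt_or_ge v (8097 / 10000) with g8 | g8
        · exact ⟨0, 749, Ex.pos_of_checkQuick mid_up_9 (side_mem_four (by push_cast; linarith) (by push_cast; linarith))
            (side_mem_four (by push_cast; linarith) (by push_cast; linarith))
            (side_mem_four (by push_cast; linarith) (by push_cast; linarith)) hS⟩
        · exact ⟨0, 0, Ex.pos_of_checkQuick mid_up_10 (side_mem_four (by push_cast; linarith) (by push_cast; linarith))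
            (side_mem_four (by push_cast; linarith) (by push_cast; linarith))
            (side_mem_four (by push_cast; linarith) (by push_cast; linarith)) hS⟩
      · rcases lt_or_ge v (8097 / 10000) with g8 | g8
        · exact ⟨0, 626, Ex.pos_of_checkQuick mid_up_11 (side_mem_four (by push_cast; linarith) (by push_cast; linarith))
            (side_mem_four (by push_cast; linarith) (by push_cast; linarith))
            (side_mem_four (by push_cast; linarith) (by push_cast; linarith)) hS⟩
        · exact ⟨0, 0, Ex.pos_of_checkQuick mid_up_12 (side_mem_four (by push_cast; linarith) (by push_cast; linarith))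
            (side_mem_four (by push_cast; linarith) (by push_cast; linarith))
            (side_mem_four (by push_cast; linarith) (by push_cast; linarith)) hS⟩
    · exact ⟨0, 529, Ex.pos_of_checkQuick mid_up_13 (side_mem_four (by push_cast; linarith) (by push_cast; linarith))
        (side_mem_four (by push_cast; linarith) (by push_cast; linarith))
        (side_mem_four (by push_cast; linarith) (by push_cast; linarith)) hS⟩
  · exact ⟨0, 0, Ex.pos_of_checkQuick mid_up_14 (side_mem_four (by push_cast; linarith) (by push_cast; linarith))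
      (side_mem_four (by push_cast; linarith) (by push_cast; linarith))
      (side_mem_four (by push_cast; linarith) (by push_cast; linarith)) hS⟩

theorem mid_up_part_3 {u v d S' : ℝ} (hu : 8000 / 10000 ≤ u) (hu1 : u < 9000 / 10000)
    (hv : 33 / 100 ≤ v) (hv1 : v ≤ 89 / 20) (hphi : u ≤ 9 / 10 → v < phiTwo u)
    (hA : (3 / 5 - d) * v < 2) (hD : d * v < 2 / 3) (h0 : 1 / 20 ≤ d) (h1 : d ≤ 3 / 25)
    (e0 : v < 41677 / 10000)
    (e1 : v < 22488 / 10000)
    (e2 : u < 8585 / 10000)
    (hS : sideS.Mem S') : ∃ i j : ℕ, 0 < (midUpCond i j).val u v d S' := by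
  rcases lt_or_ge d (850 / 10000) with g2 | g2
  · exact mid_up_part_4 hu hu1 hv hv1 hphi hA hD h0 h1 (by linarith) (by linarith) (by linarith) (by linarith) hS
  · exact mid_up_part_5 hu hu1 hv hv1 hphi hA hD h0 h1 (by linarith) (by linarith) (by linarith) (by linarith) hS

theorem mid_up_part_2 {u v d S' : ℝ} (hu : 8000 / 10000 ≤ u) (hu1 : u < 9000 / 10000)
    (hv : 33 / 100 ≤ v) (hv1 : v ≤ 89 / 20) (hphi : u ≤ 9 / 10 → v < phiTwo u)
    (hA : (3 / 5 - d) * v < 2) (hD : d * v < 2 / 3) (h0 : 1 / 20 ≤ d) (h1 : d ≤ 3 / 25)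
    (e0 : v < 41677 / 10000)
    (e1 : v < 22488 / 10000)
    (hS : sideS.Mem S') : ∃ i j : ℕ, 0 < (midUpCond i j).val u v d S' := by
  rcases lt_or_ge u (8585 / 10000) with g2 | g2
  · exact mid_up_part_3 hu hu1 hv hv1 hphi hA hD h0 h1 (by linarith) (by linarith) (by linarith) hS
  · exact mid_up_part_7 hu hu1 hv hv1 hphi hA hD h0 h1 (by linarith) (by linarith) (by linarith) hS

theorem mid_up_sign_1 {u v d S' : ℝ} (hu : 8000 / 10000 ≤ u) (hu1 : u < 9000 / 10000)
    (hv : 33 / 100 ≤ v) (hv1 : v ≤ 89 / 20) (hphi : u ≤ 9 / 10 → v < phiTwo u)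
    (hA : (3 / 5 - d) * v < 2) (hD : d * v < 2 / 3) (h0 : 1 / 20 ≤ d) (h1 : d ≤ 3 / 25)
    (hS : sideS.Mem S') : ∃ i j : ℕ, 0 < (midUpCond i j).val u v d S' := by
  have hb41677 : v < 41677 / 10000 := by
    have := mul_le_mul_of_nonneg_right (show 3 / 5 - (1201 : ℝ) / 10000 ≤ 3 / 5 - d by linarith) (show 0 ≤ v by linarith)
    linarith
  rcases lt_or_ge v (22488 / 10000) with g2 | g2
  · exact mid_up_part_2 hu hu1 hv hv1 hphi hA hD h0 h1 (by linarith) (by linarith) hS
  · exact ⟨0, 0, Ex.pos_of_checkQuick mid_up_34 (side_mem_four (by push_cast; linarith) (by push_cast; linarith))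
      (side_mem_four (by push_cast; linarith) (by push_cast; linarith))
      (side_mem_four (by push_cast; linarith) (by push_cast; linarith)) hS⟩

theorem mid_up_sign_2 {u v d S' : ℝ} (hu : 9000 / 10000 ≤ u) (hu1 : u < 9500 / 10000)
    (hv : 33 / 100 ≤ v) (hv1 : v ≤ 89 / 20) (hphi : u ≤ 9 / 10 → v < phiTwo u)
    (hA : (3 / 5 - d) * v < 2) (hD : d * v < 2 / 3) (h0 : 1 / 20 ≤ d) (h1 : d ≤ 3 / 25)
    (hS : sideS.Mem S') : ∃ i j : ℕ, 0 < (midUpCond i j).val u v d S' := by
  have hb41677 : v < 41677 / 10000 := by
    have := mul_le_mul_of_nonneg_right (show 3 / 5 - (1201 : ℝ) / 10000 ≤ 3 / 5 - d by linarith) (show 0 ≤ v by linarith)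
    linarith
  rcases lt_or_ge v (22488 / 10000) with g2 | g2
  · exact ⟨0, 244, Ex.pos_of_checkQuick mid_up_35 (side_mem_four (by push_cast; linarith) (by push_cast; linarith))
      (side_mem_four (by push_cast; linarith) (by push_cast; linarith))
      (side_mem_four (by push_cast; linarith) (by push_cast; linarith)) hS⟩
  · exact ⟨0, 0, Ex.pos_of_checkQuick mid_up_36 (side_mem_four (by push_cast; linarith) (by push_cast; linarith))
      (side_mem_four (by push_cast; linarith) (by push_cast; linarith))
      (side_mem_four (by push_cast; linarith) (by push_cast; linarith)) hS⟩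

theorem mid_up_part_9 {u v d S' : ℝ} (hu : 9500 / 10000 ≤ u) (hu1 : u < 9751 / 10000)
    (hv : 33 / 100 ≤ v) (hv1 : v ≤ 89 / 20) (hphi : u ≤ 9 / 10 → v < phiTwo u)
    (hA : (3 / 5 - d) * v < 2) (hD : d * v < 2 / 3) (h0 : 1 / 20 ≤ d) (h1 : d ≤ 3 / 25)
    (e0 : v < 41677 / 10000)
    (e1 : 22488 / 10000 ≤ v)
    (e2 : 9647 / 10000 ≤ u)
    (hS : sideS.Mem S') : ∃ i j : ℕ, 0 < (midUpCond i j).val u v d S' := by
  rcases lt_or_ge d (850 / 10000) with g2 | g2
  · have hb38836 : v < 38836 / 10000 := by
      have := mul_le_mul_of_nonneg_right (show 3 / 5 - (850 : ℝ) / 10000 ≤ 3 / 5 - d by linarith) (show 0 ≤ v by linarith)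
      linarith
    rcases lt_or_ge v (30662 / 10000) with g4 | g4
    · rcases lt_or_ge u (9703 / 10000) with g6 | g6
      · exact ⟨0, 0, Ex.pos_of_checkQuick mid_up_40 (side_mem_four (by push_cast; linarith) (by push_cast; linarith))
          (side_mem_four (by push_cast; linarith) (by push_cast; linarith))
          (side_mem_four (by push_cast; linarith) (by push_cast; linarith)) hS⟩
      · rcases lt_or_ge d (675 / 10000) with g8 | g8
        · rcases lt_or_ge v (26575 / 10000) with g10 | g10
          · exact ⟨0, 0, Ex.pos_of_checkQuick mid_up_41 (side_mem_four (by push_cast; linarith) (by push_cast; linarith))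
              (side_mem_four (by push_cast; linarith) (by push_cast; linarith))
              (side_mem_four (by push_cast; linarith) (by push_cast; linarith)) hS⟩
          · exact ⟨21373, 0, Ex.pos_of_checkQuick mid_up_42 (side_mem_four (by push_cast; linarith) (by push_cast; linarith))
              (side_mem_four (by push_cast; linarith) (by push_cast; linarith))
              (side_mem_four (by push_cast; linarith) (by push_cast; linarith)) hS⟩
        · exact ⟨0, 0, Ex.pos_of_checkQuick mid_up_43 (side_mem_four (by push_cast; linarith) (by push_cast; linarith))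
            (side_mem_four (by push_cast; linarith) (by push_cast; linarith))
            (side_mem_four (by push_cast; linarith) (by push_cast; linarith)) hS⟩
    · exact ⟨860337, 0, Ex.pos_of_checkQuick mid_up_44 (side_mem_four (by push_cast; linarith) (by push_cast; linarith))
        (side_mem_four (by push_cast; linarith) (by push_cast; linarith))
        (side_mem_four (by push_cast; linarith) (by push_cast; linarith)) hS⟩
  · exact ⟨0, 0, Ex.pos_of_checkQuick mid_up_45 (side_mem_four (by push_cast; linarith) (by push_cast; linarith))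
      (side_mem_four (by push_cast; linarith) (by push_cast; linarith))
      (side_mem_four (by push_cast; linarith) (by push_cast; linarith)) hS⟩

theorem mid_up_part_8 {u v d S' : ℝ} (hu : 9500 / 10000 ≤ u) (hu1 : u < 9751 / 10000)
    (hv : 33 / 100 ≤ v) (hv1 : v ≤ 89 / 20) (hphi : u ≤ 9 / 10 → v < phiTwo u)
    (hA : (3 / 5 - d) * v < 2) (hD : d * v < 2 / 3) (h0 : 1 / 20 ≤ d) (h1 : d ≤ 3 / 25)
    (e0 : v < 41677 / 10000)
    (e1 : 22488 / 10000 ≤ v)
    (hS : sideS.Mem S') : ∃ i j : ℕ, 0 < (midUpCond i j).val u v d S' := by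
  rcases lt_or_ge u (9647 / 10000) with g2 | g2
  · exact ⟨3533, 0, Ex.pos_of_checkQuick mid_up_39 (side_mem_four (by push_cast; linarith) (by push_cast; linarith))
      (side_mem_four (by push_cast; linarith) (by push_cast; linarith))
      (side_mem_four (by push_cast; linarith) (by push_cast; linarith)) hS⟩
  · exact mid_up_part_9 hu hu1 hv hv1 hphi hA hD h0 h1 (by linarith) (by linarith) (by linarith) hS

theorem mid_up_sign_3 {u v d S' : ℝ} (hu : 9500 / 10000 ≤ u) (hu1 : u < 9751 / 10000)
    (hv : 33 / 100 ≤ v) (hv1 : v ≤ 89 / 20) (hphi : u ≤ 9 / 10 → v < phiTwo u)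
    (hA : (3 / 5 - d) * v < 2) (hD : d * v < 2 / 3) (h0 : 1 / 20 ≤ d) (h1 : d ≤ 3 / 25)
    (hS : sideS.Mem S') : ∃ i j : ℕ, 0 < (midUpCond i j).val u v d S' := by
  have hb41677 : v < 41677 / 10000 := by
    have := mul_le_mul_of_nonneg_right (show 3 / 5 - (1201 : ℝ) / 10000 ≤ 3 / 5 - d by linarith) (show 0 ≤ v by linarith)
    linarith
  rcases lt_or_ge v (22488 / 10000) with g2 | g2
  · rcases lt_or_ge u (9647 / 10000) with g4 | g4
    · exact ⟨0, 0, Ex.pos_of_checkQuick mid_up_37 (side_mem_four (by push_cast; linarith) (by push_cast; linarith))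
        (side_mem_four (by push_cast; linarith) (by push_cast; linarith))
        (side_mem_four (by push_cast; linarith) (by push_cast; linarith)) hS⟩
    · exact ⟨0, 0, Ex.pos_of_checkQuick mid_up_38 (side_mem_four (by push_cast; linarith) (by push_cast; linarith))
        (side_mem_four (by push_cast; linarith) (by push_cast; linarith))
        (side_mem_four (by push_cast; linarith) (by push_cast; linarith)) hS⟩
  · exact mid_up_part_8 hu hu1 hv hv1 hphi hA hD h0 h1 (by linarith) (by linarith) hS

/-- The band at `v = 0`. -/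
noncomputable def upTailMid (d : ℝ) : ℝ → ℝ :=
  upA (6366 / 10000) (1 + 74368 / 10000 * d + 64 / 10000 * (d * d)) (8381 / 10000 * d) (1000 / 10000) (17465 / 10000 - 76155 / 10000 * d) (-4805 / 10000 + 22219 / 10000 * d)

/-- The tilt. -/
noncomputable def tiltMid (d : ℝ) : ℝ := (17704 / 10000 - 84200 / 10000 * d)

theorem mid_up_sign {u v d S' : ℝ} (hu : 3 / 5 ≤ u) (hu1 : u ≤ 39 / 40)
    (hv : 33 / 100 ≤ v) (hv1 : v ≤ 89 / 20) (hphi : u ≤ 9 / 10 → v < phiTwo u)
    (hA : (3 / 5 - d) * v < 2) (hD : d * v < 2 / 3) (h0 : 1 / 20 ≤ d) (h1 : d ≤ 3 / 25)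
    (hS : sideS.Mem S') : ∃ i j : ℕ, 0 < (midUpCond i j).val u v d S' := by
  rcases lt_or_ge u (8000 / 10000) with g0 | g0
  · exact mid_up_sign_0 (by linarith) g0 hv hv1 hphi hA hD h0 h1 hS
  rcases lt_or_ge u (9000 / 10000) with g1 | g1
  · exact mid_up_sign_1 (by linarith) g1 hv hv1 hphi hA hD h0 h1 hS
  rcases lt_or_ge u (9500 / 10000) with g2 | g2
  · exact mid_up_sign_2 (by linarith) g2 hv hv1 hphi hA hD h0 h1 hS
  exact mid_up_sign_3 (by linarith) (by linarith) hv hv1 hphi hA hD h0 h1 hS

theorem mid_up_val {u v d S' : ℝ} :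
    midUpN.val u v d S' = upN (6366 / 10000) (1 + 74368 / 10000 * d + 64 / 10000 * (d * d)) (8381 / 10000 * d) (1000 / 10000) (17465 / 10000 - 76155 / 10000 * d) (-4805 / 10000 + 22219 / 10000 * d) u ∧
      midUpG.val u v d S' = upG (1 + 74368 / 10000 * d + 64 / 10000 * (d * d)) (8381 / 10000 * d) (1000 / 10000) u ∧
      midUpM.val u v d S' = upM (6366 / 10000) (1 + 74368 / 10000 * d + 64 / 10000 * (d * d)) (8381 / 10000 * d) (1000 / 10000) (-4805 / 10000 + 22219 / 10000 * d) u ∧ midUb.val u v d S' = tiltMid d := by
  refine ⟨?_, ?_, ?_, ?_⟩ <;>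
    simp only [midUpN, midUpG, midUpM, val_upN, val_upG, val_upM, midUA, midUDen, midUP, midUQ,
      midUB, midUC, midUb, tiltMid, Ex.val] <;>
    push_cast <;> ring_nf

theorem mid_up_den {d : ℝ} (h0 : 0 ≤ d) (h1 : d ≤ 1 / 5) : 0 < (1 + 74368 / 10000 * d + 64 / 10000 * (d * d)) := by
  have := mul_self_nonneg d
  linarith [mul_le_mul_of_nonneg_left h1 h0]

theorem mid_up_start {u d : ℝ} (hu : 0 ≤ u) (hu1 : u ≤ 3 / 5) (h0 : 1 / 20 ≤ d) (h1 : d ≤ 3 / 25)
    {S' : ℝ} (hS : sideS.Mem S') :
    d * (u * ((161 / 100 - 28 / 5 * d + (7 / 10 - 4 * d) * u + (89 / 20 - 45 / 2 * d) * u ^ 2) - upTailMid d u - tiltMid d * (33 / 100))) ≤ 50 * (3 / 5 - u) ^ 2 := by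
  have key : 0 < midUpBefore.val u (33 / 100) d S' := by
    have hv : (⟨3300, 3301, 10000⟩ : Side).Mem (33 / 100) :=
      side_mem_four (by norm_num) (by norm_num)
    rcases lt_or_ge u (4000 / 10000) with g | g
    · exact Ex.pos_of_checkQuick mid_up_before_a (side_mem_four (by push_cast; linarith) (by push_cast; linarith)) hv (side_mem_four (by push_cast; linarith) (by push_cast; linarith)) hS
    rcases lt_or_ge u (5500 / 10000) with g' | g'
    · exact Ex.pos_of_checkQuick mid_up_before_b (side_mem_four (by push_cast; linarith) (by push_cast; linarith)) hv (side_mem_four (by push_cast; linarith) (by push_cast; linarith)) hS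
    rcases lt_or_ge d (850 / 10000) with g'' | g''
    · exact Ex.pos_of_checkQuick mid_up_before_c (side_mem_four (by push_cast; linarith) (by push_cast; linarith)) hv (side_mem_four (by push_cast; linarith) (by push_cast; linarith)) hS
    · exact Ex.pos_of_checkQuick mid_up_before_e (side_mem_four (by push_cast; linarith) (by push_cast; linarith)) hv (side_mem_four (by push_cast; linarith) (by push_cast; linarith)) hS
  have hd : 0 ≤ d := by linarith
  have hden := mid_up_den hd (by linarith)
  have hG := upG_pos (p := (8381 / 10000 * d)) (q := (1000 / 10000)) hden (u := u) (by linarith) (by linarith)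
  rw [midUpBefore] at key
  simp only [Ex.val, mid_up_val.1, mid_up_val.2.1, mid_up_val.2.2.2] at key
  rw [upN_eq hden (show u < 1 + (8381 / 10000 * d) by linarith) (show u < 1 + (1000 / 10000) by linarith)] at key
  refine le_of_mul_le_mul_right ?_ hG
  simp only [upTailMid]
  push_cast at key
  linarith

end Vale.Agent.P100.Calib.Band
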