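import Vale.Agent.P100.Calib.SlabUpperExpr
import Vale.Agent.P100.Calib.SlabRungChecks
import Vale.Agent.P100.Calib.BoxPosFast

/-!
Top Certificates of the tilted upper band, top piece
-/

namespace Vale.Agent.P100.Calib.Band

open BoxPos

/-- A coefficient. -/
def topUA : Ex := eC 6546 10000

/-- A coefficient. -/
def topUDen : Ex := Ex.add (Ex.add (eC 1) (Ex.mul (eC 139779 10000) eD)) (Ex.mul (eC (-118) 10000) (Ex.mul eD eD))

/-- A coefficient. -/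
def topUP : Ex := Ex.mul (eC 8235 10000) eD

/-- A coefficient. -/
def topUQ : Ex := eC 1779 10000

/-- A coefficient. -/
def topUB : Ex := Ex.add (eC 13788 10000) (Ex.mul (eC (-29695) 10000) eD)

/-- A coefficient. -/
def topUC : Ex := Ex.add (eC (-2055) 10000) (Ex.mul (eC 10384 10000) eD)

/-- A coefficient. -/
def topUb : Ex := Ex.add (eC 17039 10000) (Ex.mul (eC (-75663) 10000) eD)

/-- The denominator. -/
def topUpG : Ex := eUpG topUDen topUP topUQ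

/-- The numerator. -/
def topUpN : Ex := eUpN topUA topUDen topUP topUQ topUB topUC

/-- The slope numerator. -/
def topUpM : Ex := eUpM topUA topUDen topUP topUQ topUC

/-- The condition. -/
def topUpCond (i j : ℕ) : Ex := eUpCond topUpN topUpG topUpM topUb i j

/-- The start condition. -/
def topUpBefore : Ex :=
  Ex.sub (Ex.mul (Ex.mul (Ex.mul (eC 50) (Ex.sub (eC 3 5) eU)) (Ex.sub (eC 3 5) eU)) topUpG)
    (Ex.mul (Ex.mul eD eU) (Ex.sub (Ex.sub (Ex.mul (Ex.add (Ex.add (Ex.sub (eC 141 100) (Ex.mul (eC 16 5) eD))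
      (Ex.mul (Ex.sub (eC 1 2) (Ex.mul (eC 63 20) eD)) eU)) (Ex.mul (Ex.sub (eC 27 10) (Ex.mul (eC 31 4) eD))
      (Ex.mul eU eU))) topUpG) topUpN) (Ex.mul (Ex.mul topUb (eC 33 100)) topUpG)))

/-- The packing. -/
def topUpCfg : Cfg := ⟨640, ⟨9, 3, 16, 6⟩⟩

theorem top_up_0 : (topUpCond 0 335).checkQuick topUpCfg
    ⟨⟨6000, 7171, 10000⟩, ⟨3300, 12755, 10000⟩, ⟨1200, 1600, 10000⟩, sideS⟩ = true := by decide +kernel

theorem top_up_1 : (topUpCond 0 89).checkQuick topUpCfg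
    ⟨⟨6000, 7171, 10000⟩, ⟨3300, 12755, 10000⟩, ⟨1600, 2001, 10000⟩, sideS⟩ = true := by decide +kernel

theorem top_up_2 : (topUpCond 0 467).checkQuick topUpCfg
    ⟨⟨7171, 8000, 10000⟩, ⟨3300, 8027, 10000⟩, ⟨1200, 1600, 10000⟩, sideS⟩ = true := by decide +kernel

theorem top_up_3 : (topUpCond 0 0).checkQuick topUpCfg
    ⟨⟨7171, 8000, 10000⟩, ⟨8027, 12755, 10000⟩, ⟨1200, 1600, 10000⟩, sideS⟩ = true := by decide +kernel

theorem top_up_4 : (topUpCond 0 263).checkQuick topUpCfg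
    ⟨⟨7171, 7621, 10000⟩, ⟨3300, 8027, 10000⟩, ⟨1600, 1800, 10000⟩, sideS⟩ = true := by decide +kernel

theorem top_up_5 : (topUpCond 0 109).checkQuick topUpCfg
    ⟨⟨7171, 7621, 10000⟩, ⟨3300, 8027, 10000⟩, ⟨1800, 2001, 10000⟩, sideS⟩ = true := by decide +kernel

theorem top_up_6 : (topUpCond 0 285).checkQuick topUpCfg
    ⟨⟨7621, 8000, 10000⟩, ⟨3300, 8027, 10000⟩, ⟨1600, 1800, 10000⟩, sideS⟩ = true := by decide +kernel

theorem top_up_7 : (topUpCond 0 70).checkQuick topUpCfg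
    ⟨⟨7621, 8000, 10000⟩, ⟨3300, 8027, 10000⟩, ⟨1800, 2001, 10000⟩, sideS⟩ = true := by decide +kernel

theorem top_up_8 : (topUpCond 0 0).checkQuick topUpCfg
    ⟨⟨7171, 8000, 10000⟩, ⟨8027, 12755, 10000⟩, ⟨1600, 2001, 10000⟩, sideS⟩ = true := by decide +kernel

theorem top_up_9 : (topUpCond 0 0).checkQuick topUpCfg
    ⟨⟨6000, 8000, 10000⟩, ⟨12755, 22211, 10000⟩, ⟨1200, 2001, 10000⟩, sideS⟩ = true := by decide +kernel

theorem top_up_10 : (topUpCond 0 11515).checkQuick topUpCfg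
    ⟨⟨8000, 8317, 10000⟩, ⟨3300, 6404, 10000⟩, ⟨1200, 1400, 10000⟩, sideS⟩ = true := by decide +kernel

theorem top_up_11 : (topUpCond 0 309).checkQuick topUpCfg
    ⟨⟨8000, 8317, 10000⟩, ⟨6404, 9508, 10000⟩, ⟨1200, 1400, 10000⟩, sideS⟩ = true := by decide +kernel

theorem top_up_12 : (topUpCond 0 329).checkQuick topUpCfg
    ⟨⟨8000, 8317, 10000⟩, ⟨3300, 9508, 10000⟩, ⟨1400, 1600, 10000⟩, sideS⟩ = true := by decide +kernel

theorem top_up_13 : (topUpCond 0 465).checkQuick topUpCfg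
    ⟨⟨8317, 8585, 10000⟩, ⟨3300, 9508, 10000⟩, ⟨1200, 1400, 10000⟩, sideS⟩ = true := by decide +kernel

theorem top_up_14 : (topUpCond 0 398).checkQuick topUpCfg
    ⟨⟨8317, 8585, 10000⟩, ⟨3300, 9508, 10000⟩, ⟨1400, 1600, 10000⟩, sideS⟩ = true := by decide +kernel

theorem top_up_15 : (topUpCond 0 0).checkQuick topUpCfg
    ⟨⟨8000, 8585, 10000⟩, ⟨9508, 15717, 10000⟩, ⟨1200, 1600, 10000⟩, sideS⟩ = true := by decide +kernel

theorem top_up_16 : (topUpCond 0 172).checkQuick topUpCfg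
    ⟨⟨8000, 8317, 10000⟩, ⟨3300, 9508, 10000⟩, ⟨1600, 1800, 10000⟩, sideS⟩ = true := by decide +kernel

theorem top_up_17 : (topUpCond 0 2782).checkQuick topUpCfg
    ⟨⟨8000, 8317, 10000⟩, ⟨3300, 6404, 10000⟩, ⟨1800, 2001, 10000⟩, sideS⟩ = true := by decide +kernel

theorem top_up_18 : (topUpCond 0 0).checkQuick topUpCfg
    ⟨⟨8000, 8317, 10000⟩, ⟨6404, 9508, 10000⟩, ⟨1800, 2001, 10000⟩, sideS⟩ = true := by decide +kernel

theorem top_up_19 : (topUpCond 0 215).checkQuick topUpCfg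
    ⟨⟨8317, 8585, 10000⟩, ⟨3300, 9508, 10000⟩, ⟨1600, 1800, 10000⟩, sideS⟩ = true := by decide +kernel

theorem top_up_20 : (topUpCond 0 3939).checkQuick topUpCfg
    ⟨⟨8317, 8585, 10000⟩, ⟨3300, 6404, 10000⟩, ⟨1800, 2001, 10000⟩, sideS⟩ = true := by decide +kernel

theorem top_up_21 : (topUpCond 0 0).checkQuick topUpCfg
    ⟨⟨8317, 8585, 10000⟩, ⟨6404, 9508, 10000⟩, ⟨1800, 2001, 10000⟩, sideS⟩ = true := by decide +kernel

theorem top_up_22 : (topUpCond 0 0).checkQuick topUpCfg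
    ⟨⟨8000, 8585, 10000⟩, ⟨9508, 15717, 10000⟩, ⟨1600, 2001, 10000⟩, sideS⟩ = true := by decide +kernel

theorem top_up_23 : (topUpCond 0 401).checkQuick topUpCfg
    ⟨⟨8585, 9000, 10000⟩, ⟨3300, 9508, 10000⟩, ⟨1200, 1600, 10000⟩, sideS⟩ = true := by decide +kernel

theorem top_up_24 : (topUpCond 0 0).checkQuick topUpCfg
    ⟨⟨8585, 9000, 10000⟩, ⟨9508, 15717, 10000⟩, ⟨1200, 1600, 10000⟩, sideS⟩ = true := by decide +kernel

theorem top_up_25 : (topUpCond 0 171).checkQuick topUpCfg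
    ⟨⟨8585, 8810, 10000⟩, ⟨3300, 9508, 10000⟩, ⟨1600, 1800, 10000⟩, sideS⟩ = true := by decide +kernel

theorem top_up_26 : (topUpCond 0 5741).checkQuick topUpCfg
    ⟨⟨8585, 8810, 10000⟩, ⟨3300, 6404, 10000⟩, ⟨1800, 2001, 10000⟩, sideS⟩ = true := by decide +kernel

theorem top_up_27 : (topUpCond 0 0).checkQuick topUpCfg
    ⟨⟨8585, 8810, 10000⟩, ⟨6404, 9508, 10000⟩, ⟨1800, 2001, 10000⟩, sideS⟩ = true := by decide +kernel

theorem top_up_28 : (topUpCond 0 113).checkQuick topUpCfg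
    ⟨⟨8810, 9000, 10000⟩, ⟨3300, 9508, 10000⟩, ⟨1600, 2001, 10000⟩, sideS⟩ = true := by decide +kernel

theorem top_up_29 : (topUpCond 0 0).checkQuick topUpCfg
    ⟨⟨8585, 9000, 10000⟩, ⟨9508, 15717, 10000⟩, ⟨1600, 2001, 10000⟩, sideS⟩ = true := by decide +kernel

theorem top_up_30 : (topUpCond 0 0).checkQuick topUpCfg
    ⟨⟨8000, 9000, 10000⟩, ⟨15717, 28135, 10000⟩, ⟨1200, 2001, 10000⟩, sideS⟩ = true := by decide +kernel

theorem top_up_31 : (topUpCond 0 213).checkQuick topUpCfg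
    ⟨⟨9000, 9292, 10000⟩, ⟨3300, 23900, 10000⟩, ⟨1200, 1600, 10000⟩, sideS⟩ = true := by decide +kernel

theorem top_up_32 : (topUpCond 0 0).checkQuick topUpCfg
    ⟨⟨9000, 9292, 10000⟩, ⟨3300, 13600, 10000⟩, ⟨1600, 2001, 10000⟩, sideS⟩ = true := by decide +kernel

theorem top_up_33 : (topUpCond 0 0).checkQuick topUpCfg
    ⟨⟨9000, 9292, 10000⟩, ⟨13600, 23900, 10000⟩, ⟨1600, 2001, 10000⟩, sideS⟩ = true := by decide +kernel

theorem top_up_34 : (topUpCond 0 0).checkQuick topUpCfg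
    ⟨⟨9292, 9500, 10000⟩, ⟨3300, 23900, 10000⟩, ⟨1200, 1600, 10000⟩, sideS⟩ = true := by decide +kernel

theorem top_up_35 : (topUpCond 0 0).checkQuick topUpCfg
    ⟨⟨9292, 9500, 10000⟩, ⟨3300, 13600, 10000⟩, ⟨1600, 2001, 10000⟩, sideS⟩ = true := by decide +kernel

theorem top_up_36 : (topUpCond 0 0).checkQuick topUpCfg
    ⟨⟨9292, 9500, 10000⟩, ⟨13600, 23900, 10000⟩, ⟨1600, 2001, 10000⟩, sideS⟩ = true := by decide +kernel

theorem top_up_37 : (topUpCond 463940 0).checkQuick topUpCfg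
    ⟨⟨9000, 9500, 10000⟩, ⟨23900, 44501, 10000⟩, ⟨1200, 2001, 10000⟩, sideS⟩ = true := by decide +kernel

theorem top_up_38 : (topUpCond 0 0).checkQuick topUpCfg
    ⟨⟨9500, 9647, 10000⟩, ⟨3300, 23900, 10000⟩, ⟨1200, 1600, 10000⟩, sideS⟩ = true := by decide +kernel

theorem top_up_39 : (topUpCond 0 0).checkQuick topUpCfg
    ⟨⟨9500, 9647, 10000⟩, ⟨3300, 13600, 10000⟩, ⟨1600, 2001, 10000⟩, sideS⟩ = true := by decide +kernel

theorem top_up_40 : (topUpCond 0 0).checkQuick topUpCfg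
    ⟨⟨9500, 9647, 10000⟩, ⟨13600, 23900, 10000⟩, ⟨1600, 2001, 10000⟩, sideS⟩ = true := by decide +kernel

theorem top_up_41 : (topUpCond 0 0).checkQuick topUpCfg
    ⟨⟨9647, 9751, 10000⟩, ⟨3300, 23900, 10000⟩, ⟨1200, 1600, 10000⟩, sideS⟩ = true := by decide +kernel

theorem top_up_42 : (topUpCond 0 0).checkQuick topUpCfg
    ⟨⟨9647, 9751, 10000⟩, ⟨3300, 13600, 10000⟩, ⟨1600, 2001, 10000⟩, sideS⟩ = true := by decide +kernel

theorem top_up_43 : (topUpCond 0 0).checkQuick topUpCfg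
    ⟨⟨9647, 9751, 10000⟩, ⟨13600, 23900, 10000⟩, ⟨1600, 2001, 10000⟩, sideS⟩ = true := by decide +kernel

theorem top_up_44 : (topUpCond 717557 0).checkQuick topUpCfg
    ⟨⟨9500, 9647, 10000⟩, ⟨23900, 44501, 10000⟩, ⟨1200, 2001, 10000⟩, sideS⟩ = true := by decide +kernel

theorem top_up_45 : (topUpCond 907823 0).checkQuick topUpCfg
    ⟨⟨9647, 9751, 10000⟩, ⟨23900, 44501, 10000⟩, ⟨1200, 2001, 10000⟩, sideS⟩ = true := by decide +kernel

theorem top_up_before_a : topUpBefore.checkQuick topUpCfg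
    ⟨⟨0, 4000, 10000⟩, ⟨3300, 3301, 10000⟩, ⟨1200, 2001, 10000⟩, sideS⟩ = true := by decide +kernel

theorem top_up_before_b : topUpBefore.checkQuick topUpCfg
    ⟨⟨4000, 5500, 10000⟩, ⟨3300, 3301, 10000⟩, ⟨1200, 2001, 10000⟩, sideS⟩ = true := by decide +kernel

theorem top_up_before_c : topUpBefore.checkQuick topUpCfg
    ⟨⟨5500, 6001, 10000⟩, ⟨3300, 3301, 10000⟩, ⟨1200, 1600, 10000⟩, sideS⟩ = true := by decide +kernel

theorem top_up_before_e : topUpBefore.checkQuick topUpCfg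
    ⟨⟨5500, 6001, 10000⟩, ⟨3300, 3301, 10000⟩, ⟨1600, 2001, 10000⟩, sideS⟩ = true := by decide +kernel

end Vale.Agent.P100.Calib.Band
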