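import Vale.Agent.P100.Calib.SlabWaistFit

/-!
# Several checks of one shape at once
-/

namespace Vale.Agent.P100.Calib.Mid

/-- One member of a list that passes. -/
theorem all_get {α : Type} {l : List α} {f : α → Bool} (h : l.all f = true) (i : ℕ)
    (hi : i < l.length) : f (l.get ⟨i, hi⟩) = true :=
  List.all_eq_true.1 h _ (List.get_mem l ⟨i, hi⟩)

end Vale.Agent.P100.Calib.Mid
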