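import Vale.Agent.P100.Calib.SlabWaistForms

/-!
# The polynomials of a cell, and the bounds of the intermediates, over any carrier

Everything is a quadratic in `H`, given by its three coefficients. `o` is the unit of `X`, `p`,
`T`, `g`, `q` and of the numbers of the cell; `a`, `I`, `u` are plain.
-/

set_option linter.unusedVariables false

namespace Vale.Agent.P100.Calib.Mid

/-- The numbers of a cell. -/
structure Cell where
  xl : Fin 3 → ℤ
  xh : Fin 3 → ℤ
  pl : Fin 8 → ℤ
  ph : Fin 8 → ℤ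
  Tl : Fin 8 → ℤ
  Th : Fin 8 → ℤ
  gl : Fin 8 → ℤ
  gh : Fin 8 → ℤ
  ql : Fin 8 → ℤ
  qh : Fin 8 → ℤ
  dl : Fin 10 → ℤ
  l2 : Fin 4 → ℤ
  l3 : Fin 4 → ℤ
  mu : Fin 8 → ℤ
  nu : Fin 8 → ℤ
  w1 : ℤ
  sag : ℤ
  vm : Pt ℤ
  B : Hats ℤ
  e : Hats ℤ

/-- A quadratic in `H`. -/
structure Quad (R : Type) where
  g0 : R
  g1 : R
  g2 : R

section
variable {R : Type} [Add R] [Sub R] [Mul R] (k : ℤ → R)

/-- Affine in `(a, I)`. -/
def poly3 (z : Fin 3 → ℤ) (a I : R) : R := k (z 0) + k (z 1) * a + k (z 2) * I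

/-- Affine in `(a, I, s)`. -/
def poly4 (z : Fin 4 → ℤ) (a I s : R) : R := k (z 0) + k (z 1) * a + k (z 2) * I + k (z 3) * s

/-- Affine in each of `(a, I, s)`. -/
def poly8 (z : Fin 8 → ℤ) (a I s : R) : R :=
  k (z 0) + k (z 1) * a + k (z 2) * I + k (z 4) * a * I +
    (k (z 3) + k (z 5) * a + k (z 6) * I + k (z 7) * a * I) * s

/-- Of degree two in `(a, I, s)`. -/
def poly10 (z : Fin 10 → ℤ) (a I s : R) : R :=
  k (z 0) + (k (z 1) + k (z 4) * a + k (z 5) * I + k (z 6) * s) * a +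
    (k (z 2) + k (z 7) * I + k (z 8) * s) * I + (k (z 3) + k (z 9) * s) * s

/-- `X` in a cell. -/
def Cell.X (c : Cell) (a I s : R) : R :=
  poly3 k c.xl a I * (k 1 - s) + poly3 k c.xh a I * s

/-- The lower corner of the intermediates. -/
def Cell.lo (c : Cell) (a I s : R) : Pt R :=
  ⟨poly8 k c.pl a I s, poly8 k c.Tl a I s, poly8 k c.gl a I s, poly8 k c.ql a I s⟩

/-- The upper corner of the intermediates. -/
def Cell.hi (c : Cell) (a I s : R) : Pt R :=
  ⟨poly8 k c.ph a I s, poly8 k c.Th a I s, poly8 k c.gh a I s, poly8 k c.qh a I s⟩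

/-- The row of a cell; `m` is the unit of its sag. -/
def Cell.row (c : Cell) (m : R) (a I s : R) : Row R :=
  ⟨poly10 k c.dl a I s, poly4 k c.l2 a I s, poly4 k c.l3 a I s, k c.w1, k c.sag * m⟩

/-- A hundred times the numerator of a band, from its four coefficients. -/
def bandN (c0 c1 c2 c3 a I X u o : R) : R :=
  (k 100 + I * (c0 + k 100 * (u * (c1 + u * (c2 + u * c3))))) * o +
    (k 100 * (k 1 - k 2 * I - a) - k 5 * (a * u * (k 33 - k 23 * u))) * (k 2 * I * X)

/-- The numerator of the lower band. -/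
def lowN (a I X u o : R) : R :=
  bandN k (k 450 * I - k 413) (k 2 - k 3 * a + k 5 * a * a - k 11 * I - k 22 * a * I -
    k 4 * a * a * I) (k 4 * a - k 28 * a * a + k 3 * I - k 6 * a * I) (k 12 * a * a) a I X u o

/-- The numerator of the upper band. -/
def uppN (a I X u o : R) : R :=
  bandN k (k 600 * I - k 396) (k 2 - k 3 * a + k 6 * a * a - k 17 * I + k 18 * a * I)
    (k 4 * a - k 34 * a * a + k 7 * I) (k 18 * a * a) a I X u o

/-- The numerator of a quarter point of the band. -/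
def endN (m : ℤ) (a I X u o : R) : R :=
  k (2 - m) * lowN k a I X u o + k m * uppN k a I X u o

/-- The denominator of a quarter point. -/
def endD (a I u o : R) : R := k 200 * o * (k 1 - k 2 * I - a - u * a)

/-- `qn`. -/
def qnN (a I X u o : R) : R :=
  (k 1 - k 2 * I - a) * (k 2 * o + k 2 * (k 1 - k 2 * I - k 2 * a) * I * X) -
    (k 1 - k 2 * I) * u * (o + k 2 * (k 1 - k 2 * I - k 2 * a) * I * X)

/-- The denominator of `g` at `H = 0`. -/
def den0 (a I X o : R) : R := k 2 * o + k 2 * (k 1 - k 2 * I - k 2 * a) * I * X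

/-- Its slope in `H`, with the sign changed. -/
def den1 (a I u o : R) : R := u * (k 1 - k 2 * I - k 2 * a) * o

/-- `(p - P) I S den`. -/
def piQ (a I X u o P : R) : Quad R :=
  let c := k 4 * (k 1 - k 2 * I) * o + I * P * (k 1 - k 2 * I)
  ⟨k 0 - c * den0 k a I X o, k 4 * qnN k a I X u o * o + c * den1 k a I u o, k 0⟩

/-- The flow, times `I S den`. -/
def flowQ (a I X u o : R) : Quad R := piQ k a I X u o (k 0 - k 8 * a * X)

/-- `(T' - T) Q`. -/
def timeQ (a I X u o T : R) : Quad R :=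
  ⟨o * o - (o + k 2 * (k 1 - k 2 * I - k 2 * a) * I * X) * T, k 0 - den1 k a I u o * o, k 0⟩

/-- `(g' - g) b den`. -/
def gamQ (a I X u o g : R) : Quad R :=
  ⟨k 2 * qnN k a I X u o * o - g * (k 1 - k 2 * I - a) * den0 k a I X o,
    g * (k 1 - k 2 * I - a) * den1 k a I u o, k 0⟩

/-- `(w - w₁ p - q) b I u S H den`. -/
def omQ (a I X u o w1 q : R) : Quad R :=
  let b := k 1 - k 2 * I - a
  let S := k 1 - k 2 * I
  let n0 := S * (o + (k 1 - a) * (k 2 * I * X))
  let n1 := S * u * (a * o - (k 1 - a) * (k 1 - k 2 * I - k 2 * a) * (k 2 * I * X)) -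
    (k 2 - S) * b * o
  let p0 := k 0 - k 4 * S * den0 k a I X o
  let p1 := k 4 * qnN k a I X u o + k 4 * S * den1 k a I u o
  let c := q * b * I * u * S
  ⟨n0 * den0 k a I X o, n1 * den0 k a I X o - n0 * den1 k a I u o - w1 * p0 * b * u -
      c * den0 k a I X o,
    c * den1 k a I u o - n1 * den1 k a I u o - w1 * p1 * b * u⟩

/-- The gap with the multipliers `mu` of the flow and `nu` of the exit `E`. -/
def gapQ (A0 A1 A2 a I X u o dl mu nu E : R) : Quad R :=
  let S := k 1 - k 2 * I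
  let c := k 64 * X * qnN k a I X u o * I
  let h := k 1000000 * S * u * I * dl * o * o * o * o
  let m := k 1000000 * mu * o * o * o
  let F := flowQ k a I X u o
  ⟨c * A0 + h * den0 k a I X o - m * F.g0 - k 1000000 * nu * I * E * o * o * o * o,
    c * A1 - h * den1 k a I u o - m * F.g1, c * A2⟩

/-- The value at `H = n/D`, times `D ^ 2`. -/
def Quad.at (g : Quad R) (n D : R) : R := g.g0 * D * D + g.g1 * n * D + g.g2 * n * n

end

end Vale.Agent.P100.Calib.Mid
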