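import Vale.Agent.P100.Calib.SlabWaistForms

/-!
# Positive rows at the corners give positive rows on the box
-/

set_option linter.unusedVariables false

namespace Vale.Agent.P100.Calib.Mid

/-- A structure of numbers under a map. -/
def Co.map {R S : Type} (f : R → S) (x : Co R) : Co S :=
  ⟨f x.GG0, f x.GGT, f x.GGp, f x.GGpT, f x.EG0, f x.EGg, f x.EGT, f x.EGTg, f x.EGp, f x.EGpT,
    f x.LE0, f x.LEw, f x.LEg, f x.LET, f x.LETg, f x.LEp, f x.LEpw, f x.LEpT, f x.LEpp,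
    f x.LM0, f x.LMw, f x.LMg, f x.LMT, f x.LMTg, f x.LMp, f x.LMpw, f x.LMpT, f x.LMpp,
    f x.gE0, f x.gEg, f x.gETg, f x.gEp, f x.gG0, f x.gGp, f x.hE0, f x.hEp, f x.hG0, f x.hGT,
    f x.hGp, f x.hM0, f x.hMp, f x.N0, f x.Nw, f x.Ng, f x.NTg, f x.Np, f x.Npw, f x.Npg,
    f x.NpTg, f x.Mg, f x.MTg, f x.Mpg, f x.MpTg, f x.gM0⟩

/-- A structure of numbers under a map. -/
def Hats.map {R S : Type} (f : R → S) (x : Hats R) : Hats S :=
  ⟨f x.GG, f x.EG, f x.LE, f x.LM, f x.gE, f x.gG, f x.hE, f x.hG, f x.hM, f x.N, f x.M, f x.gM⟩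

/-- A structure of numbers under a map. -/
def Pt.map {R S : Type} (f : R → S) (x : Pt R) : Pt S :=
  ⟨f x.p, f x.T, f x.g, f x.q⟩

/-- A structure of numbers under a map. -/
def Wt.map {R S : Type} (f : R → S) (x : Wt R) : Wt S :=
  ⟨f x.one, f x.L, f x.eL, f x.G, f x.jd, f x.j, f x.jn, f x.jm, f x.mn, f x.mm, f x.dq, f x.dQ,
    f x.bnQ, f x.d, f x.bn, f x.C⟩

/-- A structure of numbers under a map. -/
def Row.map {R S : Type} (f : R → S) (x : Row R) : Row S :=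
  ⟨f x.dl, f x.l2, f x.l3, f x.w1, f x.sag⟩

/-- The cast of the integers. -/
abbrev kR (z : ℤ) : ℝ := (z : ℝ)

section
variable {lam mu : ℝ}

theorem hats_scale (c : Co ℝ) (w1 : ℝ) (z : Pt ℝ) :
    hats (c.map (mu * lam ^ 4 * ·)) lam (lam * w1) (z.map (lam * ·)) =
      (hats c 1 w1 z).map (mu * lam ^ 7 * ·) := by
  simp only [hats, Co.map, Pt.map, Hats.map, Hats.mk.injEq]
  refine ⟨?_, ?_, ?_, ?_, ?_, ?_, ?_, ?_, ?_, ?_, ?_, ?_⟩ <;> ring

variable (W : Wt ℝ) (r : Row ℝ) (B e h : Hats ℝ) (i i' : ℤ) {s : ℝ}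

/-- The numbers of a cell in their units. -/
def Row.scale (lam s : ℝ) : Row ℝ := ⟨lam * r.dl, lam * r.l2, lam * r.l3, lam * r.w1, s * r.sag⟩

theorem row1_scale : row1 kR (W.map (lam ^ 8 * ·)) (r.scale lam s) lam s i i' (B.map (s * ·))
    (e.map (s * ·)) (h.map (s * ·)) = lam ^ 18 * s ^ 2 * row1 kR W r 1 1 i i' B e h := by
  simp only [row1, fA, errA, fE, errE, perr, Wt.map, Row.scale, Hats.map]
  ring

theorem row2_scale : row2 kR (W.map (lam ^ 8 * ·)) (r.scale lam s) lam s i (B.map (s * ·))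
    (e.map (s * ·)) (h.map (s * ·)) = lam ^ 18 * s ^ 2 * row2 kR W r 1 1 i B e h := by
  simp only [row2, fG, errG, fE, errE, perr, Wt.map, Row.scale, Hats.map]
  ring

theorem row3_scale : row3 kR (W.map (lam ^ 8 * ·)) (r.scale lam s) lam s i (B.map (s * ·))
    (e.map (s * ·)) (h.map (s * ·)) = lam ^ 10 * s ^ 2 * row3 kR W r 1 1 i B e h := by
  simp only [row3, Wt.map, Row.scale, Hats.map]
  ring

theorem row4_scale : row4 kR (W.map (lam ^ 8 * ·)) (r.scale lam s) lam s (B.map (s * ·))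
    (e.map (s * ·)) (h.map (s * ·)) = lam ^ 9 * s ^ 2 * row4 kR W r 1 1 B e h := by
  simp only [row4, fM, errM, perr, Wt.map, Row.scale, Hats.map]
  ring

theorem wts_scale (a I X : ℝ) : wts kR (lam * a) (lam * I) (lam * X) lam =
    (wts kR a I X 1).map (lam ^ 8 * ·) := by
  simp only [wts, Wt.map, Wt.mk.injEq]
  refine ⟨?_, ?_, ?_, ?_, ?_, ?_, ?_, ?_, ?_, ?_, ?_, ?_, ?_, ?_, ?_, ?_⟩ <;> ring

theorem quart_scale (z : Fin 35 → ℤ) (a I X : ℝ) :
    quart kR z (lam * a) (lam * I) (lam * X) lam = lam ^ 4 * quart kR z a I X 1 := by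
  simp only [quart]
  ring

theorem cubic_scale (z : Fin 20 → ℤ) (a I X : ℝ) :
    cubic kR z (lam * a) (lam * I) (lam * X) lam = lam ^ 4 * cubic kR z a I X 1 := by
  simp only [cubic]
  ring

end

/-- A quadratic above `σ` at both ends is positive between, when its bend is small. -/
theorem quad_pos {f : ℝ → ℝ} {c σ l r t : ℝ}
    (e : ∀ z, 2 * f z = 2 * f 0 + z * (f 1 - f (-1)) + z ^ 2 * c)
    (hc : c * (r - l) ^ 2 ≤ 8 * σ) (hσ : 0 ≤ σ) (hl : l ≤ t) (hr : t ≤ r)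
    (fl : σ < f l) (fr : σ < f r) : 0 < f t := by
  rcases eq_or_lt_of_le (hl.trans hr) with h | h
  · have : t = l := le_antisymm (h ▸ hr) hl
    rw [this]; linarith
  · have a0 : 0 ≤ t - l := by linarith
    have a1 : 0 ≤ r - t := by linarith
    have q : 2 * f t * (r - l) =
        2 * f l * (r - t) + 2 * f r * (t - l) - c * ((t - l) * (r - t)) * (r - l) := by
      have et := e t
      have el := e l
      have er := e r
      linear_combination (r - l) * et - (r - t) * el - (t - l) * er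
    have hp : c * ((t - l) * (r - t)) ≤ 2 * σ := by
      have sq : 4 * ((t - l) * (r - t)) ≤ (r - l) ^ 2 := by linarith [sq_nonneg (r + l - 2 * t)]
      rcases le_total c 0 with hn | hn
      · linarith [mul_nonpos_of_nonpos_of_nonneg hn (mul_nonneg a0 a1)]
      · linarith [mul_le_mul_of_nonneg_left sq hn]
    have h1 := mul_le_mul_of_nonneg_right fl.le a1
    have h2 := mul_le_mul_of_nonneg_right fr.le a0
    have h3 := mul_le_mul_of_nonneg_right hp (sub_nonneg.2 h.le)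
    by_contra hn
    push Not at hn
    have h4 := mul_nonpos_of_nonpos_of_nonneg hn (sub_nonneg.2 h.le)
    rcases eq_or_lt_of_le a0 with g | g
    · rw [← g] at q; simp only [mul_zero, zero_mul, add_zero, sub_zero] at q
      have hlt : t = l := by linarith
      rw [hlt] at hn
      linarith
    · have := mul_lt_mul_of_pos_right fr g
      linarith

/-- A quadratic with no positive bend is positive between positive ends. -/
theorem quad_pos' {f : ℝ → ℝ} {c l r t : ℝ}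
    (e : ∀ z, 2 * f z = 2 * f 0 + z * (f 1 - f (-1)) + z ^ 2 * c)
    (hc : c ≤ 0) (hl : l ≤ t) (hr : t ≤ r) (fl : 0 < f l) (fr : 0 < f r) : 0 < f t :=
  quad_pos (σ := 0) e (by linarith [mul_nonpos_of_nonpos_of_nonneg hc (sq_nonneg (r - l))]) le_rfl
    hl hr fl fr

/-- A box of intermediates. -/
structure Range where
  lo : Pt ℝ
  hi : Pt ℝ

/-- A point lies in a box. -/
structure Range.Mem (b : Range) (z : Pt ℝ) : Prop where
  p₀ : b.lo.p ≤ z.p
  p₁ : z.p ≤ b.hi.p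
  T₀ : b.lo.T ≤ z.T
  T₁ : z.T ≤ b.hi.T
  g₀ : b.lo.g ≤ z.g
  g₁ : z.g ≤ b.hi.g
  q₀ : b.lo.q ≤ z.q
  q₁ : z.q ≤ b.hi.q

/-- A corner of a box. -/
def corner {R : Type} (lo hi : Pt R) (i j l n : Bool) : Pt R :=
  ⟨cond i hi.p lo.p, cond j hi.T lo.T, cond l hi.g lo.g, cond n hi.q lo.q⟩

/-- **Corners suffice.** -/
theorem box_pos {b : Range} {z : Pt ℝ} (m : b.Mem z) {f : Pt ℝ → ℝ} {cp σ : ℝ}
    {cT cg cq : Pt ℝ → ℝ}
    (eq' : ∀ p T g q, 2 * f ⟨p, T, g, q⟩ = 2 * f ⟨p, T, g, 0⟩ +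
      q * (f ⟨p, T, g, 1⟩ - f ⟨p, T, g, -1⟩) + q ^ 2 * cq ⟨p, T, g, 0⟩)
    (eg : ∀ p T g q, 2 * f ⟨p, T, g, q⟩ = 2 * f ⟨p, T, 0, q⟩ +
      g * (f ⟨p, T, 1, q⟩ - f ⟨p, T, -1, q⟩) + g ^ 2 * cg ⟨p, T, 0, q⟩)
    (eT : ∀ p T g q, 2 * f ⟨p, T, g, q⟩ = 2 * f ⟨p, 0, g, q⟩ +
      T * (f ⟨p, 1, g, q⟩ - f ⟨p, -1, g, q⟩) + T ^ 2 * cT ⟨p, 0, g, q⟩)
    (ep : ∀ p T g q, 2 * f ⟨p, T, g, q⟩ = 2 * f ⟨0, T, g, q⟩ +
      p * (f ⟨1, T, g, q⟩ - f ⟨-1, T, g, q⟩) + p ^ 2 * cp)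
    (hq : ∀ z, cq z ≤ 0) (hg : ∀ z, cg z ≤ 0) (hT : ∀ z, cT z ≤ 0)
    (hp : cp * (b.hi.p - b.lo.p) ^ 2 ≤ 8 * σ) (hσ : 0 ≤ σ)
    (hc : ∀ i j l n, σ < f (corner b.lo b.hi i j l n)) : 0 < f z := by
  obtain ⟨p, T, g, q⟩ := z
  refine quad_pos (f := fun w => f ⟨w, T, g, q⟩) (fun w => ep w T g q) hp hσ m.p₀ m.p₁ ?_ ?_
  on_goal 1 => have hi : ∀ j l n, σ < f ⟨b.lo.p, cond j b.hi.T b.lo.T, cond l b.hi.g b.lo.g,
      cond n b.hi.q b.lo.q⟩ := fun j l n => hc false j l n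
  on_goal 2 => have hi : ∀ j l n, σ < f ⟨b.hi.p, cond j b.hi.T b.lo.T, cond l b.hi.g b.lo.g,
      cond n b.hi.q b.lo.q⟩ := fun j l n => hc true j l n
  all_goals
    have shift : ∀ (F : ℝ → ℝ) (c u w x : ℝ),
        (∀ v, 2 * F v = 2 * F 0 + v * (F 1 - F (-1)) + v ^ 2 * c) → c ≤ 0 → u ≤ x → x ≤ w →
        σ < F u → σ < F w → σ < F x := by
      intro F c u w x e hc hu hw a b'
      have := quad_pos' (f := fun v => F v - σ) (c := c)
        (fun v => by linarith [e v]) hc hu hw (by linarith) (by linarith)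
      linarith
    refine shift (fun v => f ⟨_, v, g, q⟩) _ _ _ _ (fun v => eT _ v g q) (hT _) m.T₀ m.T₁ ?_ ?_
  all_goals
    refine shift (fun v => f ⟨_, _, v, q⟩) _ _ _ _ (fun v => eg _ _ v q) (hg _) m.g₀ m.g₁ ?_ ?_
  all_goals
    refine shift (fun v => f ⟨_, _, _, v⟩) _ _ _ _ (fun v => eq' _ _ _ v) (hq _) m.q₀ m.q₁ ?_ ?_
  all_goals first
    | exact hi false false false | exact hi false false true | exact hi false true false
    | exact hi false true true | exact hi true false false | exact hi true false true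
    | exact hi true true false | exact hi true true true

end Vale.Agent.P100.Calib.Mid
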