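import Vale.Agent.P100.Pack.FastFour
import Vale.Agent.P100.Calib.SlabWaistBound
import Vale.Agent.P100.Calib.SlabWaistCorners

/-!
# Nonnegativity on closed boxes, and the generic definitions on expressions
-/

set_option linter.unusedVariables false

namespace Vale.Agent.P100.Calib.Mid

open Pack

/-- Sums of expressions. -/
@[reducible] def exAdd : Add Pack.Ex := ⟨Pack.Ex.add⟩

/-- Differences of expressions. -/
@[reducible] def exSub : Sub Pack.Ex := ⟨Pack.Ex.sub⟩

/-- Products of expressions. -/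
@[reducible] def exMul : Mul Pack.Ex := ⟨Pack.Ex.mul⟩

/-- A closed interval with integer ends over a common denominator. -/
structure Seg where
  lo : ℤ
  hi : ℤ
  den : ℕ

/-- A point of an interval. -/
def Seg.Mem (g : Seg) (x : ℝ) : Prop := (g.lo : ℝ) ≤ x * g.den ∧ x * g.den ≤ g.hi

/-- The charts of a box. -/
def box4 (A B C D : Seg) : ℕ → Pack.Chart
  | 0 => ⟨A.lo, A.hi, A.den, A.den⟩
  | 1 => ⟨B.lo, B.hi, B.den, B.den⟩
  | 2 => ⟨C.lo, C.hi, C.den, C.den⟩
  | _ => ⟨D.lo, D.hi, D.den, D.den⟩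

/-- Four coordinates. -/
def vec4 (a b c d : ℝ) : ℕ → ℝ
  | 0 => a
  | 1 => b
  | 2 => c
  | _ => d

theorem continuous_eval : ∀ e : Pack.Ex, Continuous fun x : ℕ → ℝ => e.eval x
  | .var i => continuous_apply i
  | .num z => continuous_const
  | .add e f => (continuous_eval e).add (continuous_eval f)
  | .sub e f => (continuous_eval e).sub (continuous_eval f)
  | .mul e f => (continuous_eval e).mul (continuous_eval f)
  | .pow e n => (continuous_eval e).pow n

theorem chart_point {lo hi : ℤ} {den : ℕ} (hd : 0 < den) {x : ℝ}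
    (h : (lo : ℝ) / den ≤ x ∧ x < (hi : ℝ) / den) :
    ∃ t : ℝ, 0 ≤ t ∧ 0 < ((den : ℤ) : ℝ) + ((den : ℤ) : ℝ) * t ∧
      (lo : ℝ) + (hi : ℝ) * t = x * (((den : ℤ) : ℝ) + ((den : ℤ) : ℝ) * t) := by
  have hd' : (0 : ℝ) < den := by exact_mod_cast hd
  obtain ⟨h1, h2⟩ := h
  rw [div_le_iff₀ hd'] at h1
  rw [lt_div_iff₀ hd'] at h2
  refine ⟨(x * den - lo) / (hi - x * den), div_nonneg (by linarith) (by linarith), ?_, ?_⟩
  · push_cast
    have : 0 ≤ (x * den - lo) / (hi - x * den) := div_nonneg (by linarith) (by linarith)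
    positivity
  · push_cast
    have : (hi : ℝ) - x * den ≠ 0 := by linarith
    field_simp
    ring

/-- **An expression passing the test is nonnegative on the closed box.** -/
theorem nonneg_on {A B C D : Seg} {K n₀ n₁ n₂ n₃ : ℕ} {e : Pack.Ex}
    (hA : A.lo < A.hi ∧ 0 < A.den) (hB : B.lo < B.hi ∧ 0 < B.den)
    (hC : C.lo < C.hi ∧ 0 < C.den) (hD : D.lo < D.hi ∧ 0 < D.den)
    (h : checkFour (box4 A B C D) K n₀ n₁ n₂ n₃ e = true) {a b c d : ℝ} (ma : A.Mem a)
    (mb : B.Mem b) (mc : C.Mem c) (md : D.Mem d) : 0 ≤ e.eval (vec4 a b c d) := by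
  let sg : ℕ → Seg := fun i => match i with | 0 => A | 1 => B | 2 => C | _ => D
  have hs : ∀ i, (sg i).lo < (sg i).hi ∧ 0 < (sg i).den := fun i => by
    rcases i with _ | _ | _ | i <;> assumption
  have hm : ∀ i, (sg i).Mem (vec4 a b c d i) := fun i => by
    rcases i with _ | _ | _ | i <;> assumption
  let T : ℕ → Set ℝ := fun i => Set.Ico ((sg i).lo / (sg i).den : ℝ) ((sg i).hi / (sg i).den)
  have sub : Set.pi (Set.Iio 4) T ⊆ {x | 0 ≤ e.eval x} := by
    intro x hx
    refine nonneg_of_checkFour h fun i hi => ?_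
    have := hx i hi
    interval_cases i <;>
      exact chart_point (by first | exact (hs 0).2 | exact (hs 1).2 | exact (hs 2).2 | exact (hs 3).2)
        this
  have cl := closure_minimal sub (isClosed_le continuous_const (continuous_eval e))
  refine cl ?_
  rw [closure_pi_set]
  intro i _
  obtain ⟨l, r⟩ := hm i
  have hd : (0 : ℝ) < (sg i).den := by exact_mod_cast (hs i).2
  have hlt : ((sg i).lo : ℝ) < (sg i).hi := by exact_mod_cast (hs i).1
  show vec4 a b c d i ∈ closure (T i)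
  rw [closure_Ico (ne_of_lt ((div_lt_div_iff_of_pos_right hd).2 hlt))]
  exact ⟨(div_le_iff₀ hd).2 l, (le_div_iff₀ hd).2 r⟩

section
attribute [local instance] exAdd exSub exMul
variable (x : ℕ → ℝ)

theorem eval_row1 (W : Wt Pack.Ex) (r : Row Pack.Ex) (o s : Pack.Ex) (i i' : ℤ)
    (B e h : Hats Pack.Ex) : (row1 Ex.num W r o s i i' B e h).eval x =
      row1 kR (W.map (·.eval x)) (r.map (·.eval x)) (o.eval x) (s.eval x) i i' (B.map (·.eval x))
        (e.map (·.eval x)) (h.map (·.eval x)) := rfl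

theorem eval_row2 (W : Wt Pack.Ex) (r : Row Pack.Ex) (o s : Pack.Ex) (i : ℤ)
    (B e h : Hats Pack.Ex) : (row2 Ex.num W r o s i B e h).eval x =
      row2 kR (W.map (·.eval x)) (r.map (·.eval x)) (o.eval x) (s.eval x) i (B.map (·.eval x))
        (e.map (·.eval x)) (h.map (·.eval x)) := rfl

theorem eval_row3 (W : Wt Pack.Ex) (r : Row Pack.Ex) (o s : Pack.Ex) (i : ℤ)
    (B e h : Hats Pack.Ex) : (row3 Ex.num W r o s i B e h).eval x =
      row3 kR (W.map (·.eval x)) (r.map (·.eval x)) (o.eval x) (s.eval x) i (B.map (·.eval x))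
        (e.map (·.eval x)) (h.map (·.eval x)) := rfl

theorem eval_row4 (W : Wt Pack.Ex) (r : Row Pack.Ex) (o s : Pack.Ex) (B e h : Hats Pack.Ex) :
    (row4 Ex.num W r o s B e h).eval x = row4 kR (W.map (·.eval x)) (r.map (·.eval x)) (o.eval x)
        (s.eval x) (B.map (·.eval x)) (e.map (·.eval x)) (h.map (·.eval x)) := rfl

theorem eval_hats (c : Co Pack.Ex) (o w1 : Pack.Ex) (z : Pt Pack.Ex) :
    (hats c o w1 z).map (·.eval x) =
      hats (c.map (·.eval x)) (o.eval x) (w1.eval x) (z.map (·.eval x)) := rfl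

theorem eval_wts (a I X o : Pack.Ex) :
    (wts Ex.num a I X o).map (·.eval x) = wts kR (a.eval x) (I.eval x) (X.eval x) (o.eval x) := rfl

theorem eval_at (g : Quad Pack.Ex) (n D : Pack.Ex) : (g.at n D).eval x =
    Quad.at ⟨g.g0.eval x, g.g1.eval x, g.g2.eval x⟩ (n.eval x) (D.eval x) := rfl

end

end Vale.Agent.P100.Calib.Mid
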