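import Vale.Agent.P100.Calib.SlabWaistBound
import Vale.Agent.P100.Calib.SlabWaistCorners

/-!
# The bound quadratics in their units
-/

set_option linter.unusedVariables false

namespace Vale.Agent.P100.Calib.Mid

/-- A quadratic over the reals. -/
def Quad.val (g : Quad ℝ) (H : ℝ) : ℝ := g.g0 + g.g1 * H + g.g2 * H ^ 2

section
variable {a I X u lam : ℝ}

theorem qnN_scale : qnN kR a I (lam * X) u lam = lam * qnN kR a I X u 1 := by
  simp only [qnN, kR]; ring

theorem den0_scale : den0 kR a I (lam * X) lam = lam * den0 kR a I X 1 := by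
  simp only [den0, kR]; ring

theorem den1_scale : den1 kR a I u lam = lam * den1 kR a I u 1 := by
  simp only [den1, kR]; ring

theorem piQ_scale (P : ℝ) : piQ kR a I (lam * X) u lam (lam * P) =
    ⟨lam ^ 2 * (piQ kR a I X u 1 P).g0, lam ^ 2 * (piQ kR a I X u 1 P).g1, 0⟩ := by
  simp only [piQ, qnN_scale, den0_scale, den1_scale (lam := lam), kR]
  push_cast
  simp only [Quad.mk.injEq]
  refine ⟨?_, ?_, trivial⟩ <;> ring

theorem timeQ_scale (T : ℝ) : timeQ kR a I (lam * X) u lam (lam * T) =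
    ⟨lam ^ 2 * (timeQ kR a I X u 1 T).g0, lam ^ 2 * (timeQ kR a I X u 1 T).g1, 0⟩ := by
  simp only [timeQ, den1_scale (lam := lam), kR]
  push_cast
  simp only [Quad.mk.injEq]
  refine ⟨?_, ?_, trivial⟩ <;> ring

theorem gamQ_scale (g : ℝ) : gamQ kR a I (lam * X) u lam (lam * g) =
    ⟨lam ^ 2 * (gamQ kR a I X u 1 g).g0, lam ^ 2 * (gamQ kR a I X u 1 g).g1, 0⟩ := by
  simp only [gamQ, qnN_scale, den0_scale, den1_scale (lam := lam), kR]
  push_cast
  simp only [Quad.mk.injEq]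
  refine ⟨?_, ?_, trivial⟩ <;> ring

theorem omQ_scale (w q : ℝ) : omQ kR a I (lam * X) u lam (lam * w) (lam * q) =
    ⟨lam ^ 2 * (omQ kR a I X u 1 w q).g0, lam ^ 2 * (omQ kR a I X u 1 w q).g1,
      lam ^ 2 * (omQ kR a I X u 1 w q).g2⟩ := by
  simp only [omQ, qnN_scale, den0_scale, den1_scale (lam := lam), kR]
  push_cast
  simp only [Quad.mk.injEq]
  refine ⟨?_, ?_, ?_⟩ <;> ring

theorem gapQ_scale (A0 A1 A2 dl mu nu E : ℝ) :
    gapQ kR (lam ^ 4 * A0) (lam ^ 4 * A1) (lam ^ 4 * A2) a I (lam * X) u lam (lam * dl)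
        (lam * mu) (lam * nu) (lam * E) =
      ⟨lam ^ 6 * (gapQ kR A0 A1 A2 a I X u 1 dl mu nu E).g0,
        lam ^ 6 * (gapQ kR A0 A1 A2 a I X u 1 dl mu nu E).g1,
        lam ^ 6 * (gapQ kR A0 A1 A2 a I X u 1 dl mu nu E).g2⟩ := by
  simp only [gapQ, flowQ, piQ, qnN_scale, den0_scale, den1_scale (lam := lam), kR]
  push_cast
  simp only [Quad.mk.injEq]
  refine ⟨?_, ?_, ?_⟩ <;> ring

theorem endN_scale (m : ℤ) : endN kR m a I (lam * X) u lam = lam * endN kR m a I X u 1 := by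
  simp only [endN, lowN, uppN, bandN, kR]; ring

theorem endD_scale : endD kR a I u lam = lam * endD kR a I u 1 := by
  simp only [endD, kR]; ring

end

/-- A linear bound between two band ends. -/
theorem lin_nonneg {g0 g1 n0 n1 D H : ℝ} (hD : 0 < D) (h0 : n0 ≤ H * D) (h1 : H * D ≤ n1)
    (e0 : 0 ≤ g0 * D + g1 * n0) (e1 : 0 ≤ g0 * D + g1 * n1) : 0 ≤ g0 + g1 * H := by
  refine nonneg_of_mul_nonneg_left (b := D) ?_ hD
  rcases le_total 0 g1 with h | h
  · linarith [mul_le_mul_of_nonneg_left h0 h]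
  · linarith [mul_le_mul_of_nonpos_left h1 h]

/-- A quadratic between two band ends, with the sag allowed for. -/
theorem quad_nonneg {g : Quad ℝ} {n0 n1 D H : ℝ} (hD : 0 < D) (h0 : n0 ≤ H * D)
    (h1 : H * D ≤ n1) (e0 : 0 ≤ g.at n0 D) (e1 : 0 ≤ g.at n1 D)
    (s0 : 0 ≤ 4 * g.at n0 D - g.g2 * (n1 - n0) * (n1 - n0))
    (s1 : 0 ≤ 4 * g.at n1 D - g.g2 * (n1 - n0) * (n1 - n0)) : 0 ≤ g.val H := by
  refine nonneg_of_mul_nonneg_left (b := D * D) ?_ (mul_pos hD hD)
  have key : g.val H * (D * D) = g.at (H * D) D := by simp only [Quad.val, Quad.at]; ring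
  rw [key]
  generalize H * D = y at *
  rcases eq_or_lt_of_le (h0.trans h1) with h | h
  · have : y = n0 := le_antisymm (h ▸ h1) h0
    rw [this]; exact e0
  · refine nonneg_of_mul_nonneg_left (b := n1 - n0) ?_ (by linarith)
    have e : g.at y D * (n1 - n0) = g.at n0 D * (n1 - y) + g.at n1 D * (y - n0) -
        g.g2 * ((y - n0) * (n1 - y)) * (n1 - n0) := by simp only [Quad.at]; ring
    rw [e]
    have a0 : 0 ≤ y - n0 := by linarith
    have a1 : 0 ≤ n1 - y := by linarith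
    rcases le_total g.g2 0 with hn | hn
    · have := mul_nonpos_of_nonpos_of_nonneg
        (mul_nonpos_of_nonpos_of_nonneg hn (mul_nonneg a0 a1)) (show 0 ≤ n1 - n0 by linarith)
      linarith [mul_nonneg e0 a1, mul_nonneg e1 a0]
    · have sq : 4 * ((y - n0) * (n1 - y)) ≤ (n1 - n0) ^ 2 := by
        linarith [sq_nonneg (n1 + n0 - 2 * y)]
      have := mul_le_mul_of_nonneg_right (mul_le_mul_of_nonneg_left sq hn)
        (show 0 ≤ n1 - n0 by linarith)
      linarith [mul_nonneg s0 a1, mul_nonneg s1 a0]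

end Vale.Agent.P100.Calib.Mid
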