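import Vale.Agent.P100.Calib.SlabWaistExpr
import Vale.Agent.P100.Calib.SlabWaistQuad

/-!
# A cell: what its checks give at a point
-/

set_option linter.unusedVariables false
set_option linter.unusedSimpArgs false

namespace Vale.Agent.P100.Calib.Mid

open Pack

attribute [local instance] exAdd exSub exMul

theorem Fit.co_scale (P : Fit) (lam a I X : ℝ) :
    P.co kR (lam * a) (lam * I) (lam * X) lam = (P.co kR a I X 1).map (lam ^ 4 * ·) := by
  simp only [Fit.co, Co.map, quart_scale, cubic_scale]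

theorem thousand : ((1000 : ℤ) : ℝ) = 1000 := by norm_num

theorem million : ((1000000 : ℤ) : ℝ) = 1000000 := by norm_num

/-- The unit of the entries. -/
noncomputable def sU : ℝ := 1000000 * 1000 ^ 7

theorem eval_oE (x : ℕ → ℝ) : oE.eval x = 1000 := thousand

theorem eval_unitE (x : ℕ → ℝ) : unitE.eval x = 1000 ^ 7 := by
  show ((1000 : ℤ) : ℝ) * ((1000 : ℤ) : ℝ) * ((1000 : ℤ) : ℝ) *
    (((1000 : ℤ) : ℝ) * ((1000 : ℤ) : ℝ) * ((1000 : ℤ) : ℝ)) * ((1000 : ℤ) : ℝ) = _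
  norm_num

namespace Ctx

variable {T : Ctx} {a I s u : ℝ}

/-- `X` of a cell. -/
noncomputable def Xr (T : Ctx) (a I s : ℝ) : ℝ := T.c.X kR a I s / 1000

/-- The lower ends. -/
noncomputable def lor (T : Ctx) (a I s : ℝ) : Pt ℝ := (T.c.lo kR a I s).map (· / 1000)

/-- The upper ends. -/
noncomputable def hir (T : Ctx) (a I s : ℝ) : Pt ℝ := (T.c.hi kR a I s).map (· / 1000)

/-- The row. -/
noncomputable def rr (T : Ctx) (a I s : ℝ) : Row ℝ :=
  ⟨poly10 kR T.c.dl a I s / 1000, poly4 kR T.c.l2 a I s / 1000, poly4 kR T.c.l3 a I s / 1000,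
    (T.c.w1 : ℝ) / 1000, (T.c.sag : ℝ) / 1000000⟩

/-- The bounds of the entries. -/
noncomputable def Br (T : Ctx) : Hats ℝ := T.c.B.map (fun v : ℤ => (v : ℝ) / 1000000)

/-- The errors of the entries. -/
noncomputable def er (T : Ctx) : Hats ℝ := T.c.e.map (fun v : ℤ => (v : ℝ) / 1000000)

theorem eval_X (x : ℕ → ℝ) : T.X.eval x = T.c.X kR (x 0) (x 1) (x 2) := rfl

theorem ev_W : T.W.map (·.eval (vec4 a I s u)) =
    (wts kR a I (T.Xr a I s) 1).map (1000 ^ 8 * ·) := by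
  rw [← wts_scale, show (1000 : ℝ) * T.Xr a I s = T.c.X kR a I s by rw [Xr]; ring, W, eval_wts]
  show wts kR (((1000 : ℤ) : ℝ) * a) (((1000 : ℤ) : ℝ) * I) (T.c.X kR a I s)
    ((1000 : ℤ) : ℝ) = _
  rw [thousand]

theorem ev_co : T.co.map (·.eval (vec4 a I s u)) =
    (T.P.val a I (T.Xr a I s)).map (1000000 * 1000 ^ 4 * ·) := by
  have e : T.co.map (·.eval (vec4 a I s u)) = T.P.co kR (((1000 : ℤ) : ℝ) * a)
      (((1000 : ℤ) : ℝ) * I) (T.c.X kR a I s) ((1000 : ℤ) : ℝ) := rfl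
  rw [e, thousand, show T.c.X kR a I s = 1000 * T.Xr a I s by rw [Xr]; ring, Fit.co_scale]
  simp only [Fit.val, Co.map, Co.mk.injEq]
  refine ⟨?_, ?_, ?_, ?_, ?_, ?_, ?_, ?_, ?_, ?_, ?_, ?_, ?_, ?_, ?_, ?_, ?_, ?_, ?_, ?_, ?_, ?_,
    ?_, ?_, ?_, ?_, ?_, ?_, ?_, ?_, ?_, ?_, ?_, ?_, ?_, ?_, ?_, ?_, ?_, ?_, ?_, ?_, ?_, ?_, ?_,
    ?_, ?_, ?_, ?_, ?_, ?_, ?_, ?_, ?_⟩ <;> ring

theorem ev_r : T.r.map (·.eval (vec4 a I s u)) = (T.rr a I s).scale 1000 sU := by
  have e : T.r.map (·.eval (vec4 a I s u)) = ⟨poly10 kR T.c.dl a I s, poly4 kR T.c.l2 a I s,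
      poly4 kR T.c.l3 a I s, (T.c.w1 : ℝ), (T.c.sag : ℝ) * unitE.eval (vec4 a I s u)⟩ := rfl
  rw [e, eval_unitE]
  simp only [Row.scale, rr, sU, Row.mk.injEq]
  refine ⟨?_, ?_, ?_, ?_, ?_⟩ <;> ring

theorem ev_B : T.B'.map (·.eval (vec4 a I s u)) = T.Br.map (sU * ·) := by
  have e : T.B'.map (·.eval (vec4 a I s u)) =
      T.c.B.map (fun v : ℤ => (v : ℝ) * unitE.eval (vec4 a I s u)) := rfl
  rw [e, eval_unitE]
  simp only [Br, Hats.map, sU, Hats.mk.injEq]
  refine ⟨?_, ?_, ?_, ?_, ?_, ?_, ?_, ?_, ?_, ?_, ?_, ?_⟩ <;> ring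

theorem ev_e : T.e.map (·.eval (vec4 a I s u)) = T.er.map (sU * ·) := by
  have e : T.e.map (·.eval (vec4 a I s u)) =
      T.c.e.map (fun v : ℤ => (v : ℝ) * unitE.eval (vec4 a I s u)) := rfl
  rw [e, eval_unitE]
  simp only [er, Hats.map, sU, Hats.mk.injEq]
  refine ⟨?_, ?_, ?_, ?_, ?_, ?_, ?_, ?_, ?_, ?_, ?_, ?_⟩ <;> ring

theorem ev_su : su.eval (vec4 a I s u) = sU := by
  show ((1000000 : ℤ) : ℝ) * unitE.eval (vec4 a I s u) = _
  rw [eval_unitE, million, sU]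

theorem ev_h {z : Pt Ex} {y : Pt ℝ} (hz : z.map (·.eval (vec4 a I s u)) = y.map (1000 * ·)) :
    (T.h z).map (·.eval (vec4 a I s u)) =
      (hats (T.P.val a I (T.Xr a I s)) 1 (T.rr a I s).w1 y).map (sU * ·) := by
  rw [h, eval_hats, ev_co, eval_oE, hz,
    show (Ex.num T.c.w1).eval (vec4 a I s u) = 1000 * (T.rr a I s).w1 by
      show (T.c.w1 : ℝ) = _
      simp only [rr]; ring,
    hats_scale, sU]

theorem ev_z (α β γ ν : Bool) : (T.z α β γ ν).map (·.eval (vec4 a I s u)) =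
    (corner (T.lor a I s) (T.hir a I s) α β γ ν).map (1000 * ·) := by
  cases α <;> cases β <;> cases γ <;> cases ν <;>
    (simp only [z, corner, lor, hir, Pt.map, cond, Pt.mk.injEq]
     refine ⟨?_, ?_, ?_, ?_⟩ <;>
      (refine Eq.trans ?_ (mul_div_cancel₀ _ (by norm_num : (1000 : ℝ) ≠ 0)).symm; rfl))

theorem ev_bend (f : Pt Ex → Ex) (g : Pt ℝ → ℝ) (c : ℝ)
    (hf : ∀ (z : Pt Ex) (y : Pt ℝ), z.map (·.eval (vec4 a I s u)) = y.map (1000 * ·) →
      (f z).eval (vec4 a I s u) = c * g y) :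
    (bend Ex.num oE f).eval (vec4 a I s u) = c * bend kR 1 g := by
  have e0 := hf ⟨oE, Ex.num 0, Ex.num 0, Ex.num 0⟩ ⟨1, 0, 0, 0⟩ (by
    simp only [Pt.map, eval_oE, Pt.mk.injEq, Ex.eval]; norm_num)
  have e1 := hf ⟨Ex.num (-1) * oE, Ex.num 0, Ex.num 0, Ex.num 0⟩ ⟨-1, 0, 0, 0⟩ (by
    simp only [Pt.map, Pt.mk.injEq]
    refine ⟨?_, ?_, ?_, ?_⟩
    · show ((-1 : ℤ) : ℝ) * oE.eval (vec4 a I s u) = _
      rw [eval_oE]; norm_num
    all_goals simp [Ex.eval])
  have e2 := hf ⟨Ex.num 0, Ex.num 0, Ex.num 0, Ex.num 0⟩ ⟨0, 0, 0, 0⟩ (by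
    simp [Pt.map, Ex.eval])
  show (f _).eval _ + (f _).eval _ - ((2 : ℤ) : ℝ) * (f _).eval _ = _
  rw [e0, e1, e2]
  simp only [bend, kR]
  push_cast
  simp only [mul_one]
  ring

/-- The point lies in the box. -/
structure In (T : Ctx) (a I s u : ℝ) : Prop where
  ma : T.A.Mem a
  mI : T.B.Mem I
  ms : segOne.Mem s
  mu : T.U.Mem u

theorem In.zero (m : T.In a I s u) : segOne.Mem (0 : ℝ) := by constructor <;> norm_num [segOne]

theorem In.at3 (m : T.In a I s u) {e : Ex} (h : T.N3 e) : 0 ≤ e.eval (vec4 a I s 0) :=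
  h a I s 0 m.ma m.mI m.ms m.zero

theorem In.at4 (m : T.In a I s u) {e : Ex} (h : T.N4 e) : 0 ≤ e.eval (vec4 a I s u) :=
  h a I s u m.ma m.mI m.ms m.mu

/-- A check less one, in its unit. -/
theorem pos_of_scaled {c x : ℝ} (hc : 0 < c) (h : 0 ≤ c * x - 1) : 0 < x :=
  pos_of_mul_pos_right (show 0 < c * x by linarith) hc.le

theorem scaled_nonneg {c x : ℝ} (hc : 0 < c) (h : 0 ≤ c * x) : 0 ≤ x :=
  nonneg_of_mul_nonneg_right h hc

theorem sgn_mem {i : ℤ} (h : i ∈ ({-1, 1} : Set ℤ)) : ∃ b, sgn b = i := by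
  rcases h with rfl | rfl
  · exact ⟨false, rfl⟩
  · exact ⟨true, rfl⟩

theorem sU_pos : 0 < sU := by rw [sU]; norm_num

theorem abs_of_two {x B : ℝ} (h1 : 0 ≤ B + x) (h2 : 0 ≤ B - x) : |x| ≤ B := by
  rw [abs_le]; constructor <;> linarith

/-- The box of intermediates of a cell. -/
noncomputable def range (T : Ctx) (a I s : ℝ) : Range := ⟨T.lor a I s, T.hir a I s⟩

/-- **The checks give the rows at every point of the box.** -/
theorem Ok.checked (h : T.Ok) (m : T.In a I s u) (hW : (wts kR a I (T.Xr a I s) 1).Good)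
    {y : Pt ℝ} (hy : (T.range a I s).Mem y) :
    0 < (T.rr a I s).l2 ∧ 0 < (T.rr a I s).l3 ∧ 0 ≤ (T.rr a I s).dl ∧
      Checked (wts kR a I (T.Xr a I s) 1) (T.rr a I s) T.Br T.er
        (hats (T.P.val a I (T.Xr a I s)) 1 (T.rr a I s).w1 y) := by
  have dl : 0 ≤ (T.rr a I s).dl := by
    have := m.at3 h.dl
    change 0 ≤ poly10 kR T.c.dl a I s at this
    simp only [rr]; positivity
  have l2 : 0 < (T.rr a I s).l2 := by
    have := m.at3 h.l2
    change 0 ≤ poly4 kR T.c.l2 a I s - ((1 : ℤ) : ℝ) at this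
    push_cast at this
    simp only [rr]; linarith
  have l3 : 0 < (T.rr a I s).l3 := by
    have := m.at3 h.l3
    change 0 ≤ poly4 kR T.c.l3 a I s - ((1 : ℤ) : ℝ) at this
    push_cast at this
    simp only [rr]; linarith
  have hs : 0 ≤ (T.rr a I s).sag := by
    have := h.err
    simp only [errOk, Bool.and_eq_true, decide_eq_true_eq] at this
    have hsag : (0 : ℝ) ≤ (T.c.sag : ℝ) := by exact_mod_cast this.1.1.1.2
    simp only [rr]; positivity
  have c18 : (0 : ℝ) < 1000 ^ 18 * sU ^ 2 := by have := sU_pos; positivity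
  have c10 : (0 : ℝ) < 1000 ^ 10 * sU ^ 2 := by have := sU_pos; positivity
  have c9 : (0 : ℝ) < 1000 ^ 9 * sU ^ 2 := by have := sU_pos; positivity
  refine ⟨l2, l3, dl, checked_of_corners hW l2.le l3.le hs hy (fun i hi i' hi' => ?_)
    (fun i hi => ?_) (fun i hi => ?_) ?_⟩
  · obtain ⟨j, rfl⟩ := sgn_mem hi
    obtain ⟨j', rfl⟩ := sgn_mem hi'
    have key : ∀ z y, z.map (·.eval (vec4 a I s 0)) = y.map (1000 * ·) →
        (row1 Ex.num T.W T.r oE su (sgn j) (sgn j') T.B' T.e (T.h z)).eval (vec4 a I s 0) =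
          1000 ^ 18 * sU ^ 2 * row1 kR (wts kR a I (T.Xr a I s) 1) (T.rr a I s) 1 1 (sgn j)
            (sgn j') T.Br T.er (hats (T.P.val a I (T.Xr a I s)) 1 (T.rr a I s).w1 y) := by
      intro z y hz
      rw [eval_row1, ev_W, ev_r, ev_B, ev_e, ev_h hz, eval_oE, ev_su, row1_scale]
    constructor
    · have b := m.at3 (h.b1 j j')
      change 0 ≤ ((0 : ℤ) : ℝ) - (bend Ex.num oE _).eval (vec4 a I s 0) at b
      rw [ev_bend _ _ _ key] at b
      push_cast at b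
      exact nonpos_of_mul_nonpos_right (by linarith : _ ≤ (0 : ℝ)) c18
    · intro α β γ ν
      have b := m.at3 (h.r1 j j' α β γ ν)
      change 0 ≤ (row1 Ex.num _ _ _ _ _ _ _ _ _).eval (vec4 a I s 0) - ((1 : ℤ) : ℝ) at b
      rw [key _ _ (ev_z α β γ ν)] at b
      push_cast at b
      exact pos_of_scaled c18 b
  · obtain ⟨j, rfl⟩ := sgn_mem hi
    have key : ∀ z y, z.map (·.eval (vec4 a I s 0)) = y.map (1000 * ·) →
        (row2 Ex.num T.W T.r oE su (sgn j) T.B' T.e (T.h z)).eval (vec4 a I s 0) =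
          1000 ^ 18 * sU ^ 2 * row2 kR (wts kR a I (T.Xr a I s) 1) (T.rr a I s) 1 1 (sgn j)
            T.Br T.er (hats (T.P.val a I (T.Xr a I s)) 1 (T.rr a I s).w1 y) := by
      intro z y hz
      rw [eval_row2, ev_W, ev_r, ev_B, ev_e, ev_h hz, eval_oE, ev_su, row2_scale]
    constructor
    · have b := m.at3 (h.b2 j)
      change 0 ≤ ((0 : ℤ) : ℝ) - (bend Ex.num oE _).eval (vec4 a I s 0) at b
      rw [ev_bend _ _ _ key] at b
      push_cast at b
      exact nonpos_of_mul_nonpos_right (by linarith : _ ≤ (0 : ℝ)) c18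
    · intro α β γ ν
      have b := m.at3 (h.r2 j α β γ)
      change 0 ≤ (row2 Ex.num _ _ _ _ _ _ _ _).eval (vec4 a I s 0) - ((1 : ℤ) : ℝ) at b
      rw [key _ _ (ev_z α β γ false)] at b
      push_cast at b
      have := pos_of_scaled c18 b
      convert this using 1
      simp only [row2, fG, fE, hats, corner, range]
  · obtain ⟨j, rfl⟩ := sgn_mem hi
    have key : ∀ z y, z.map (·.eval (vec4 a I s 0)) = y.map (1000 * ·) →
        (row3 Ex.num T.W T.r oE su (sgn j) T.B' T.e (T.h z)).eval (vec4 a I s 0) =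
          1000 ^ 10 * sU ^ 2 * row3 kR (wts kR a I (T.Xr a I s) 1) (T.rr a I s) 1 1 (sgn j)
            T.Br T.er (hats (T.P.val a I (T.Xr a I s)) 1 (T.rr a I s).w1 y) := by
      intro z y hz
      rw [eval_row3, ev_W, ev_r, ev_B, ev_e, ev_h hz, eval_oE, ev_su, row3_scale]
    constructor
    · have b := m.at3 (h.b3 j)
      change 0 ≤ ((8 : ℤ) : ℝ) * T.W.bn.eval (vec4 a I s 0) * T.r.sag.eval (vec4 a I s 0) *
        su.eval (vec4 a I s 0) * oE.eval (vec4 a I s 0) * oE.eval (vec4 a I s 0) *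
        oE.eval (vec4 a I s 0) * oE.eval (vec4 a I s 0) -
          (bend Ex.num oE _).eval (vec4 a I s 0) *
            (poly8 kR T.c.ph a I s - poly8 kR T.c.pl a I s) *
            (poly8 kR T.c.ph a I s - poly8 kR T.c.pl a I s) at b
      rw [ev_bend _ _ _ key, eval_oE, ev_su, show T.W.bn.eval (vec4 a I s 0) =
        1000 ^ 8 * (wts kR a I (T.Xr a I s) 1).bn from congrArg Wt.bn ev_W,
        show T.r.sag.eval (vec4 a I s 0) = sU * (T.rr a I s).sag from congrArg Row.sag ev_r] at b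
      push_cast at b
      refine le_of_mul_le_mul_left (a := 1000 ^ 12 * sU ^ 2) ?_ (by have := sU_pos; positivity)
      have e0 : bend kR 1 (fun x => row3 kR (wts kR a I (T.Xr a I s) 1)
          { T.rr a I s with sag := 0 } 1 1 (sgn j) T.Br T.er
          (hats (T.P.val a I (T.Xr a I s)) 1 (T.rr a I s).w1 x)) =
          bend kR 1 (fun x => row3 kR (wts kR a I (T.Xr a I s) 1) (T.rr a I s) 1 1 (sgn j) T.Br
            T.er (hats (T.P.val a I (T.Xr a I s)) 1 (T.rr a I s).w1 x)) := by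
        simp only [bend, row3, kR]; push_cast; ring
      rw [e0]
      simp only [range, lor, hir, Pt.map, Cell.lo, Cell.hi]
      linarith
    · intro α β γ ν
      have b := m.at3 (h.r3 j α β γ ν)
      change 0 ≤ (row3 Ex.num _ _ _ _ _ _ _ _).eval (vec4 a I s 0) - ((1 : ℤ) : ℝ) at b
      rw [key _ _ (ev_z α β γ ν)] at b
      push_cast at b
      exact pos_of_scaled c10 b
  · have key : ∀ z y, z.map (·.eval (vec4 a I s 0)) = y.map (1000 * ·) →
        (row4 Ex.num T.W T.r oE su T.B' T.e (T.h z)).eval (vec4 a I s 0) =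
          1000 ^ 9 * sU ^ 2 * row4 kR (wts kR a I (T.Xr a I s) 1) (T.rr a I s) 1 1
            T.Br T.er (hats (T.P.val a I (T.Xr a I s)) 1 (T.rr a I s).w1 y) := by
      intro z y hz
      rw [eval_row4, ev_W, ev_r, ev_B, ev_e, ev_h hz, eval_oE, ev_su, row4_scale]
    constructor
    · have b := m.at3 h.b4
      change 0 ≤ ((0 : ℤ) : ℝ) - (bend Ex.num oE _).eval (vec4 a I s 0) at b
      rw [ev_bend _ _ _ key] at b
      push_cast at b
      exact nonpos_of_mul_nonpos_right (by linarith : _ ≤ (0 : ℝ)) c9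
    · intro α β γ ν
      have b := m.at3 (h.r4 α β γ ν)
      change 0 ≤ (row4 Ex.num _ _ _ _ _ _ _).eval (vec4 a I s 0) - ((1 : ℤ) : ℝ) at b
      rw [key _ _ (ev_z α β γ ν)] at b
      push_cast at b
      exact pos_of_scaled c9 b

end Ctx

end Vale.Agent.P100.Calib.Mid
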