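import Vale.Agent.P100.Calib.SlabWaistPoint
import Vale.Agent.P100.Calib.SlabChartAll
import Vale.Agent.P100.Calib.SlabAllStab
import Vale.Agent.P100.Calib.SlabAllExit

/-!
# Points of the chart as points of the middle

`a = (S - d)/2`, `I = (1 - S)/2 = 1/N`, `X = v/(2 I)`.
-/

set_option linter.unusedVariables false
set_option linter.unusedSimpArgs false

namespace Vale.Agent.P100.Calib.Mid

open Closed Band

variable {a I X u t : ℝ}

theorem point_of_chart (ha0 : 0 < a) (ha1 : a ≤ 31 / 100) (hI0 : 0 < I) (hI1 : I ≤ 1 / 20)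
    (F : All.ChartFacts (1 - 2 * I - 2 * a) (1 - 2 * I) u (2 * I * X) t) :
    Point a I X u (chH (1 - 2 * I - 2 * a) (1 - 2 * I) u (2 * I * X) t)
      (chG (1 - 2 * I - 2 * a) (1 - 2 * I) u (2 * I * X) t)
      (chW1 (1 - 2 * I - 2 * a) (1 - 2 * I) u (2 * I * X) t) := by
  have hd : 0 < 1 - 2 * I - 2 * a := by linarith
  have hb : 0 < 1 - 2 * I - a := by linarith
  have hS : 0 < 1 - 2 * I := by linarith
  have ea : ((1 - 2 * I) - (1 - 2 * I - 2 * a)) / 2 = a := by ring
  have eb : ((1 - 2 * I) + (1 - 2 * I - 2 * a)) / 2 = 1 - 2 * I - a := by ring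
  have ed : (1 - 2 * I) - (1 - 2 * I - 2 * a) = 2 * a := by ring
  have e2 : 1 - (1 - 2 * I) = 2 * I := by ring
  have e3 : (2 : ℝ) - (1 - 2 * I) = 1 + 2 * I := by ring
  obtain ⟨u0, u1, H0, hlt, hv, hr, -, hdr, hev⟩ := F
  rw [ed, e2] at hv
  rw [ed] at hr
  rw [ea, eb, e2] at hdr
  rw [e2] at hev
  have hX : 96 / 100 ≤ X := by
    have h1 : 0 ≤ a * I := mul_nonneg ha0.le hI0.le
    have h2 : a * I ≤ 31 / 100 * (1 / 20) := mul_le_mul ha1 hI1 hI0.le (by norm_num)
    have h3 : 2 < X * (2 + 4 * (a * I)) := by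
      refine lt_of_mul_lt_mul_left ?_ (show 0 ≤ 2 * I by linarith)
      linarith
    by_contra h
    rw [not_le] at h
    have h4 : X * (2 + 4 * (a * I)) ≤ 96 / 100 * (2 + 4 * (a * I)) :=
      mul_le_mul_of_nonneg_right h.le (by linarith)
    linarith
  have hden : 0 < 2 + (1 - 2 * I - 2 * a) * (2 * I * X) -
      (1 - 2 * I - 2 * a) * u * chH (1 - 2 * I - 2 * a) (1 - 2 * I) u (2 * I * X) t := by
    have h1 := mul_le_mul_of_nonneg_left u1.le (mul_nonneg hd.le H0.le)
    have h2 : 0 ≤ (1 - 2 * I - 2 * a) * (2 * I * X) :=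
      mul_nonneg hd.le (mul_nonneg (by linarith) (by linarith))
    linarith
  have hG : 0 < chG (1 - 2 * I - 2 * a) (1 - 2 * I) u (2 * I * X) t := by
    have h0 : 0 < 1 - (1 - 2 * I - 2 * a) * u * chH (1 - 2 * I - 2 * a) (1 - 2 * I) u (2 * I * X) t := by
      have := mul_le_mul_of_nonneg_left u1.le (mul_nonneg hd.le H0.le)
      linarith
    have h2 : 2 * (1 - 2 * I) / (2 * I) * (u - 1) ≤ 0 :=
      mul_nonpos_of_nonneg_of_nonpos (by positivity) (by linarith)
    exact pos_of_mul_pos_right (show 0 < (1 - (1 - 2 * I - 2 * a) * u *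
      chH (1 - 2 * I - 2 * a) (1 - 2 * I) u (2 * I * X) t) *
      chG (1 - 2 * I - 2 * a) (1 - 2 * I) u (2 * I * X) t by linarith) h0.le
  have eH : chH (1 - 2 * I - 2 * a) (1 - 2 * I) u (2 * I * X) t =
      (1 - 2 * I) * (1 + (1 - a) * (2 * I * X)) / ((1 - 2 * I - a) * (1 + 2 * I)) + u * t := by
    rw [chH, ea, eb, e3]
  generalize hH : chH (1 - 2 * I - 2 * a) (1 - 2 * I) u (2 * I * X) t = H at *
  have hden' : den0 kR a I X 1 - den1 kR a I u 1 * H =
      2 + (1 - 2 * I - 2 * a) * (2 * I * X) - (1 - 2 * I - 2 * a) * u * H := by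
    simp only [den0, den1, kR]; push_cast; ring
  refine ⟨ha0, ha1, hI0, hI1, u0, u1, hX, by linarith, H0, hden'.symm ▸ hden, hG, ?_, ?_, ?_⟩
  · rw [hden', chG, hH, eb, e2]
    simp only [qnN, kR]
    push_cast
    have hD := hden.ne'
    generalize 2 + (1 - 2 * I - 2 * a) * (2 * I * X) - (1 - 2 * I - 2 * a) * u * H = D at hD ⊢
    generalize 1 - 2 * I - 2 * a = d
    have hb' := hb.ne'
    generalize 1 - 2 * I - a = b at hb' ⊢
    field_simp
    ring
  · have et : t = (H - (1 - 2 * I) * (1 + (1 - a) * (2 * I * X)) /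
        ((1 - 2 * I - a) * (1 + 2 * I))) / u := by
      rw [eq_div_iff u0.ne']; linarith
    have : 1 + 2 * I ≠ 0 := by linarith
    rw [chW1, hH, ea, eb, e2, e3, et]
    field_simp
    ring
  · have h1 : 2 * (1 - 2 * I) * (1 - a * (2 * I * X)) / (2 * I * (1 - 2 * I - a)) *
        (4 * I * (1 - 2 * I - a) / (1 - 2 * I)) = 4 - 8 * a * I * X := by field_simp; ring
    have h2 := mul_lt_mul_of_pos_right hdr
      (show 0 < 4 * I * (1 - 2 * I - a) / (1 - 2 * I) by positivity)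
    rw [h1] at h2
    refine lt_of_lt_of_le h2 (le_of_eq ?_)
    field_simp
    ring

theorem allNum_eq (ha0 : 0 < a) (ha1 : a ≤ 31 / 100) (hI0 : 0 < I) (hI1 : I ≤ 1 / 20) {H : ℝ} :
    allNum a (1 - 2 * I - 2 * a) (2 * I * X) (2 * I * H / (1 - 2 * I))
      ((1 - 2 * I) * u / (2 * I)) = llNum a I X u H := by
  have hd : 0 < 1 - 2 * I - 2 * a := by linarith
  have hb : 0 < 1 - 2 * I - a := by linarith
  have hS : 0 < 1 - 2 * I := by linarith
  have eab : a + (1 - 2 * I - 2 * a) = 1 - 2 * I - a := by ring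
  have eD : dimAll a (1 - 2 * I - 2 * a) = I⁻¹ := by
    rw [dimAll, eab, show 1 - (a + (1 - 2 * I - a)) = 2 * I by ring]; field_simp
  have eh : (1 - 2 * I) * u / (2 * I) * (1 - 2 * I - 2 * a) * (2 * I * H / (1 - 2 * I)) =
      u * (1 - 2 * I - 2 * a) * H := by field_simp
  have hk : AllN.kapAll I⁻¹ a = -(2 * a * (1 - I) / ((1 - 2 * I) * (1 - 2 * I))) := by
    have e : 2 * (I⁻¹ * a) * (I⁻¹ - 1) / (I⁻¹ - 2) ^ 2 =
        2 * a * (1 - I) / ((1 - 2 * I) * (1 - 2 * I)) := by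
      have : I⁻¹ - 2 ≠ 0 := by
        rw [show I⁻¹ - 2 = (1 - 2 * I) / I by field_simp]
        exact (div_pos hS hI0).ne'
      field_simp
    rw [AllN.kapAll, e, max_eq_right]
    rw [neg_le_neg_iff, div_le_one (mul_pos hS hS)]
    have h5 : 2 * a * (1 - I) ≤ 2 * (31 / 100) * 1 :=
      mul_le_mul (by linarith) (by linarith) (by linarith) (by norm_num)
    have h6 : (9 / 10) * (9 / 10) ≤ (1 - 2 * I) * (1 - 2 * I) :=
      mul_le_mul (by linarith) (by linarith) (by norm_num) hS.le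
    linarith
  simp only [allNum, llNum, eD, hk, eh, eab, ClosedGen.Num.mk.injEq, true_and, and_true]
  have hd' := hd.ne'
  have hb' := hb.ne'
  have hS' := hS.ne'
  have hI' := hI0.ne'
  generalize 1 + (1 - 2 * I - 2 * a) * (2 * I * X) = Q
  generalize 1 - u * (1 - 2 * I - 2 * a) * H = P
  generalize 1 - 2 * I - 2 * a = d at *
  generalize 1 - 2 * I - a = b at *
  refine ⟨?_, ?_, ?_, ?_⟩ <;> (field_simp; try ring)

/-- The signs at a point of the chart from those at the point of the middle. -/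
theorem chartSigns_of (ha0 : 0 < a) (ha1 : a ≤ 31 / 100) (hI0 : 0 < I) (hI1 : I ≤ 1 / 20)
    (h : ClosedGen.SignsMult a (1 - 2 * I - 2 * a) (2 * I * X)
      (chG (1 - 2 * I - 2 * a) (1 - 2 * I) u (2 * I * X) t)
      (2 * I * chH (1 - 2 * I - 2 * a) (1 - 2 * I) u (2 * I * X) t / (1 - 2 * I))
      (chW1 (1 - 2 * I - 2 * a) (1 - 2 * I) u (2 * I * X) t) ((1 - 2 * I) * u / (2 * I))
      (llNum a I X u (chH (1 - 2 * I - 2 * a) (1 - 2 * I) u (2 * I * X) t))) :
    All.ChartSigns (1 - 2 * I - 2 * a) (1 - 2 * I) u (2 * I * X) t := by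
  have ea : ((1 - 2 * I) - (1 - 2 * I - 2 * a)) / 2 = a := by ring
  have e2 : 1 - (1 - 2 * I) = 2 * I := by ring
  unfold All.ChartSigns
  rw [← allNum_eq ha0 ha1 hI0 hI1] at h
  rw [ea]
  simp only [chW, chR, e2, div_mul_eq_mul_div]
  exact h

/-- The ends of the band in the coordinates of the middle. -/
theorem ends_of_stab (ha0 : 0 < a) (ha1 : a ≤ 31 / 100) (hI0 : 0 < I) (hI1 : I ≤ 1 / 20)
    (hu : u ≤ 1) {H : ℝ} (hlo : allStabLG a (1 - 2 * I - a) u (2 * I * X) < H)
    (hup : H < allStabUG a (1 - 2 * I - a) u (2 * I * X)) :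
    0 < endD kR a I u 1 ∧ endN kR 0 a I X u 1 ≤ H * endD kR a I u 1 ∧
      H * endD kR a I u 1 ≤ endN kR 2 a I X u 1 := by
  have eI : allStabI a (1 - 2 * I - a) = I := by rw [allStabI]; ring
  have hp : allPole a (1 - 2 * I - a) u = 1 - 2 * I - a - u * a := by
    rw [allPole, max_eq_left (by linarith)]; ring
  have hpos : 0 < 1 - 2 * I - a - u * a := by
    linarith [mul_le_mul_of_nonneg_right hu ha0.le]
  simp only [allStabLG, allStabUG, allStabG, eI, hp] at hlo hup
  rw [div_lt_iff₀ (by linarith)] at hlo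
  rw [lt_div_iff₀ (by linarith)] at hup
  simp only [allStabN, allStabK, allStabLC, allStabUC] at hlo hup
  simp only [endD, endN, lowN, uppN, bandN, kR]
  push_cast
  refine ⟨by linarith, ?_, ?_⟩ <;> linarith

/-- The exit curve in the coordinates of the middle. -/
theorem exit_of_curve (low : Bool) (hI0 : 0 < I)
    (h : 2 * I * X * allExitDen I a u < 2 * I * (56 + 100 * I - cond low (5 * u ^ 2) 0)) :
    0 < exitQ kR low a I X u 1 := by
  have := lt_of_mul_lt_mul_left
    (show 2 * I * (X * allExitDen I a u) < 2 * I * (56 + 100 * I - cond low (5 * u ^ 2) 0) by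
      linarith) (by linarith)
  simp only [allExitDen] at this
  cases low <;> simp only [exitQ, cond, kR] at this ⊢ <;> push_cast <;> linarith

end Vale.Agent.P100.Calib.Mid
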