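import Vale.Agent.P100.Calib.SlabWaistFits
import Vale.Agent.P100.Calib.SlabWaistAll

/-!
# Kernel checks of cell 37
-/

namespace Vale.Agent.P100.Calib.Mid

open Pack

attribute [local instance] exAdd exSub exMul

set_option linter.defProp false

/-- Cell 37: `0.1 ≤ a ≤ 0.128`, `0.9 ≤ u ≤ 0.91`, quarter points 0 to 1. -/
def ctx37 : Ctx where
  P := fitB
  L := llfB
  low := false
  x0 := 1060
  x1 := 2370
  A := ⟨25, 32, 250⟩
  B := ⟨0, 1, 20⟩
  U := ⟨90, 91, 100⟩
  m0 := 0
  m1 := 1
  c :=
    { xl := ![860, 2976, 4711]
      xh := ![1046, 3249, 7799]
      pl := ![-661, -10214, 13994, 1544, -282143, -1786, 20174, -62143]
      ph := ![25, -9643, 11546, 1578, -142857, -1679, 19811, -60714]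
      Tl := ![84, 143, 160, 5, 0, -36, -663, 1429]
      Th := ![94, 179, 14, 1, 2857, 0, -623, 1429]
      gl := ![2026, -2321, -3497, 0, -6429, 0, 11, -714]
      gh := ![2034, -2286, -3360, -3, -5000, 36, -40, 0]
      ql := ![-3923, -1357, -7983, -160, 11429, 429, -3337, 8571]
      qh := ![-3913, -1143, -7229, -158, 9286, 429, -3529, 9286]
      dl := ![-324139, 5395007, 810162, 74308, -20134239, -5627193, -455328, 9244803, -527231, -16575]
      l2 := ![2455, -10859, -4912, -201]
      l3 := ![394, -440, -206, -55]
      mu := ![1, 0, 501996, 0, 0, 0, 0, 0]
      nu := ![-14076, 140822, 0, 1965, 0, 0, 0, 0]
      w1 := (-148)
      sag := 4000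
      vm := ⟨3228, 143, 1897, 5033⟩
      B := ⟨1580000, 9404000, 13342000, 79423000, 19100000, 2475000, 5424000, 6095000, 2004000,
          7828000, 12668000, 8122000⟩
      e := ⟨723, 61330, 60670, 193813, 22190, 10689, 10109, 7220, 23, 54615, 16938, 4501⟩ }

def c37_g0 : List.all
    [(ctx37.eVp false false),
      (ctx37.eVp false true),
      (ctx37.eVp true false),
      (ctx37.eVp true true),
      (ctx37.eVT false false),
      (ctx37.eVT false true),
      (ctx37.eVT true false),
      (ctx37.eVT true true),
      (ctx37.eVg false false),
      (ctx37.eVg false true),
      (ctx37.eVg true false),
      (ctx37.eVg true true),
      (ctx37.eVw false false false),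
      (ctx37.eVw false false true),
      (ctx37.eVw false true false),
      (ctx37.eVw false true true),
      (ctx37.eVw true false false),
      (ctx37.eVw true false true),
      (ctx37.eVw true true false),
      (ctx37.eVw true true true),
      (ctx37.eX0),
      (ctx37.eX1),
      (ctx37.r.l2 - Ex.num 1),
      (ctx37.r.l3 - Ex.num 1),
      (ctx37.mu),
      (ctx37.nu)]
    (checkFour (box4 ctx37.A ctx37.B segOne segOne) 41 1 1 1 0) = true := by decide +kernel

def c37_g1 : List.all
    [(ctx37.r.dl)]
    (checkFour (box4 ctx37.A ctx37.B segOne segOne) 53 2 2 2 0) = true := by decide +kernel

def c37_g2 : List.all
    [(ctx37.eHgM false),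
      (ctx37.eHgM true)]
    (checkFour (box4 ctx37.A ctx37.B segOne segOne) 143 3 3 3 0) = true := by decide +kernel

def c37_g3 : List.all
    [(ctx37.eHgG false false),
      (ctx37.eHgG false true),
      (ctx37.eHgG true false),
      (ctx37.eHgG true true),
      (ctx37.eHhM false false),
      (ctx37.eHhM false true),
      (ctx37.eHhM true false),
      (ctx37.eHhM true true)]
    (checkFour (box4 ctx37.A ctx37.B segOne segOne) 157 4 4 4 0) = true := by decide +kernel

def c37_g4 : List.all
    [(ctx37.eHhE false false),
      (ctx37.eHhE false true),
      (ctx37.eHhE true false),
      (ctx37.eHhE true true),
      (ctx37.eHhG false false false),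
      (ctx37.eHhG false false true),
      (ctx37.eHhG false true false),
      (ctx37.eHhG false true true),
      (ctx37.eHhG true false false),
      (ctx37.eHhG true false true),
      (ctx37.eHhG true true false),
      (ctx37.eHhG true true true)]
    (checkFour (box4 ctx37.A ctx37.B segOne segOne) 174 5 5 5 0) = true := by decide +kernel

def c37_g5 : List.all
    [(ctx37.eHgE false false false false),
      (ctx37.eHgE false false false true),
      (ctx37.eHgE false false true false),
      (ctx37.eHgE false false true true),
      (ctx37.eHgE false true false false),
      (ctx37.eHgE false true false true),
      (ctx37.eHgE false true true false),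
      (ctx37.eHgE false true true true),
      (ctx37.eHgE true false false false),
      (ctx37.eHgE true false false true),
      (ctx37.eHgE true false true false),
      (ctx37.eHgE true false true true),
      (ctx37.eHgE true true false false),
      (ctx37.eHgE true true false true),
      (ctx37.eHgE true true true false),
      (ctx37.eHgE true true true true)]
    (checkFour (box4 ctx37.A ctx37.B segOne segOne) 191 6 6 6 0) = true := by decide +kernel

def c37_g6 : List.all
    [(ctx37.eB4)]
    (checkFour (box4 ctx37.A ctx37.B segOne segOne) 484 12 15 9 0) = true := by decide +kernel

def c37_g7 : List.all
    [(ctx37.eB1 false false),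
      (ctx37.eB1 false true),
      (ctx37.eB1 true false),
      (ctx37.eB1 true true)]
    (checkFour (box4 ctx37.A ctx37.B segOne segOne) 578 12 15 10 0) = true := by decide +kernel

def c37_g8 : List.all
    [(ctx37.eB3 false),
      (ctx37.eB3 true)]
    (checkFour (box4 ctx37.A ctx37.B segOne segOne) 517 13 13 9 0) = true := by decide +kernel

def c37_g9 : List.all
    [(ctx37.eB2 false),
      (ctx37.eB2 true)]
    (checkFour (box4 ctx37.A ctx37.B segOne segOne) 586 13 15 10 0) = true := by decide +kernel

def c37_g10 : List.all
    [(ctx37.eR3 false false false false false),
      (ctx37.eR3 false false false false true),
      (ctx37.eR3 false false false true false),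
      (ctx37.eR3 false false false true true),
      (ctx37.eR3 false false true false false),
      (ctx37.eR3 false false true false true),
      (ctx37.eR3 false false true true false),
      (ctx37.eR3 false false true true true),
      (ctx37.eR3 false true false false false),
      (ctx37.eR3 false true false false true),
      (ctx37.eR3 false true false true false),
      (ctx37.eR3 false true false true true),
      (ctx37.eR3 false true true false false),
      (ctx37.eR3 false true true false true),
      (ctx37.eR3 false true true true false),
      (ctx37.eR3 false true true true true),
      (ctx37.eR3 true false false false false),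
      (ctx37.eR3 true false false false true),
      (ctx37.eR3 true false false true false),
      (ctx37.eR3 true false false true true),
      (ctx37.eR3 true false true false false),
      (ctx37.eR3 true false true false true),
      (ctx37.eR3 true false true true false),
      (ctx37.eR3 true false true true true),
      (ctx37.eR3 true true false false false),
      (ctx37.eR3 true true false false true),
      (ctx37.eR3 true true false true false),
      (ctx37.eR3 true true false true true),
      (ctx37.eR3 true true true false false),
      (ctx37.eR3 true true true false true),
      (ctx37.eR3 true true true true false),
      (ctx37.eR3 true true true true true)]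
    (checkFour (box4 ctx37.A ctx37.B segOne segOne) 506 14 14 10 0) = true := by decide +kernel

def c37_g11 : List.all
    [(ctx37.eR2 false false false false),
      (ctx37.eR2 false false false true),
      (ctx37.eR2 false false true false),
      (ctx37.eR2 false false true true),
      (ctx37.eR2 false true false false),
      (ctx37.eR2 false true false true),
      (ctx37.eR2 false true true false),
      (ctx37.eR2 false true true true),
      (ctx37.eR2 true false false false),
      (ctx37.eR2 true false false true),
      (ctx37.eR2 true false true false),
      (ctx37.eR2 true false true true),
      (ctx37.eR2 true true false false),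
      (ctx37.eR2 true true false true),
      (ctx37.eR2 true true true false),
      (ctx37.eR2 true true true true)]
    (checkFour (box4 ctx37.A ctx37.B segOne segOne) 615 15 17 12 0) = true := by decide +kernel

def c37_g12 : List.all
    [(ctx37.eR4 false false false false),
      (ctx37.eR4 false false false true),
      (ctx37.eR4 false false true false),
      (ctx37.eR4 false false true true),
      (ctx37.eR4 false true false false),
      (ctx37.eR4 false true false true),
      (ctx37.eR4 false true true false),
      (ctx37.eR4 false true true true),
      (ctx37.eR4 true false false false),
      (ctx37.eR4 true false false true),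
      (ctx37.eR4 true false true false),
      (ctx37.eR4 true false true true),
      (ctx37.eR4 true true false false),
      (ctx37.eR4 true true false true),
      (ctx37.eR4 true true true false),
      (ctx37.eR4 true true true true)]
    (checkFour (box4 ctx37.A ctx37.B segOne segOne) 534 16 17 13 0) = true := by decide +kernel

def c37_g13 : List.all
    [(ctx37.eR1 false false false false false false),
      (ctx37.eR1 false false false false false true),
      (ctx37.eR1 false false false false true false),
      (ctx37.eR1 false false false false true true),
      (ctx37.eR1 false false false true false false),
      (ctx37.eR1 false false false true false true),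
      (ctx37.eR1 false false false true true false),
      (ctx37.eR1 false false false true true true),
      (ctx37.eR1 false false true false false false),
      (ctx37.eR1 false false true false false true),
      (ctx37.eR1 false false true false true false),
      (ctx37.eR1 false false true false true true),
      (ctx37.eR1 false false true true false false),
      (ctx37.eR1 false false true true false true),
      (ctx37.eR1 false false true true true false),
      (ctx37.eR1 false false true true true true),
      (ctx37.eR1 false true false false false false),
      (ctx37.eR1 false true false false false true),
      (ctx37.eR1 false true false false true false),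
      (ctx37.eR1 false true false false true true),
      (ctx37.eR1 false true false true false false),
      (ctx37.eR1 false true false true false true),
      (ctx37.eR1 false true false true true false),
      (ctx37.eR1 false true false true true true),
      (ctx37.eR1 false true true false false false),
      (ctx37.eR1 false true true false false true),
      (ctx37.eR1 false true true false true false),
      (ctx37.eR1 false true true false true true),
      (ctx37.eR1 false true true true false false),
      (ctx37.eR1 false true true true false true),
      (ctx37.eR1 false true true true true false),
      (ctx37.eR1 false true true true true true),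
      (ctx37.eR1 true false false false false false),
      (ctx37.eR1 true false false false false true),
      (ctx37.eR1 true false false false true false),
      (ctx37.eR1 true false false false true true),
      (ctx37.eR1 true false false true false false),
      (ctx37.eR1 true false false true false true),
      (ctx37.eR1 true false false true true false),
      (ctx37.eR1 true false false true true true),
      (ctx37.eR1 true false true false false false),
      (ctx37.eR1 true false true false false true),
      (ctx37.eR1 true false true false true false),
      (ctx37.eR1 true false true false true true),
      (ctx37.eR1 true false true true false false),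
      (ctx37.eR1 true false true true false true),
      (ctx37.eR1 true false true true true false),
      (ctx37.eR1 true false true true true true),
      (ctx37.eR1 true true false false false false),
      (ctx37.eR1 true true false false false true),
      (ctx37.eR1 true true false false true false),
      (ctx37.eR1 true true false false true true),
      (ctx37.eR1 true true false true false false),
      (ctx37.eR1 true true false true false true),
      (ctx37.eR1 true true false true true false),
      (ctx37.eR1 true true false true true true),
      (ctx37.eR1 true true true false false false),
      (ctx37.eR1 true true true false false true),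
      (ctx37.eR1 true true true false true false),
      (ctx37.eR1 true true true false true true),
      (ctx37.eR1 true true true true false false),
      (ctx37.eR1 true true true true false true),
      (ctx37.eR1 true true true true true false),
      (ctx37.eR1 true true true true true true)]
    (checkFour (box4 ctx37.A ctx37.B segOne segOne) 632 16 18 13 0) = true := by decide +kernel

def c37_g14 : List.all
    [(ctx37.eXhi)]
    (checkFour (box4 ctx37.A ctx37.B segOne ctx37.U) 64 2 2 0 2) = true := by decide +kernel

def c37_g15 : List.all
    [(ctx37.eQT false false),
      (ctx37.eQT false true),
      (ctx37.eQT true false),
      (ctx37.eQT true true)]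
    (checkFour (box4 ctx37.A ctx37.B segOne ctx37.U) 137 4 5 2 4) = true := by decide +kernel

def c37_g16 : List.all
    [(ctx37.eQg false false),
      (ctx37.eQg false true),
      (ctx37.eQg true false),
      (ctx37.eQg true true)]
    (checkFour (box4 ctx37.A ctx37.B segOne ctx37.U) 154 5 6 2 4) = true := by decide +kernel

def c37_g17 : List.all
    [(ctx37.eQp false false),
      (ctx37.eQp false true),
      (ctx37.eQp true false),
      (ctx37.eQp true true),
      (ctx37.eXlo)]
    (checkFour (box4 ctx37.A ctx37.B segOne ctx37.U) 160 5 7 2 4) = true := by decide +kernel

def c37_g18 : List.all
    [(ctx37.eQq false false),
      (ctx37.eQq false true),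
      (ctx37.eQq true false),
      (ctx37.eQq true true),
      (ctx37.eQqs false false),
      (ctx37.eQqs false true),
      (ctx37.eQqs true false),
      (ctx37.eQqs true true)]
    (checkFour (box4 ctx37.A ctx37.B segOne ctx37.U) 260 8 11 3 8) = true := by decide +kernel

def c37_g19 : List.all
    [(ctx37.eGap false),
      (ctx37.eGap true),
      (ctx37.eGaps false),
      (ctx37.eGaps true)]
    (checkFour (box4 ctx37.A ctx37.B segOne ctx37.U) 403 12 16 8 9) = true := by decide +kernel

/-- Cell 37 passes. -/
theorem ctx37_ok : ctx37.Ok where
  r1 := fun x y z w v s => match x, y, z, w, v, s with
    | false, false, false, false, false, false => nn_of_check (all_get c37_g13 0 (by decide)) rfl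
    | false, false, false, false, false, true => nn_of_check (all_get c37_g13 1 (by decide)) rfl
    | false, false, false, false, true, false => nn_of_check (all_get c37_g13 2 (by decide)) rfl
    | false, false, false, false, true, true => nn_of_check (all_get c37_g13 3 (by decide)) rfl
    | false, false, false, true, false, false => nn_of_check (all_get c37_g13 4 (by decide)) rfl
    | false, false, false, true, false, true => nn_of_check (all_get c37_g13 5 (by decide)) rfl
    | false, false, false, true, true, false => nn_of_check (all_get c37_g13 6 (by decide)) rfl
    | false, false, false, true, true, true => nn_of_check (all_get c37_g13 7 (by decide)) rfl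
    | false, false, true, false, false, false => nn_of_check (all_get c37_g13 8 (by decide)) rfl
    | false, false, true, false, false, true => nn_of_check (all_get c37_g13 9 (by decide)) rfl
    | false, false, true, false, true, false => nn_of_check (all_get c37_g13 10 (by decide)) rfl
    | false, false, true, false, true, true => nn_of_check (all_get c37_g13 11 (by decide)) rfl
    | false, false, true, true, false, false => nn_of_check (all_get c37_g13 12 (by decide)) rfl
    | false, false, true, true, false, true => nn_of_check (all_get c37_g13 13 (by decide)) rfl
    | false, false, true, true, true, false => nn_of_check (all_get c37_g13 14 (by decide)) rfl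
    | false, false, true, true, true, true => nn_of_check (all_get c37_g13 15 (by decide)) rfl
    | false, true, false, false, false, false => nn_of_check (all_get c37_g13 16 (by decide)) rfl
    | false, true, false, false, false, true => nn_of_check (all_get c37_g13 17 (by decide)) rfl
    | false, true, false, false, true, false => nn_of_check (all_get c37_g13 18 (by decide)) rfl
    | false, true, false, false, true, true => nn_of_check (all_get c37_g13 19 (by decide)) rfl
    | false, true, false, true, false, false => nn_of_check (all_get c37_g13 20 (by decide)) rfl
    | false, true, false, true, false, true => nn_of_check (all_get c37_g13 21 (by decide)) rfl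
    | false, true, false, true, true, false => nn_of_check (all_get c37_g13 22 (by decide)) rfl
    | false, true, false, true, true, true => nn_of_check (all_get c37_g13 23 (by decide)) rfl
    | false, true, true, false, false, false => nn_of_check (all_get c37_g13 24 (by decide)) rfl
    | false, true, true, false, false, true => nn_of_check (all_get c37_g13 25 (by decide)) rfl
    | false, true, true, false, true, false => nn_of_check (all_get c37_g13 26 (by decide)) rfl
    | false, true, true, false, true, true => nn_of_check (all_get c37_g13 27 (by decide)) rfl
    | false, true, true, true, false, false => nn_of_check (all_get c37_g13 28 (by decide)) rfl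
    | false, true, true, true, false, true => nn_of_check (all_get c37_g13 29 (by decide)) rfl
    | false, true, true, true, true, false => nn_of_check (all_get c37_g13 30 (by decide)) rfl
    | false, true, true, true, true, true => nn_of_check (all_get c37_g13 31 (by decide)) rfl
    | true, false, false, false, false, false => nn_of_check (all_get c37_g13 32 (by decide)) rfl
    | true, false, false, false, false, true => nn_of_check (all_get c37_g13 33 (by decide)) rfl
    | true, false, false, false, true, false => nn_of_check (all_get c37_g13 34 (by decide)) rfl
    | true, false, false, false, true, true => nn_of_check (all_get c37_g13 35 (by decide)) rfl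
    | true, false, false, true, false, false => nn_of_check (all_get c37_g13 36 (by decide)) rfl
    | true, false, false, true, false, true => nn_of_check (all_get c37_g13 37 (by decide)) rfl
    | true, false, false, true, true, false => nn_of_check (all_get c37_g13 38 (by decide)) rfl
    | true, false, false, true, true, true => nn_of_check (all_get c37_g13 39 (by decide)) rfl
    | true, false, true, false, false, false => nn_of_check (all_get c37_g13 40 (by decide)) rfl
    | true, false, true, false, false, true => nn_of_check (all_get c37_g13 41 (by decide)) rfl
    | true, false, true, false, true, false => nn_of_check (all_get c37_g13 42 (by decide)) rfl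
    | true, false, true, false, true, true => nn_of_check (all_get c37_g13 43 (by decide)) rfl
    | true, false, true, true, false, false => nn_of_check (all_get c37_g13 44 (by decide)) rfl
    | true, false, true, true, false, true => nn_of_check (all_get c37_g13 45 (by decide)) rfl
    | true, false, true, true, true, false => nn_of_check (all_get c37_g13 46 (by decide)) rfl
    | true, false, true, true, true, true => nn_of_check (all_get c37_g13 47 (by decide)) rfl
    | true, true, false, false, false, false => nn_of_check (all_get c37_g13 48 (by decide)) rfl
    | true, true, false, false, false, true => nn_of_check (all_get c37_g13 49 (by decide)) rfl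
    | true, true, false, false, true, false => nn_of_check (all_get c37_g13 50 (by decide)) rfl
    | true, true, false, false, true, true => nn_of_check (all_get c37_g13 51 (by decide)) rfl
    | true, true, false, true, false, false => nn_of_check (all_get c37_g13 52 (by decide)) rfl
    | true, true, false, true, false, true => nn_of_check (all_get c37_g13 53 (by decide)) rfl
    | true, true, false, true, true, false => nn_of_check (all_get c37_g13 54 (by decide)) rfl
    | true, true, false, true, true, true => nn_of_check (all_get c37_g13 55 (by decide)) rfl
    | true, true, true, false, false, false => nn_of_check (all_get c37_g13 56 (by decide)) rfl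
    | true, true, true, false, false, true => nn_of_check (all_get c37_g13 57 (by decide)) rfl
    | true, true, true, false, true, false => nn_of_check (all_get c37_g13 58 (by decide)) rfl
    | true, true, true, false, true, true => nn_of_check (all_get c37_g13 59 (by decide)) rfl
    | true, true, true, true, false, false => nn_of_check (all_get c37_g13 60 (by decide)) rfl
    | true, true, true, true, false, true => nn_of_check (all_get c37_g13 61 (by decide)) rfl
    | true, true, true, true, true, false => nn_of_check (all_get c37_g13 62 (by decide)) rfl
    | true, true, true, true, true, true => nn_of_check (all_get c37_g13 63 (by decide)) rfl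
  b1 := fun x y => match x, y with
    | false, false => nn_of_check (all_get c37_g7 0 (by decide)) rfl
    | false, true => nn_of_check (all_get c37_g7 1 (by decide)) rfl
    | true, false => nn_of_check (all_get c37_g7 2 (by decide)) rfl
    | true, true => nn_of_check (all_get c37_g7 3 (by decide)) rfl
  r2 := fun x y z w => match x, y, z, w with
    | false, false, false, false => nn_of_check (all_get c37_g11 0 (by decide)) rfl
    | false, false, false, true => nn_of_check (all_get c37_g11 1 (by decide)) rfl
    | false, false, true, false => nn_of_check (all_get c37_g11 2 (by decide)) rfl
    | false, false, true, true => nn_of_check (all_get c37_g11 3 (by decide)) rfl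
    | false, true, false, false => nn_of_check (all_get c37_g11 4 (by decide)) rfl
    | false, true, false, true => nn_of_check (all_get c37_g11 5 (by decide)) rfl
    | false, true, true, false => nn_of_check (all_get c37_g11 6 (by decide)) rfl
    | false, true, true, true => nn_of_check (all_get c37_g11 7 (by decide)) rfl
    | true, false, false, false => nn_of_check (all_get c37_g11 8 (by decide)) rfl
    | true, false, false, true => nn_of_check (all_get c37_g11 9 (by decide)) rfl
    | true, false, true, false => nn_of_check (all_get c37_g11 10 (by decide)) rfl
    | true, false, true, true => nn_of_check (all_get c37_g11 11 (by decide)) rfl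
    | true, true, false, false => nn_of_check (all_get c37_g11 12 (by decide)) rfl
    | true, true, false, true => nn_of_check (all_get c37_g11 13 (by decide)) rfl
    | true, true, true, false => nn_of_check (all_get c37_g11 14 (by decide)) rfl
    | true, true, true, true => nn_of_check (all_get c37_g11 15 (by decide)) rfl
  b2 := fun x => match x with
    | false => nn_of_check (all_get c37_g9 0 (by decide)) rfl
    | true => nn_of_check (all_get c37_g9 1 (by decide)) rfl
  r3 := fun x y z w v => match x, y, z, w, v with
    | false, false, false, false, false => nn_of_check (all_get c37_g10 0 (by decide)) rfl
    | false, false, false, false, true => nn_of_check (all_get c37_g10 1 (by decide)) rfl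
    | false, false, false, true, false => nn_of_check (all_get c37_g10 2 (by decide)) rfl
    | false, false, false, true, true => nn_of_check (all_get c37_g10 3 (by decide)) rfl
    | false, false, true, false, false => nn_of_check (all_get c37_g10 4 (by decide)) rfl
    | false, false, true, false, true => nn_of_check (all_get c37_g10 5 (by decide)) rfl
    | false, false, true, true, false => nn_of_check (all_get c37_g10 6 (by decide)) rfl
    | false, false, true, true, true => nn_of_check (all_get c37_g10 7 (by decide)) rfl
    | false, true, false, false, false => nn_of_check (all_get c37_g10 8 (by decide)) rfl
    | false, true, false, false, true => nn_of_check (all_get c37_g10 9 (by decide)) rfl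
    | false, true, false, true, false => nn_of_check (all_get c37_g10 10 (by decide)) rfl
    | false, true, false, true, true => nn_of_check (all_get c37_g10 11 (by decide)) rfl
    | false, true, true, false, false => nn_of_check (all_get c37_g10 12 (by decide)) rfl
    | false, true, true, false, true => nn_of_check (all_get c37_g10 13 (by decide)) rfl
    | false, true, true, true, false => nn_of_check (all_get c37_g10 14 (by decide)) rfl
    | false, true, true, true, true => nn_of_check (all_get c37_g10 15 (by decide)) rfl
    | true, false, false, false, false => nn_of_check (all_get c37_g10 16 (by decide)) rfl
    | true, false, false, false, true => nn_of_check (all_get c37_g10 17 (by decide)) rfl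
    | true, false, false, true, false => nn_of_check (all_get c37_g10 18 (by decide)) rfl
    | true, false, false, true, true => nn_of_check (all_get c37_g10 19 (by decide)) rfl
    | true, false, true, false, false => nn_of_check (all_get c37_g10 20 (by decide)) rfl
    | true, false, true, false, true => nn_of_check (all_get c37_g10 21 (by decide)) rfl
    | true, false, true, true, false => nn_of_check (all_get c37_g10 22 (by decide)) rfl
    | true, false, true, true, true => nn_of_check (all_get c37_g10 23 (by decide)) rfl
    | true, true, false, false, false => nn_of_check (all_get c37_g10 24 (by decide)) rfl
    | true, true, false, false, true => nn_of_check (all_get c37_g10 25 (by decide)) rfl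
    | true, true, false, true, false => nn_of_check (all_get c37_g10 26 (by decide)) rfl
    | true, true, false, true, true => nn_of_check (all_get c37_g10 27 (by decide)) rfl
    | true, true, true, false, false => nn_of_check (all_get c37_g10 28 (by decide)) rfl
    | true, true, true, false, true => nn_of_check (all_get c37_g10 29 (by decide)) rfl
    | true, true, true, true, false => nn_of_check (all_get c37_g10 30 (by decide)) rfl
    | true, true, true, true, true => nn_of_check (all_get c37_g10 31 (by decide)) rfl
  b3 := fun x => match x with
    | false => nn_of_check (all_get c37_g8 0 (by decide)) rfl
    | true => nn_of_check (all_get c37_g8 1 (by decide)) rfl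
  r4 := fun x y z w => match x, y, z, w with
    | false, false, false, false => nn_of_check (all_get c37_g12 0 (by decide)) rfl
    | false, false, false, true => nn_of_check (all_get c37_g12 1 (by decide)) rfl
    | false, false, true, false => nn_of_check (all_get c37_g12 2 (by decide)) rfl
    | false, false, true, true => nn_of_check (all_get c37_g12 3 (by decide)) rfl
    | false, true, false, false => nn_of_check (all_get c37_g12 4 (by decide)) rfl
    | false, true, false, true => nn_of_check (all_get c37_g12 5 (by decide)) rfl
    | false, true, true, false => nn_of_check (all_get c37_g12 6 (by decide)) rfl
    | false, true, true, true => nn_of_check (all_get c37_g12 7 (by decide)) rfl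
    | true, false, false, false => nn_of_check (all_get c37_g12 8 (by decide)) rfl
    | true, false, false, true => nn_of_check (all_get c37_g12 9 (by decide)) rfl
    | true, false, true, false => nn_of_check (all_get c37_g12 10 (by decide)) rfl
    | true, false, true, true => nn_of_check (all_get c37_g12 11 (by decide)) rfl
    | true, true, false, false => nn_of_check (all_get c37_g12 12 (by decide)) rfl
    | true, true, false, true => nn_of_check (all_get c37_g12 13 (by decide)) rfl
    | true, true, true, false => nn_of_check (all_get c37_g12 14 (by decide)) rfl
    | true, true, true, true => nn_of_check (all_get c37_g12 15 (by decide)) rfl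
  b4 := nn_of_check (all_get c37_g6 0 (by decide)) rfl
  hgE := fun x y z w => match x, y, z, w with
    | false, false, false, false => nn_of_check (all_get c37_g5 0 (by decide)) rfl
    | false, false, false, true => nn_of_check (all_get c37_g5 1 (by decide)) rfl
    | false, false, true, false => nn_of_check (all_get c37_g5 2 (by decide)) rfl
    | false, false, true, true => nn_of_check (all_get c37_g5 3 (by decide)) rfl
    | false, true, false, false => nn_of_check (all_get c37_g5 4 (by decide)) rfl
    | false, true, false, true => nn_of_check (all_get c37_g5 5 (by decide)) rfl
    | false, true, true, false => nn_of_check (all_get c37_g5 6 (by decide)) rfl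
    | false, true, true, true => nn_of_check (all_get c37_g5 7 (by decide)) rfl
    | true, false, false, false => nn_of_check (all_get c37_g5 8 (by decide)) rfl
    | true, false, false, true => nn_of_check (all_get c37_g5 9 (by decide)) rfl
    | true, false, true, false => nn_of_check (all_get c37_g5 10 (by decide)) rfl
    | true, false, true, true => nn_of_check (all_get c37_g5 11 (by decide)) rfl
    | true, true, false, false => nn_of_check (all_get c37_g5 12 (by decide)) rfl
    | true, true, false, true => nn_of_check (all_get c37_g5 13 (by decide)) rfl
    | true, true, true, false => nn_of_check (all_get c37_g5 14 (by decide)) rfl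
    | true, true, true, true => nn_of_check (all_get c37_g5 15 (by decide)) rfl
  hgG := fun x y => match x, y with
    | false, false => nn_of_check (all_get c37_g3 0 (by decide)) rfl
    | false, true => nn_of_check (all_get c37_g3 1 (by decide)) rfl
    | true, false => nn_of_check (all_get c37_g3 2 (by decide)) rfl
    | true, true => nn_of_check (all_get c37_g3 3 (by decide)) rfl
  hhE := fun x y => match x, y with
    | false, false => nn_of_check (all_get c37_g4 0 (by decide)) rfl
    | false, true => nn_of_check (all_get c37_g4 1 (by decide)) rfl
    | true, false => nn_of_check (all_get c37_g4 2 (by decide)) rfl
    | true, true => nn_of_check (all_get c37_g4 3 (by decide)) rfl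
  hhG := fun x y z => match x, y, z with
    | false, false, false => nn_of_check (all_get c37_g4 4 (by decide)) rfl
    | false, false, true => nn_of_check (all_get c37_g4 5 (by decide)) rfl
    | false, true, false => nn_of_check (all_get c37_g4 6 (by decide)) rfl
    | false, true, true => nn_of_check (all_get c37_g4 7 (by decide)) rfl
    | true, false, false => nn_of_check (all_get c37_g4 8 (by decide)) rfl
    | true, false, true => nn_of_check (all_get c37_g4 9 (by decide)) rfl
    | true, true, false => nn_of_check (all_get c37_g4 10 (by decide)) rfl
    | true, true, true => nn_of_check (all_get c37_g4 11 (by decide)) rfl
  hhM := fun x y => match x, y with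
    | false, false => nn_of_check (all_get c37_g3 4 (by decide)) rfl
    | false, true => nn_of_check (all_get c37_g3 5 (by decide)) rfl
    | true, false => nn_of_check (all_get c37_g3 6 (by decide)) rfl
    | true, true => nn_of_check (all_get c37_g3 7 (by decide)) rfl
  hgM := fun x => match x with
    | false => nn_of_check (all_get c37_g2 0 (by decide)) rfl
    | true => nn_of_check (all_get c37_g2 1 (by decide)) rfl
  vp := fun x y => match x, y with
    | false, false => nn_of_check (all_get c37_g0 0 (by decide)) rfl
    | false, true => nn_of_check (all_get c37_g0 1 (by decide)) rfl
    | true, false => nn_of_check (all_get c37_g0 2 (by decide)) rfl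
    | true, true => nn_of_check (all_get c37_g0 3 (by decide)) rfl
  vT := fun x y => match x, y with
    | false, false => nn_of_check (all_get c37_g0 4 (by decide)) rfl
    | false, true => nn_of_check (all_get c37_g0 5 (by decide)) rfl
    | true, false => nn_of_check (all_get c37_g0 6 (by decide)) rfl
    | true, true => nn_of_check (all_get c37_g0 7 (by decide)) rfl
  vg := fun x y => match x, y with
    | false, false => nn_of_check (all_get c37_g0 8 (by decide)) rfl
    | false, true => nn_of_check (all_get c37_g0 9 (by decide)) rfl
    | true, false => nn_of_check (all_get c37_g0 10 (by decide)) rfl
    | true, true => nn_of_check (all_get c37_g0 11 (by decide)) rfl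
  vw := fun x y z => match x, y, z with
    | false, false, false => nn_of_check (all_get c37_g0 12 (by decide)) rfl
    | false, false, true => nn_of_check (all_get c37_g0 13 (by decide)) rfl
    | false, true, false => nn_of_check (all_get c37_g0 14 (by decide)) rfl
    | false, true, true => nn_of_check (all_get c37_g0 15 (by decide)) rfl
    | true, false, false => nn_of_check (all_get c37_g0 16 (by decide)) rfl
    | true, false, true => nn_of_check (all_get c37_g0 17 (by decide)) rfl
    | true, true, false => nn_of_check (all_get c37_g0 18 (by decide)) rfl
    | true, true, true => nn_of_check (all_get c37_g0 19 (by decide)) rfl
  X0 := nn_of_check (all_get c37_g0 20 (by decide)) rfl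
  X1 := nn_of_check (all_get c37_g0 21 (by decide)) rfl
  dl := nn_of_check (all_get c37_g1 0 (by decide)) rfl
  l2 := nn_of_check (all_get c37_g0 22 (by decide)) rfl
  l3 := nn_of_check (all_get c37_g0 23 (by decide)) rfl
  mu := nn_of_check (all_get c37_g0 24 (by decide)) rfl
  nu := nn_of_check (all_get c37_g0 25 (by decide)) rfl
  qp := fun x y => match x, y with
    | false, false => nn_of_check (all_get c37_g17 0 (by decide)) rfl
    | false, true => nn_of_check (all_get c37_g17 1 (by decide)) rfl
    | true, false => nn_of_check (all_get c37_g17 2 (by decide)) rfl
    | true, true => nn_of_check (all_get c37_g17 3 (by decide)) rfl
  qT := fun x y => match x, y with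
    | false, false => nn_of_check (all_get c37_g15 0 (by decide)) rfl
    | false, true => nn_of_check (all_get c37_g15 1 (by decide)) rfl
    | true, false => nn_of_check (all_get c37_g15 2 (by decide)) rfl
    | true, true => nn_of_check (all_get c37_g15 3 (by decide)) rfl
  qg := fun x y => match x, y with
    | false, false => nn_of_check (all_get c37_g16 0 (by decide)) rfl
    | false, true => nn_of_check (all_get c37_g16 1 (by decide)) rfl
    | true, false => nn_of_check (all_get c37_g16 2 (by decide)) rfl
    | true, true => nn_of_check (all_get c37_g16 3 (by decide)) rfl
  qq := fun x y => match x, y with
    | false, false => nn_of_check (all_get c37_g18 0 (by decide)) rfl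
    | false, true => nn_of_check (all_get c37_g18 1 (by decide)) rfl
    | true, false => nn_of_check (all_get c37_g18 2 (by decide)) rfl
    | true, true => nn_of_check (all_get c37_g18 3 (by decide)) rfl
  qqs := fun x y => match x, y with
    | false, false => nn_of_check (all_get c37_g18 4 (by decide)) rfl
    | false, true => nn_of_check (all_get c37_g18 5 (by decide)) rfl
    | true, false => nn_of_check (all_get c37_g18 6 (by decide)) rfl
    | true, true => nn_of_check (all_get c37_g18 7 (by decide)) rfl
  gap := fun x => match x with
    | false => nn_of_check (all_get c37_g19 0 (by decide)) rfl
    | true => nn_of_check (all_get c37_g19 1 (by decide)) rfl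
  gaps := fun x => match x with
    | false => nn_of_check (all_get c37_g19 2 (by decide)) rfl
    | true => nn_of_check (all_get c37_g19 3 (by decide)) rfl
  xlo := nn_of_check (all_get c37_g17 4 (by decide)) rfl
  xhi := nn_of_check (all_get c37_g14 0 (by decide)) rfl
  err := by decide +kernel

end Vale.Agent.P100.Calib.Mid
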