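import Vale.Agent.P100.Calib.SlabWaistCoefExpr

/-!
# The values of the exact coefficients
-/

set_option linter.unusedVariables false
set_option linter.unusedSimpArgs false

namespace Vale.Agent.P100.Calib.Mid

open Pack

local instance midCoefRealAdd : Add Pack.Ex := ⟨Ex.add⟩
local instance midCoefRealMul : Mul Pack.Ex := ⟨Ex.mul⟩

theorem eval_addM (x : ℕ → ℝ) (e f : Pack.Ex) : (e + f).eval x = e.eval x + f.eval x := rfl

theorem eval_mulM (x : ℕ → ℝ) (e f : Pack.Ex) : (e * f).eval x = e.eval x * f.eval x := rfl

theorem eval_numM (x : ℕ → ℝ) (z : ℤ) : (eM z).eval x = (z : ℝ) := rfl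

/-- The coefficient of `1` in `LGGS`. -/
def cGG0000 (a I X : ℝ) : ℝ :=
  (((I * (80 + I * ((-560) + I * (1440 + I * ((-1600) + I * (640)))))) + a * ((I * ((-480) + I
    * (2480 + I * ((-4320) + I * (2560))))) + a * ((I * (880 + I * ((-2720) + I * (2080)))) + a
    * ((I * ((-480) + I * (480))))))) + X * (((I * ((-40) + I * (440 + I * ((-1480) + I *
    ((-320) + I * (14240 + I * ((-39040) + I * (49280 + I * ((-30720) + I * (7680)))))))))) + a
    * ((I * (480 + I * ((-5160) + I * (19440 + I * ((-27520) + I * ((-6400) + I * (58240 + I *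
    ((-55040) + I * (15360))))))))) + a * ((I * ((-1560) + I * (14480 + I * ((-43240) + I *
    (42240 + I * (16960 + I * ((-46080) + I * (14720)))))))) + a * ((I * (1760 + I * ((-12960)
    + I * (21520 + I * (7200 + I * ((-32320) + I * (12160))))))) + a * ((I * ((-320) + I *
    (1120 + I * (6720 + I * ((-14720) + I * (6400)))))) + a * ((I * ((-320) + I * (1600 + I *
    ((-2560) + I * (1280))))))))))) + X * (((I * (I * (160 + I * ((-2320) + I * (15480 + I *
    ((-62800) + I * (170720 + I * ((-320320) + I * (410240 + I * ((-341760) + I * (166400 + I *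
    ((-35840))))))))))))) + a * ((I * (I * ((-1200) + I * (14800 + I * ((-83600) + I * (285600
    + I * ((-645120) + I * (974720 + I * ((-944640) + I * (527360 + I * ((-128000)))))))))))) +
    a * ((I * (I * (3520 + I * ((-36160) + I * (170840 + I * ((-487760) + I * (899520 + I *
    ((-1041920) + I * (680320 + I * ((-188160))))))))))) + a * ((I * (I * ((-5200) + I * (44000
    + I * ((-176000) + I * (422400 + I * ((-609920) + I * (476160 + I * ((-151040)))))))))) + a
    * ((I * (I * (4320 + I * ((-30880) + I * (108640 + I * ((-209600) + I * (200320 + I *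
    ((-72960))))))))) + a * ((I * (I * ((-2240) + I * (14080 + I * ((-40320) + I * (48640 + I *
    ((-20480)))))))) + a * ((I * (I * (640 + I * ((-3200) + I * (5120 + I *
    ((-2560)))))))))))))))))

theorem val_GG0000 (x : ℕ → ℝ) (a I X : Pack.Ex) :
    (eGG0000 a I X).eval x = cGG0000 (a.eval x) (I.eval x) (X.eval x) := by
  simp only [eGG0000, cGG0000, eval_addM, eval_mulM, eval_numM]
  push_cast
  rfl

/-- The coefficient of `T` in `LGGS`. -/
def cGG0100 (a I X : ℝ) : ℝ :=
  (((24 + I * ((-96) + I * (96))) + a * (((-48) + I * (48)))) + X * (((12 + I * (72 + I *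
    ((-768) + I * (1920 + I * ((-1728) + I * (384)))))) + a * ((48 + I * ((-768) + I * (2592 +
    I * ((-2880) + I * (768))))) + a * (((-144) + I * (864 + I * ((-1152) + I * (384))))))) + X
    * (((I * (48 + I * ((-288) + I * (288 + I * (1536 + I * ((-4608) + I * (4608 + I *
    ((-1536))))))))) + a * ((I * ((-168) + I * (480 + I * (1584 + I * ((-7680) + I * (9792 + I
    * ((-3840)))))))) + a * ((I * (96 + I * (576 + I * ((-4032) + I * (6528 + I *
    ((-3072))))))) + a * ((I * (96 + I * ((-768) + I * (1344 + I * ((-768)))))))))))))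

theorem val_GG0100 (x : ℕ → ℝ) (a I X : Pack.Ex) :
    (eGG0100 a I X).eval x = cGG0100 (a.eval x) (I.eval x) (X.eval x) := by
  simp only [eGG0100, cGG0100, eval_addM, eval_mulM, eval_numM]
  push_cast
  rfl

/-- The coefficient of `p` in `LGGS`. -/
def cGG1000 (a I X : ℝ) : ℝ :=
  (X * (((I * (I * ((-20) + I * (220 + I * ((-1000) + I * (2400 + I * ((-3200) + I * (2240 + I
    * ((-640)))))))))) + a * ((I * (I * (160 + I * ((-1500) + I * (5600 + I * ((-10400) + I *
    (9600 + I * ((-3520))))))))) + a * ((I * (I * ((-460) + I * (3520 + I * ((-10080) + I *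
    (12800 + I * ((-6080)))))))) + a * ((I * (I * (560 + I * ((-3280) + I * (6400 + I *
    ((-4160))))))) + a * ((I * (I * ((-240) + I * (960 + I * ((-960)))))))))))))

theorem val_GG1000 (x : ℕ → ℝ) (a I X : Pack.Ex) :
    (eGG1000 a I X).eval x = cGG1000 (a.eval x) (I.eval x) (X.eval x) := by
  simp only [eGG1000, cGG1000, eval_addM, eval_mulM, eval_numM]
  push_cast
  rfl

/-- The coefficient of `p * T` in `LGGS`. -/
def cGG1100 (a I X : ℝ) : ℝ :=
  (X * (((I * ((-6) + I * (48 + I * ((-144) + I * (192 + I * ((-96))))))) + a * ((I * (24 + I *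
    ((-144) + I * (288 + I * ((-192)))))) + a * ((I * ((-24) + I * (96 + I * ((-96))))))))))

theorem val_GG1100 (x : ℕ → ℝ) (a I X : Pack.Ex) :
    (eGG1100 a I X).eval x = cGG1100 (a.eval x) (I.eval x) (X.eval x) := by
  simp only [eGG1100, cGG1100, eval_addM, eval_mulM, eval_numM]
  push_cast
  rfl

/-- The coefficient of `1` in `LEGS`. -/
def cEG0000 (a I X : ℝ) : ℝ :=
  ((((-640) + I * (7680 + I * ((-37120) + I * (92160 + I * ((-122880) + I * (81920 + I *
    ((-20480)))))))) + a * ((2560 + I * ((-26880) + I * (107520 + I * ((-207360) + I * (194560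
    + I * ((-71680))))))) + a * (((-3200) + I * (33280 + I * ((-111360) + I * (153600 + I *
    ((-76800)))))) + a * ((1280 + I * ((-19200) + I * (48640 + I * ((-33280))))) + a * ((I *
    (5120 + I * ((-5120))))))))) + X * (((640 + I * ((-11520) + I * (89280 + I * ((-379200) + I
    * (939520 + I * ((-1317120) + I * (834560 + I * (148480 + I * ((-491520) + I *
    (184320)))))))))) + a * (((-3840) + I * (63360 + I * ((-450560) + I * (1721600 + I *
    ((-3732480) + I * (4456960 + I * ((-2452480) + I * (92160 + I * (307200))))))))) + a *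
    ((8320 + I * ((-128000) + I * (865600 + I * ((-3028160) + I * (5698560 + I * ((-5547520) +
    I * (2309120 + I * ((-138240))))))))) + a * (((-7680) + I * (120960 + I * ((-848640) + I *
    (2709760 + I * ((-4093440) + I * (2708480 + I * ((-522240)))))))) + a * ((2560 + I *
    ((-60160) + I * (472320 + I * ((-1207040) + I * (1146880 + I * ((-322560))))))) + a * ((I *
    (15360 + I * ((-117760) + I * (163840 + I * ((-61440)))))))))))) + X * (((I * (1280 + I *
    ((-21120) + I * (159360 + I * ((-695040) + I * (1821440 + I * ((-2603520) + I * (829440 + I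
    * (3604480 + I * ((-6328320) + I * (4382720 + I * ((-1146880))))))))))))) + a * ((I *
    ((-11200) + I * (161600 + I * ((-1098240) + I * (4407040 + I * ((-10817280) + I * (15352320
    + I * ((-9615360) + I * ((-3031040) + I * (7802880 + I * ((-3153920)))))))))))) + a * ((I *
    (37760 + I * ((-471040) + I * (2952960 + I * ((-11287680) + I * (26447360 + I *
    ((-36167680) + I * (25446400 + I * ((-5683200) + I * ((-1392640))))))))))) + a * ((I *
    ((-61120) + I * (668480 + I * ((-4181120) + I * (15893120 + I * ((-34507520) + I *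
    (40273920 + I * ((-22062080) + I * (3635200))))))))) + a * ((I * (47360 + I * ((-513280) +
    I * (3678720 + I * ((-13378560) + I * (23439360 + I * ((-18565120) + I * (4935680)))))))) +
    a * ((I * ((-14080) + I * (247040 + I * ((-2050560) + I * (5813760 + I * ((-6384640) + I *
    (2283520))))))) + a * ((I * (I * ((-71680) + I * (501760 + I * ((-778240) + I *
    (368640))))))))))))) + X * (((I * (I * (I * (640 + I * ((-3520) + I * ((-12480) + I *
    (130560 + I * ((-209920) + I * ((-921600) + I * (4823040 + I * ((-9789440) + I * (10567680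
    + I * ((-5980160) + I * (1392640)))))))))))))) + a * ((I * (I * ((-1920) + I * (21120 + I *
    ((-184960) + I * (1306240 + I * ((-5694720) + I * (14318080 + I * ((-19440640) + I *
    (9861120 + I * (7147520 + I * ((-11509760) + I * (4177920))))))))))))) + a * ((I * (I *
    (15360 + I * ((-163200) + I * (1295680 + I * ((-8007360) + I * (30968320 + I * ((-70882560)
    + I * (93803520 + I * ((-66360320) + I * (19251200 + I * (184320)))))))))))) + a * ((I * (I
    * ((-48000) + I * (452480 + I * ((-3618560) + I * (21364480 + I * ((-72929280) + I *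
    (139709440 + I * ((-146708480) + I * (76103680 + I * ((-13885440)))))))))))) + a * ((I * (I
    * (72960 + I * ((-631040) + I * (5713920 + I * ((-31580160) + I * (88652800 + I *
    ((-127672320) + I * (88780800 + I * ((-22609920))))))))))) + a * ((I * (I * ((-53760) + I *
    (529920 + I * ((-5703680) + I * (26280960 + I * ((-53719040) + I * (49233920 + I *
    ((-16097280)))))))))) + a * ((I * (I * (15360 + I * ((-312320) + I * (3292160 + I *
    ((-10572800) + I * (13086720 + I * ((-5509120))))))))) + a * ((I * (I * (I * (102400 + I *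
    ((-757760) + I * (1310720 + I * ((-737280)))))))))))))))) + X * (((I * (I * (I * (I * (I *
    (3840 + I * ((-65920) + I * (503040 + I * ((-2242560) + I * (6451200 + I * ((-12472320) + I
    * (16343040 + I * ((-14254080) + I * (7864320 + I * ((-2457600) + I *
    (327680)))))))))))))))) + a * ((I * (I * (I * (I * (I * ((-54400) + I * (836480 + I *
    ((-5648640) + I * (21944320 + I * ((-53918720) + I * (86630400 + I * ((-90664960) + I *
    (59310080 + I * ((-21872640) + I * (3440640))))))))))))))) + a * ((I * (I * (I * (I * (I *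
    (334080 + I * ((-4539520) + I * (26673920 + I * ((-88358400) + I * (180044800 + I *
    ((-230389760) + I * (180080640 + I * ((-78192640) + I * (14336000)))))))))))))) + a * ((I *
    (I * (I * (I * (2560 + I * ((-1192320) + I * (13857920 + I * ((-68911360) + I * (188305920
    + I * ((-304148480) + I * (289208320 + I * ((-149114880) + I * (31907840))))))))))))) + a *
    ((I * (I * (I * (I * ((-23040) + I * (2731520 + I * ((-25932800) + I * (104857600 + I *
    ((-225013760) + I * (268042240 + I * ((-166952960) + I * (42106880)))))))))))) + a * ((I *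
    (I * (I * (I * (81920 + I * ((-4070400) + I * (29926400 + I * ((-93071360) + I * (145367040
    + I * ((-112353280) + I * (33996800))))))))))) + a * ((I * (I * (I * (I * ((-143360) + I *
    (3747840 + I * ((-20060160) + I * (44216320 + I * ((-44113920) + I * (16465920)))))))))) +
    a * ((I * (I * (I * (I * (122880 + I * ((-1873920) + I * (6686720 + I * ((-9113600) + I *
    (4382720))))))))) + a * ((I * (I * (I * (I * ((-40960) + I * (368640 + I * ((-737280) + I *
    (491520))))))))))))))))))))))

theorem val_EG0000 (x : ℕ → ℝ) (a I X : Pack.Ex) :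
    (eEG0000 a I X).eval x = cEG0000 (a.eval x) (I.eval x) (X.eval x) := by
  simp only [eEG0000, cEG0000, eval_addM, eval_mulM, eval_numM]
  push_cast
  rfl

/-- The coefficient of `g` in `LEGS`. -/
def cEG0010 (a I X : ℝ) : ℝ :=
  (X * (((I * (I * (320 + I * ((-4160) + I * (22400 + I * ((-64000) + I * (102400 + I *
    ((-87040) + I * (30720))))))))) + a * ((I * (I * ((-960) + I * (10560 + I * ((-46080) + I *
    (99840 + I * ((-107520) + I * (46080)))))))) + a * ((I * (I * (I * (640 + I * ((-6400) + I
    * (23040 + I * ((-35840) + I * (20480)))))))) + a * ((I * (I * (1920 + I * ((-15360) + I *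
    (46080 + I * ((-61440) + I * (30720))))))) + a * ((I * (I * ((-1280) + I * (7680 + I *
    ((-15360) + I * (10240))))))))))) + X * (((I * (I * (I * (1280 + I * ((-19200) + I *
    (122880 + I * ((-435200) + I * (921600 + I * ((-1167360) + I * (819200 + I *
    ((-245760)))))))))))) + a * ((I * (I * (I * ((-6400) + I * (83200 + I * ((-448000) + I *
    (1280000 + I * ((-2048000) + I * (1740800 + I * ((-614400))))))))))) + a * ((I * (I * (I *
    (7680 + I * ((-81920) + I * (337920 + I * ((-655360) + I * (532480 + I * (I *
    ((-163840))))))))))) + a * ((I * (I * (I * (7680 + I * ((-81920) + I * (358400 + I *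
    ((-798720) + I * (901120 + I * ((-409600)))))))))) + a * ((I * (I * (I * ((-20480) + I *
    (163840 + I * ((-491520) + I * (655360 + I * ((-327680))))))))) + a * ((I * (I * (I *
    (10240 + I * ((-61440) + I * (122880 + I * ((-81920)))))))))))))) + X * (((I * (I * (I * (I
    * (1280 + I * ((-21760) + I * (161280 + I * ((-680960) + I * (1792000 + I * ((-3010560) + I
    * (3153920 + I * ((-1884160) + I * (491520))))))))))))) + a * ((I * (I * (I * (I * ((-8960)
    + I * (134400 + I * ((-860160) + I * (3046400 + I * ((-6451200) + I * (8171520 + I *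
    ((-5734400) + I * (1720320)))))))))))) + a * ((I * (I * (I * (I * (20480 + I * ((-263680) +
    I * (1397760 + I * ((-3891200) + I * (5939200 + I * ((-4546560) + I * (1064960 + I *
    (327680)))))))))))) + a * ((I * (I * (I * (I * ((-7680) + I * (66560 + I * ((-153600) + I *
    ((-204800) + I * (1433600 + I * ((-2211840) + I * (1146880))))))))))) + a * ((I * (I * (I *
    (I * ((-35840) + I * (368640 + I * ((-1536000) + I * (3235840 + I * ((-3440640) + I *
    (1474560)))))))))) + a * ((I * (I * (I * (I * (51200 + I * ((-409600) + I * (1228800 + I *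
    ((-1638400) + I * (819200))))))))) + a * ((I * (I * (I * (I * ((-20480) + I * (122880 + I *
    ((-245760) + I * (163840)))))))))))))))))))

theorem val_EG0010 (x : ℕ → ℝ) (a I X : Pack.Ex) :
    (eEG0010 a I X).eval x = cEG0010 (a.eval x) (I.eval x) (X.eval x) := by
  simp only [eEG0010, cEG0010, eval_addM, eval_mulM, eval_numM]
  push_cast
  rfl

/-- The coefficient of `T` in `LEGS`. -/
def cEG0100 (a I X : ℝ) : ℝ :=
  (X * (((I * (576 + I * ((-4224) + I * (11520 + I * ((-13824) + I * (6144)))))) + a * (((-576)
    + I * (2304 + I * ((-768) + I * ((-6144) + I * (6144))))) + a * ((1152 + I * ((-4608) + I *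
    (4608)))))) + X * (((I * (I * (960 + I * ((-9984) + I * (41472 + I * ((-86016) + I * (89088
    + I * ((-36864))))))))) + a * ((I * ((-2496) + I * (16128 + I * ((-27648) + I * ((-21504) +
    I * (101376 + I * ((-73728)))))))) + a * ((I * (9984 + I * ((-56064) + I * (95232 + I *
    ((-27648) + I * ((-36864))))))) + a * ((I * ((-9984) + I * (39936 + I * ((-39936))))))))) +
    X * (((I * (I * ((-384) + I * (4224 + I * ((-20736) + I * (61440 + I * ((-122880) + I *
    (165888 + I * ((-135168) + I * (49152)))))))))) + a * ((I * (I * (I * (2304 + I * ((-9216)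
    + I * ((-18432) + I * (147456 + I * ((-258048) + I * (147456))))))))) + a * ((I * (I *
    (9216 + I * ((-78336) + I * (230400 + I * ((-239616) + I * ((-36864) + I * (147456))))))))
    + a * ((I * (I * ((-24576) + I * (150528 + I * ((-294912) + I * (159744 + I * (49152)))))))
    + a * ((I * (I * (18432 + I * ((-73728) + I * (73728)))))))))) + X * (((I * (I * (I *
    ((-384) + I * (4608 + I * ((-23040) + I * (61440 + I * ((-92160) + I * (73728 + I *
    ((-24576))))))))))) + a * ((I * (I * (I * (2688 + I * ((-26112) + I * (99840 + I *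
    ((-184320) + I * (153600 + I * ((-24576) + I * ((-24576))))))))))) + a * ((I * (I * (I *
    ((-6144) + I * (43008 + I * ((-98304) + I * (49152 + I * (98304 + I * ((-98304)))))))))) +
    a * ((I * (I * (I * (3072 + I * (I * ((-73728) + I * (196608 + I * ((-147456))))))))) + a *
    ((I * (I * (I * (6144 + I * ((-49152) + I * (122880 + I * ((-98304)))))))) + a * ((I * (I *
    (I * ((-6144) + I * (24576 + I * ((-24576))))))))))))))))))

theorem val_EG0100 (x : ℕ → ℝ) (a I X : Pack.Ex) :
    (eEG0100 a I X).eval x = cEG0100 (a.eval x) (I.eval x) (X.eval x) := by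
  simp only [eEG0100, cEG0100, eval_addM, eval_mulM, eval_numM]
  push_cast
  rfl

/-- The coefficient of `T * g` in `LEGS`. -/
def cEG0110 (a I X : ℝ) : ℝ :=
  (X * (((I * (400 + I * ((-4000) + I * (16000 + I * ((-32000) + I * (32000 + I *
    ((-12800)))))))) + a * ((I * ((-1200) + I * (9600 + I * ((-28800) + I * (38400 + I *
    ((-19200))))))) + a * ((I * (800 + I * ((-4800) + I * (9600 + I * ((-6400))))))))) + X *
    (((I * (I * (1600 + I * ((-19200) + I * (96000 + I * ((-256000) + I * (384000 + I *
    ((-307200) + I * (102400))))))))) + a * ((I * (I * ((-8000) + I * (80000 + I * ((-320000) +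
    I * (640000 + I * ((-640000) + I * (256000)))))))) + a * ((I * (I * (12800 + I * ((-102400)
    + I * (307200 + I * ((-409600) + I * (204800))))))) + a * ((I * (I * ((-6400) + I * (38400
    + I * ((-76800) + I * (51200)))))))))) + X * (((I * (I * (I * (1600 + I * ((-22400) + I *
    (134400 + I * ((-448000) + I * (896000 + I * ((-1075200) + I * (716800 + I *
    ((-204800)))))))))))) + a * ((I * (I * (I * ((-11200) + I * (134400 + I * ((-672000) + I *
    (1792000 + I * ((-2688000) + I * (2150400 + I * ((-716800))))))))))) + a * ((I * (I * (I *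
    (28800 + I * ((-288000) + I * (1152000 + I * ((-2304000) + I * (2304000 + I *
    ((-921600)))))))))) + a * ((I * (I * (I * ((-32000) + I * (256000 + I * ((-768000) + I *
    (1024000 + I * ((-512000))))))))) + a * ((I * (I * (I * (12800 + I * ((-76800) + I *
    (153600 + I * ((-102400)))))))))))))))))

theorem val_EG0110 (x : ℕ → ℝ) (a I X : Pack.Ex) :
    (eEG0110 a I X).eval x = cEG0110 (a.eval x) (I.eval x) (X.eval x) := by
  simp only [eEG0110, cEG0110, eval_addM, eval_mulM, eval_numM]
  push_cast
  rfl

/-- The coefficient of `p` in `LEGS`. -/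
def cEG1000 (a I X : ℝ) : ℝ :=
  (((I * ((-240) + I * (2160 + I * ((-7680) + I * (13440 + I * ((-11520) + I * (3840))))))) + a
    * ((I * (1440 + I * ((-10800) + I * (30240 + I * ((-37440) + I * (17280)))))) + a * ((I *
    ((-2640) + I * (15360 + I * ((-29760) + I * (19200))))) + a * ((I * (1440 + I * ((-5760) +
    I * (5760)))))))) + X * (((I * (40 + I * ((-1560) + I * (14640 + I * ((-63840) + I *
    (151680 + I * ((-199680) + I * (126720 + I * ((-7680) + I * ((-30720) + I *
    (10240))))))))))) + a * ((I * ((-240) + I * (10960 + I * ((-92880) + I * (344640 + I *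
    ((-659200) + I * (641280 + I * ((-241920) + I * ((-35840) + I * (30720)))))))))) + a * ((I
    * (520 + I * ((-29240) + I * (215040 + I * ((-643360) + I * (909440 + I * ((-551040) + I *
    (56320 + I * (33280))))))))) + a * ((I * ((-480) + I * (35680 + I * ((-216320) + I *
    (483840 + I * ((-439040) + I * (110080 + I * (15360)))))))) + a * ((I * (160 + I *
    ((-18400) + I * (87040 + I * ((-131840) + I * (58880 + I * (2560))))))) + a * ((I * (I *
    (2560 + I * ((-10240) + I * (10240))))))))))) + X * (((I * (I * (80 + I * ((-2160) + I *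
    (20960 + I * ((-105600) + I * (312320 + I * ((-558080) + I * (568320 + I * ((-235520) + I *
    ((-102400) + I * (143360 + I * ((-40960)))))))))))))) + a * ((I * (I * ((-640) + I * (17920
    + I * ((-161600) + I * (722560 + I * ((-1825280) + I * (2657280 + I * ((-2032640) + I *
    (460800 + I * (327680 + I * ((-163840))))))))))))) + a * ((I * (I * (2000 + I * ((-60720) +
    I * (501920 + I * ((-1939520) + I * (4018560 + I * ((-4455680) + I * (2209280 + I *
    ((-15360) + I * ((-256000)))))))))))) + a * ((I * (I * ((-3040) + I * (107360 + I *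
    ((-794880) + I * (2551680 + I * ((-4067840) + I * (3033600 + I * ((-634880) + I *
    ((-194560))))))))))) + a * ((I * (I * (2240 + I * ((-104000) + I * (664960 + I *
    ((-1669120) + I * (1827840 + I * ((-670720) + I * ((-71680)))))))))) + a * ((I * (I *
    ((-640) + I * (51840 + I * ((-271360) + I * (481280 + I * ((-276480) + I *
    ((-10240))))))))) + a * ((I * (I * (I * ((-10240) + I * (40960 + I * ((-40960))))))))))))))
    + X * (((I * (I * (I * (I * ((-160) + I * (2880 + I * ((-22720) + I * (103040 + I *
    ((-295680) + I * (555520 + I * ((-680960) + I * (522240 + I * ((-225280) + I *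
    (40960)))))))))))))) + a * ((I * (I * (I * (I * (1920 + I * ((-31200) + I * (218880 + I *
    ((-865920) + I * (2112000 + I * ((-3248640) + I * (3072000 + I * ((-1628160) + I *
    (368640))))))))))))) + a * ((I * (I * (I * (I * ((-10080) + I * (145440 + I * ((-888320) +
    I * (2979200 + I * ((-5926400) + I * (6991360 + I * ((-4526080) + I * (1239040))))))))))))
    + a * ((I * (I * (I * (I * (30080 + I * ((-376320) + I * (1940480 + I * ((-5283840) + I *
    (8017920 + I * ((-6430720) + I * (2129920))))))))))) + a * ((I * (I * (I * (I * ((-55040) +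
    I * (577280 + I * ((-2401280) + I * (4956160 + I * ((-5079040) + I * (2068480)))))))))) + a
    * ((I * (I * (I * (I * (61440 + I * ((-514560) + I * (1607680 + I * ((-2222080) + I *
    (1146880))))))))) + a * ((I * (I * (I * (I * ((-38400) + I * (238080 + I * ((-491520) + I *
    (337920)))))))) + a * ((I * (I * (I * (I * (10240 + I * ((-40960) + I *
    (40960)))))))))))))))))))

theorem val_EG1000 (x : ℕ → ℝ) (a I X : Pack.Ex) :
    (eEG1000 a I X).eval x = cEG1000 (a.eval x) (I.eval x) (X.eval x) := by
  simp only [eEG1000, cEG1000, eval_addM, eval_mulM, eval_numM]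
  push_cast
  rfl

/-- The coefficient of `p * T` in `LEGS`. -/
def cEG1100 (a I X : ℝ) : ℝ :=
  ((((-72) + I * (432 + I * ((-864) + I * (576)))) + a * ((144 + I * ((-576) + I * (576))))) +
    X * (((I * ((-216) + I * (1728 + I * ((-5184) + I * (6912 + I * ((-3456))))))) + a * ((I *
    (864 + I * ((-5184) + I * (10368 + I * ((-6912)))))) + a * ((I * ((-864) + I * (3456 + I *
    ((-3456)))))))) + X * (((I * (I * ((-96) + I * (960 + I * ((-3840) + I * (7680 + I *
    ((-7680) + I * (3072)))))))) + a * ((I * (I * (576 + I * ((-4608) + I * (13824 + I *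
    ((-18432) + I * (9216))))))) + a * ((I * (I * ((-1152) + I * (6912 + I * ((-13824) + I *
    (9216)))))) + a * ((I * (I * (768 + I * ((-3072) + I * (3072))))))))) + X * (((I * (I * (I
    * (48 + I * ((-576) + I * (2880 + I * ((-7680) + I * (11520 + I * ((-9216) + I *
    (3072)))))))))) + a * ((I * (I * (I * ((-384) + I * (3840 + I * ((-15360) + I * (30720 + I
    * ((-30720) + I * (12288))))))))) + a * ((I * (I * (I * (1152 + I * ((-9216) + I * (27648 +
    I * ((-36864) + I * (18432)))))))) + a * ((I * (I * (I * ((-1536) + I * (9216 + I *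
    ((-18432) + I * (12288))))))) + a * ((I * (I * (I * (768 + I * ((-3072) + I *
    (3072)))))))))))))))

theorem val_EG1100 (x : ℕ → ℝ) (a I X : Pack.Ex) :
    (eEG1100 a I X).eval x = cEG1100 (a.eval x) (I.eval x) (X.eval x) := by
  simp only [eEG1100, cEG1100, eval_addM, eval_mulM, eval_numM]
  push_cast
  rfl

/-- The coefficient of `1` in `LEES`. -/
def cLE0000 (a I X : ℝ) : ℝ :=
  ((((-960) + I * (8320 + I * ((-28160) + I * (46080 + I * ((-35840) + I * (10240)))))) + a *
    ((3200 + I * ((-20480) + I * (47360 + I * ((-46080) + I * (15360))))) + a * (((-3520) + I *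
    (14720 + I * ((-19200) + I * (7680)))) + a * ((1280 + I * ((-2560) + I * (1280))))))) + X *
    ((((-320) + I * ((-640) + I * (27520 + I * ((-144640) + I * (334080 + I * ((-358400) + I *
    (102400 + I * (102400 + I * ((-61440)))))))))) + a * ((960 + I * (14080 + I * ((-163200) +
    I * (588800 + I * ((-965120) + I * (691200 + I * ((-102400) + I * ((-61440))))))))) + a *
    (((-960) + I * ((-37760) + I * (259200 + I * ((-590080) + I * (520960 + I * ((-92160) + I *
    ((-56320)))))))) + a * ((320 + I * (35840 + I * ((-137600) + I * (135680 + I * (7680 + I *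
    ((-40960))))))) + a * ((I * ((-11520) + I * (14080 + I * (7680 + I * ((-10240))))))))))) +
    X * (((I * ((-1280) + I * (13440 + I * ((-52480) + I * (81920 + I * ((-10240) + I *
    ((-10240) + I * ((-430080) + I * (1064960 + I * ((-983040) + I * (327680))))))))))) + a *
    ((I * (3840 + I * ((-13440) + I * ((-112640) + I * (843520 + I * ((-2216960) + I * (2662400
    + I * ((-1064960) + I * ((-512000) + I * (409600)))))))))) + a * ((I * (3840 + I *
    ((-131200) + I * (898560 + I * ((-2598400) + I * (3578880 + I * ((-2088960) + I * (143360 +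
    I * (163840))))))))) + a * ((I * ((-24320) + I * (320640 + I * ((-1199360) + I * (1578240 +
    I * ((-168960) + I * ((-865280) + I * (266240)))))))) + a * ((I * (28160 + I * ((-248320) +
    I * (424960 + I * (261120 + I * ((-808960) + I * (245760))))))) + a * ((I * ((-10240) + I *
    (58880 + I * (25600 + I * ((-168960) + I * (61440)))))))))))) + X * (((I * (I * ((-1280) +
    I * (21760 + I * ((-158720) + I * (651520 + I * ((-1657600) + I * (2723840 + I *
    ((-2974720) + I * (2314240 + I * ((-1495040) + I * (819200 + I * ((-245760)))))))))))))) +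
    a * ((I * (I * (4480 + I * ((-71680) + I * (464000 + I * ((-1561600) + I * (2810880 + I *
    ((-2114560) + I * ((-1136640) + I * (3481600 + I * ((-2457600) + I * (573440)))))))))))) +
    a * ((I * (I * (16640 + I * ((-172800) + I * (712960 + I * ((-1534720) + I * (2264320 + I *
    ((-3850240) + I * (6727680 + I * ((-6901760) + I * (2805760))))))))))) + a * ((I * (I *
    ((-110720) + I * (1052160 + I * ((-3612800) + I * (4938240 + I * ((-885760) + I *
    ((-2293760) + I * ((-1607680) + I * (2908160)))))))))) + a * ((I * (I * (216320 + I *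
    ((-1638400) + I * (3685120 + I * ((-642560) + I * ((-6318080) + I * (4597760 + I *
    (839680))))))))) + a * ((I * (I * ((-181760) + I * (993280 + I * ((-857600) + I *
    ((-2334720) + I * (3143680 + I * ((-163840))))))))) + a * ((I * (I * (56320 + I *
    ((-184320) + I * ((-179200) + I * (563200 + I * ((-81920))))))))))))))) + X * (((I * (I *
    (I * (I * (2560 + I * ((-37120) + I * (227840 + I * ((-750080) + I * (1326080 + I *
    ((-788480) + I * ((-1576960) + I * (3973120 + I * ((-3850240) + I * (1802240 + I *
    ((-327680)))))))))))))))) + a * ((I * (I * (I * (1280 + I * ((-46080) + I * (474880 + I *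
    ((-2352640) + I * (6364160 + I * ((-8919040) + I * (2805760 + I * (10608640 + I *
    ((-17285120) + I * (10977280 + I * ((-2621440))))))))))))))) + a * ((I * (I * (I * ((-2560)
    + I * (151040 + I * ((-1578240) + I * (7334400 + I * ((-17845760) + I * (21457920 + I *
    ((-4423680) + I * ((-19333120) + I * (21504000 + I * ((-7290880)))))))))))))) + a * ((I *
    (I * (I * ((-29440) + I * (40960 + I * (1678080 + I * ((-10662400) + I * (27499520 + I *
    ((-32174080) + I * (8540160 + I * (14540800 + I * ((-9748480))))))))))))) + a * ((I * (I *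
    (I * (143360 + I * ((-875520) + I * (61440 + I * (10915840 + I * ((-30484480) + I *
    (29798400 + I * ((-3727360) + I * ((-6799360)))))))))))) + a * ((I * (I * (I * ((-256000) +
    I * (1402880 + I * ((-399360) + I * ((-10096640) + I * (20172800 + I * ((-9830400) + I *
    ((-2375680))))))))))) + a * ((I * (I * (I * (204800 + I * ((-798720) + I * ((-634880) + I *
    (5201920 + I * ((-4587520) + I * ((-327680)))))))))) + a * ((I * (I * (I * ((-61440) + I *
    (122880 + I * (389120 + I * ((-696320)))))))))))))))) + X * ((a * ((I * (I * (I * (I * (I *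
    ((-2560) + I * (42240 + I * ((-307200) + I * (1290240 + I * ((-3440640) + I * (6021120 + I
    * ((-6881280) + I * (4915200 + I * ((-1966080) + I * (327680))))))))))))))) + a * ((I * (I
    * (I * (I * (I * (30720 + I * ((-453120) + I * (2903040 + I * ((-10536960) + I * (23654400
    + I * ((-33546240) + I * (29245440 + I * ((-14254080) + I * (2949120)))))))))))))) + a *
    ((I * (I * (I * (I * (I * ((-156160) + I * (2028800 + I * ((-11228160) + I * (34278400 + I
    * ((-62259200) + I * (67153920 + I * ((-39731200) + I * (9912320))))))))))))) + a * ((I *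
    (I * (I * (I * (I * (435200 + I * ((-4884480) + I * (22732800 + I * ((-56115200) + I *
    (77414400 + I * ((-56524800) + I * (17039360)))))))))))) + a * ((I * (I * (I * (I * (I *
    ((-716800) + I * (6768640 + I * ((-25477120) + I * (47759360 + I * ((-44564480) + I *
    (16547840))))))))))) + a * ((I * (I * (I * (I * (I * (696320 + I * ((-5324800) + I *
    (15237120 + I * ((-19333120) + I * (9175040)))))))))) + a * ((I * (I * (I * (I * (I *
    ((-368640) + I * (2150400 + I * ((-4177920) + I * (2703360))))))))) + a * ((I * (I * (I *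
    (I * (I * (81920 + I * ((-327680) + I * (327680)))))))))))))))))))))))

theorem val_LE0000 (x : ℕ → ℝ) (a I X : Pack.Ex) :
    (eLE0000 a I X).eval x = cLE0000 (a.eval x) (I.eval x) (X.eval x) := by
  simp only [eLE0000, cLE0000, eval_addM, eval_mulM, eval_numM]
  push_cast
  rfl

/-- The coefficient of `w` in `LEES`. -/
def cLE0001 (a I X : ℝ) : ℝ :=
  ((((-320) + I * (3200 + I * ((-12800) + I * (25600 + I * ((-25600) + I * (10240)))))) + a *
    ((960 + I * ((-7680) + I * (23040 + I * ((-30720) + I * (15360))))) + a * (((-960) + I *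
    (5760 + I * ((-11520) + I * (7680)))) + a * ((320 + I * ((-1280) + I * (1280))))))) + X *
    (((I * ((-960) + I * (11520 + I * ((-57600) + I * (153600 + I * ((-230400) + I * (184320 +
    I * ((-61440))))))))) + a * ((I * (4800 + I * ((-48000) + I * (192000 + I * ((-384000) + I
    * (384000 + I * ((-153600)))))))) + a * ((I * ((-8640) + I * (69120 + I * ((-207360) + I *
    (276480 + I * ((-138240))))))) + a * ((I * (6720 + I * ((-40320) + I * (80640 + I *
    ((-53760)))))) + a * ((I * ((-1920) + I * (7680 + I * ((-7680)))))))))) + X * (((I * (I *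
    ((-640) + I * (8960 + I * ((-53760) + I * (179200 + I * ((-358400) + I * (430080 + I *
    ((-286720) + I * (81920)))))))))) + a * ((I * (I * (4480 + I * ((-53760) + I * (268800 + I
    * ((-716800) + I * (1075200 + I * ((-860160) + I * (286720))))))))) + a * ((I * (I *
    ((-12160) + I * (121600 + I * ((-486400) + I * (972800 + I * ((-972800) + I *
    (389120)))))))) + a * ((I * (I * (16000 + I * ((-128000) + I * (384000 + I * ((-512000) + I
    * (256000))))))) + a * ((I * (I * ((-10240) + I * (61440 + I * ((-122880) + I *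
    (81920)))))) + a * ((I * (I * (2560 + I * ((-10240) + I * (10240))))))))))))))

theorem val_LE0001 (x : ℕ → ℝ) (a I X : Pack.Ex) :
    (eLE0001 a I X).eval x = cLE0001 (a.eval x) (I.eval x) (X.eval x) := by
  simp only [eLE0001, cLE0001, eval_addM, eval_mulM, eval_numM]
  push_cast
  rfl

/-- The coefficient of `g` in `LEES`. -/
def cLE0010 (a I X : ℝ) : ℝ :=
  (X * (((I * (I * (640 + I * ((-7040) + I * (30720 + I * ((-66560) + I * (71680 + I *
    ((-30720))))))))) + a * ((I * (I * ((-1920) + I * (17280 + I * ((-57600) + I * (84480 + I *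
    ((-46080)))))))) + a * ((I * (I * (I * (1280 + I * ((-10240) + I * (25600 + I *
    ((-20480)))))))) + a * ((I * (I * (3840 + I * ((-23040) + I * (46080 + I * ((-30720)))))))
    + a * ((I * (I * ((-2560) + I * (10240 + I * ((-10240))))))))))) + X * (((I * (I * (I *
    (2560 + I * ((-33280) + I * (179200 + I * ((-512000) + I * (819200 + I * ((-696320) + I *
    (245760)))))))))) + a * ((I * (I * (I * ((-14080) + I * (154880 + I * ((-675840) + I *
    (1464320 + I * ((-1576960) + I * (675840))))))))) + a * ((I * (I * (I * (19200 + I *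
    ((-167680) + I * (524800 + I * ((-660480) + I * (174080 + I * (163840))))))))) + a * ((I *
    (I * (I * (15360 + I * ((-135680) + I * (471040 + I * ((-747520) + I * (450560)))))))) + a
    * ((I * (I * (I * ((-48640) + I * (291840 + I * ((-583680) + I * (389120))))))) + a * ((I *
    (I * (I * (25600 + I * ((-102400) + I * (102400)))))))))))) + X * (((I * (I * (I * (I *
    (2560 + I * ((-38400) + I * (245760 + I * ((-870400) + I * (1843200 + I * ((-2334720) + I *
    (1638400 + I * ((-491520))))))))))))) + a * ((I * (I * (I * (I * ((-23040) + I * (299520 +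
    I * ((-1612800) + I * (4608000 + I * ((-7372800) + I * (6266880 + I *
    ((-2211840)))))))))))) + a * ((I * (I * (I * (I * (66560 + I * ((-727040) + I * (3133440 +
    I * ((-6635520) + I * (6799360 + I * ((-2457600) + I * ((-327680)))))))))))) + a * ((I * (I
    * (I * (I * ((-46080) + I * (368640 + I * ((-921600) + I * (368640 + I * (1474560 + I *
    ((-1474560))))))))))) + a * ((I * (I * (I * (I * ((-102400) + I * (860160 + I * ((-2785280)
    + I * (4096000 + I * ((-2293760)))))))))) + a * ((I * (I * (I * (I * (184320 + I *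
    ((-1105920) + I * (2211840 + I * ((-1474560))))))))) + a * ((I * (I * (I * (I * ((-81920) +
    I * (327680 + I * ((-327680))))))))))))))) + X * ((a * ((I * (I * (I * (I * (I * ((-5120) +
    I * (76800 + I * ((-491520) + I * (1740800 + I * ((-3686400) + I * (4669440 + I *
    ((-3276800) + I * (983040))))))))))))) + a * ((I * (I * (I * (I * (I * (35840 + I *
    ((-465920) + I * (2508800 + I * ((-7168000) + I * (11468800 + I * ((-9748480) + I *
    (3440640)))))))))))) + a * ((I * (I * (I * (I * (I * ((-81920) + I * (890880 + I *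
    ((-3809280) + I * (7946240 + I * ((-7864320) + I * (2457600 + I * (655360)))))))))))) + a *
    ((I * (I * (I * (I * (I * (30720 + I * ((-204800) + I * (204800 + I * (1228800 + I *
    ((-3276800) + I * (2293760))))))))))) + a * ((I * (I * (I * (I * (I * (143360 + I *
    ((-1187840) + I * (3768320 + I * ((-5406720) + I * (2949120)))))))))) + a * ((I * (I * (I *
    (I * (I * ((-204800) + I * (1228800 + I * ((-2457600) + I * (1638400))))))))) + a * ((I *
    (I * (I * (I * (I * (81920 + I * ((-327680) + I * (327680)))))))))))))))))))))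

theorem val_LE0010 (x : ℕ → ℝ) (a I X : Pack.Ex) :
    (eLE0010 a I X).eval x = cLE0010 (a.eval x) (I.eval x) (X.eval x) := by
  simp only [eLE0010, cLE0010, eval_addM, eval_mulM, eval_numM]
  push_cast
  rfl

/-- The coefficient of `T` in `LEES`. -/
def cLE0100 (a I X : ℝ) : ℝ :=
  (X * (X * ((a * ((I * (384 + I * ((-2304) + I * (4608 + I * ((-3072)))))) + a * ((I * ((-768)
    + I * (3072 + I * ((-3072)))))))) + X * ((a * ((I * (I * (1152 + I * ((-9216) + I * (27648
    + I * ((-36864) + I * (18432))))))) + a * ((I * (I * ((-4608) + I * (27648 + I * ((-55296)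
    + I * (36864)))))) + a * ((I * (I * (4608 + I * ((-18432) + I * (18432))))))))) + X * ((a *
    ((I * (I * (I * (768 + I * ((-7680) + I * (30720 + I * ((-61440) + I * (61440 + I *
    ((-24576)))))))))) + a * ((I * (I * (I * ((-4608) + I * (36864 + I * ((-110592) + I *
    (147456 + I * ((-73728))))))))) + a * ((I * (I * (I * (9216 + I * ((-55296) + I * (110592 +
    I * ((-73728)))))))) + a * ((I * (I * (I * ((-6144) + I * (24576 + I *
    ((-24576)))))))))))))))))

theorem val_LE0100 (x : ℕ → ℝ) (a I X : Pack.Ex) :
    (eLE0100 a I X).eval x = cLE0100 (a.eval x) (I.eval x) (X.eval x) := by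
  simp only [eLE0100, cLE0100, eval_addM, eval_mulM, eval_numM]
  push_cast
  rfl

/-- The coefficient of `T * g` in `LEES`. -/
def cLE0110 (a I X : ℝ) : ℝ :=
  (X * (((I * (800 + I * ((-6400) + I * (19200 + I * ((-25600) + I * (12800)))))) + a * ((I *
    ((-2400) + I * (14400 + I * ((-28800) + I * (19200))))) + a * ((I * (1600 + I * ((-6400) +
    I * (6400))))))) + X * (((I * (I * (3200 + I * ((-32000) + I * (128000 + I * ((-256000) + I
    * (256000 + I * ((-102400))))))))) + a * ((I * (I * ((-17600) + I * (140800 + I *
    ((-422400) + I * (563200 + I * ((-281600)))))))) + a * ((I * (I * (30400 + I * ((-182400) +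
    I * (364800 + I * ((-243200))))))) + a * ((I * (I * ((-16000) + I * (64000 + I *
    ((-64000)))))))))) + X * (((I * (I * (I * (3200 + I * ((-38400) + I * (192000 + I *
    ((-512000) + I * (768000 + I * ((-614400) + I * (204800)))))))))) + a * ((I * (I * (I *
    ((-28800) + I * (288000 + I * ((-1152000) + I * (2304000 + I * ((-2304000) + I *
    (921600))))))))) + a * ((I * (I * (I * (89600 + I * ((-716800) + I * (2150400 + I *
    ((-2867200) + I * (1433600)))))))) + a * ((I * (I * (I * ((-115200) + I * (691200 + I *
    ((-1382400) + I * (921600))))))) + a * ((I * (I * (I * (51200 + I * ((-204800) + I *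
    (204800))))))))))) + X * ((a * ((I * (I * (I * (I * ((-6400) + I * (76800 + I * ((-384000)
    + I * (1024000 + I * ((-1536000) + I * (1228800 + I * ((-409600)))))))))))) + a * ((I * (I
    * (I * (I * (44800 + I * ((-448000) + I * (1792000 + I * ((-3584000) + I * (3584000 + I *
    ((-1433600))))))))))) + a * ((I * (I * (I * (I * ((-115200) + I * (921600 + I * ((-2764800)
    + I * (3686400 + I * ((-1843200)))))))))) + a * ((I * (I * (I * (I * (128000 + I *
    ((-768000) + I * (1536000 + I * ((-1024000))))))))) + a * ((I * (I * (I * (I * ((-51200) +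
    I * (204800 + I * ((-204800)))))))))))))))))))

theorem val_LE0110 (x : ℕ → ℝ) (a I X : Pack.Ex) :
    (eLE0110 a I X).eval x = cLE0110 (a.eval x) (I.eval x) (X.eval x) := by
  simp only [eLE0110, cLE0110, eval_addM, eval_mulM, eval_numM]
  push_cast
  rfl

/-- The coefficient of `p` in `LEES`. -/
def cLE1000 (a I X : ℝ) : ℝ :=
  ((((-40) + I * (240 + I * ((-240) + I * ((-1280) + I * (3840 + I * ((-3840) + I *
    (1280))))))) + a * ((80 + I * ((-160) + I * ((-1920) + I * (8640 + I * ((-12800) + I *
    (6400)))))) + a * (((-40) + I * ((-240) + I * (3120 + I * ((-7680) + I * (5440))))) + a *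
    ((I * (160 + I * ((-1120) + I * (1280)))))))) + X * (((I * ((-560) + I * (6160 + I *
    ((-27840) + I * (66240 + I * ((-88960) + I * (70400 + I * ((-40960) + I * (25600 + I *
    ((-10240))))))))))) + a * ((I * (2880 + I * ((-26400) + I * (92960 + I * ((-152640) + I *
    (109440 + I * ((-29440) + I * (30720 + I * ((-30720)))))))))) + a * ((I * ((-5360) + I *
    (39120 + I * ((-95520) + I * (72960 + I * (23040 + I * ((-11520) + I * ((-33280))))))))) +
    a * ((I * (4320 + I * ((-23040) + I * (27520 + I * (17920 + I * ((-23040) + I *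
    ((-15360)))))))) + a * ((I * ((-1280) + I * (4160 + I * (1920 + I * ((-6400) + I *
    ((-2560)))))))))))) + X * (((I * (I * ((-1040) + I * (14560 + I * ((-87280) + I * (291840 +
    I * ((-594880) + I * (762880 + I * ((-625920) + I * (348160 + I * ((-148480) + I *
    (40960)))))))))))) + a * ((I * (I * (7840 + I * ((-95360) + I * (482400 + I * ((-1309760) +
    I * (2060800 + I * ((-1927680) + I * (1144320 + I * ((-537600) + I * (184320))))))))))) + a
    * ((I * (I * ((-23120) + I * (237920 + I * ((-975120) + I * (2020480 + I * ((-2244480) + I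
    * (1420800 + I * ((-718080) + I * (317440)))))))))) + a * ((I * (I * (33280 + I *
    ((-278080) + I * (862240 + I * ((-1219200) + I * (831360 + I * ((-430080) + I *
    (261120))))))))) + a * ((I * (I * ((-23360) + I * (147840 + I * ((-303040) + I * (230400 +
    I * ((-108800) + I * (102400)))))))) + a * ((I * (I * (6400 + I * ((-26880) + I * (24960 +
    I * ((-7680) + I * (15360))))))))))))) + X * (((I * (I * (I * ((-160) + I * (3520 + I *
    ((-31200) + I * (150720 + I * ((-442240) + I * (817920 + I * ((-944640) + I * (640000 + I *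
    ((-215040) + I * (20480))))))))))))) + a * ((I * (I * (I * (1920 + I * ((-36480) + I *
    (277760 + I * ((-1135360) + I * (2754560 + I * ((-4080640) + I * (3624960 + I * ((-1822720)
    + I * (491520 + I * ((-81920)))))))))))))) + a * ((I * (I * (I * ((-9120) + I * (148160 + I
    * ((-950560) + I * (3196480 + I * ((-6168320) + I * (6950400 + I * ((-4467200) + I *
    (1602560 + I * ((-327680))))))))))))) + a * ((I * (I * (I * (22080 + I * ((-300800) + I *
    (1578880 + I * ((-4192640) + I * (6091520 + I * ((-4881920) + I * (2145280 + I *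
    ((-512000)))))))))))) + a * ((I * (I * (I * ((-28800) + I * (318720 + I * ((-1308160) + I *
    (2581760 + I * ((-2621440) + I * (1397760 + I * ((-389120))))))))))) + a * ((I * (I * (I *
    (19200 + I * ((-163840) + I * (488960 + I * ((-657920) + I * (435200 + I *
    ((-143360)))))))))) + a * ((I * (I * (I * ((-5120) + I * (30720 + I * ((-58880) + I *
    (51200 + I * ((-20480)))))))))))))))) + X * (((I * (I * (I * (I * (I * (320 + I * ((-5280)
    + I * (38400 + I * ((-161280) + I * (430080 + I * ((-752640) + I * (860160 + I * ((-614400)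
    + I * (245760 + I * ((-40960)))))))))))))))) + a * ((I * (I * (I * (I * (I * ((-3840) + I *
    (56640 + I * ((-362880) + I * (1317120 + I * ((-2956800) + I * (4193280 + I * ((-3655680) +
    I * (1781760 + I * ((-368640))))))))))))))) + a * ((I * (I * (I * (I * (I * (19520 + I *
    ((-253600) + I * (1403520 + I * ((-4284800) + I * (7782400 + I * ((-8394240) + I * (4966400
    + I * ((-1239040)))))))))))))) + a * ((I * (I * (I * (I * (I * ((-54400) + I * (610560 + I
    * ((-2841600) + I * (7014400 + I * ((-9676800) + I * (7065600 + I * ((-2129920)))))))))))))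
    + a * ((I * (I * (I * (I * (I * (89600 + I * ((-846080) + I * (3184640 + I * ((-5969920) +
    I * (5570560 + I * ((-2068480)))))))))))) + a * ((I * (I * (I * (I * (I * ((-87040) + I *
    (665600 + I * ((-1904640) + I * (2416640 + I * ((-1146880))))))))))) + a * ((I * (I * (I *
    (I * (I * (46080 + I * ((-268800) + I * (522240 + I * ((-337920)))))))))) + a * ((I * (I *
    (I * (I * (I * ((-10240) + I * (40960 + I * ((-40960))))))))))))))))))))))

theorem val_LE1000 (x : ℕ → ℝ) (a I X : Pack.Ex) :
    (eLE1000 a I X).eval x = cLE1000 (a.eval x) (I.eval x) (X.eval x) := by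
  simp only [eLE1000, cLE1000, eval_addM, eval_mulM, eval_numM]
  push_cast
  rfl

/-- The coefficient of `p * w` in `LEES`. -/
def cLE1001 (a I X : ℝ) : ℝ :=
  (((I * ((-80) + I * (800 + I * ((-3200) + I * (6400 + I * ((-6400) + I * (2560))))))) + a *
    ((I * (240 + I * ((-1920) + I * (5760 + I * ((-7680) + I * (3840)))))) + a * ((I * ((-240)
    + I * (1440 + I * ((-2880) + I * (1920))))) + a * ((I * (80 + I * ((-320) + I *
    (320)))))))) + X * (((I * (I * ((-240) + I * (2880 + I * ((-14400) + I * (38400 + I *
    ((-57600) + I * (46080 + I * ((-15360)))))))))) + a * ((I * (I * (1200 + I * ((-12000) + I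
    * (48000 + I * ((-96000) + I * (96000 + I * ((-38400))))))))) + a * ((I * (I * ((-2160) + I
    * (17280 + I * ((-51840) + I * (69120 + I * ((-34560)))))))) + a * ((I * (I * (1680 + I *
    ((-10080) + I * (20160 + I * ((-13440))))))) + a * ((I * (I * ((-480) + I * (1920 + I *
    ((-1920))))))))))) + X * (((I * (I * (I * ((-160) + I * (2240 + I * ((-13440) + I * (44800
    + I * ((-89600) + I * (107520 + I * ((-71680) + I * (20480))))))))))) + a * ((I * (I * (I *
    (1120 + I * ((-13440) + I * (67200 + I * ((-179200) + I * (268800 + I * ((-215040) + I *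
    (71680)))))))))) + a * ((I * (I * (I * ((-3040) + I * (30400 + I * ((-121600) + I * (243200
    + I * ((-243200) + I * (97280))))))))) + a * ((I * (I * (I * (4000 + I * ((-32000) + I *
    (96000 + I * ((-128000) + I * (64000)))))))) + a * ((I * (I * (I * ((-2560) + I * (15360 +
    I * ((-30720) + I * (20480))))))) + a * ((I * (I * (I * (640 + I * ((-2560) + I *
    (2560)))))))))))))))

theorem val_LE1001 (x : ℕ → ℝ) (a I X : Pack.Ex) :
    (eLE1001 a I X).eval x = cLE1001 (a.eval x) (I.eval x) (X.eval x) := by
  simp only [eLE1001, cLE1001, eval_addM, eval_mulM, eval_numM]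
  push_cast
  rfl

/-- The coefficient of `p * T` in `LEES`. -/
def cLE1100 (a I X : ℝ) : ℝ :=
  (X * (((I * (48 + I * ((-288) + I * (576 + I * ((-384)))))) + a * ((I * ((-96) + I * (384 + I
    * ((-384))))))) + X * (((I * (I * (144 + I * ((-1152) + I * (3456 + I * ((-4608) + I *
    (2304))))))) + a * ((I * (I * ((-576) + I * (3456 + I * ((-6912) + I * (4608)))))) + a *
    ((I * (I * (576 + I * ((-2304) + I * (2304)))))))) + X * (((I * (I * (I * (96 + I * ((-960)
    + I * (3840 + I * ((-7680) + I * (7680 + I * ((-3072)))))))))) + a * ((I * (I * (I *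
    ((-576) + I * (4608 + I * ((-13824) + I * (18432 + I * ((-9216))))))))) + a * ((I * (I * (I
    * (1152 + I * ((-6912) + I * (13824 + I * ((-9216)))))))) + a * ((I * (I * (I * ((-768) + I
    * (3072 + I * ((-3072)))))))))))))))

theorem val_LE1100 (x : ℕ → ℝ) (a I X : Pack.Ex) :
    (eLE1100 a I X).eval x = cLE1100 (a.eval x) (I.eval x) (X.eval x) := by
  simp only [eLE1100, cLE1100, eval_addM, eval_mulM, eval_numM]
  push_cast
  rfl

/-- The coefficient of `p ^ 2` in `LEES`. -/
def cLE2000 (a I X : ℝ) : ℝ :=
  (X * (((I * (I * ((-20) + I * (240 + I * ((-1200) + I * (3200 + I * ((-4800) + I * (3840 + I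
    * ((-1280)))))))))) + a * ((I * (I * (120 + I * ((-1200) + I * (4800 + I * ((-9600) + I *
    (9600 + I * ((-3840))))))))) + a * ((I * (I * ((-260) + I * (2080 + I * ((-6240) + I *
    (8320 + I * ((-4160)))))))) + a * ((I * (I * (240 + I * ((-1440) + I * (2880 + I *
    ((-1920))))))) + a * ((I * (I * ((-80) + I * (320 + I * ((-320))))))))))) + X * (((I * (I *
    (I * ((-40) + I * (560 + I * ((-3360) + I * (11200 + I * ((-22400) + I * (26880 + I *
    ((-17920) + I * (5120))))))))))) + a * ((I * (I * (I * (320 + I * ((-3840) + I * (19200 + I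
    * ((-51200) + I * (76800 + I * ((-61440) + I * (20480)))))))))) + a * ((I * (I * (I *
    ((-1000) + I * (10000 + I * ((-40000) + I * (80000 + I * ((-80000) + I * (32000))))))))) +
    a * ((I * (I * (I * (1520 + I * ((-12160) + I * (36480 + I * ((-48640) + I * (24320))))))))
    + a * ((I * (I * (I * ((-1120) + I * (6720 + I * ((-13440) + I * (8960))))))) + a * ((I *
    (I * (I * (320 + I * ((-1280) + I * (1280)))))))))))))))

theorem val_LE2000 (x : ℕ → ℝ) (a I X : Pack.Ex) :
    (eLE2000 a I X).eval x = cLE2000 (a.eval x) (I.eval x) (X.eval x) := by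
  simp only [eLE2000, cLE2000, eval_addM, eval_mulM, eval_numM]
  push_cast
  rfl

/-- The coefficient of `1` in `LMGS`. -/
def cLM0000 (a I X : ℝ) : ℝ :=
  (((I * (640 + I * ((-6400) + I * (25600 + I * ((-51200) + I * (51200 + I * ((-20480)))))))) +
    a * ((I * ((-2560) + I * (20480 + I * ((-61440) + I * (81920 + I * ((-40960))))))) + a *
    ((I * (3200 + I * ((-19200) + I * (38400 + I * ((-25600)))))) + a * ((I * ((-1280) + I *
    (5120 + I * ((-5120))))))))) + X * (((I * (5120 + I * ((-59520) + I * (292480 + I *
    ((-791040) + I * (1292800 + I * ((-1341440) + I * (931840 + I * ((-450560) + I *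
    (122880)))))))))) + a * ((I * ((-36480) + I * (355200 + I * ((-1411840) + I * (2933760 + I
    * ((-3409920) + I * (2263040 + I * ((-921600) + I * (245760))))))))) + a * ((I * (103680 +
    I * ((-835840) + I * (2647680 + I * ((-4129280) + I * (3256320 + I * ((-1239040) + I *
    (235520)))))))) + a * ((I * ((-145280) + I * (954880 + I * ((-2359040) + I * (2649600 + I *
    ((-1274880) + I * (194560))))))) + a * ((I * (98560 + I * ((-514560) + I * (939520 + I *
    ((-650240) + I * (102400)))))) + a * ((I * ((-25600) + I * (102400 + I * ((-117760) + I *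
    (20480))))))))))) + X * (((I * ((-1280) + I * (35200 + I * ((-346240) + I * (1794560 + I *
    ((-5652480) + I * (11560960 + I * ((-15872000) + I * (14868480 + I * ((-9502720) + I *
    (3932160 + I * ((-819200))))))))))))) + a * ((I * (10240 + I * ((-276480) + I * (2431360 +
    I * ((-10785280) + I * (27988480 + I * ((-45219840) + I * (46704640 + I * ((-31170560) + I
    * (13230080 + I * ((-2949120)))))))))))) + a * ((I * ((-32000) + I * (886400 + I *
    ((-6936320) + I * (25977600 + I * ((-54489600) + I * (67829760 + I * ((-51036160) + I *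
    (23080960 + I * ((-5447680))))))))))) + a * ((I * (48640 + I * ((-1495040) + I * (10352640
    + I * ((-32309760) + I * (53903360 + I * ((-50606080) + I * (26542080 + I *
    ((-6758400)))))))))) + a * ((I * ((-35840) + I * (1413120 + I * ((-8565760) + I * (21877760
    + I * ((-28129280) + I * (18411520 + I * ((-5201920))))))))) + a * ((I * (10240 + I *
    ((-716800) + I * (3717120 + I * ((-7444480) + I * (6553600 + I * ((-2088960)))))))) + a *
    ((I * (I * (153600 + I * ((-655360) + I * (901120 + I * ((-327680)))))))))))))) + X * (((I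
    * (I * ((-2560) + I * (57600 + I * ((-545280) + I * (2917760 + I * ((-9891840) + I *
    (22435840 + I * ((-34979840) + I * (38031360 + I * ((-29163520) + I * (15892480 + I *
    ((-5898240) + I * (1146880)))))))))))))) + a * ((I * (I * (28160 + I * ((-572160) + I *
    (4771840 + I * ((-21977600) + I * (62525440 + I * ((-115630080) + I * (142520320 + I *
    ((-119316480) + I * (69632000 + I * ((-28180480) + I * (6225920))))))))))))) + a * ((I * (I
    * ((-125440) + I * (2310400 + I * ((-16879360) + I * (66231680 + I * ((-156372480) + I *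
    (234580480 + I * ((-232243200) + I * (158443520 + I * ((-74997760) + I *
    (19292160)))))))))))) + a * ((I * (I * (289280 + I * ((-4888320) + I * (31220480 + I *
    ((-103996160) + I * (205017600 + I * ((-257781760) + I * (219607040 + I * ((-126504960) + I
    * (37969920))))))))))) + a * ((I * (I * ((-363520) + I * (5826560 + I * ((-32811520) + I *
    (94105600 + I * ((-160640000) + I * (178083840 + I * ((-126955520) + I *
    (44605440)))))))))) + a * ((I * (I * (235520 + I * ((-3921920) + I * (20096000 + I *
    ((-51578880) + I * (78510080 + I * ((-71065600) + I * (29614080))))))))) + a * ((I * (I *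
    ((-61440) + I * (1413120 + I * ((-7014400) + I * (16476160 + I * ((-20090880) + I *
    (10158080)))))))) + a * ((I * (I * (I * ((-225280) + I * (1146880 + I * ((-2191360) + I *
    (1392640))))))))))))))) + X * (((I * (I * (I * (I * (5120 + I * ((-87040) + I * (655360 + I
    * ((-2867200) + I * (8028160 + I * ((-14909440) + I * (18350080 + I * ((-14417920) + I *
    (6553600 + I * ((-1310720))))))))))))))) + a * ((I * (I * (I * (5120 + I * ((-151040) + I *
    (1625600 + I * ((-9315840) + I * (32655360 + I * ((-74424320) + I * (112926720 + I *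
    ((-114278400) + I * (76513280 + I * ((-34078720) + I * (10485760 + I *
    ((-1966080)))))))))))))))) + a * ((I * (I * (I * ((-51200) + I * (1111040 + I * ((-9615360)
    + I * (45460480 + I * ((-132556800) + I * (252907520 + I * ((-326983680) + I * (294993920 +
    I * ((-189890560) + I * (83558400 + I * ((-19005440))))))))))))))) + a * ((I * (I * (I *
    (209920 + I * ((-3755520) + I * (27194880 + I * ((-108116480) + I * (267550720 + I *
    ((-444139520) + I * (521953280 + I * ((-440852480) + I * (245432320 + I *
    ((-66027520)))))))))))))) + a * ((I * (I * (I * ((-450560) + I * (6824960 + I *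
    ((-41809920) + I * (142187520 + I * ((-311111680) + I * (478208000 + I * ((-522158080) + I
    * (362004480 + I * ((-115671040))))))))))))) + a * ((I * (I * (I * (532480 + I *
    ((-6901760) + I * (36352000 + I * ((-111063040) + I * (231424000 + I * ((-334725120) + I *
    (294256640 + I * ((-113704960)))))))))))) + a * ((I * (I * (I * ((-327680) + I * (3727360 +
    I * ((-18022400) + I * (55255040 + I * ((-113049600) + I * (131891200 + I *
    ((-63569920))))))))))) + a * ((I * (I * (I * (81920 + I * ((-942080) + I * (5201920 + I *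
    ((-17571840) + I * (29818880 + I * ((-18841600)))))))))) + a * ((I * (I * (I * (I * (81920
    + I * ((-819200) + I * (2539520 + I * ((-2293760)))))))))))))))))) + X * ((a * ((I * (I *
    (I * (I * (I * (I * (5120 + I * ((-94720) + I * (783360 + I * ((-3809280) + I * (12042240 +
    I * ((-25804800) + I * (37847040 + I * ((-37355520) + I * (23592960 + I * ((-8519680) + I *
    (1310720))))))))))))))))) + a * ((I * (I * (I * (I * (I * (I * ((-71680) + I * (1198080 + I
    * ((-8847360) + I * (37847040 + I * ((-103219200) + I * (185794560 + I * ((-220200960) + I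
    * (165150720 + I * ((-70778880) + I * (13107200)))))))))))))))) + a * ((I * (I * (I * (I *
    (I * (I * (435200 + I * ((-6494720) + I * (42183680 + I * ((-155617280) + I * (356249600 +
    I * ((-517529600) + I * (465059840 + I * ((-235765760) + I * (51445760))))))))))))))) + a *
    ((I * (I * (I * (I * (I * (I * ((-1495040) + I * (19624960 + I * ((-109916160) + I *
    (340275200 + I * ((-628326400) + I * (691322880 + I * ((-419102720) + I *
    (107806720)))))))))))))) + a * ((I * (I * (I * (I * (I * (I * (3174400 + I * ((-35942400) +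
    I * (168960000 + I * ((-421888000) + I * (589824000 + I * ((-437452800) + I *
    (134348800))))))))))))) + a * ((I * (I * (I * (I * (I * (I * ((-4259840) + I * (40509440 +
    I * ((-153681920) + I * (290652160 + I * ((-273940480) + I * (102891520)))))))))))) + a *
    ((I * (I * (I * (I * (I * (I * (3522560 + I * ((-27074560) + I * (77905920 + I *
    ((-99450880) + I * (47513600))))))))))) + a * ((I * (I * (I * (I * (I * (I * ((-1638400) +
    I * (9584640 + I * ((-18677760) + I * (12124160)))))))))) + a * ((I * (I * (I * (I * (I *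
    (I * (327680 + I * ((-1310720) + I * (1310720)))))))))))))))))))))))))

theorem val_LM0000 (x : ℕ → ℝ) (a I X : Pack.Ex) :
    (eLM0000 a I X).eval x = cLM0000 (a.eval x) (I.eval x) (X.eval x) := by
  simp only [eLM0000, cLM0000, eval_addM, eval_mulM, eval_numM]
  push_cast
  rfl

/-- The coefficient of `w` in `LMGS`. -/
def cLM0001 (a I X : ℝ) : ℝ :=
  (((I * (640 + I * ((-7680) + I * (38400 + I * ((-102400) + I * (153600 + I * ((-122880) + I *
    (40960)))))))) + a * ((I * ((-3200) + I * (32000 + I * ((-128000) + I * (256000 + I *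
    ((-256000) + I * (102400))))))) + a * ((I * (5760 + I * ((-46080) + I * (138240 + I *
    ((-184320) + I * (92160)))))) + a * ((I * ((-4480) + I * (26880 + I * ((-53760) + I *
    (35840))))) + a * ((I * (1280 + I * ((-5120) + I * (5120))))))))) + X * (((I * (I * (1920 +
    I * ((-26880) + I * (161280 + I * ((-537600) + I * (1075200 + I * ((-1290240) + I * (860160
    + I * ((-245760))))))))))) + a * ((I * (I * ((-13440) + I * (161280 + I * ((-806400) + I *
    (2150400 + I * ((-3225600) + I * (2580480 + I * ((-860160)))))))))) + a * ((I * (I * (36480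
    + I * ((-364800) + I * (1459200 + I * ((-2918400) + I * (2918400 + I * ((-1167360)))))))))
    + a * ((I * (I * ((-48000) + I * (384000 + I * ((-1152000) + I * (1536000 + I *
    ((-768000)))))))) + a * ((I * (I * (30720 + I * ((-184320) + I * (368640 + I *
    ((-245760))))))) + a * ((I * (I * ((-7680) + I * (30720 + I * ((-30720)))))))))))) + X *
    (((I * (I * (I * (1280 + I * ((-20480) + I * (143360 + I * ((-573440) + I * (1433600 + I *
    ((-2293760) + I * (2293760 + I * ((-1310720) + I * (327680)))))))))))) + a * ((I * (I * (I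
    * ((-11520) + I * (161280 + I * ((-967680) + I * (3225600 + I * ((-6451200) + I * (7741440
    + I * ((-5160960) + I * (1474560))))))))))) + a * ((I * (I * (I * (42240 + I * ((-506880) +
    I * (2534400 + I * ((-6758400) + I * (10137600 + I * ((-8110080) + I * (2703360)))))))))) +
    a * ((I * (I * (I * ((-80640) + I * (806400 + I * ((-3225600) + I * (6451200 + I *
    ((-6451200) + I * (2580480))))))))) + a * ((I * (I * (I * (84480 + I * ((-675840) + I *
    (2027520 + I * ((-2703360) + I * (1351680)))))))) + a * ((I * (I * (I * ((-46080) + I *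
    (276480 + I * ((-552960) + I * (368640))))))) + a * ((I * (I * (I * (10240 + I * ((-40960)
    + I * (40960))))))))))))))))

theorem val_LM0001 (x : ℕ → ℝ) (a I X : Pack.Ex) :
    (eLM0001 a I X).eval x = cLM0001 (a.eval x) (I.eval x) (X.eval x) := by
  simp only [eLM0001, cLM0001, eval_addM, eval_mulM, eval_numM]
  push_cast
  rfl

/-- The coefficient of `g` in `LMGS`. -/
def cLM0010 (a I X : ℝ) : ℝ :=
  (((I * (1280 + I * ((-11520) + I * (38400 + I * ((-56320) + I * (30720)))))) + a * ((I *
    ((-2560) + I * (16640 + I * ((-34560) + I * (23040))))) + a * ((I * ((-1280) + I * (10240 +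
    I * ((-26880) + I * (20480))))) + a * ((I * (5120 + I * ((-17920) + I * (15360)))) + a *
    ((I * ((-2560) + I * (2560)))))))) + X * (((I * ((-1600) + I * (27200 + I * ((-182400) + I
    * (627200 + I * ((-1177600) + I * (1152000 + I * ((-460800))))))))) + a * ((I * (6720 + I *
    ((-100800) + I * (556800 + I * ((-1451520) + I * (1812480 + I * ((-875520)))))))) + a * ((I
    * ((-5760) + I * (71680 + I * ((-266240) + I * (289280 + I * (158720 + I *
    ((-307200)))))))) + a * ((I * ((-9600) + I * (119040 + I * ((-506880) + I * (921600 + I *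
    ((-583680))))))) + a * ((I * (17920 + I * ((-179200) + I * (455680 + I * ((-337920)))))) +
    a * ((I * ((-7680) + I * (61440 + I * ((-61440))))))))))) + X * (((I * (I * ((-6400) + I *
    (107520 + I * ((-764160) + I * (2982400 + I * ((-6912000) + I * (9523200 + I * ((-7229440)
    + I * (2334720)))))))))) + a * ((I * (I * (41600 + I * ((-615040) + I * (3712000 + I *
    ((-11733760) + I * (20533760 + I * ((-18897920) + I * (7157760))))))))) + a * ((I * (I *
    ((-86400) + I * (1089920 + I * ((-5258240) + I * (12025600 + I * ((-12579840) + I *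
    (3671040 + I * (1556480))))))))) + a * ((I * (I * (19200 + I * ((-120320) + I * ((-289280)
    + I * (3312640 + I * ((-7198720) + I * (4771840)))))))) + a * ((I * (I * (160000 + I *
    ((-1602560) + I * (5818880 + I * ((-9231360) + I * (5314560))))))) + a * ((I * (I *
    ((-204800) + I * (1587200 + I * ((-3624960) + I * (2539520)))))) + a * ((I * (I * (76800 +
    I * ((-440320) + I * (440320)))))))))))) + X * (((I * (I * (I * ((-6400) + I * (119040 + I
    * ((-960000) + I * (4387840 + I * ((-12441600) + I * (22425600 + I * ((-25108480) + I *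
    (15974400 + I * ((-4423680))))))))))))) + a * ((I * (I * (I * (60160 + I * ((-989440) + I *
    (6891520 + I * ((-26378240) + I * (59985920 + I * ((-81121280) + I * (60456960 + I *
    ((-19169280)))))))))))) + a * ((I * (I * (I * ((-209920) + I * (2987520 + I * ((-17372160)
    + I * (52771840 + I * ((-87951360) + I * (75018240 + I * ((-23142400) + I *
    ((-2949120)))))))))))) + a * ((I * (I * (I * (284160 + I * ((-3312640) + I * (14540800 + I
    * ((-28600320) + I * (19988480 + I * (8396800 + I * ((-12779520))))))))))) + a * ((I * (I *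
    (I * (87040 + I * ((-1423360) + I * (9103360 + I * ((-27893760) + I * (40304640 + I *
    ((-21872640)))))))))) + a * ((I * (I * (I * ((-686080) + I * (6451200 + I * ((-22179840) +
    I * (33382400 + I * ((-18432000))))))))) + a * ((I * (I * (I * (716800 + I * ((-5079040) +
    I * (11100160 + I * ((-7618560)))))))) + a * ((I * (I * (I * ((-245760) + I * (1228800 + I
    * ((-1228800))))))))))))))) + X * (((I * (I * (I * (I * (I * (5120 + I * ((-87040) + I *
    (645120 + I * ((-2723840) + I * (7168000 + I * ((-12042240) + I * (12615680 + I *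
    ((-7536640) + I * (1966080)))))))))))))) + a * ((I * (I * (I * (I * (7680 + I * ((-181760)
    + I * (1730560 + I * ((-8934400) + I * (27801600 + I * ((-53903360) + I * (63979520 + I *
    ((-42680320) + I * (12288000))))))))))))) + a * ((I * (I * (I * (I * ((-69120) + I *
    (1236480 + I * ((-9175040) + I * (36828160 + I * ((-86671360) + I * (119685120 + I *
    ((-89292800) + I * (26624000 + I * (1310720))))))))))))) + a * ((I * (I * (I * (I * (230400
    + I * ((-3328000) + I * (19486720 + I * ((-58961920) + I * (96010240 + I * ((-76021760) + I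
    * (15564800 + I * (8192000)))))))))))) + a * ((I * (I * (I * (I * ((-291840) + I * (3184640
    + I * ((-12748800) + I * (20520960 + I * ((-2457600) + I * ((-27197440) + I *
    (20807680))))))))))) + a * ((I * (I * (I * (I * ((-122880) + I * (2170880 + I *
    ((-13434880) + I * (38748160 + I * ((-52920320) + I * (27525120)))))))))) + a * ((I * (I *
    (I * (I * (737280 + I * ((-7004160) + I * (24166400 + I * ((-36290560) + I *
    (19988480))))))))) + a * ((I * (I * (I * (I * ((-737280) + I * (5079040 + I * ((-10977280)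
    + I * (7536640)))))))) + a * ((I * (I * (I * (I * (245760 + I * ((-1146880) + I *
    (1146880)))))))))))))))))))))

theorem val_LM0010 (x : ℕ → ℝ) (a I X : Pack.Ex) :
    (eLM0010 a I X).eval x = cLM0010 (a.eval x) (I.eval x) (X.eval x) := by
  simp only [eLM0010, cLM0010, eval_addM, eval_mulM, eval_numM]
  push_cast
  rfl

/-- The coefficient of `T` in `LMGS`. -/
def cLM0100 (a I X : ℝ) : ℝ :=
  (X * (((192 + I * ((-1152) + I * (1536 + I * (3072 + I * ((-9216) + I * (6144)))))) + a *
    (((-768) + I * (3072 + I * (I * ((-12288) + I * (12288))))) + a * ((768 + I * ((-1536) + I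
    * ((-3072) + I * (6144))))))) + X * (((I * (576 + I * ((-4608) + I * (11520 + I * (I *
    ((-46080) + I * (73728 + I * ((-36864))))))))) + a * ((I * ((-3456) + I * (19968 + I *
    ((-21504) + I * ((-73728) + I * (190464 + I * ((-122880)))))))) + a * ((I * (6912 + I *
    ((-24576) + I * ((-18432) + I * (147456 + I * ((-135168))))))) + a * ((I * ((-4608) + I *
    (6144 + I * (30720 + I * ((-49152)))))))))) + X * (((I * (I * (384 + I * ((-3840) + I *
    (13824 + I * ((-15360) + I * ((-30720) + I * (110592 + I * ((-122880) + I *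
    (49152)))))))))) + a * ((I * (I * ((-3072) + I * (22272 + I * ((-38400) + I * ((-92160) + I
    * (430080 + I * ((-577536) + I * (270336))))))))) + a * ((I * (I * (9216 + I * ((-41472) +
    I * ((-36864) + I * (479232 + I * ((-884736) + I * (516096)))))))) + a * ((I * (I *
    ((-12288) + I * (21504 + I * (165888 + I * ((-528384) + I * (417792))))))) + a * ((I * (I *
    (6144 + I * (6144 + I * ((-98304) + I * (122880))))))))))) + X * ((a * ((I * (I * (I * (I *
    ((-1536) + I * (18432 + I * ((-92160) + I * (245760 + I * ((-368640) + I * (294912 + I *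
    ((-98304)))))))))))) + a * ((I * (I * (I * (I * (12288 + I * ((-122880) + I * (491520 + I *
    ((-983040) + I * (983040 + I * ((-393216))))))))))) + a * ((I * (I * (I * (I * ((-36864) +
    I * (294912 + I * ((-884736) + I * (1179648 + I * ((-589824)))))))))) + a * ((I * (I * (I *
    (I * (49152 + I * ((-294912) + I * (589824 + I * ((-393216))))))))) + a * ((I * (I * (I *
    (I * ((-24576) + I * (98304 + I * ((-98304)))))))))))))))))))

theorem val_LM0100 (x : ℕ → ℝ) (a I X : Pack.Ex) :
    (eLM0100 a I X).eval x = cLM0100 (a.eval x) (I.eval x) (X.eval x) := by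
  simp only [eLM0100, cLM0100, eval_addM, eval_mulM, eval_numM]
  push_cast
  rfl

/-- The coefficient of `T * g` in `LMGS`. -/
def cLM0110 (a I X : ℝ) : ℝ :=
  (((1600 + I * ((-9600) + I * (19200 + I * ((-12800))))) + a * (((-3200) + I * (11200 + I *
    ((-9600)))) + a * ((1600 + I * ((-1600)))))) + X * ((((-400) + I * (15200 + I * ((-105600)
    + I * (300800 + I * ((-390400) + I * (192000)))))) + a * ((3600 + I * ((-72000) + I *
    (336000 + I * ((-595200) + I * (364800))))) + a * (((-8000) + I * (99200 + I * ((-272000) +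
    I * (211200)))) + a * ((4800 + I * ((-38400) + I * (38400))))))) + X * (((I * (I * (30400 +
    I * ((-304000) + I * (1216000 + I * ((-2432000) + I * (2432000 + I * ((-972800))))))))) + a
    * ((I * (12000 + I * ((-292800) + I * (1841600 + I * ((-4982400) + I * (6240000 + I *
    ((-2982400)))))))) + a * ((I * ((-60000) + I * (827200 + I * ((-3419200) + I * (5670400 + I
    * ((-3321600))))))) + a * ((I * (96000 + I * ((-864000) + I * (2137600 + I *
    ((-1587200)))))) + a * ((I * ((-48000) + I * (275200 + I * ((-275200)))))))))) + X * (((I *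
    (I * (4800 + I * ((-28800) + I * ((-57600) + I * (960000 + I * ((-3456000) + I * (5990400 +
    I * ((-5222400) + I * (1843200)))))))))) + a * ((I * (I * ((-14400) + I * ((-115200) + I *
    (1996800 + I * ((-9062400) + I * (19123200 + I * ((-19660800) + I * (7987200))))))))) + a *
    ((I * (I * ((-48000) + I * (1305600 + I * ((-8390400) + I * (22848000 + I * ((-28646400) +
    I * (13670400)))))))) + a * ((I * (I * (249600 + I * ((-3110400) + I * (12326400 + I *
    ((-19968000) + I * (11520000))))))) + a * ((I * (I * ((-345600) + I * (2764800 + I *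
    ((-6528000) + I * (4761600)))))) + a * ((I * (I * (153600 + I * ((-768000) + I *
    (768000))))))))))) + X * (((I * (I * (I * (6400 + I * ((-83200) + I * (448000 + I *
    ((-1254400) + I * (1792000 + I * ((-716800) + I * ((-1433600) + I * (2048000 + I *
    ((-819200))))))))))))) + a * ((I * (I * (I * ((-48000) + I * (492800 + I * ((-1888000) + I
    * (2752000 + I * (1536000 + I * ((-10240000) + I * (12390400 + I * ((-5120000)))))))))))) +
    a * ((I * (I * (I * (118400 + I * ((-748800) + I * (441600 + I * (7475200 + I *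
    ((-23961600) + I * (29184000 + I * ((-13004800))))))))))) + a * ((I * (I * (I * ((-51200) +
    I * ((-768000) + I * (7987200 + I * ((-25395200) + I * (34406400 + I *
    ((-17203200)))))))))) + a * ((I * (I * (I * ((-230400) + I * (3123200 + I * ((-12851200) +
    I * (21299200 + I * ((-12492800))))))))) + a * ((I * (I * (I * (358400 + I * ((-2764800) +
    I * (6451200 + I * ((-4710400)))))))) + a * ((I * (I * (I * ((-153600) + I * (716800 + I *
    ((-716800)))))))))))))))))))

theorem val_LM0110 (x : ℕ → ℝ) (a I X : Pack.Ex) :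
    (eLM0110 a I X).eval x = cLM0110 (a.eval x) (I.eval x) (X.eval x) := by
  simp only [eLM0110, cLM0110, eval_addM, eval_mulM, eval_numM]
  push_cast
  rfl

/-- The coefficient of `p` in `LMGS`. -/
def cLM1000 (a I X : ℝ) : ℝ :=
  (((I * ((-240) + I * (2400 + I * ((-9600) + I * (19200 + I * ((-19200) + I * (7680))))))) + a
    * ((I * (1600 + I * ((-13760) + I * (46400 + I * ((-76160) + I * (60160 + I *
    ((-17920)))))))) + a * ((I * ((-3760) + I * (26400 + I * ((-69440) + I * (81280 + I *
    ((-35840))))))) + a * ((I * (3680 + I * ((-19520) + I * (35520 + I * ((-22400)))))) + a *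
    ((I * ((-1280) + I * (4480 + I * ((-4480)))))))))) + X * (((I * (I * (160 + I * ((-3360) +
    I * (27200 + I * ((-115200) + I * (281600 + I * ((-401920) + I * (312320 + I *
    ((-102400))))))))))) + a * ((I * (I * ((-320) + I * (11360 + I * ((-94720) + I * (354560 +
    I * ((-686080) + I * (673280 + I * ((-266240)))))))))) + a * ((I * (I * ((-2080) + I * (960
    + I * (70400 + I * ((-279040) + I * (407040 + I * ((-209920))))))))) + a * ((I * (I * (8000
    + I * ((-37760) + I * (49920 + I * ((-2560) + I * ((-20480)))))))) + a * ((I * (I *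
    ((-9600) + I * (39680 + I * ((-58880) + I * (35840)))))) + a * ((I * (I * (3840 + I *
    ((-10240) + I * (10240))))))))))) + X * (((I * (I * (I * (1280 + I * ((-21120) + I *
    (153280 + I * ((-638720) + I * (1670400 + I * ((-2805760) + I * (2954240 + I * ((-1781760)
    + I * (471040)))))))))))) + a * ((I * (I * (I * ((-12160) + I * (175520 + I * ((-1089920) +
    I * (3772800 + I * ((-7859200) + I * (9848320 + I * ((-6871040) + I * (2058240))))))))))) +
    a * ((I * (I * (I * (46400 + I * ((-575520) + I * (2975680 + I * ((-8208640) + I *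
    (12741120 + I * ((-10549760) + I * (3640320)))))))))) + a * ((I * (I * (I * ((-89920) + I *
    (937600 + I * ((-3883200) + I * (7990400 + I * ((-8172800) + I * (3325440))))))))) + a *
    ((I * (I * (I * (91520 + I * ((-782080) + I * (2442880 + I * ((-3315200) + I *
    (1651200)))))))) + a * ((I * (I * (I * ((-44800) + I * (307200 + I * ((-646400) + I *
    (422400))))))) + a * ((I * (I * (I * (7680 + I * ((-43520) + I * (43520))))))))))))) + X *
    (((I * (I * (I * (I * (I * ((-640) + I * (10880 + I * ((-80640) + I * (340480 + I *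
    ((-896000) + I * (1505280 + I * ((-1576960) + I * (942080 + I * ((-245760))))))))))))))) +
    a * ((I * (I * (I * (I * ((-1280) + I * (26560 + I * ((-233600) + I * (1145600 + I *
    ((-3443200) + I * (6517760 + I * ((-7608320) + I * (5017600 + I * ((-1433600))))))))))))))
    + a * ((I * (I * (I * (I * (12160 + I * ((-194240) + I * (1323520 + I * ((-4985600) + I *
    (11212800 + I * ((-15057920) + I * (11182080 + I * ((-3543040))))))))))))) + a * ((I * (I *
    (I * (I * ((-46720) + I * (612480 + I * ((-3331200) + I * (9625600 + I * ((-15590400) + I *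
    (13424640 + I * ((-4802560)))))))))))) + a * ((I * (I * (I * (I * (92160 + I * ((-990720) +
    I * (4213760 + I * ((-8878080) + I * (9277440 + I * ((-3850240))))))))))) + a * ((I * (I *
    (I * (I * ((-97280) + I * (839680 + I * ((-2647040) + I * (3624960 + I *
    ((-1822720)))))))))) + a * ((I * (I * (I * (I * (51200 + I * ((-343040) + I * (716800 + I *
    ((-471040))))))))) + a * ((I * (I * (I * (I * ((-10240) + I * (51200 + I *
    ((-51200))))))))))))))))))))

theorem val_LM1000 (x : ℕ → ℝ) (a I X : Pack.Ex) :
    (eLM1000 a I X).eval x = cLM1000 (a.eval x) (I.eval x) (X.eval x) := by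
  simp only [eLM1000, cLM1000, eval_addM, eval_mulM, eval_numM]
  push_cast
  rfl

/-- The coefficient of `p * w` in `LMGS`. -/
def cLM1001 (a I X : ℝ) : ℝ :=
  (((I * (I * (160 + I * ((-1920) + I * (9600 + I * ((-25600) + I * (38400 + I * ((-30720) + I
    * (10240))))))))) + a * ((I * (I * ((-800) + I * (8000 + I * ((-32000) + I * (64000 + I *
    ((-64000) + I * (25600)))))))) + a * ((I * (I * (1440 + I * ((-11520) + I * (34560 + I *
    ((-46080) + I * (23040))))))) + a * ((I * (I * ((-1120) + I * (6720 + I * ((-13440) + I *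
    (8960)))))) + a * ((I * (I * (320 + I * ((-1280) + I * (1280)))))))))) + X * (((I * (I * (I
    * (480 + I * ((-6720) + I * (40320 + I * ((-134400) + I * (268800 + I * ((-322560) + I *
    (215040 + I * ((-61440)))))))))))) + a * ((I * (I * (I * ((-3360) + I * (40320 + I *
    ((-201600) + I * (537600 + I * ((-806400) + I * (645120 + I * ((-215040))))))))))) + a *
    ((I * (I * (I * (9120 + I * ((-91200) + I * (364800 + I * ((-729600) + I * (729600 + I *
    ((-291840)))))))))) + a * ((I * (I * (I * ((-12000) + I * (96000 + I * ((-288000) + I *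
    (384000 + I * ((-192000))))))))) + a * ((I * (I * (I * (7680 + I * ((-46080) + I * (92160 +
    I * ((-61440)))))))) + a * ((I * (I * (I * ((-1920) + I * (7680 + I * ((-7680)))))))))))))
    + X * (((I * (I * (I * (I * (320 + I * ((-5120) + I * (35840 + I * ((-143360) + I * (358400
    + I * ((-573440) + I * (573440 + I * ((-327680) + I * (81920))))))))))))) + a * ((I * (I *
    (I * (I * ((-2880) + I * (40320 + I * ((-241920) + I * (806400 + I * ((-1612800) + I *
    (1935360 + I * ((-1290240) + I * (368640)))))))))))) + a * ((I * (I * (I * (I * (10560 + I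
    * ((-126720) + I * (633600 + I * ((-1689600) + I * (2534400 + I * ((-2027520) + I *
    (675840))))))))))) + a * ((I * (I * (I * (I * ((-20160) + I * (201600 + I * ((-806400) + I
    * (1612800 + I * ((-1612800) + I * (645120)))))))))) + a * ((I * (I * (I * (I * (21120 + I
    * ((-168960) + I * (506880 + I * ((-675840) + I * (337920))))))))) + a * ((I * (I * (I * (I
    * ((-11520) + I * (69120 + I * ((-138240) + I * (92160)))))))) + a * ((I * (I * (I * (I *
    (2560 + I * ((-10240) + I * (10240)))))))))))))))))

theorem val_LM1001 (x : ℕ → ℝ) (a I X : Pack.Ex) :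
    (eLM1001 a I X).eval x = cLM1001 (a.eval x) (I.eval x) (X.eval x) := by
  simp only [eLM1001, cLM1001, eval_addM, eval_mulM, eval_numM]
  push_cast
  rfl

/-- The coefficient of `p * T` in `LMGS`. -/
def cLM1100 (a I X : ℝ) : ℝ :=
  (X * (((I * (48 + I * ((-384) + I * (1152 + I * ((-1536) + I * (768)))))) + a * ((I * ((-192)
    + I * (1152 + I * ((-2304) + I * (1536))))) + a * ((I * (192 + I * ((-768) + I *
    (768))))))) + X * (((I * (I * (144 + I * ((-1440) + I * (5760 + I * ((-11520) + I * (11520
    + I * ((-4608))))))))) + a * ((I * (I * ((-864) + I * (6912 + I * ((-20736) + I * (27648 +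
    I * ((-13824)))))))) + a * ((I * (I * (1728 + I * ((-10368) + I * (20736 + I *
    ((-13824))))))) + a * ((I * (I * ((-1152) + I * (4608 + I * ((-4608)))))))))) + X * (((I *
    (I * (I * (96 + I * ((-1152) + I * (5760 + I * ((-15360) + I * (23040 + I * ((-18432) + I *
    (6144)))))))))) + a * ((I * (I * (I * ((-768) + I * (7680 + I * ((-30720) + I * (61440 + I
    * ((-61440) + I * (24576))))))))) + a * ((I * (I * (I * (2304 + I * ((-18432) + I * (55296
    + I * ((-73728) + I * (36864)))))))) + a * ((I * (I * (I * ((-3072) + I * (18432 + I *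
    ((-36864) + I * (24576))))))) + a * ((I * (I * (I * (1536 + I * ((-6144) + I *
    (6144)))))))))))))))

theorem val_LM1100 (x : ℕ → ℝ) (a I X : Pack.Ex) :
    (eLM1100 a I X).eval x = cLM1100 (a.eval x) (I.eval x) (X.eval x) := by
  simp only [eLM1100, cLM1100, eval_addM, eval_mulM, eval_numM]
  push_cast
  rfl

/-- The coefficient of `p ^ 2` in `LMGS`. -/
def cLM2000 (a I X : ℝ) : ℝ :=
  (X * (((I * (I * (I * (40 + I * ((-560) + I * (3360 + I * ((-11200) + I * (22400 + I *
    ((-26880) + I * (17920 + I * ((-5120)))))))))))) + a * ((I * (I * (I * ((-320) + I * (3840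
    + I * ((-19200) + I * (51200 + I * ((-76800) + I * (61440 + I * ((-20480))))))))))) + a *
    ((I * (I * (I * (1000 + I * ((-10000) + I * (40000 + I * ((-80000) + I * (80000 + I *
    ((-32000)))))))))) + a * ((I * (I * (I * ((-1520) + I * (12160 + I * ((-36480) + I * (48640
    + I * ((-24320))))))))) + a * ((I * (I * (I * (1120 + I * ((-6720) + I * (13440 + I *
    ((-8960)))))))) + a * ((I * (I * (I * ((-320) + I * (1280 + I * ((-1280))))))))))))) + X *
    (((I * (I * (I * (I * (80 + I * ((-1280) + I * (8960 + I * ((-35840) + I * (89600 + I *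
    ((-143360) + I * (143360 + I * ((-81920) + I * (20480))))))))))))) + a * ((I * (I * (I * (I
    * ((-800) + I * (11200 + I * ((-67200) + I * (224000 + I * ((-448000) + I * (537600 + I *
    ((-358400) + I * (102400)))))))))))) + a * ((I * (I * (I * (I * (3280 + I * ((-39360) + I *
    (196800 + I * ((-524800) + I * (787200 + I * ((-629760) + I * (209920))))))))))) + a * ((I
    * (I * (I * (I * ((-7040) + I * (70400 + I * ((-281600) + I * (563200 + I * ((-563200) + I
    * (225280)))))))))) + a * ((I * (I * (I * (I * (8320 + I * ((-66560) + I * (199680 + I *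
    ((-266240) + I * (133120))))))))) + a * ((I * (I * (I * (I * ((-5120) + I * (30720 + I *
    ((-61440) + I * (40960)))))))) + a * ((I * (I * (I * (I * (1280 + I * ((-5120) + I *
    (5120)))))))))))))))))

theorem val_LM2000 (x : ℕ → ℝ) (a I X : Pack.Ex) :
    (eLM2000 a I X).eval x = cLM2000 (a.eval x) (I.eval x) (X.eval x) := by
  simp only [eLM2000, cLM2000, eval_addM, eval_mulM, eval_numM]
  push_cast
  rfl

/-- The coefficient of `1` in `gES`. -/
def cgE0000 (a I X : ℝ) : ℝ :=
  ((((-32) + I * (192 + I * ((-384) + I * (256)))) + a * ((96 + I * ((-320) + I * (256))) + a *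
    (((-64) + I * (64))))) + X * (((32 + I * ((-352) + I * (1472 + I * ((-2816) + I * (2048 + I
    * (512 + I * ((-1024)))))))) + a * (((-160) + I * (1440 + I * ((-4352) + I * (4608 + I *
    (512 + I * ((-2560))))))) + a * ((256 + I * ((-1792) + I * (3200 + I * ((-256) + I *
    ((-2048)))))) + a * (((-128) + I * (640 + I * ((-256) + I * ((-512))))))))) + X * (((I *
    ((-32) + I * (256 + I * ((-640) + I * (I * (2560 + I * ((-4096) + I * (2048)))))))) + a *
    ((I * (32 + I * (384 + I * ((-4288) + I * (13952 + I * ((-19200) + I * (9728))))))) + a *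
    ((I * (384 + I * ((-4416) + I * (16960 + I * ((-27136) + I * (15616)))))) + a * ((I *
    ((-896) + I * (6400 + I * ((-14336) + I * (10240))))) + a * ((I * (512 + I * ((-2304) + I *
    (2304))))))))))))

theorem val_gE0000 (x : ℕ → ℝ) (a I X : Pack.Ex) :
    (egE0000 a I X).eval x = cgE0000 (a.eval x) (I.eval x) (X.eval x) := by
  simp only [egE0000, cgE0000, eval_addM, eval_mulM, eval_numM]
  push_cast
  rfl

/-- The coefficient of `g` in `gES`. -/
def cgE0010 (a I X : ℝ) : ℝ :=
  (X * (((I * ((-32) + I * (288 + I * ((-960) + I * (1408 + I * ((-768))))))) + a * ((I * (64 +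
    I * ((-448) + I * (1024 + I * ((-768)))))) + a * ((I * (64 + I * ((-384) + I * (768 + I *
    ((-512)))))) + a * ((I * ((-128) + I * (512 + I * ((-512))))))))) + X * (((I * (I * ((-64)
    + I * (704 + I * ((-3072) + I * (6656 + I * ((-7168) + I * (3072)))))))) + a * ((I * (I *
    (256 + I * ((-2304) + I * (7680 + I * ((-11264) + I * (6144))))))) + a * ((I * (I * ((-128)
    + I * (768 + I * ((-1024) + I * ((-1024) + I * (2048))))))) + a * ((I * (I * ((-512) + I *
    (3072 + I * ((-6144) + I * (4096)))))) + a * ((I * (I * (512 + I * ((-2048) + I *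
    (2048)))))))))))))

theorem val_gE0010 (x : ℕ → ℝ) (a I X : Pack.Ex) :
    (egE0010 a I X).eval x = cgE0010 (a.eval x) (I.eval x) (X.eval x) := by
  simp only [egE0010, cgE0010, eval_addM, eval_mulM, eval_numM]
  push_cast
  rfl

/-- The coefficient of `T * g` in `gES`. -/
def cgE0110 (a I X : ℝ) : ℝ :=
  (X * ((((-40) + I * (240 + I * ((-480) + I * (320)))) + a * ((80 + I * ((-320) + I *
    (320))))) + X * (((I * ((-80) + I * (640 + I * ((-1920) + I * (2560 + I * ((-1280))))))) +
    a * ((I * (320 + I * ((-1920) + I * (3840 + I * ((-2560)))))) + a * ((I * ((-320) + I *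
    (1280 + I * ((-1280)))))))))))

theorem val_gE0110 (x : ℕ → ℝ) (a I X : Pack.Ex) :
    (egE0110 a I X).eval x = cgE0110 (a.eval x) (I.eval x) (X.eval x) := by
  simp only [egE0110, cgE0110, eval_addM, eval_mulM, eval_numM]
  push_cast
  rfl

/-- The coefficient of `p` in `gES`. -/
def cgE1000 (a I X : ℝ) : ℝ :=
  (X * (((I * ((-8) + I * (88 + I * ((-400) + I * (960 + I * ((-1280) + I * (896 + I *
    ((-256))))))))) + a * ((I * (40 + I * ((-360) + I * (1280 + I * ((-2240) + I * (1920 + I *
    ((-640)))))))) + a * ((I * ((-64) + I * (448 + I * ((-1152) + I * (1280 + I * ((-512)))))))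
    + a * ((I * (32 + I * ((-160) + I * (256 + I * ((-128))))))))))))

theorem val_gE1000 (x : ℕ → ℝ) (a I X : Pack.Ex) :
    (egE1000 a I X).eval x = cgE1000 (a.eval x) (I.eval x) (X.eval x) := by
  simp only [egE1000, cgE1000, eval_addM, eval_mulM, eval_numM]
  push_cast
  rfl

/-- The coefficient of `1` in `gGS`. -/
def cgG0000 (a I X : ℝ) : ℝ :=
  (X * (((I * (I * ((-16) + I * (32)))) + a * ((16 + I * (32 + I * ((-112)))) + a * (((-16) + I
    * ((-64)))))) + X * (((I * (I * (I * ((-32) + I * (128 + I * ((-128))))))) + a * ((I * (32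
    + I * (I * ((-288) + I * (320))))) + a * ((I * ((-96) + I * ((-192) + I * (704)))) + a *
    ((I * (64 + I * (256))))))) + X * (((I * (I * (I * ((-32) + I * (208 + I * ((-480) + I *
    (448 + I * ((-128))))))))) + a * ((I * (I * (I * (224 + I * ((-1104) + I * (1728 + I *
    ((-832)))))))) + a * ((I * (I * (I * ((-576) + I * (1920 + I * ((-1536))))))) + a * ((I *
    (I * (I * (640 + I * ((-1088)))))) + a * ((I * (I * (I * ((-256))))))))))))))

theorem val_gG0000 (x : ℕ → ℝ) (a I X : Pack.Ex) :
    (egG0000 a I X).eval x = cgG0000 (a.eval x) (I.eval x) (X.eval x) := by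
  simp only [egG0000, cgG0000, eval_addM, eval_mulM, eval_numM]
  push_cast
  rfl

/-- The coefficient of `p` in `gGS`. -/
def cgG1000 (a I X : ℝ) : ℝ :=
  (((2 + I * ((-4))) + a * (((-2)))) + X * (((I * (4 + I * ((-16) + I * (16)))) + a * ((I *
    ((-12) + I * (24))) + a * ((I * (8)))))))

theorem val_gG1000 (x : ℕ → ℝ) (a I X : Pack.Ex) :
    (egG1000 a I X).eval x = cgG1000 (a.eval x) (I.eval x) (X.eval x) := by
  simp only [egG1000, cgG1000, eval_addM, eval_mulM, eval_numM]
  push_cast
  rfl

/-- The coefficient of `1` in `hES`. -/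
def chE0000 (a I X : ℝ) : ℝ :=
  (X * (((I * ((-64) + I * (96 + I * (64)))) + a * ((32 + I * (128 + I * ((-224)))) + a *
    (((-32) + I * ((-128)))))) + X * (((I * ((-64) + I * (256 + I * ((-320) + I * (256 + I *
    ((-256))))))) + a * ((I * (384 + I * ((-896) + I * ((-64) + I * (640))))) + a * ((I *
    ((-704) + I * (384 + I * (1408)))) + a * ((I * (384 + I * (512))))))) + X * (((I * (I * (I
    * ((-64) + I * (416 + I * ((-960) + I * (896 + I * ((-256))))))))) + a * ((I * (I * (64 + I
    * (64 + I * ((-1440) + I * (2944 + I * ((-1664)))))))) + a * ((I * (I * ((-320) + I * (128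
    + I * (2560 + I * ((-3072))))))) + a * ((I * (I * (512 + I * (256 + I * ((-2176)))))) + a *
    ((I * (I * ((-256) + I * ((-512))))))))))))))

theorem val_hE0000 (x : ℕ → ℝ) (a I X : Pack.Ex) :
    (ehE0000 a I X).eval x = chE0000 (a.eval x) (I.eval x) (X.eval x) := by
  simp only [ehE0000, chE0000, eval_addM, eval_mulM, eval_numM]
  push_cast
  rfl

/-- The coefficient of `p` in `hES`. -/
def chE1000 (a I X : ℝ) : ℝ :=
  (((4 + I * ((-8))) + a * (((-4)))) + X * (((I * (8 + I * ((-32) + I * (32)))) + a * ((I *
    ((-24) + I * (48))) + a * ((I * (16))))) + X * (((I * (I * ((-8) + I * (48 + I * ((-96) + I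
    * (64)))))) + a * ((I * (I * (40 + I * ((-160) + I * (160))))) + a * ((I * (I * ((-64) + I
    * (128)))) + a * ((I * (I * (32))))))))))

theorem val_hE1000 (x : ℕ → ℝ) (a I X : Pack.Ex) :
    (ehE1000 a I X).eval x = chE1000 (a.eval x) (I.eval x) (X.eval x) := by
  simp only [ehE1000, chE1000, eval_addM, eval_mulM, eval_numM]
  push_cast
  rfl

/-- The coefficient of `1` in `hGS`. -/
def chG0000 (a I X : ℝ) : ℝ :=
  ((((-80) + I * (640 + I * ((-1920) + I * (2560 + I * ((-1280)))))) + a * ((320 + I * ((-1760)
    + I * (3200 + I * ((-1920))))) + a * (((-400) + I * (1280 + I * ((-960)))) + a * ((160 + I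
    * ((-160))))))) + X * (((80 + I * ((-1200) + I * (6880 + I * ((-19520) + I * (28160 + I *
    ((-16640) + I * ((-2560) + I * (5120)))))))) + a * (((-480) + I * (6240 + I * ((-28960) + I
    * (60480 + I * ((-51840) + I * (1280 + I * (15360))))))) + a * ((1040 + I * ((-11120) + I *
    (38080 + I * ((-48000) + I * (7680 + I * (16640)))))) + a * (((-960) + I * (7680 + I *
    ((-15680) + I * (4480 + I * (7680))))) + a * ((320 + I * ((-1600) + I * (640 + I *
    (1280))))))))) + X * (((I * ((-80) + I * (960 + I * ((-5280) + I * (18240 + I * ((-44800) +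
    I * (79360 + I * ((-94720) + I * (66560 + I * ((-20480))))))))))) + a * ((I * (480 + I *
    ((-4480) + I * (19200 + I * ((-55680) + I * (125440 + I * ((-199680) + I * (184320 + I *
    ((-71680)))))))))) + a * ((I * ((-1040) + I * (6720 + I * ((-20480) + I * (56960 + I *
    ((-138240) + I * (186880 + I * ((-97280))))))))) + a * ((I * (960 + I * ((-3200) + I *
    (6880 + I * ((-35840) + I * (86400 + I * ((-64000)))))))) + a * ((I * ((-320) + I * (I *
    ((-3200) + I * (19200 + I * ((-20480))))))) + a * ((I * (I * (I * (1920 + I *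
    ((-2560)))))))))))))))

theorem val_hG0000 (x : ℕ → ℝ) (a I X : Pack.Ex) :
    (ehG0000 a I X).eval x = chG0000 (a.eval x) (I.eval x) (X.eval x) := by
  simp only [ehG0000, chG0000, eval_addM, eval_mulM, eval_numM]
  push_cast
  rfl

/-- The coefficient of `T` in `hGS`. -/
def chG0100 (a I X : ℝ) : ℝ :=
  (X * ((((-48) + I * (288 + I * ((-576) + I * (384)))) + a * ((96 + I * ((-384) + I *
    (384))))) + X * (((I * ((-48) + I * (384 + I * ((-1152) + I * (1536 + I * ((-768))))))) + a
    * ((I * (192 + I * ((-1152) + I * (2304 + I * ((-1536)))))) + a * ((I * ((-192) + I * (768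
    + I * ((-768)))))))))))

theorem val_hG0100 (x : ℕ → ℝ) (a I X : Pack.Ex) :
    (ehG0100 a I X).eval x = chG0100 (a.eval x) (I.eval x) (X.eval x) := by
  simp only [ehG0100, chG0100, eval_addM, eval_mulM, eval_numM]
  push_cast
  rfl

/-- The coefficient of `p` in `hGS`. -/
def chG1000 (a I X : ℝ) : ℝ :=
  (X * (((I * (20 + I * ((-240) + I * (1200 + I * ((-3200) + I * (4800 + I * ((-3840) + I *
    (1280)))))))) + a * ((I * ((-120) + I * (1200 + I * ((-4800) + I * (9600 + I * ((-9600) + I
    * (3840))))))) + a * ((I * (260 + I * ((-2080) + I * (6240 + I * ((-8320) + I * (4160))))))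
    + a * ((I * ((-240) + I * (1440 + I * ((-2880) + I * (1920))))) + a * ((I * (80 + I *
    ((-320) + I * (320)))))))))))

theorem val_hG1000 (x : ℕ → ℝ) (a I X : Pack.Ex) :
    (ehG1000 a I X).eval x = chG1000 (a.eval x) (I.eval x) (X.eval x) := by
  simp only [ehG1000, chG1000, eval_addM, eval_mulM, eval_numM]
  push_cast
  rfl

/-- The coefficient of `1` in `hMS`. -/
def chM0000 (a I X : ℝ) : ℝ :=
  (X * ((a * (((-8) + I * (16)) + a * ((8))))))

theorem val_hM0000 (x : ℕ → ℝ) (a I X : Pack.Ex) :
    (ehM0000 a I X).eval x = chM0000 (a.eval x) (I.eval x) (X.eval x) := by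
  simp only [ehM0000, chM0000, eval_addM, eval_mulM, eval_numM]
  push_cast
  rfl

/-- The coefficient of `p` in `hMS`. -/
def chM1000 (a I X : ℝ) : ℝ :=
  ((((-1) + I * (2)) + a * ((1))))

theorem val_hM1000 (x : ℕ → ℝ) (a I X : Pack.Ex) :
    (ehM1000 a I X).eval x = chM1000 (a.eval x) (I.eval x) (X.eval x) := by
  simp only [ehM1000, chM1000, eval_addM, eval_mulM, eval_numM]
  push_cast
  rfl

/-- The coefficient of `1` in `TMES`. -/
def cN0000 (a I X : ℝ) : ℝ :=
  (X * (((I * (192 + I * ((-896) + I * (1344 + I * ((-768) + I * (256)))))) + a * ((I * ((-832)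
    + I * (2304 + I * ((-960) + I * ((-640)))))) + a * ((I * (1152 + I * ((-1024) + I *
    ((-1408))))) + a * ((I * ((-512) + I * ((-512)))))))) + X * (((I * (64 + I * ((-64) + I *
    ((-1408) + I * (4992 + I * ((-6400) + I * (3584 + I * ((-1024))))))))) + a * ((I * ((-320)
    + I * ((-832) + I * (8960 + I * ((-15232) + I * (5632 + I * (1536))))))) + a * ((I * (512 +
    I * (4096 + I * ((-14848) + I * (5120 + I * (8192)))))) + a * ((I * ((-256) + I * ((-5376)
    + I * (5120 + I * (7680))))) + a * ((I * (I * (2048 + I * (2048))))))))) + X * (((I * (I *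
    (I * (128 + I * ((-960) + I * (2496 + I * ((-2048) + I * ((-1536) + I * (3072 + I *
    ((-1024))))))))))) + a * ((I * (I * (I * ((-1152) + I * (6720 + I * ((-11712) + I * (1152 +
    I * (13056 + I * ((-7680)))))))))) + a * ((I * (I * (I * (4096 + I * ((-17024) + I * (14208
    + I * (16384 + I * ((-18944))))))))) + a * ((I * (I * (I * ((-7168) + I * (17664 + I *
    (3840 + I * ((-20992)))))))) + a * ((I * (I * (I * (6144 + I * ((-4608) + I *
    ((-10752))))))) + a * ((I * (I * (I * ((-2048) + I * ((-2048))))))))))))))))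

theorem val_N0000 (x : ℕ → ℝ) (a I X : Pack.Ex) :
    (eN0000 a I X).eval x = cN0000 (a.eval x) (I.eval x) (X.eval x) := by
  simp only [eN0000, cN0000, eval_addM, eval_mulM, eval_numM]
  push_cast
  rfl

/-- The coefficient of `w` in `TMES`. -/
def cN0001 (a I X : ℝ) : ℝ :=
  (X * (((I * (64 + I * ((-448) + I * (1152 + I * ((-1280) + I * (512)))))) + a * ((I * ((-256)
    + I * (1280 + I * ((-2048) + I * (1024))))) + a * ((I * (320 + I * ((-960) + I * (640)))) +
    a * ((I * ((-128) + I * (128))))))) + X * (((I * (I * (64 + I * ((-576) + I * (2048 + I *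
    ((-3584) + I * (3072 + I * ((-1024))))))))) + a * ((I * (I * ((-384) + I * (2688 + I *
    ((-6912) + I * (7680 + I * ((-3072)))))))) + a * ((I * (I * (832 + I * ((-4160) + I * (6656
    + I * ((-3328))))))) + a * ((I * (I * ((-768) + I * (2304 + I * ((-1536)))))) + a * ((I *
    (I * (256 + I * ((-256)))))))))))))

theorem val_N0001 (x : ℕ → ℝ) (a I X : Pack.Ex) :
    (eN0001 a I X).eval x = cN0001 (a.eval x) (I.eval x) (X.eval x) := by
  simp only [eN0001, cN0001, eval_addM, eval_mulM, eval_numM]
  push_cast
  rfl

/-- The coefficient of `g` in `TMES`. -/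
def cN0010 (a I X : ℝ) : ℝ :=
  (X * (((I * (I * ((-64) + I * (192)))) + a * ((I * ((-64) + I * (192))) + a * ((I * (I *
    (128))) + a * ((I * (128)))))) + X * (((I * (I * (64 + I * ((-576) + I * (1664 + I *
    ((-1536))))))) + a * ((I * (I * ((-384) + I * (2176 + I * ((-3072)))))) + a * ((I * (I *
    (384 + I * ((-768) + I * ((-1024)))))) + a * ((I * (I * (768 + I * ((-2048))))) + a * ((I *
    (I * ((-1024))))))))) + X * (((I * (I * (I * (128 + I * ((-1152) + I * (3840 + I * ((-5632)
    + I * (3072)))))))) + a * ((I * (I * (I * ((-768) + I * (5376 + I * ((-12288) + I *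
    (9216))))))) + a * ((I * (I * (I * (1280 + I * ((-6144) + I * (6144 + I * (2048))))))) + a
    * ((I * (I * (I * (512 + I * ((-3072) + I * (6144)))))) + a * ((I * (I * (I * ((-3072) + I
    * (6144))))) + a * ((I * (I * (I * (2048))))))))))))))

theorem val_N0010 (x : ℕ → ℝ) (a I X : Pack.Ex) :
    (eN0010 a I X).eval x = cN0010 (a.eval x) (I.eval x) (X.eval x) := by
  simp only [eN0010, cN0010, eval_addM, eval_mulM, eval_numM]
  push_cast
  rfl

/-- The coefficient of `T * g` in `TMES`. -/
def cN0110 (a I X : ℝ) : ℝ :=
  (X * (((I * ((-80))) + a * (((-80)))) + X * (((I * ((-80) + I * ((-160) + I * (640)))) + a *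
    ((I * ((-160) + I * (1280))) + a * ((I * (640))))) + X * (((I * (I * ((-320) + I * (960 + I
    * (I * ((-1280))))))) + a * ((I * (I * (960 + I * (I * ((-3840)))))) + a * ((I * (I * (I *
    ((-3840))))) + a * ((I * (I * ((-1280)))))))) + X * (((I * (I * (I * ((-320) + I * (1920 +
    I * ((-3840) + I * (2560))))))) + a * ((I * (I * (I * (1920 + I * ((-7680) + I *
    (7680)))))) + a * ((I * (I * (I * ((-3840) + I * (7680))))) + a * ((I * (I * (I *
    (2560)))))))))))))

theorem val_N0110 (x : ℕ → ℝ) (a I X : Pack.Ex) :
    (eN0110 a I X).eval x = cN0110 (a.eval x) (I.eval x) (X.eval x) := by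
  simp only [eN0110, cN0110, eval_addM, eval_mulM, eval_numM]
  push_cast
  rfl

/-- The coefficient of `p` in `TMES`. -/
def cN1000 (a I X : ℝ) : ℝ :=
  (X * (((I * (I * (48 + I * ((-224) + I * (336 + I * ((-192) + I * (64))))))) + a * ((I * (I *
    ((-208) + I * (576 + I * ((-240) + I * ((-160))))))) + a * ((I * (I * (288 + I * ((-256) +
    I * ((-352)))))) + a * ((I * (I * ((-128) + I * ((-128))))))))) + X * (((I * (I * (16 + I *
    ((-16) + I * ((-352) + I * (1248 + I * ((-1600) + I * (896 + I * ((-256)))))))))) + a * ((I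
    * (I * ((-80) + I * ((-208) + I * (2240 + I * ((-3808) + I * (1408 + I * (384)))))))) + a *
    ((I * (I * (128 + I * (1024 + I * ((-3712) + I * (1280 + I * (2048))))))) + a * ((I * (I *
    ((-64) + I * ((-1344) + I * (1280 + I * (1920)))))) + a * ((I * (I * (I * (512 + I *
    (512)))))))))) + X * (((I * (I * (I * (I * (32 + I * ((-240) + I * (624 + I * ((-512) + I *
    ((-384) + I * (768 + I * ((-256)))))))))))) + a * ((I * (I * (I * (I * ((-288) + I * (1680
    + I * ((-2928) + I * (288 + I * (3264 + I * ((-1920))))))))))) + a * ((I * (I * (I * (I *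
    (1024 + I * ((-4256) + I * (3552 + I * (4096 + I * ((-4736)))))))))) + a * ((I * (I * (I *
    (I * ((-1792) + I * (4416 + I * (960 + I * ((-5248))))))))) + a * ((I * (I * (I * (I *
    (1536 + I * ((-1152) + I * ((-2688)))))))) + a * ((I * (I * (I * (I * ((-512) + I *
    ((-512)))))))))))))))))

theorem val_N1000 (x : ℕ → ℝ) (a I X : Pack.Ex) :
    (eN1000 a I X).eval x = cN1000 (a.eval x) (I.eval x) (X.eval x) := by
  simp only [eN1000, cN1000, eval_addM, eval_mulM, eval_numM]
  push_cast
  rfl

/-- The coefficient of `p * w` in `TMES`. -/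
def cN1001 (a I X : ℝ) : ℝ :=
  (X * (((I * (I * (16 + I * ((-112) + I * (288 + I * ((-320) + I * (128))))))) + a * ((I * (I
    * ((-64) + I * (320 + I * ((-512) + I * (256)))))) + a * ((I * (I * (80 + I * ((-240) + I *
    (160))))) + a * ((I * (I * ((-32) + I * (32)))))))) + X * (((I * (I * (I * (16 + I *
    ((-144) + I * (512 + I * ((-896) + I * (768 + I * ((-256)))))))))) + a * ((I * (I * (I *
    ((-96) + I * (672 + I * ((-1728) + I * (1920 + I * ((-768))))))))) + a * ((I * (I * (I *
    (208 + I * ((-1040) + I * (1664 + I * ((-832)))))))) + a * ((I * (I * (I * ((-192) + I *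
    (576 + I * ((-384))))))) + a * ((I * (I * (I * (64 + I * ((-64))))))))))))))

theorem val_N1001 (x : ℕ → ℝ) (a I X : Pack.Ex) :
    (eN1001 a I X).eval x = cN1001 (a.eval x) (I.eval x) (X.eval x) := by
  simp only [eN1001, cN1001, eval_addM, eval_mulM, eval_numM]
  push_cast
  rfl

/-- The coefficient of `p * g` in `TMES`. -/
def cN1010 (a I X : ℝ) : ℝ :=
  (((I * ((-8) + I * (24))) + a * (a * ((I * (16))))) + X * (((I * (I * ((-32) + I * (160 + I *
    ((-192)))))) + a * ((I * (I * (64 + I * ((-192))))) + a * ((I * (I * (64 + I * ((-128)))))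
    + a * ((I * (I * ((-128)))))))) + X * (((I * (I * (I * ((-32) + I * (224 + I * ((-512) + I
    * (384))))))) + a * ((I * (I * (I * (128 + I * ((-640) + I * (768)))))) + a * ((I * (I * (I
    * ((-64) + I * (128 + I * (256)))))) + a * ((I * (I * (I * ((-256) + I * (512))))) + a *
    ((I * (I * (I * (256))))))))))))

theorem val_N1010 (x : ℕ → ℝ) (a I X : Pack.Ex) :
    (eN1010 a I X).eval x = cN1010 (a.eval x) (I.eval x) (X.eval x) := by
  simp only [eN1010, cN1010, eval_addM, eval_mulM, eval_numM]
  push_cast
  rfl

/-- The coefficient of `p * T * g` in `TMES`. -/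
def cN1110 (a I X : ℝ) : ℝ :=
  ((((-10))) + X * (((I * ((-40) + I * (80))) + a * ((I * (80)))) + X * (((I * (I * ((-40) + I
    * (160 + I * ((-160)))))) + a * ((I * (I * (160 + I * ((-320))))) + a * ((I * (I *
    ((-160))))))))))

theorem val_N1110 (x : ℕ → ℝ) (a I X : Pack.Ex) :
    (eN1110 a I X).eval x = cN1110 (a.eval x) (I.eval x) (X.eval x) := by
  simp only [eN1110, cN1110, eval_addM, eval_mulM, eval_numM]
  push_cast
  rfl

/-- The coefficient of `g` in `TMMS`. -/
def cM0010 (a I X : ℝ) : ℝ :=
  (((I * (32 + I * ((-96)))) + a * (a * ((I * ((-64)))))) + X * (((I * (I * (128 + I * ((-640)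
    + I * (768))))) + a * ((I * (I * ((-256) + I * (768)))) + a * ((I * (I * ((-256) + I *
    (512)))) + a * ((I * (I * (512))))))) + X * (((I * (I * (I * (128 + I * ((-896) + I * (2048
    + I * ((-1536)))))))) + a * ((I * (I * (I * ((-512) + I * (2560 + I * ((-3072))))))) + a *
    ((I * (I * (I * (256 + I * ((-512) + I * ((-1024))))))) + a * ((I * (I * (I * (1024 + I *
    ((-2048)))))) + a * ((I * (I * (I * ((-1024)))))))))))))

theorem val_M0010 (x : ℕ → ℝ) (a I X : Pack.Ex) :
    (eM0010 a I X).eval x = cM0010 (a.eval x) (I.eval x) (X.eval x) := by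
  simp only [eM0010, cM0010, eval_addM, eval_mulM, eval_numM]
  push_cast
  rfl

/-- The coefficient of `T * g` in `TMMS`. -/
def cM0110 (a I X : ℝ) : ℝ :=
  (((40)) + X * (((I * (160 + I * ((-320)))) + a * ((I * ((-320))))) + X * (((I * (I * (160 + I
    * ((-640) + I * (640))))) + a * ((I * (I * ((-640) + I * (1280)))) + a * ((I * (I *
    (640)))))))))

theorem val_M0110 (x : ℕ → ℝ) (a I X : Pack.Ex) :
    (eM0110 a I X).eval x = cM0110 (a.eval x) (I.eval x) (X.eval x) := by
  simp only [eM0110, cM0110, eval_addM, eval_mulM, eval_numM]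
  push_cast
  rfl

/-- The coefficient of `p * g` in `TMMS`. -/
def cM1010 (a I X : ℝ) : ℝ :=
  (((I * (I * (8 + I * ((-24))))) + a * (a * ((I * (I * ((-16))))))) + X * (((I * (I * (I * (32
    + I * ((-160) + I * (192)))))) + a * ((I * (I * (I * ((-64) + I * (192))))) + a * ((I * (I
    * (I * ((-64) + I * (128))))) + a * ((I * (I * (I * (128)))))))) + X * (((I * (I * (I * (I
    * (32 + I * ((-224) + I * (512 + I * ((-384))))))))) + a * ((I * (I * (I * (I * ((-128) + I
    * (640 + I * ((-768)))))))) + a * ((I * (I * (I * (I * (64 + I * ((-128) + I *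
    ((-256)))))))) + a * ((I * (I * (I * (I * (256 + I * ((-512))))))) + a * ((I * (I * (I * (I
    * ((-256))))))))))))))

theorem val_M1010 (x : ℕ → ℝ) (a I X : Pack.Ex) :
    (eM1010 a I X).eval x = cM1010 (a.eval x) (I.eval x) (X.eval x) := by
  simp only [eM1010, cM1010, eval_addM, eval_mulM, eval_numM]
  push_cast
  rfl

/-- The coefficient of `p * T * g` in `TMMS`. -/
def cM1110 (a I X : ℝ) : ℝ :=
  (((I * (10))) + X * (((I * (I * (40 + I * ((-80))))) + a * ((I * (I * ((-80)))))) + X * (((I
    * (I * (I * (40 + I * ((-160) + I * (160)))))) + a * ((I * (I * (I * ((-160) + I *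
    (320))))) + a * ((I * (I * (I * (160))))))))))

theorem val_M1110 (x : ℕ → ℝ) (a I X : Pack.Ex) :
    (eM1110 a I X).eval x = cM1110 (a.eval x) (I.eval x) (X.eval x) := by
  simp only [eM1110, cM1110, eval_addM, eval_mulM, eval_numM]
  push_cast
  rfl

/-- The coefficient of `1` in `gMS`. -/
def cgM0000 (a I X : ℝ) : ℝ :=
  ((((-4))) + X * ((((-4) + I * (8)) + a * ((16 + I * ((-16))) + a * (((-16))))) + X * ((a *
    ((I * (8 + I * ((-32) + I * (32)))) + a * ((I * ((-32) + I * (64))) + a * ((I *
    (32)))))))))

theorem val_gM0000 (x : ℕ → ℝ) (a I X : Pack.Ex) :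
    (egM0000 a I X).eval x = cgM0000 (a.eval x) (I.eval x) (X.eval x) := by
  simp only [egM0000, cgM0000, eval_addM, eval_mulM, eval_numM]
  push_cast
  rfl

end Vale.Agent.P100.Calib.Mid
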