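import Vale.Agent.P100.Pack.FastFour

/-!
# Exact coefficients of the scaled entries in the middle of the tail
-/

namespace Vale.Agent.P100.Calib.Mid

open Pack

local instance midCoefAdd : Add Pack.Ex := ⟨Ex.add⟩
local instance midCoefMul : Mul Pack.Ex := ⟨Ex.mul⟩

/-- An integer. -/
def eM (z : ℤ) : Pack.Ex := .num z

/-- The coefficient of `1` in `LGGS`. -/
def eGG0000 (a I X : Pack.Ex) : Pack.Ex :=
  (((I * (eM (80) + I * (eM (-560) + I * (eM (1440) + I * (eM (-1600) + I * (eM (640))))))) + a
    * ((I * (eM (-480) + I * (eM (2480) + I * (eM (-4320) + I * (eM (2560)))))) + a * ((I * (eM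
    (880) + I * (eM (-2720) + I * (eM (2080))))) + a * ((I * (eM (-480) + I * (eM (480))))))))
    + X * (((I * (eM (-40) + I * (eM (440) + I * (eM (-1480) + I * (eM (-320) + I * (eM (14240)
    + I * (eM (-39040) + I * (eM (49280) + I * (eM (-30720) + I * (eM (7680))))))))))) + a *
    ((I * (eM (480) + I * (eM (-5160) + I * (eM (19440) + I * (eM (-27520) + I * (eM (-6400) +
    I * (eM (58240) + I * (eM (-55040) + I * (eM (15360)))))))))) + a * ((I * (eM (-1560) + I *
    (eM (14480) + I * (eM (-43240) + I * (eM (42240) + I * (eM (16960) + I * (eM (-46080) + I *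
    (eM (14720))))))))) + a * ((I * (eM (1760) + I * (eM (-12960) + I * (eM (21520) + I * (eM
    (7200) + I * (eM (-32320) + I * (eM (12160)))))))) + a * ((I * (eM (-320) + I * (eM (1120)
    + I * (eM (6720) + I * (eM (-14720) + I * (eM (6400))))))) + a * ((I * (eM (-320) + I * (eM
    (1600) + I * (eM (-2560) + I * (eM (1280)))))))))))) + X * (((I * (I * (eM (160) + I * (eM
    (-2320) + I * (eM (15480) + I * (eM (-62800) + I * (eM (170720) + I * (eM (-320320) + I *
    (eM (410240) + I * (eM (-341760) + I * (eM (166400) + I * (eM (-35840))))))))))))) + a *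
    ((I * (I * (eM (-1200) + I * (eM (14800) + I * (eM (-83600) + I * (eM (285600) + I * (eM
    (-645120) + I * (eM (974720) + I * (eM (-944640) + I * (eM (527360) + I * (eM
    (-128000)))))))))))) + a * ((I * (I * (eM (3520) + I * (eM (-36160) + I * (eM (170840) + I
    * (eM (-487760) + I * (eM (899520) + I * (eM (-1041920) + I * (eM (680320) + I * (eM
    (-188160))))))))))) + a * ((I * (I * (eM (-5200) + I * (eM (44000) + I * (eM (-176000) + I
    * (eM (422400) + I * (eM (-609920) + I * (eM (476160) + I * (eM (-151040)))))))))) + a *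
    ((I * (I * (eM (4320) + I * (eM (-30880) + I * (eM (108640) + I * (eM (-209600) + I * (eM
    (200320) + I * (eM (-72960))))))))) + a * ((I * (I * (eM (-2240) + I * (eM (14080) + I *
    (eM (-40320) + I * (eM (48640) + I * (eM (-20480)))))))) + a * ((I * (I * (eM (640) + I *
    (eM (-3200) + I * (eM (5120) + I * (eM (-2560)))))))))))))))))

/-- The coefficient of `T` in `LGGS`. -/
def eGG0100 (a I X : Pack.Ex) : Pack.Ex :=
  (((eM (24) + I * (eM (-96) + I * (eM (96)))) + a * ((eM (-48) + I * (eM (48))))) + X * (((eM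
    (12) + I * (eM (72) + I * (eM (-768) + I * (eM (1920) + I * (eM (-1728) + I * (eM
    (384))))))) + a * ((eM (48) + I * (eM (-768) + I * (eM (2592) + I * (eM (-2880) + I * (eM
    (768)))))) + a * ((eM (-144) + I * (eM (864) + I * (eM (-1152) + I * (eM (384)))))))) + X *
    (((I * (eM (48) + I * (eM (-288) + I * (eM (288) + I * (eM (1536) + I * (eM (-4608) + I *
    (eM (4608) + I * (eM (-1536))))))))) + a * ((I * (eM (-168) + I * (eM (480) + I * (eM
    (1584) + I * (eM (-7680) + I * (eM (9792) + I * (eM (-3840)))))))) + a * ((I * (eM (96) + I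
    * (eM (576) + I * (eM (-4032) + I * (eM (6528) + I * (eM (-3072))))))) + a * ((I * (eM (96)
    + I * (eM (-768) + I * (eM (1344) + I * (eM (-768)))))))))))))

/-- The coefficient of `p` in `LGGS`. -/
def eGG1000 (a I X : Pack.Ex) : Pack.Ex :=
  (X * (((I * (I * (eM (-20) + I * (eM (220) + I * (eM (-1000) + I * (eM (2400) + I * (eM
    (-3200) + I * (eM (2240) + I * (eM (-640)))))))))) + a * ((I * (I * (eM (160) + I * (eM
    (-1500) + I * (eM (5600) + I * (eM (-10400) + I * (eM (9600) + I * (eM (-3520))))))))) + a
    * ((I * (I * (eM (-460) + I * (eM (3520) + I * (eM (-10080) + I * (eM (12800) + I * (eM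
    (-6080)))))))) + a * ((I * (I * (eM (560) + I * (eM (-3280) + I * (eM (6400) + I * (eM
    (-4160))))))) + a * ((I * (I * (eM (-240) + I * (eM (960) + I * (eM (-960)))))))))))))

/-- The coefficient of `p * T` in `LGGS`. -/
def eGG1100 (a I X : Pack.Ex) : Pack.Ex :=
  (X * (((I * (eM (-6) + I * (eM (48) + I * (eM (-144) + I * (eM (192) + I * (eM (-96))))))) +
    a * ((I * (eM (24) + I * (eM (-144) + I * (eM (288) + I * (eM (-192)))))) + a * ((I * (eM
    (-24) + I * (eM (96) + I * (eM (-96))))))))))

/-- The coefficient of `1` in `LEGS`. -/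
def eEG0000 (a I X : Pack.Ex) : Pack.Ex :=
  (((eM (-640) + I * (eM (7680) + I * (eM (-37120) + I * (eM (92160) + I * (eM (-122880) + I *
    (eM (81920) + I * (eM (-20480)))))))) + a * ((eM (2560) + I * (eM (-26880) + I * (eM
    (107520) + I * (eM (-207360) + I * (eM (194560) + I * (eM (-71680))))))) + a * ((eM (-3200)
    + I * (eM (33280) + I * (eM (-111360) + I * (eM (153600) + I * (eM (-76800)))))) + a * ((eM
    (1280) + I * (eM (-19200) + I * (eM (48640) + I * (eM (-33280))))) + a * ((I * (eM (5120) +
    I * (eM (-5120))))))))) + X * (((eM (640) + I * (eM (-11520) + I * (eM (89280) + I * (eM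
    (-379200) + I * (eM (939520) + I * (eM (-1317120) + I * (eM (834560) + I * (eM (148480) + I
    * (eM (-491520) + I * (eM (184320))))))))))) + a * ((eM (-3840) + I * (eM (63360) + I * (eM
    (-450560) + I * (eM (1721600) + I * (eM (-3732480) + I * (eM (4456960) + I * (eM (-2452480)
    + I * (eM (92160) + I * (eM (307200)))))))))) + a * ((eM (8320) + I * (eM (-128000) + I *
    (eM (865600) + I * (eM (-3028160) + I * (eM (5698560) + I * (eM (-5547520) + I * (eM
    (2309120) + I * (eM (-138240))))))))) + a * ((eM (-7680) + I * (eM (120960) + I * (eM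
    (-848640) + I * (eM (2709760) + I * (eM (-4093440) + I * (eM (2708480) + I * (eM
    (-522240)))))))) + a * ((eM (2560) + I * (eM (-60160) + I * (eM (472320) + I * (eM
    (-1207040) + I * (eM (1146880) + I * (eM (-322560))))))) + a * ((I * (eM (15360) + I * (eM
    (-117760) + I * (eM (163840) + I * (eM (-61440)))))))))))) + X * (((I * (eM (1280) + I *
    (eM (-21120) + I * (eM (159360) + I * (eM (-695040) + I * (eM (1821440) + I * (eM
    (-2603520) + I * (eM (829440) + I * (eM (3604480) + I * (eM (-6328320) + I * (eM (4382720)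
    + I * (eM (-1146880))))))))))))) + a * ((I * (eM (-11200) + I * (eM (161600) + I * (eM
    (-1098240) + I * (eM (4407040) + I * (eM (-10817280) + I * (eM (15352320) + I * (eM
    (-9615360) + I * (eM (-3031040) + I * (eM (7802880) + I * (eM (-3153920)))))))))))) + a *
    ((I * (eM (37760) + I * (eM (-471040) + I * (eM (2952960) + I * (eM (-11287680) + I * (eM
    (26447360) + I * (eM (-36167680) + I * (eM (25446400) + I * (eM (-5683200) + I * (eM
    (-1392640))))))))))) + a * ((I * (eM (-61120) + I * (eM (668480) + I * (eM (-4181120) + I *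
    (eM (15893120) + I * (eM (-34507520) + I * (eM (40273920) + I * (eM (-22062080) + I * (eM
    (3635200)))))))))) + a * ((I * (eM (47360) + I * (eM (-513280) + I * (eM (3678720) + I *
    (eM (-13378560) + I * (eM (23439360) + I * (eM (-18565120) + I * (eM (4935680))))))))) + a
    * ((I * (eM (-14080) + I * (eM (247040) + I * (eM (-2050560) + I * (eM (5813760) + I * (eM
    (-6384640) + I * (eM (2283520)))))))) + a * ((I * (I * (eM (-71680) + I * (eM (501760) + I
    * (eM (-778240) + I * (eM (368640)))))))))))))) + X * (((I * (I * (I * (eM (640) + I * (eM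
    (-3520) + I * (eM (-12480) + I * (eM (130560) + I * (eM (-209920) + I * (eM (-921600) + I *
    (eM (4823040) + I * (eM (-9789440) + I * (eM (10567680) + I * (eM (-5980160) + I * (eM
    (1392640))))))))))))))) + a * ((I * (I * (eM (-1920) + I * (eM (21120) + I * (eM (-184960)
    + I * (eM (1306240) + I * (eM (-5694720) + I * (eM (14318080) + I * (eM (-19440640) + I *
    (eM (9861120) + I * (eM (7147520) + I * (eM (-11509760) + I * (eM (4177920)))))))))))))) +
    a * ((I * (I * (eM (15360) + I * (eM (-163200) + I * (eM (1295680) + I * (eM (-8007360) + I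
    * (eM (30968320) + I * (eM (-70882560) + I * (eM (93803520) + I * (eM (-66360320) + I * (eM
    (19251200) + I * (eM (184320))))))))))))) + a * ((I * (I * (eM (-48000) + I * (eM (452480)
    + I * (eM (-3618560) + I * (eM (21364480) + I * (eM (-72929280) + I * (eM (139709440) + I *
    (eM (-146708480) + I * (eM (76103680) + I * (eM (-13885440)))))))))))) + a * ((I * (I * (eM
    (72960) + I * (eM (-631040) + I * (eM (5713920) + I * (eM (-31580160) + I * (eM (88652800)
    + I * (eM (-127672320) + I * (eM (88780800) + I * (eM (-22609920))))))))))) + a * ((I * (I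
    * (eM (-53760) + I * (eM (529920) + I * (eM (-5703680) + I * (eM (26280960) + I * (eM
    (-53719040) + I * (eM (49233920) + I * (eM (-16097280)))))))))) + a * ((I * (I * (eM
    (15360) + I * (eM (-312320) + I * (eM (3292160) + I * (eM (-10572800) + I * (eM (13086720)
    + I * (eM (-5509120))))))))) + a * ((I * (I * (I * (eM (102400) + I * (eM (-757760) + I *
    (eM (1310720) + I * (eM (-737280)))))))))))))))) + X * (((I * (I * (I * (I * (I * (eM
    (3840) + I * (eM (-65920) + I * (eM (503040) + I * (eM (-2242560) + I * (eM (6451200) + I *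
    (eM (-12472320) + I * (eM (16343040) + I * (eM (-14254080) + I * (eM (7864320) + I * (eM
    (-2457600) + I * (eM (327680))))))))))))))))) + a * ((I * (I * (I * (I * (I * (eM (-54400)
    + I * (eM (836480) + I * (eM (-5648640) + I * (eM (21944320) + I * (eM (-53918720) + I *
    (eM (86630400) + I * (eM (-90664960) + I * (eM (59310080) + I * (eM (-21872640) + I * (eM
    (3440640)))))))))))))))) + a * ((I * (I * (I * (I * (I * (eM (334080) + I * (eM (-4539520)
    + I * (eM (26673920) + I * (eM (-88358400) + I * (eM (180044800) + I * (eM (-230389760) + I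
    * (eM (180080640) + I * (eM (-78192640) + I * (eM (14336000))))))))))))))) + a * ((I * (I *
    (I * (I * (eM (2560) + I * (eM (-1192320) + I * (eM (13857920) + I * (eM (-68911360) + I *
    (eM (188305920) + I * (eM (-304148480) + I * (eM (289208320) + I * (eM (-149114880) + I *
    (eM (31907840)))))))))))))) + a * ((I * (I * (I * (I * (eM (-23040) + I * (eM (2731520) + I
    * (eM (-25932800) + I * (eM (104857600) + I * (eM (-225013760) + I * (eM (268042240) + I *
    (eM (-166952960) + I * (eM (42106880))))))))))))) + a * ((I * (I * (I * (I * (eM (81920) +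
    I * (eM (-4070400) + I * (eM (29926400) + I * (eM (-93071360) + I * (eM (145367040) + I *
    (eM (-112353280) + I * (eM (33996800)))))))))))) + a * ((I * (I * (I * (I * (eM (-143360) +
    I * (eM (3747840) + I * (eM (-20060160) + I * (eM (44216320) + I * (eM (-44113920) + I *
    (eM (16465920))))))))))) + a * ((I * (I * (I * (I * (eM (122880) + I * (eM (-1873920) + I *
    (eM (6686720) + I * (eM (-9113600) + I * (eM (4382720)))))))))) + a * ((I * (I * (I * (I *
    (eM (-40960) + I * (eM (368640) + I * (eM (-737280) + I * (eM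
    (491520)))))))))))))))))))))))

/-- The coefficient of `g` in `LEGS`. -/
def eEG0010 (a I X : Pack.Ex) : Pack.Ex :=
  (X * (((I * (I * (eM (320) + I * (eM (-4160) + I * (eM (22400) + I * (eM (-64000) + I * (eM
    (102400) + I * (eM (-87040) + I * (eM (30720)))))))))) + a * ((I * (I * (eM (-960) + I *
    (eM (10560) + I * (eM (-46080) + I * (eM (99840) + I * (eM (-107520) + I * (eM
    (46080))))))))) + a * ((I * (I * (I * (eM (640) + I * (eM (-6400) + I * (eM (23040) + I *
    (eM (-35840) + I * (eM (20480))))))))) + a * ((I * (I * (eM (1920) + I * (eM (-15360) + I *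
    (eM (46080) + I * (eM (-61440) + I * (eM (30720)))))))) + a * ((I * (I * (eM (-1280) + I *
    (eM (7680) + I * (eM (-15360) + I * (eM (10240)))))))))))) + X * (((I * (I * (I * (eM
    (1280) + I * (eM (-19200) + I * (eM (122880) + I * (eM (-435200) + I * (eM (921600) + I *
    (eM (-1167360) + I * (eM (819200) + I * (eM (-245760)))))))))))) + a * ((I * (I * (I * (eM
    (-6400) + I * (eM (83200) + I * (eM (-448000) + I * (eM (1280000) + I * (eM (-2048000) + I
    * (eM (1740800) + I * (eM (-614400))))))))))) + a * ((I * (I * (I * (eM (7680) + I * (eM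
    (-81920) + I * (eM (337920) + I * (eM (-655360) + I * (eM (532480) + I * (I * (eM
    (-163840))))))))))) + a * ((I * (I * (I * (eM (7680) + I * (eM (-81920) + I * (eM (358400)
    + I * (eM (-798720) + I * (eM (901120) + I * (eM (-409600)))))))))) + a * ((I * (I * (I *
    (eM (-20480) + I * (eM (163840) + I * (eM (-491520) + I * (eM (655360) + I * (eM
    (-327680))))))))) + a * ((I * (I * (I * (eM (10240) + I * (eM (-61440) + I * (eM (122880) +
    I * (eM (-81920)))))))))))))) + X * (((I * (I * (I * (I * (eM (1280) + I * (eM (-21760) + I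
    * (eM (161280) + I * (eM (-680960) + I * (eM (1792000) + I * (eM (-3010560) + I * (eM
    (3153920) + I * (eM (-1884160) + I * (eM (491520)))))))))))))) + a * ((I * (I * (I * (I *
    (eM (-8960) + I * (eM (134400) + I * (eM (-860160) + I * (eM (3046400) + I * (eM (-6451200)
    + I * (eM (8171520) + I * (eM (-5734400) + I * (eM (1720320))))))))))))) + a * ((I * (I *
    (I * (I * (eM (20480) + I * (eM (-263680) + I * (eM (1397760) + I * (eM (-3891200) + I *
    (eM (5939200) + I * (eM (-4546560) + I * (eM (1064960) + I * (eM (327680))))))))))))) + a *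
    ((I * (I * (I * (I * (eM (-7680) + I * (eM (66560) + I * (eM (-153600) + I * (eM (-204800)
    + I * (eM (1433600) + I * (eM (-2211840) + I * (eM (1146880)))))))))))) + a * ((I * (I * (I
    * (I * (eM (-35840) + I * (eM (368640) + I * (eM (-1536000) + I * (eM (3235840) + I * (eM
    (-3440640) + I * (eM (1474560))))))))))) + a * ((I * (I * (I * (I * (eM (51200) + I * (eM
    (-409600) + I * (eM (1228800) + I * (eM (-1638400) + I * (eM (819200)))))))))) + a * ((I *
    (I * (I * (I * (eM (-20480) + I * (eM (122880) + I * (eM (-245760) + I * (eM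
    (163840))))))))))))))))))))

/-- The coefficient of `T` in `LEGS`. -/
def eEG0100 (a I X : Pack.Ex) : Pack.Ex :=
  (X * (((I * (eM (576) + I * (eM (-4224) + I * (eM (11520) + I * (eM (-13824) + I * (eM
    (6144))))))) + a * ((eM (-576) + I * (eM (2304) + I * (eM (-768) + I * (eM (-6144) + I *
    (eM (6144)))))) + a * ((eM (1152) + I * (eM (-4608) + I * (eM (4608))))))) + X * (((I * (I
    * (eM (960) + I * (eM (-9984) + I * (eM (41472) + I * (eM (-86016) + I * (eM (89088) + I *
    (eM (-36864))))))))) + a * ((I * (eM (-2496) + I * (eM (16128) + I * (eM (-27648) + I * (eM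
    (-21504) + I * (eM (101376) + I * (eM (-73728)))))))) + a * ((I * (eM (9984) + I * (eM
    (-56064) + I * (eM (95232) + I * (eM (-27648) + I * (eM (-36864))))))) + a * ((I * (eM
    (-9984) + I * (eM (39936) + I * (eM (-39936))))))))) + X * (((I * (I * (eM (-384) + I * (eM
    (4224) + I * (eM (-20736) + I * (eM (61440) + I * (eM (-122880) + I * (eM (165888) + I *
    (eM (-135168) + I * (eM (49152))))))))))) + a * ((I * (I * (I * (eM (2304) + I * (eM
    (-9216) + I * (eM (-18432) + I * (eM (147456) + I * (eM (-258048) + I * (eM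
    (147456)))))))))) + a * ((I * (I * (eM (9216) + I * (eM (-78336) + I * (eM (230400) + I *
    (eM (-239616) + I * (eM (-36864) + I * (eM (147456))))))))) + a * ((I * (I * (eM (-24576) +
    I * (eM (150528) + I * (eM (-294912) + I * (eM (159744) + I * (eM (49152)))))))) + a * ((I
    * (I * (eM (18432) + I * (eM (-73728) + I * (eM (73728))))))))))) + X * (((I * (I * (I *
    (eM (-384) + I * (eM (4608) + I * (eM (-23040) + I * (eM (61440) + I * (eM (-92160) + I *
    (eM (73728) + I * (eM (-24576))))))))))) + a * ((I * (I * (I * (eM (2688) + I * (eM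
    (-26112) + I * (eM (99840) + I * (eM (-184320) + I * (eM (153600) + I * (eM (-24576) + I *
    (eM (-24576))))))))))) + a * ((I * (I * (I * (eM (-6144) + I * (eM (43008) + I * (eM
    (-98304) + I * (eM (49152) + I * (eM (98304) + I * (eM (-98304)))))))))) + a * ((I * (I *
    (I * (eM (3072) + I * (I * (eM (-73728) + I * (eM (196608) + I * (eM (-147456))))))))) + a
    * ((I * (I * (I * (eM (6144) + I * (eM (-49152) + I * (eM (122880) + I * (eM
    (-98304)))))))) + a * ((I * (I * (I * (eM (-6144) + I * (eM (24576) + I * (eM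
    (-24576))))))))))))))))))

/-- The coefficient of `T * g` in `LEGS`. -/
def eEG0110 (a I X : Pack.Ex) : Pack.Ex :=
  (X * (((I * (eM (400) + I * (eM (-4000) + I * (eM (16000) + I * (eM (-32000) + I * (eM
    (32000) + I * (eM (-12800)))))))) + a * ((I * (eM (-1200) + I * (eM (9600) + I * (eM
    (-28800) + I * (eM (38400) + I * (eM (-19200))))))) + a * ((I * (eM (800) + I * (eM (-4800)
    + I * (eM (9600) + I * (eM (-6400))))))))) + X * (((I * (I * (eM (1600) + I * (eM (-19200)
    + I * (eM (96000) + I * (eM (-256000) + I * (eM (384000) + I * (eM (-307200) + I * (eM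
    (102400)))))))))) + a * ((I * (I * (eM (-8000) + I * (eM (80000) + I * (eM (-320000) + I *
    (eM (640000) + I * (eM (-640000) + I * (eM (256000))))))))) + a * ((I * (I * (eM (12800) +
    I * (eM (-102400) + I * (eM (307200) + I * (eM (-409600) + I * (eM (204800)))))))) + a *
    ((I * (I * (eM (-6400) + I * (eM (38400) + I * (eM (-76800) + I * (eM (51200))))))))))) + X
    * (((I * (I * (I * (eM (1600) + I * (eM (-22400) + I * (eM (134400) + I * (eM (-448000) + I
    * (eM (896000) + I * (eM (-1075200) + I * (eM (716800) + I * (eM (-204800)))))))))))) + a *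
    ((I * (I * (I * (eM (-11200) + I * (eM (134400) + I * (eM (-672000) + I * (eM (1792000) + I
    * (eM (-2688000) + I * (eM (2150400) + I * (eM (-716800))))))))))) + a * ((I * (I * (I *
    (eM (28800) + I * (eM (-288000) + I * (eM (1152000) + I * (eM (-2304000) + I * (eM
    (2304000) + I * (eM (-921600)))))))))) + a * ((I * (I * (I * (eM (-32000) + I * (eM
    (256000) + I * (eM (-768000) + I * (eM (1024000) + I * (eM (-512000))))))))) + a * ((I * (I
    * (I * (eM (12800) + I * (eM (-76800) + I * (eM (153600) + I * (eM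
    (-102400)))))))))))))))))

/-- The coefficient of `p` in `LEGS`. -/
def eEG1000 (a I X : Pack.Ex) : Pack.Ex :=
  (((I * (eM (-240) + I * (eM (2160) + I * (eM (-7680) + I * (eM (13440) + I * (eM (-11520) + I
    * (eM (3840)))))))) + a * ((I * (eM (1440) + I * (eM (-10800) + I * (eM (30240) + I * (eM
    (-37440) + I * (eM (17280))))))) + a * ((I * (eM (-2640) + I * (eM (15360) + I * (eM
    (-29760) + I * (eM (19200)))))) + a * ((I * (eM (1440) + I * (eM (-5760) + I * (eM
    (5760))))))))) + X * (((I * (eM (40) + I * (eM (-1560) + I * (eM (14640) + I * (eM (-63840)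
    + I * (eM (151680) + I * (eM (-199680) + I * (eM (126720) + I * (eM (-7680) + I * (eM
    (-30720) + I * (eM (10240)))))))))))) + a * ((I * (eM (-240) + I * (eM (10960) + I * (eM
    (-92880) + I * (eM (344640) + I * (eM (-659200) + I * (eM (641280) + I * (eM (-241920) + I
    * (eM (-35840) + I * (eM (30720))))))))))) + a * ((I * (eM (520) + I * (eM (-29240) + I *
    (eM (215040) + I * (eM (-643360) + I * (eM (909440) + I * (eM (-551040) + I * (eM (56320) +
    I * (eM (33280)))))))))) + a * ((I * (eM (-480) + I * (eM (35680) + I * (eM (-216320) + I *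
    (eM (483840) + I * (eM (-439040) + I * (eM (110080) + I * (eM (15360))))))))) + a * ((I *
    (eM (160) + I * (eM (-18400) + I * (eM (87040) + I * (eM (-131840) + I * (eM (58880) + I *
    (eM (2560)))))))) + a * ((I * (I * (eM (2560) + I * (eM (-10240) + I * (eM
    (10240)))))))))))) + X * (((I * (I * (eM (80) + I * (eM (-2160) + I * (eM (20960) + I * (eM
    (-105600) + I * (eM (312320) + I * (eM (-558080) + I * (eM (568320) + I * (eM (-235520) + I
    * (eM (-102400) + I * (eM (143360) + I * (eM (-40960)))))))))))))) + a * ((I * (I * (eM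
    (-640) + I * (eM (17920) + I * (eM (-161600) + I * (eM (722560) + I * (eM (-1825280) + I *
    (eM (2657280) + I * (eM (-2032640) + I * (eM (460800) + I * (eM (327680) + I * (eM
    (-163840))))))))))))) + a * ((I * (I * (eM (2000) + I * (eM (-60720) + I * (eM (501920) + I
    * (eM (-1939520) + I * (eM (4018560) + I * (eM (-4455680) + I * (eM (2209280) + I * (eM
    (-15360) + I * (eM (-256000)))))))))))) + a * ((I * (I * (eM (-3040) + I * (eM (107360) + I
    * (eM (-794880) + I * (eM (2551680) + I * (eM (-4067840) + I * (eM (3033600) + I * (eM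
    (-634880) + I * (eM (-194560))))))))))) + a * ((I * (I * (eM (2240) + I * (eM (-104000) + I
    * (eM (664960) + I * (eM (-1669120) + I * (eM (1827840) + I * (eM (-670720) + I * (eM
    (-71680)))))))))) + a * ((I * (I * (eM (-640) + I * (eM (51840) + I * (eM (-271360) + I *
    (eM (481280) + I * (eM (-276480) + I * (eM (-10240))))))))) + a * ((I * (I * (I * (eM
    (-10240) + I * (eM (40960) + I * (eM (-40960)))))))))))))) + X * (((I * (I * (I * (I * (eM
    (-160) + I * (eM (2880) + I * (eM (-22720) + I * (eM (103040) + I * (eM (-295680) + I * (eM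
    (555520) + I * (eM (-680960) + I * (eM (522240) + I * (eM (-225280) + I * (eM
    (40960))))))))))))))) + a * ((I * (I * (I * (I * (eM (1920) + I * (eM (-31200) + I * (eM
    (218880) + I * (eM (-865920) + I * (eM (2112000) + I * (eM (-3248640) + I * (eM (3072000) +
    I * (eM (-1628160) + I * (eM (368640)))))))))))))) + a * ((I * (I * (I * (I * (eM (-10080)
    + I * (eM (145440) + I * (eM (-888320) + I * (eM (2979200) + I * (eM (-5926400) + I * (eM
    (6991360) + I * (eM (-4526080) + I * (eM (1239040))))))))))))) + a * ((I * (I * (I * (I *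
    (eM (30080) + I * (eM (-376320) + I * (eM (1940480) + I * (eM (-5283840) + I * (eM
    (8017920) + I * (eM (-6430720) + I * (eM (2129920)))))))))))) + a * ((I * (I * (I * (I *
    (eM (-55040) + I * (eM (577280) + I * (eM (-2401280) + I * (eM (4956160) + I * (eM
    (-5079040) + I * (eM (2068480))))))))))) + a * ((I * (I * (I * (I * (eM (61440) + I * (eM
    (-514560) + I * (eM (1607680) + I * (eM (-2222080) + I * (eM (1146880)))))))))) + a * ((I *
    (I * (I * (I * (eM (-38400) + I * (eM (238080) + I * (eM (-491520) + I * (eM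
    (337920))))))))) + a * ((I * (I * (I * (I * (eM (10240) + I * (eM (-40960) + I * (eM
    (40960))))))))))))))))))))

/-- The coefficient of `p * T` in `LEGS`. -/
def eEG1100 (a I X : Pack.Ex) : Pack.Ex :=
  (((eM (-72) + I * (eM (432) + I * (eM (-864) + I * (eM (576))))) + a * ((eM (144) + I * (eM
    (-576) + I * (eM (576)))))) + X * (((I * (eM (-216) + I * (eM (1728) + I * (eM (-5184) + I
    * (eM (6912) + I * (eM (-3456))))))) + a * ((I * (eM (864) + I * (eM (-5184) + I * (eM
    (10368) + I * (eM (-6912)))))) + a * ((I * (eM (-864) + I * (eM (3456) + I * (eM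
    (-3456)))))))) + X * (((I * (I * (eM (-96) + I * (eM (960) + I * (eM (-3840) + I * (eM
    (7680) + I * (eM (-7680) + I * (eM (3072))))))))) + a * ((I * (I * (eM (576) + I * (eM
    (-4608) + I * (eM (13824) + I * (eM (-18432) + I * (eM (9216)))))))) + a * ((I * (I * (eM
    (-1152) + I * (eM (6912) + I * (eM (-13824) + I * (eM (9216))))))) + a * ((I * (I * (eM
    (768) + I * (eM (-3072) + I * (eM (3072)))))))))) + X * (((I * (I * (I * (eM (48) + I * (eM
    (-576) + I * (eM (2880) + I * (eM (-7680) + I * (eM (11520) + I * (eM (-9216) + I * (eM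
    (3072))))))))))) + a * ((I * (I * (I * (eM (-384) + I * (eM (3840) + I * (eM (-15360) + I *
    (eM (30720) + I * (eM (-30720) + I * (eM (12288)))))))))) + a * ((I * (I * (I * (eM (1152)
    + I * (eM (-9216) + I * (eM (27648) + I * (eM (-36864) + I * (eM (18432))))))))) + a * ((I
    * (I * (I * (eM (-1536) + I * (eM (9216) + I * (eM (-18432) + I * (eM (12288)))))))) + a *
    ((I * (I * (I * (eM (768) + I * (eM (-3072) + I * (eM (3072))))))))))))))))

/-- The coefficient of `1` in `LEES`. -/
def eLE0000 (a I X : Pack.Ex) : Pack.Ex :=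
  (((eM (-960) + I * (eM (8320) + I * (eM (-28160) + I * (eM (46080) + I * (eM (-35840) + I *
    (eM (10240))))))) + a * ((eM (3200) + I * (eM (-20480) + I * (eM (47360) + I * (eM (-46080)
    + I * (eM (15360)))))) + a * ((eM (-3520) + I * (eM (14720) + I * (eM (-19200) + I * (eM
    (7680))))) + a * ((eM (1280) + I * (eM (-2560) + I * (eM (1280)))))))) + X * (((eM (-320) +
    I * (eM (-640) + I * (eM (27520) + I * (eM (-144640) + I * (eM (334080) + I * (eM (-358400)
    + I * (eM (102400) + I * (eM (102400) + I * (eM (-61440)))))))))) + a * ((eM (960) + I *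
    (eM (14080) + I * (eM (-163200) + I * (eM (588800) + I * (eM (-965120) + I * (eM (691200) +
    I * (eM (-102400) + I * (eM (-61440))))))))) + a * ((eM (-960) + I * (eM (-37760) + I * (eM
    (259200) + I * (eM (-590080) + I * (eM (520960) + I * (eM (-92160) + I * (eM
    (-56320)))))))) + a * ((eM (320) + I * (eM (35840) + I * (eM (-137600) + I * (eM (135680) +
    I * (eM (7680) + I * (eM (-40960))))))) + a * ((I * (eM (-11520) + I * (eM (14080) + I *
    (eM (7680) + I * (eM (-10240))))))))))) + X * (((I * (eM (-1280) + I * (eM (13440) + I *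
    (eM (-52480) + I * (eM (81920) + I * (eM (-10240) + I * (eM (-10240) + I * (eM (-430080) +
    I * (eM (1064960) + I * (eM (-983040) + I * (eM (327680)))))))))))) + a * ((I * (eM (3840)
    + I * (eM (-13440) + I * (eM (-112640) + I * (eM (843520) + I * (eM (-2216960) + I * (eM
    (2662400) + I * (eM (-1064960) + I * (eM (-512000) + I * (eM (409600))))))))))) + a * ((I *
    (eM (3840) + I * (eM (-131200) + I * (eM (898560) + I * (eM (-2598400) + I * (eM (3578880)
    + I * (eM (-2088960) + I * (eM (143360) + I * (eM (163840)))))))))) + a * ((I * (eM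
    (-24320) + I * (eM (320640) + I * (eM (-1199360) + I * (eM (1578240) + I * (eM (-168960) +
    I * (eM (-865280) + I * (eM (266240))))))))) + a * ((I * (eM (28160) + I * (eM (-248320) +
    I * (eM (424960) + I * (eM (261120) + I * (eM (-808960) + I * (eM (245760)))))))) + a * ((I
    * (eM (-10240) + I * (eM (58880) + I * (eM (25600) + I * (eM (-168960) + I * (eM
    (61440))))))))))))) + X * (((I * (I * (eM (-1280) + I * (eM (21760) + I * (eM (-158720) + I
    * (eM (651520) + I * (eM (-1657600) + I * (eM (2723840) + I * (eM (-2974720) + I * (eM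
    (2314240) + I * (eM (-1495040) + I * (eM (819200) + I * (eM (-245760)))))))))))))) + a *
    ((I * (I * (eM (4480) + I * (eM (-71680) + I * (eM (464000) + I * (eM (-1561600) + I * (eM
    (2810880) + I * (eM (-2114560) + I * (eM (-1136640) + I * (eM (3481600) + I * (eM
    (-2457600) + I * (eM (573440))))))))))))) + a * ((I * (I * (eM (16640) + I * (eM (-172800)
    + I * (eM (712960) + I * (eM (-1534720) + I * (eM (2264320) + I * (eM (-3850240) + I * (eM
    (6727680) + I * (eM (-6901760) + I * (eM (2805760)))))))))))) + a * ((I * (I * (eM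
    (-110720) + I * (eM (1052160) + I * (eM (-3612800) + I * (eM (4938240) + I * (eM (-885760)
    + I * (eM (-2293760) + I * (eM (-1607680) + I * (eM (2908160))))))))))) + a * ((I * (I *
    (eM (216320) + I * (eM (-1638400) + I * (eM (3685120) + I * (eM (-642560) + I * (eM
    (-6318080) + I * (eM (4597760) + I * (eM (839680)))))))))) + a * ((I * (I * (eM (-181760) +
    I * (eM (993280) + I * (eM (-857600) + I * (eM (-2334720) + I * (eM (3143680) + I * (eM
    (-163840))))))))) + a * ((I * (I * (eM (56320) + I * (eM (-184320) + I * (eM (-179200) + I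
    * (eM (563200) + I * (eM (-81920))))))))))))))) + X * (((I * (I * (I * (I * (eM (2560) + I
    * (eM (-37120) + I * (eM (227840) + I * (eM (-750080) + I * (eM (1326080) + I * (eM
    (-788480) + I * (eM (-1576960) + I * (eM (3973120) + I * (eM (-3850240) + I * (eM (1802240)
    + I * (eM (-327680)))))))))))))))) + a * ((I * (I * (I * (eM (1280) + I * (eM (-46080) + I
    * (eM (474880) + I * (eM (-2352640) + I * (eM (6364160) + I * (eM (-8919040) + I * (eM
    (2805760) + I * (eM (10608640) + I * (eM (-17285120) + I * (eM (10977280) + I * (eM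
    (-2621440))))))))))))))) + a * ((I * (I * (I * (eM (-2560) + I * (eM (151040) + I * (eM
    (-1578240) + I * (eM (7334400) + I * (eM (-17845760) + I * (eM (21457920) + I * (eM
    (-4423680) + I * (eM (-19333120) + I * (eM (21504000) + I * (eM (-7290880)))))))))))))) + a
    * ((I * (I * (I * (eM (-29440) + I * (eM (40960) + I * (eM (1678080) + I * (eM (-10662400)
    + I * (eM (27499520) + I * (eM (-32174080) + I * (eM (8540160) + I * (eM (14540800) + I *
    (eM (-9748480))))))))))))) + a * ((I * (I * (I * (eM (143360) + I * (eM (-875520) + I * (eM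
    (61440) + I * (eM (10915840) + I * (eM (-30484480) + I * (eM (29798400) + I * (eM
    (-3727360) + I * (eM (-6799360)))))))))))) + a * ((I * (I * (I * (eM (-256000) + I * (eM
    (1402880) + I * (eM (-399360) + I * (eM (-10096640) + I * (eM (20172800) + I * (eM
    (-9830400) + I * (eM (-2375680))))))))))) + a * ((I * (I * (I * (eM (204800) + I * (eM
    (-798720) + I * (eM (-634880) + I * (eM (5201920) + I * (eM (-4587520) + I * (eM
    (-327680)))))))))) + a * ((I * (I * (I * (eM (-61440) + I * (eM (122880) + I * (eM (389120)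
    + I * (eM (-696320)))))))))))))))) + X * ((a * ((I * (I * (I * (I * (I * (eM (-2560) + I *
    (eM (42240) + I * (eM (-307200) + I * (eM (1290240) + I * (eM (-3440640) + I * (eM
    (6021120) + I * (eM (-6881280) + I * (eM (4915200) + I * (eM (-1966080) + I * (eM
    (327680)))))))))))))))) + a * ((I * (I * (I * (I * (I * (eM (30720) + I * (eM (-453120) + I
    * (eM (2903040) + I * (eM (-10536960) + I * (eM (23654400) + I * (eM (-33546240) + I * (eM
    (29245440) + I * (eM (-14254080) + I * (eM (2949120))))))))))))))) + a * ((I * (I * (I * (I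
    * (I * (eM (-156160) + I * (eM (2028800) + I * (eM (-11228160) + I * (eM (34278400) + I *
    (eM (-62259200) + I * (eM (67153920) + I * (eM (-39731200) + I * (eM (9912320))))))))))))))
    + a * ((I * (I * (I * (I * (I * (eM (435200) + I * (eM (-4884480) + I * (eM (22732800) + I
    * (eM (-56115200) + I * (eM (77414400) + I * (eM (-56524800) + I * (eM
    (17039360))))))))))))) + a * ((I * (I * (I * (I * (I * (eM (-716800) + I * (eM (6768640) +
    I * (eM (-25477120) + I * (eM (47759360) + I * (eM (-44564480) + I * (eM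
    (16547840)))))))))))) + a * ((I * (I * (I * (I * (I * (eM (696320) + I * (eM (-5324800) + I
    * (eM (15237120) + I * (eM (-19333120) + I * (eM (9175040))))))))))) + a * ((I * (I * (I *
    (I * (I * (eM (-368640) + I * (eM (2150400) + I * (eM (-4177920) + I * (eM
    (2703360)))))))))) + a * ((I * (I * (I * (I * (I * (eM (81920) + I * (eM (-327680) + I *
    (eM (327680))))))))))))))))))))))))

/-- The coefficient of `w` in `LEES`. -/
def eLE0001 (a I X : Pack.Ex) : Pack.Ex :=
  (((eM (-320) + I * (eM (3200) + I * (eM (-12800) + I * (eM (25600) + I * (eM (-25600) + I *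
    (eM (10240))))))) + a * ((eM (960) + I * (eM (-7680) + I * (eM (23040) + I * (eM (-30720) +
    I * (eM (15360)))))) + a * ((eM (-960) + I * (eM (5760) + I * (eM (-11520) + I * (eM
    (7680))))) + a * ((eM (320) + I * (eM (-1280) + I * (eM (1280)))))))) + X * (((I * (eM
    (-960) + I * (eM (11520) + I * (eM (-57600) + I * (eM (153600) + I * (eM (-230400) + I *
    (eM (184320) + I * (eM (-61440))))))))) + a * ((I * (eM (4800) + I * (eM (-48000) + I * (eM
    (192000) + I * (eM (-384000) + I * (eM (384000) + I * (eM (-153600)))))))) + a * ((I * (eM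
    (-8640) + I * (eM (69120) + I * (eM (-207360) + I * (eM (276480) + I * (eM (-138240)))))))
    + a * ((I * (eM (6720) + I * (eM (-40320) + I * (eM (80640) + I * (eM (-53760)))))) + a *
    ((I * (eM (-1920) + I * (eM (7680) + I * (eM (-7680)))))))))) + X * (((I * (I * (eM (-640)
    + I * (eM (8960) + I * (eM (-53760) + I * (eM (179200) + I * (eM (-358400) + I * (eM
    (430080) + I * (eM (-286720) + I * (eM (81920))))))))))) + a * ((I * (I * (eM (4480) + I *
    (eM (-53760) + I * (eM (268800) + I * (eM (-716800) + I * (eM (1075200) + I * (eM (-860160)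
    + I * (eM (286720)))))))))) + a * ((I * (I * (eM (-12160) + I * (eM (121600) + I * (eM
    (-486400) + I * (eM (972800) + I * (eM (-972800) + I * (eM (389120))))))))) + a * ((I * (I
    * (eM (16000) + I * (eM (-128000) + I * (eM (384000) + I * (eM (-512000) + I * (eM
    (256000)))))))) + a * ((I * (I * (eM (-10240) + I * (eM (61440) + I * (eM (-122880) + I *
    (eM (81920))))))) + a * ((I * (I * (eM (2560) + I * (eM (-10240) + I * (eM
    (10240)))))))))))))))

/-- The coefficient of `g` in `LEES`. -/
def eLE0010 (a I X : Pack.Ex) : Pack.Ex :=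
  (X * (((I * (I * (eM (640) + I * (eM (-7040) + I * (eM (30720) + I * (eM (-66560) + I * (eM
    (71680) + I * (eM (-30720))))))))) + a * ((I * (I * (eM (-1920) + I * (eM (17280) + I * (eM
    (-57600) + I * (eM (84480) + I * (eM (-46080)))))))) + a * ((I * (I * (I * (eM (1280) + I *
    (eM (-10240) + I * (eM (25600) + I * (eM (-20480)))))))) + a * ((I * (I * (eM (3840) + I *
    (eM (-23040) + I * (eM (46080) + I * (eM (-30720))))))) + a * ((I * (I * (eM (-2560) + I *
    (eM (10240) + I * (eM (-10240))))))))))) + X * (((I * (I * (I * (eM (2560) + I * (eM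
    (-33280) + I * (eM (179200) + I * (eM (-512000) + I * (eM (819200) + I * (eM (-696320) + I
    * (eM (245760))))))))))) + a * ((I * (I * (I * (eM (-14080) + I * (eM (154880) + I * (eM
    (-675840) + I * (eM (1464320) + I * (eM (-1576960) + I * (eM (675840)))))))))) + a * ((I *
    (I * (I * (eM (19200) + I * (eM (-167680) + I * (eM (524800) + I * (eM (-660480) + I * (eM
    (174080) + I * (eM (163840)))))))))) + a * ((I * (I * (I * (eM (15360) + I * (eM (-135680)
    + I * (eM (471040) + I * (eM (-747520) + I * (eM (450560))))))))) + a * ((I * (I * (I * (eM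
    (-48640) + I * (eM (291840) + I * (eM (-583680) + I * (eM (389120)))))))) + a * ((I * (I *
    (I * (eM (25600) + I * (eM (-102400) + I * (eM (102400))))))))))))) + X * (((I * (I * (I *
    (I * (eM (2560) + I * (eM (-38400) + I * (eM (245760) + I * (eM (-870400) + I * (eM
    (1843200) + I * (eM (-2334720) + I * (eM (1638400) + I * (eM (-491520))))))))))))) + a *
    ((I * (I * (I * (I * (eM (-23040) + I * (eM (299520) + I * (eM (-1612800) + I * (eM
    (4608000) + I * (eM (-7372800) + I * (eM (6266880) + I * (eM (-2211840)))))))))))) + a *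
    ((I * (I * (I * (I * (eM (66560) + I * (eM (-727040) + I * (eM (3133440) + I * (eM
    (-6635520) + I * (eM (6799360) + I * (eM (-2457600) + I * (eM (-327680)))))))))))) + a *
    ((I * (I * (I * (I * (eM (-46080) + I * (eM (368640) + I * (eM (-921600) + I * (eM (368640)
    + I * (eM (1474560) + I * (eM (-1474560))))))))))) + a * ((I * (I * (I * (I * (eM (-102400)
    + I * (eM (860160) + I * (eM (-2785280) + I * (eM (4096000) + I * (eM (-2293760)))))))))) +
    a * ((I * (I * (I * (I * (eM (184320) + I * (eM (-1105920) + I * (eM (2211840) + I * (eM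
    (-1474560))))))))) + a * ((I * (I * (I * (I * (eM (-81920) + I * (eM (327680) + I * (eM
    (-327680))))))))))))))) + X * ((a * ((I * (I * (I * (I * (I * (eM (-5120) + I * (eM (76800)
    + I * (eM (-491520) + I * (eM (1740800) + I * (eM (-3686400) + I * (eM (4669440) + I * (eM
    (-3276800) + I * (eM (983040)))))))))))))) + a * ((I * (I * (I * (I * (I * (eM (35840) + I
    * (eM (-465920) + I * (eM (2508800) + I * (eM (-7168000) + I * (eM (11468800) + I * (eM
    (-9748480) + I * (eM (3440640))))))))))))) + a * ((I * (I * (I * (I * (I * (eM (-81920) + I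
    * (eM (890880) + I * (eM (-3809280) + I * (eM (7946240) + I * (eM (-7864320) + I * (eM
    (2457600) + I * (eM (655360))))))))))))) + a * ((I * (I * (I * (I * (I * (eM (30720) + I *
    (eM (-204800) + I * (eM (204800) + I * (eM (1228800) + I * (eM (-3276800) + I * (eM
    (2293760)))))))))))) + a * ((I * (I * (I * (I * (I * (eM (143360) + I * (eM (-1187840) + I
    * (eM (3768320) + I * (eM (-5406720) + I * (eM (2949120))))))))))) + a * ((I * (I * (I * (I
    * (I * (eM (-204800) + I * (eM (1228800) + I * (eM (-2457600) + I * (eM (1638400))))))))))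
    + a * ((I * (I * (I * (I * (I * (eM (81920) + I * (eM (-327680) + I * (eM
    (327680))))))))))))))))))))))

/-- The coefficient of `T` in `LEES`. -/
def eLE0100 (a I X : Pack.Ex) : Pack.Ex :=
  (X * (X * ((a * ((I * (eM (384) + I * (eM (-2304) + I * (eM (4608) + I * (eM (-3072)))))) + a
    * ((I * (eM (-768) + I * (eM (3072) + I * (eM (-3072)))))))) + X * ((a * ((I * (I * (eM
    (1152) + I * (eM (-9216) + I * (eM (27648) + I * (eM (-36864) + I * (eM (18432)))))))) + a
    * ((I * (I * (eM (-4608) + I * (eM (27648) + I * (eM (-55296) + I * (eM (36864))))))) + a *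
    ((I * (I * (eM (4608) + I * (eM (-18432) + I * (eM (18432)))))))))) + X * ((a * ((I * (I *
    (I * (eM (768) + I * (eM (-7680) + I * (eM (30720) + I * (eM (-61440) + I * (eM (61440) + I
    * (eM (-24576)))))))))) + a * ((I * (I * (I * (eM (-4608) + I * (eM (36864) + I * (eM
    (-110592) + I * (eM (147456) + I * (eM (-73728))))))))) + a * ((I * (I * (I * (eM (9216) +
    I * (eM (-55296) + I * (eM (110592) + I * (eM (-73728)))))))) + a * ((I * (I * (I * (eM
    (-6144) + I * (eM (24576) + I * (eM (-24576)))))))))))))))))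

/-- The coefficient of `T * g` in `LEES`. -/
def eLE0110 (a I X : Pack.Ex) : Pack.Ex :=
  (X * (((I * (eM (800) + I * (eM (-6400) + I * (eM (19200) + I * (eM (-25600) + I * (eM
    (12800))))))) + a * ((I * (eM (-2400) + I * (eM (14400) + I * (eM (-28800) + I * (eM
    (19200)))))) + a * ((I * (eM (1600) + I * (eM (-6400) + I * (eM (6400)))))))) + X * (((I *
    (I * (eM (3200) + I * (eM (-32000) + I * (eM (128000) + I * (eM (-256000) + I * (eM
    (256000) + I * (eM (-102400))))))))) + a * ((I * (I * (eM (-17600) + I * (eM (140800) + I *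
    (eM (-422400) + I * (eM (563200) + I * (eM (-281600)))))))) + a * ((I * (I * (eM (30400) +
    I * (eM (-182400) + I * (eM (364800) + I * (eM (-243200))))))) + a * ((I * (I * (eM
    (-16000) + I * (eM (64000) + I * (eM (-64000)))))))))) + X * (((I * (I * (I * (eM (3200) +
    I * (eM (-38400) + I * (eM (192000) + I * (eM (-512000) + I * (eM (768000) + I * (eM
    (-614400) + I * (eM (204800))))))))))) + a * ((I * (I * (I * (eM (-28800) + I * (eM
    (288000) + I * (eM (-1152000) + I * (eM (2304000) + I * (eM (-2304000) + I * (eM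
    (921600)))))))))) + a * ((I * (I * (I * (eM (89600) + I * (eM (-716800) + I * (eM (2150400)
    + I * (eM (-2867200) + I * (eM (1433600))))))))) + a * ((I * (I * (I * (eM (-115200) + I *
    (eM (691200) + I * (eM (-1382400) + I * (eM (921600)))))))) + a * ((I * (I * (I * (eM
    (51200) + I * (eM (-204800) + I * (eM (204800)))))))))))) + X * ((a * ((I * (I * (I * (I *
    (eM (-6400) + I * (eM (76800) + I * (eM (-384000) + I * (eM (1024000) + I * (eM (-1536000)
    + I * (eM (1228800) + I * (eM (-409600)))))))))))) + a * ((I * (I * (I * (I * (eM (44800) +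
    I * (eM (-448000) + I * (eM (1792000) + I * (eM (-3584000) + I * (eM (3584000) + I * (eM
    (-1433600))))))))))) + a * ((I * (I * (I * (I * (eM (-115200) + I * (eM (921600) + I * (eM
    (-2764800) + I * (eM (3686400) + I * (eM (-1843200)))))))))) + a * ((I * (I * (I * (I * (eM
    (128000) + I * (eM (-768000) + I * (eM (1536000) + I * (eM (-1024000))))))))) + a * ((I *
    (I * (I * (I * (eM (-51200) + I * (eM (204800) + I * (eM (-204800)))))))))))))))))))

/-- The coefficient of `p` in `LEES`. -/
def eLE1000 (a I X : Pack.Ex) : Pack.Ex :=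
  (((eM (-40) + I * (eM (240) + I * (eM (-240) + I * (eM (-1280) + I * (eM (3840) + I * (eM
    (-3840) + I * (eM (1280)))))))) + a * ((eM (80) + I * (eM (-160) + I * (eM (-1920) + I *
    (eM (8640) + I * (eM (-12800) + I * (eM (6400))))))) + a * ((eM (-40) + I * (eM (-240) + I
    * (eM (3120) + I * (eM (-7680) + I * (eM (5440)))))) + a * ((I * (eM (160) + I * (eM
    (-1120) + I * (eM (1280))))))))) + X * (((I * (eM (-560) + I * (eM (6160) + I * (eM
    (-27840) + I * (eM (66240) + I * (eM (-88960) + I * (eM (70400) + I * (eM (-40960) + I *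
    (eM (25600) + I * (eM (-10240))))))))))) + a * ((I * (eM (2880) + I * (eM (-26400) + I *
    (eM (92960) + I * (eM (-152640) + I * (eM (109440) + I * (eM (-29440) + I * (eM (30720) + I
    * (eM (-30720)))))))))) + a * ((I * (eM (-5360) + I * (eM (39120) + I * (eM (-95520) + I *
    (eM (72960) + I * (eM (23040) + I * (eM (-11520) + I * (eM (-33280))))))))) + a * ((I * (eM
    (4320) + I * (eM (-23040) + I * (eM (27520) + I * (eM (17920) + I * (eM (-23040) + I * (eM
    (-15360)))))))) + a * ((I * (eM (-1280) + I * (eM (4160) + I * (eM (1920) + I * (eM (-6400)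
    + I * (eM (-2560)))))))))))) + X * (((I * (I * (eM (-1040) + I * (eM (14560) + I * (eM
    (-87280) + I * (eM (291840) + I * (eM (-594880) + I * (eM (762880) + I * (eM (-625920) + I
    * (eM (348160) + I * (eM (-148480) + I * (eM (40960))))))))))))) + a * ((I * (I * (eM
    (7840) + I * (eM (-95360) + I * (eM (482400) + I * (eM (-1309760) + I * (eM (2060800) + I *
    (eM (-1927680) + I * (eM (1144320) + I * (eM (-537600) + I * (eM (184320)))))))))))) + a *
    ((I * (I * (eM (-23120) + I * (eM (237920) + I * (eM (-975120) + I * (eM (2020480) + I *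
    (eM (-2244480) + I * (eM (1420800) + I * (eM (-718080) + I * (eM (317440))))))))))) + a *
    ((I * (I * (eM (33280) + I * (eM (-278080) + I * (eM (862240) + I * (eM (-1219200) + I *
    (eM (831360) + I * (eM (-430080) + I * (eM (261120)))))))))) + a * ((I * (I * (eM (-23360)
    + I * (eM (147840) + I * (eM (-303040) + I * (eM (230400) + I * (eM (-108800) + I * (eM
    (102400))))))))) + a * ((I * (I * (eM (6400) + I * (eM (-26880) + I * (eM (24960) + I * (eM
    (-7680) + I * (eM (15360)))))))))))))) + X * (((I * (I * (I * (eM (-160) + I * (eM (3520) +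
    I * (eM (-31200) + I * (eM (150720) + I * (eM (-442240) + I * (eM (817920) + I * (eM
    (-944640) + I * (eM (640000) + I * (eM (-215040) + I * (eM (20480)))))))))))))) + a * ((I *
    (I * (I * (eM (1920) + I * (eM (-36480) + I * (eM (277760) + I * (eM (-1135360) + I * (eM
    (2754560) + I * (eM (-4080640) + I * (eM (3624960) + I * (eM (-1822720) + I * (eM (491520)
    + I * (eM (-81920)))))))))))))) + a * ((I * (I * (I * (eM (-9120) + I * (eM (148160) + I *
    (eM (-950560) + I * (eM (3196480) + I * (eM (-6168320) + I * (eM (6950400) + I * (eM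
    (-4467200) + I * (eM (1602560) + I * (eM (-327680))))))))))))) + a * ((I * (I * (I * (eM
    (22080) + I * (eM (-300800) + I * (eM (1578880) + I * (eM (-4192640) + I * (eM (6091520) +
    I * (eM (-4881920) + I * (eM (2145280) + I * (eM (-512000)))))))))))) + a * ((I * (I * (I *
    (eM (-28800) + I * (eM (318720) + I * (eM (-1308160) + I * (eM (2581760) + I * (eM
    (-2621440) + I * (eM (1397760) + I * (eM (-389120))))))))))) + a * ((I * (I * (I * (eM
    (19200) + I * (eM (-163840) + I * (eM (488960) + I * (eM (-657920) + I * (eM (435200) + I *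
    (eM (-143360)))))))))) + a * ((I * (I * (I * (eM (-5120) + I * (eM (30720) + I * (eM
    (-58880) + I * (eM (51200) + I * (eM (-20480)))))))))))))))) + X * (((I * (I * (I * (I * (I
    * (eM (320) + I * (eM (-5280) + I * (eM (38400) + I * (eM (-161280) + I * (eM (430080) + I
    * (eM (-752640) + I * (eM (860160) + I * (eM (-614400) + I * (eM (245760) + I * (eM
    (-40960)))))))))))))))) + a * ((I * (I * (I * (I * (I * (eM (-3840) + I * (eM (56640) + I *
    (eM (-362880) + I * (eM (1317120) + I * (eM (-2956800) + I * (eM (4193280) + I * (eM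
    (-3655680) + I * (eM (1781760) + I * (eM (-368640))))))))))))))) + a * ((I * (I * (I * (I *
    (I * (eM (19520) + I * (eM (-253600) + I * (eM (1403520) + I * (eM (-4284800) + I * (eM
    (7782400) + I * (eM (-8394240) + I * (eM (4966400) + I * (eM (-1239040)))))))))))))) + a *
    ((I * (I * (I * (I * (I * (eM (-54400) + I * (eM (610560) + I * (eM (-2841600) + I * (eM
    (7014400) + I * (eM (-9676800) + I * (eM (7065600) + I * (eM (-2129920))))))))))))) + a *
    ((I * (I * (I * (I * (I * (eM (89600) + I * (eM (-846080) + I * (eM (3184640) + I * (eM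
    (-5969920) + I * (eM (5570560) + I * (eM (-2068480)))))))))))) + a * ((I * (I * (I * (I *
    (I * (eM (-87040) + I * (eM (665600) + I * (eM (-1904640) + I * (eM (2416640) + I * (eM
    (-1146880))))))))))) + a * ((I * (I * (I * (I * (I * (eM (46080) + I * (eM (-268800) + I *
    (eM (522240) + I * (eM (-337920)))))))))) + a * ((I * (I * (I * (I * (I * (eM (-10240) + I
    * (eM (40960) + I * (eM (-40960))))))))))))))))))))))

/-- The coefficient of `p * w` in `LEES`. -/
def eLE1001 (a I X : Pack.Ex) : Pack.Ex :=
  (((I * (eM (-80) + I * (eM (800) + I * (eM (-3200) + I * (eM (6400) + I * (eM (-6400) + I *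
    (eM (2560)))))))) + a * ((I * (eM (240) + I * (eM (-1920) + I * (eM (5760) + I * (eM
    (-7680) + I * (eM (3840))))))) + a * ((I * (eM (-240) + I * (eM (1440) + I * (eM (-2880) +
    I * (eM (1920)))))) + a * ((I * (eM (80) + I * (eM (-320) + I * (eM (320))))))))) + X *
    (((I * (I * (eM (-240) + I * (eM (2880) + I * (eM (-14400) + I * (eM (38400) + I * (eM
    (-57600) + I * (eM (46080) + I * (eM (-15360)))))))))) + a * ((I * (I * (eM (1200) + I *
    (eM (-12000) + I * (eM (48000) + I * (eM (-96000) + I * (eM (96000) + I * (eM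
    (-38400))))))))) + a * ((I * (I * (eM (-2160) + I * (eM (17280) + I * (eM (-51840) + I *
    (eM (69120) + I * (eM (-34560)))))))) + a * ((I * (I * (eM (1680) + I * (eM (-10080) + I *
    (eM (20160) + I * (eM (-13440))))))) + a * ((I * (I * (eM (-480) + I * (eM (1920) + I * (eM
    (-1920))))))))))) + X * (((I * (I * (I * (eM (-160) + I * (eM (2240) + I * (eM (-13440) + I
    * (eM (44800) + I * (eM (-89600) + I * (eM (107520) + I * (eM (-71680) + I * (eM
    (20480)))))))))))) + a * ((I * (I * (I * (eM (1120) + I * (eM (-13440) + I * (eM (67200) +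
    I * (eM (-179200) + I * (eM (268800) + I * (eM (-215040) + I * (eM (71680))))))))))) + a *
    ((I * (I * (I * (eM (-3040) + I * (eM (30400) + I * (eM (-121600) + I * (eM (243200) + I *
    (eM (-243200) + I * (eM (97280)))))))))) + a * ((I * (I * (I * (eM (4000) + I * (eM
    (-32000) + I * (eM (96000) + I * (eM (-128000) + I * (eM (64000))))))))) + a * ((I * (I *
    (I * (eM (-2560) + I * (eM (15360) + I * (eM (-30720) + I * (eM (20480)))))))) + a * ((I *
    (I * (I * (eM (640) + I * (eM (-2560) + I * (eM (2560))))))))))))))))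

/-- The coefficient of `p * T` in `LEES`. -/
def eLE1100 (a I X : Pack.Ex) : Pack.Ex :=
  (X * (((I * (eM (48) + I * (eM (-288) + I * (eM (576) + I * (eM (-384)))))) + a * ((I * (eM
    (-96) + I * (eM (384) + I * (eM (-384))))))) + X * (((I * (I * (eM (144) + I * (eM (-1152)
    + I * (eM (3456) + I * (eM (-4608) + I * (eM (2304)))))))) + a * ((I * (I * (eM (-576) + I
    * (eM (3456) + I * (eM (-6912) + I * (eM (4608))))))) + a * ((I * (I * (eM (576) + I * (eM
    (-2304) + I * (eM (2304))))))))) + X * (((I * (I * (I * (eM (96) + I * (eM (-960) + I * (eM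
    (3840) + I * (eM (-7680) + I * (eM (7680) + I * (eM (-3072)))))))))) + a * ((I * (I * (I *
    (eM (-576) + I * (eM (4608) + I * (eM (-13824) + I * (eM (18432) + I * (eM (-9216)))))))))
    + a * ((I * (I * (I * (eM (1152) + I * (eM (-6912) + I * (eM (13824) + I * (eM
    (-9216)))))))) + a * ((I * (I * (I * (eM (-768) + I * (eM (3072) + I * (eM
    (-3072)))))))))))))))

/-- The coefficient of `p ^ 2` in `LEES`. -/
def eLE2000 (a I X : Pack.Ex) : Pack.Ex :=
  (X * (((I * (I * (eM (-20) + I * (eM (240) + I * (eM (-1200) + I * (eM (3200) + I * (eM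
    (-4800) + I * (eM (3840) + I * (eM (-1280)))))))))) + a * ((I * (I * (eM (120) + I * (eM
    (-1200) + I * (eM (4800) + I * (eM (-9600) + I * (eM (9600) + I * (eM (-3840))))))))) + a *
    ((I * (I * (eM (-260) + I * (eM (2080) + I * (eM (-6240) + I * (eM (8320) + I * (eM
    (-4160)))))))) + a * ((I * (I * (eM (240) + I * (eM (-1440) + I * (eM (2880) + I * (eM
    (-1920))))))) + a * ((I * (I * (eM (-80) + I * (eM (320) + I * (eM (-320))))))))))) + X *
    (((I * (I * (I * (eM (-40) + I * (eM (560) + I * (eM (-3360) + I * (eM (11200) + I * (eM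
    (-22400) + I * (eM (26880) + I * (eM (-17920) + I * (eM (5120)))))))))))) + a * ((I * (I *
    (I * (eM (320) + I * (eM (-3840) + I * (eM (19200) + I * (eM (-51200) + I * (eM (76800) + I
    * (eM (-61440) + I * (eM (20480))))))))))) + a * ((I * (I * (I * (eM (-1000) + I * (eM
    (10000) + I * (eM (-40000) + I * (eM (80000) + I * (eM (-80000) + I * (eM (32000))))))))))
    + a * ((I * (I * (I * (eM (1520) + I * (eM (-12160) + I * (eM (36480) + I * (eM (-48640) +
    I * (eM (24320))))))))) + a * ((I * (I * (I * (eM (-1120) + I * (eM (6720) + I * (eM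
    (-13440) + I * (eM (8960)))))))) + a * ((I * (I * (I * (eM (320) + I * (eM (-1280) + I *
    (eM (1280))))))))))))))))

/-- The coefficient of `1` in `LMGS`. -/
def eLM0000 (a I X : Pack.Ex) : Pack.Ex :=
  (((I * (eM (640) + I * (eM (-6400) + I * (eM (25600) + I * (eM (-51200) + I * (eM (51200) + I
    * (eM (-20480)))))))) + a * ((I * (eM (-2560) + I * (eM (20480) + I * (eM (-61440) + I *
    (eM (81920) + I * (eM (-40960))))))) + a * ((I * (eM (3200) + I * (eM (-19200) + I * (eM
    (38400) + I * (eM (-25600)))))) + a * ((I * (eM (-1280) + I * (eM (5120) + I * (eM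
    (-5120))))))))) + X * (((I * (eM (5120) + I * (eM (-59520) + I * (eM (292480) + I * (eM
    (-791040) + I * (eM (1292800) + I * (eM (-1341440) + I * (eM (931840) + I * (eM (-450560) +
    I * (eM (122880))))))))))) + a * ((I * (eM (-36480) + I * (eM (355200) + I * (eM (-1411840)
    + I * (eM (2933760) + I * (eM (-3409920) + I * (eM (2263040) + I * (eM (-921600) + I * (eM
    (245760)))))))))) + a * ((I * (eM (103680) + I * (eM (-835840) + I * (eM (2647680) + I *
    (eM (-4129280) + I * (eM (3256320) + I * (eM (-1239040) + I * (eM (235520))))))))) + a *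
    ((I * (eM (-145280) + I * (eM (954880) + I * (eM (-2359040) + I * (eM (2649600) + I * (eM
    (-1274880) + I * (eM (194560)))))))) + a * ((I * (eM (98560) + I * (eM (-514560) + I * (eM
    (939520) + I * (eM (-650240) + I * (eM (102400))))))) + a * ((I * (eM (-25600) + I * (eM
    (102400) + I * (eM (-117760) + I * (eM (20480)))))))))))) + X * (((I * (eM (-1280) + I *
    (eM (35200) + I * (eM (-346240) + I * (eM (1794560) + I * (eM (-5652480) + I * (eM
    (11560960) + I * (eM (-15872000) + I * (eM (14868480) + I * (eM (-9502720) + I * (eM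
    (3932160) + I * (eM (-819200))))))))))))) + a * ((I * (eM (10240) + I * (eM (-276480) + I *
    (eM (2431360) + I * (eM (-10785280) + I * (eM (27988480) + I * (eM (-45219840) + I * (eM
    (46704640) + I * (eM (-31170560) + I * (eM (13230080) + I * (eM (-2949120)))))))))))) + a *
    ((I * (eM (-32000) + I * (eM (886400) + I * (eM (-6936320) + I * (eM (25977600) + I * (eM
    (-54489600) + I * (eM (67829760) + I * (eM (-51036160) + I * (eM (23080960) + I * (eM
    (-5447680))))))))))) + a * ((I * (eM (48640) + I * (eM (-1495040) + I * (eM (10352640) + I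
    * (eM (-32309760) + I * (eM (53903360) + I * (eM (-50606080) + I * (eM (26542080) + I * (eM
    (-6758400)))))))))) + a * ((I * (eM (-35840) + I * (eM (1413120) + I * (eM (-8565760) + I *
    (eM (21877760) + I * (eM (-28129280) + I * (eM (18411520) + I * (eM (-5201920))))))))) + a
    * ((I * (eM (10240) + I * (eM (-716800) + I * (eM (3717120) + I * (eM (-7444480) + I * (eM
    (6553600) + I * (eM (-2088960)))))))) + a * ((I * (I * (eM (153600) + I * (eM (-655360) + I
    * (eM (901120) + I * (eM (-327680)))))))))))))) + X * (((I * (I * (eM (-2560) + I * (eM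
    (57600) + I * (eM (-545280) + I * (eM (2917760) + I * (eM (-9891840) + I * (eM (22435840) +
    I * (eM (-34979840) + I * (eM (38031360) + I * (eM (-29163520) + I * (eM (15892480) + I *
    (eM (-5898240) + I * (eM (1146880))))))))))))))) + a * ((I * (I * (eM (28160) + I * (eM
    (-572160) + I * (eM (4771840) + I * (eM (-21977600) + I * (eM (62525440) + I * (eM
    (-115630080) + I * (eM (142520320) + I * (eM (-119316480) + I * (eM (69632000) + I * (eM
    (-28180480) + I * (eM (6225920)))))))))))))) + a * ((I * (I * (eM (-125440) + I * (eM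
    (2310400) + I * (eM (-16879360) + I * (eM (66231680) + I * (eM (-156372480) + I * (eM
    (234580480) + I * (eM (-232243200) + I * (eM (158443520) + I * (eM (-74997760) + I * (eM
    (19292160))))))))))))) + a * ((I * (I * (eM (289280) + I * (eM (-4888320) + I * (eM
    (31220480) + I * (eM (-103996160) + I * (eM (205017600) + I * (eM (-257781760) + I * (eM
    (219607040) + I * (eM (-126504960) + I * (eM (37969920)))))))))))) + a * ((I * (I * (eM
    (-363520) + I * (eM (5826560) + I * (eM (-32811520) + I * (eM (94105600) + I * (eM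
    (-160640000) + I * (eM (178083840) + I * (eM (-126955520) + I * (eM (44605440))))))))))) +
    a * ((I * (I * (eM (235520) + I * (eM (-3921920) + I * (eM (20096000) + I * (eM (-51578880)
    + I * (eM (78510080) + I * (eM (-71065600) + I * (eM (29614080)))))))))) + a * ((I * (I *
    (eM (-61440) + I * (eM (1413120) + I * (eM (-7014400) + I * (eM (16476160) + I * (eM
    (-20090880) + I * (eM (10158080))))))))) + a * ((I * (I * (I * (eM (-225280) + I * (eM
    (1146880) + I * (eM (-2191360) + I * (eM (1392640)))))))))))))))) + X * (((I * (I * (I * (I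
    * (eM (5120) + I * (eM (-87040) + I * (eM (655360) + I * (eM (-2867200) + I * (eM (8028160)
    + I * (eM (-14909440) + I * (eM (18350080) + I * (eM (-14417920) + I * (eM (6553600) + I *
    (eM (-1310720))))))))))))))) + a * ((I * (I * (I * (eM (5120) + I * (eM (-151040) + I * (eM
    (1625600) + I * (eM (-9315840) + I * (eM (32655360) + I * (eM (-74424320) + I * (eM
    (112926720) + I * (eM (-114278400) + I * (eM (76513280) + I * (eM (-34078720) + I * (eM
    (10485760) + I * (eM (-1966080)))))))))))))))) + a * ((I * (I * (I * (eM (-51200) + I * (eM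
    (1111040) + I * (eM (-9615360) + I * (eM (45460480) + I * (eM (-132556800) + I * (eM
    (252907520) + I * (eM (-326983680) + I * (eM (294993920) + I * (eM (-189890560) + I * (eM
    (83558400) + I * (eM (-19005440))))))))))))))) + a * ((I * (I * (I * (eM (209920) + I * (eM
    (-3755520) + I * (eM (27194880) + I * (eM (-108116480) + I * (eM (267550720) + I * (eM
    (-444139520) + I * (eM (521953280) + I * (eM (-440852480) + I * (eM (245432320) + I * (eM
    (-66027520)))))))))))))) + a * ((I * (I * (I * (eM (-450560) + I * (eM (6824960) + I * (eM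
    (-41809920) + I * (eM (142187520) + I * (eM (-311111680) + I * (eM (478208000) + I * (eM
    (-522158080) + I * (eM (362004480) + I * (eM (-115671040))))))))))))) + a * ((I * (I * (I *
    (eM (532480) + I * (eM (-6901760) + I * (eM (36352000) + I * (eM (-111063040) + I * (eM
    (231424000) + I * (eM (-334725120) + I * (eM (294256640) + I * (eM (-113704960))))))))))))
    + a * ((I * (I * (I * (eM (-327680) + I * (eM (3727360) + I * (eM (-18022400) + I * (eM
    (55255040) + I * (eM (-113049600) + I * (eM (131891200) + I * (eM (-63569920))))))))))) + a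
    * ((I * (I * (I * (eM (81920) + I * (eM (-942080) + I * (eM (5201920) + I * (eM (-17571840)
    + I * (eM (29818880) + I * (eM (-18841600)))))))))) + a * ((I * (I * (I * (I * (eM (81920)
    + I * (eM (-819200) + I * (eM (2539520) + I * (eM (-2293760)))))))))))))))))) + X * ((a *
    ((I * (I * (I * (I * (I * (I * (eM (5120) + I * (eM (-94720) + I * (eM (783360) + I * (eM
    (-3809280) + I * (eM (12042240) + I * (eM (-25804800) + I * (eM (37847040) + I * (eM
    (-37355520) + I * (eM (23592960) + I * (eM (-8519680) + I * (eM (1310720))))))))))))))))))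
    + a * ((I * (I * (I * (I * (I * (I * (eM (-71680) + I * (eM (1198080) + I * (eM (-8847360)
    + I * (eM (37847040) + I * (eM (-103219200) + I * (eM (185794560) + I * (eM (-220200960) +
    I * (eM (165150720) + I * (eM (-70778880) + I * (eM (13107200))))))))))))))))) + a * ((I *
    (I * (I * (I * (I * (I * (eM (435200) + I * (eM (-6494720) + I * (eM (42183680) + I * (eM
    (-155617280) + I * (eM (356249600) + I * (eM (-517529600) + I * (eM (465059840) + I * (eM
    (-235765760) + I * (eM (51445760)))))))))))))))) + a * ((I * (I * (I * (I * (I * (I * (eM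
    (-1495040) + I * (eM (19624960) + I * (eM (-109916160) + I * (eM (340275200) + I * (eM
    (-628326400) + I * (eM (691322880) + I * (eM (-419102720) + I * (eM
    (107806720))))))))))))))) + a * ((I * (I * (I * (I * (I * (I * (eM (3174400) + I * (eM
    (-35942400) + I * (eM (168960000) + I * (eM (-421888000) + I * (eM (589824000) + I * (eM
    (-437452800) + I * (eM (134348800)))))))))))))) + a * ((I * (I * (I * (I * (I * (I * (eM
    (-4259840) + I * (eM (40509440) + I * (eM (-153681920) + I * (eM (290652160) + I * (eM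
    (-273940480) + I * (eM (102891520))))))))))))) + a * ((I * (I * (I * (I * (I * (I * (eM
    (3522560) + I * (eM (-27074560) + I * (eM (77905920) + I * (eM (-99450880) + I * (eM
    (47513600)))))))))))) + a * ((I * (I * (I * (I * (I * (I * (eM (-1638400) + I * (eM
    (9584640) + I * (eM (-18677760) + I * (eM (12124160))))))))))) + a * ((I * (I * (I * (I *
    (I * (I * (eM (327680) + I * (eM (-1310720) + I * (eM (1310720))))))))))))))))))))))))))

/-- The coefficient of `w` in `LMGS`. -/
def eLM0001 (a I X : Pack.Ex) : Pack.Ex :=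
  (((I * (eM (640) + I * (eM (-7680) + I * (eM (38400) + I * (eM (-102400) + I * (eM (153600) +
    I * (eM (-122880) + I * (eM (40960))))))))) + a * ((I * (eM (-3200) + I * (eM (32000) + I *
    (eM (-128000) + I * (eM (256000) + I * (eM (-256000) + I * (eM (102400)))))))) + a * ((I *
    (eM (5760) + I * (eM (-46080) + I * (eM (138240) + I * (eM (-184320) + I * (eM
    (92160))))))) + a * ((I * (eM (-4480) + I * (eM (26880) + I * (eM (-53760) + I * (eM
    (35840)))))) + a * ((I * (eM (1280) + I * (eM (-5120) + I * (eM (5120)))))))))) + X * (((I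
    * (I * (eM (1920) + I * (eM (-26880) + I * (eM (161280) + I * (eM (-537600) + I * (eM
    (1075200) + I * (eM (-1290240) + I * (eM (860160) + I * (eM (-245760))))))))))) + a * ((I *
    (I * (eM (-13440) + I * (eM (161280) + I * (eM (-806400) + I * (eM (2150400) + I * (eM
    (-3225600) + I * (eM (2580480) + I * (eM (-860160)))))))))) + a * ((I * (I * (eM (36480) +
    I * (eM (-364800) + I * (eM (1459200) + I * (eM (-2918400) + I * (eM (2918400) + I * (eM
    (-1167360))))))))) + a * ((I * (I * (eM (-48000) + I * (eM (384000) + I * (eM (-1152000) +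
    I * (eM (1536000) + I * (eM (-768000)))))))) + a * ((I * (I * (eM (30720) + I * (eM
    (-184320) + I * (eM (368640) + I * (eM (-245760))))))) + a * ((I * (I * (eM (-7680) + I *
    (eM (30720) + I * (eM (-30720)))))))))))) + X * (((I * (I * (I * (eM (1280) + I * (eM
    (-20480) + I * (eM (143360) + I * (eM (-573440) + I * (eM (1433600) + I * (eM (-2293760) +
    I * (eM (2293760) + I * (eM (-1310720) + I * (eM (327680))))))))))))) + a * ((I * (I * (I *
    (eM (-11520) + I * (eM (161280) + I * (eM (-967680) + I * (eM (3225600) + I * (eM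
    (-6451200) + I * (eM (7741440) + I * (eM (-5160960) + I * (eM (1474560)))))))))))) + a *
    ((I * (I * (I * (eM (42240) + I * (eM (-506880) + I * (eM (2534400) + I * (eM (-6758400) +
    I * (eM (10137600) + I * (eM (-8110080) + I * (eM (2703360))))))))))) + a * ((I * (I * (I *
    (eM (-80640) + I * (eM (806400) + I * (eM (-3225600) + I * (eM (6451200) + I * (eM
    (-6451200) + I * (eM (2580480)))))))))) + a * ((I * (I * (I * (eM (84480) + I * (eM
    (-675840) + I * (eM (2027520) + I * (eM (-2703360) + I * (eM (1351680))))))))) + a * ((I *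
    (I * (I * (eM (-46080) + I * (eM (276480) + I * (eM (-552960) + I * (eM (368640)))))))) + a
    * ((I * (I * (I * (eM (10240) + I * (eM (-40960) + I * (eM (40960)))))))))))))))))

/-- The coefficient of `g` in `LMGS`. -/
def eLM0010 (a I X : Pack.Ex) : Pack.Ex :=
  (((I * (eM (1280) + I * (eM (-11520) + I * (eM (38400) + I * (eM (-56320) + I * (eM
    (30720))))))) + a * ((I * (eM (-2560) + I * (eM (16640) + I * (eM (-34560) + I * (eM
    (23040)))))) + a * ((I * (eM (-1280) + I * (eM (10240) + I * (eM (-26880) + I * (eM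
    (20480)))))) + a * ((I * (eM (5120) + I * (eM (-17920) + I * (eM (15360))))) + a * ((I *
    (eM (-2560) + I * (eM (2560))))))))) + X * (((I * (eM (-1600) + I * (eM (27200) + I * (eM
    (-182400) + I * (eM (627200) + I * (eM (-1177600) + I * (eM (1152000) + I * (eM
    (-460800))))))))) + a * ((I * (eM (6720) + I * (eM (-100800) + I * (eM (556800) + I * (eM
    (-1451520) + I * (eM (1812480) + I * (eM (-875520)))))))) + a * ((I * (eM (-5760) + I * (eM
    (71680) + I * (eM (-266240) + I * (eM (289280) + I * (eM (158720) + I * (eM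
    (-307200)))))))) + a * ((I * (eM (-9600) + I * (eM (119040) + I * (eM (-506880) + I * (eM
    (921600) + I * (eM (-583680))))))) + a * ((I * (eM (17920) + I * (eM (-179200) + I * (eM
    (455680) + I * (eM (-337920)))))) + a * ((I * (eM (-7680) + I * (eM (61440) + I * (eM
    (-61440))))))))))) + X * (((I * (I * (eM (-6400) + I * (eM (107520) + I * (eM (-764160) + I
    * (eM (2982400) + I * (eM (-6912000) + I * (eM (9523200) + I * (eM (-7229440) + I * (eM
    (2334720))))))))))) + a * ((I * (I * (eM (41600) + I * (eM (-615040) + I * (eM (3712000) +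
    I * (eM (-11733760) + I * (eM (20533760) + I * (eM (-18897920) + I * (eM (7157760))))))))))
    + a * ((I * (I * (eM (-86400) + I * (eM (1089920) + I * (eM (-5258240) + I * (eM (12025600)
    + I * (eM (-12579840) + I * (eM (3671040) + I * (eM (1556480)))))))))) + a * ((I * (I * (eM
    (19200) + I * (eM (-120320) + I * (eM (-289280) + I * (eM (3312640) + I * (eM (-7198720) +
    I * (eM (4771840))))))))) + a * ((I * (I * (eM (160000) + I * (eM (-1602560) + I * (eM
    (5818880) + I * (eM (-9231360) + I * (eM (5314560)))))))) + a * ((I * (I * (eM (-204800) +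
    I * (eM (1587200) + I * (eM (-3624960) + I * (eM (2539520))))))) + a * ((I * (I * (eM
    (76800) + I * (eM (-440320) + I * (eM (440320))))))))))))) + X * (((I * (I * (I * (eM
    (-6400) + I * (eM (119040) + I * (eM (-960000) + I * (eM (4387840) + I * (eM (-12441600) +
    I * (eM (22425600) + I * (eM (-25108480) + I * (eM (15974400) + I * (eM
    (-4423680))))))))))))) + a * ((I * (I * (I * (eM (60160) + I * (eM (-989440) + I * (eM
    (6891520) + I * (eM (-26378240) + I * (eM (59985920) + I * (eM (-81121280) + I * (eM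
    (60456960) + I * (eM (-19169280)))))))))))) + a * ((I * (I * (I * (eM (-209920) + I * (eM
    (2987520) + I * (eM (-17372160) + I * (eM (52771840) + I * (eM (-87951360) + I * (eM
    (75018240) + I * (eM (-23142400) + I * (eM (-2949120)))))))))))) + a * ((I * (I * (I * (eM
    (284160) + I * (eM (-3312640) + I * (eM (14540800) + I * (eM (-28600320) + I * (eM
    (19988480) + I * (eM (8396800) + I * (eM (-12779520))))))))))) + a * ((I * (I * (I * (eM
    (87040) + I * (eM (-1423360) + I * (eM (9103360) + I * (eM (-27893760) + I * (eM (40304640)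
    + I * (eM (-21872640)))))))))) + a * ((I * (I * (I * (eM (-686080) + I * (eM (6451200) + I
    * (eM (-22179840) + I * (eM (33382400) + I * (eM (-18432000))))))))) + a * ((I * (I * (I *
    (eM (716800) + I * (eM (-5079040) + I * (eM (11100160) + I * (eM (-7618560)))))))) + a *
    ((I * (I * (I * (eM (-245760) + I * (eM (1228800) + I * (eM (-1228800))))))))))))))) + X *
    (((I * (I * (I * (I * (I * (eM (5120) + I * (eM (-87040) + I * (eM (645120) + I * (eM
    (-2723840) + I * (eM (7168000) + I * (eM (-12042240) + I * (eM (12615680) + I * (eM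
    (-7536640) + I * (eM (1966080))))))))))))))) + a * ((I * (I * (I * (I * (eM (7680) + I *
    (eM (-181760) + I * (eM (1730560) + I * (eM (-8934400) + I * (eM (27801600) + I * (eM
    (-53903360) + I * (eM (63979520) + I * (eM (-42680320) + I * (eM (12288000)))))))))))))) +
    a * ((I * (I * (I * (I * (eM (-69120) + I * (eM (1236480) + I * (eM (-9175040) + I * (eM
    (36828160) + I * (eM (-86671360) + I * (eM (119685120) + I * (eM (-89292800) + I * (eM
    (26624000) + I * (eM (1310720)))))))))))))) + a * ((I * (I * (I * (I * (eM (230400) + I *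
    (eM (-3328000) + I * (eM (19486720) + I * (eM (-58961920) + I * (eM (96010240) + I * (eM
    (-76021760) + I * (eM (15564800) + I * (eM (8192000))))))))))))) + a * ((I * (I * (I * (I *
    (eM (-291840) + I * (eM (3184640) + I * (eM (-12748800) + I * (eM (20520960) + I * (eM
    (-2457600) + I * (eM (-27197440) + I * (eM (20807680)))))))))))) + a * ((I * (I * (I * (I *
    (eM (-122880) + I * (eM (2170880) + I * (eM (-13434880) + I * (eM (38748160) + I * (eM
    (-52920320) + I * (eM (27525120))))))))))) + a * ((I * (I * (I * (I * (eM (737280) + I *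
    (eM (-7004160) + I * (eM (24166400) + I * (eM (-36290560) + I * (eM (19988480)))))))))) + a
    * ((I * (I * (I * (I * (eM (-737280) + I * (eM (5079040) + I * (eM (-10977280) + I * (eM
    (7536640))))))))) + a * ((I * (I * (I * (I * (eM (245760) + I * (eM (-1146880) + I * (eM
    (1146880))))))))))))))))))))))

/-- The coefficient of `T` in `LMGS`. -/
def eLM0100 (a I X : Pack.Ex) : Pack.Ex :=
  (X * (((eM (192) + I * (eM (-1152) + I * (eM (1536) + I * (eM (3072) + I * (eM (-9216) + I *
    (eM (6144))))))) + a * ((eM (-768) + I * (eM (3072) + I * (I * (eM (-12288) + I * (eM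
    (12288)))))) + a * ((eM (768) + I * (eM (-1536) + I * (eM (-3072) + I * (eM (6144)))))))) +
    X * (((I * (eM (576) + I * (eM (-4608) + I * (eM (11520) + I * (I * (eM (-46080) + I * (eM
    (73728) + I * (eM (-36864))))))))) + a * ((I * (eM (-3456) + I * (eM (19968) + I * (eM
    (-21504) + I * (eM (-73728) + I * (eM (190464) + I * (eM (-122880)))))))) + a * ((I * (eM
    (6912) + I * (eM (-24576) + I * (eM (-18432) + I * (eM (147456) + I * (eM (-135168))))))) +
    a * ((I * (eM (-4608) + I * (eM (6144) + I * (eM (30720) + I * (eM (-49152)))))))))) + X *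
    (((I * (I * (eM (384) + I * (eM (-3840) + I * (eM (13824) + I * (eM (-15360) + I * (eM
    (-30720) + I * (eM (110592) + I * (eM (-122880) + I * (eM (49152))))))))))) + a * ((I * (I
    * (eM (-3072) + I * (eM (22272) + I * (eM (-38400) + I * (eM (-92160) + I * (eM (430080) +
    I * (eM (-577536) + I * (eM (270336)))))))))) + a * ((I * (I * (eM (9216) + I * (eM
    (-41472) + I * (eM (-36864) + I * (eM (479232) + I * (eM (-884736) + I * (eM
    (516096))))))))) + a * ((I * (I * (eM (-12288) + I * (eM (21504) + I * (eM (165888) + I *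
    (eM (-528384) + I * (eM (417792)))))))) + a * ((I * (I * (eM (6144) + I * (eM (6144) + I *
    (eM (-98304) + I * (eM (122880)))))))))))) + X * ((a * ((I * (I * (I * (I * (eM (-1536) + I
    * (eM (18432) + I * (eM (-92160) + I * (eM (245760) + I * (eM (-368640) + I * (eM (294912)
    + I * (eM (-98304)))))))))))) + a * ((I * (I * (I * (I * (eM (12288) + I * (eM (-122880) +
    I * (eM (491520) + I * (eM (-983040) + I * (eM (983040) + I * (eM (-393216))))))))))) + a *
    ((I * (I * (I * (I * (eM (-36864) + I * (eM (294912) + I * (eM (-884736) + I * (eM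
    (1179648) + I * (eM (-589824)))))))))) + a * ((I * (I * (I * (I * (eM (49152) + I * (eM
    (-294912) + I * (eM (589824) + I * (eM (-393216))))))))) + a * ((I * (I * (I * (I * (eM
    (-24576) + I * (eM (98304) + I * (eM (-98304)))))))))))))))))))

/-- The coefficient of `T * g` in `LMGS`. -/
def eLM0110 (a I X : Pack.Ex) : Pack.Ex :=
  (((eM (1600) + I * (eM (-9600) + I * (eM (19200) + I * (eM (-12800))))) + a * ((eM (-3200) +
    I * (eM (11200) + I * (eM (-9600)))) + a * ((eM (1600) + I * (eM (-1600)))))) + X * (((eM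
    (-400) + I * (eM (15200) + I * (eM (-105600) + I * (eM (300800) + I * (eM (-390400) + I *
    (eM (192000))))))) + a * ((eM (3600) + I * (eM (-72000) + I * (eM (336000) + I * (eM
    (-595200) + I * (eM (364800)))))) + a * ((eM (-8000) + I * (eM (99200) + I * (eM (-272000)
    + I * (eM (211200))))) + a * ((eM (4800) + I * (eM (-38400) + I * (eM (38400)))))))) + X *
    (((I * (I * (eM (30400) + I * (eM (-304000) + I * (eM (1216000) + I * (eM (-2432000) + I *
    (eM (2432000) + I * (eM (-972800))))))))) + a * ((I * (eM (12000) + I * (eM (-292800) + I *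
    (eM (1841600) + I * (eM (-4982400) + I * (eM (6240000) + I * (eM (-2982400)))))))) + a *
    ((I * (eM (-60000) + I * (eM (827200) + I * (eM (-3419200) + I * (eM (5670400) + I * (eM
    (-3321600))))))) + a * ((I * (eM (96000) + I * (eM (-864000) + I * (eM (2137600) + I * (eM
    (-1587200)))))) + a * ((I * (eM (-48000) + I * (eM (275200) + I * (eM (-275200)))))))))) +
    X * (((I * (I * (eM (4800) + I * (eM (-28800) + I * (eM (-57600) + I * (eM (960000) + I *
    (eM (-3456000) + I * (eM (5990400) + I * (eM (-5222400) + I * (eM (1843200))))))))))) + a *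
    ((I * (I * (eM (-14400) + I * (eM (-115200) + I * (eM (1996800) + I * (eM (-9062400) + I *
    (eM (19123200) + I * (eM (-19660800) + I * (eM (7987200)))))))))) + a * ((I * (I * (eM
    (-48000) + I * (eM (1305600) + I * (eM (-8390400) + I * (eM (22848000) + I * (eM
    (-28646400) + I * (eM (13670400))))))))) + a * ((I * (I * (eM (249600) + I * (eM (-3110400)
    + I * (eM (12326400) + I * (eM (-19968000) + I * (eM (11520000)))))))) + a * ((I * (I * (eM
    (-345600) + I * (eM (2764800) + I * (eM (-6528000) + I * (eM (4761600))))))) + a * ((I * (I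
    * (eM (153600) + I * (eM (-768000) + I * (eM (768000)))))))))))) + X * (((I * (I * (I * (eM
    (6400) + I * (eM (-83200) + I * (eM (448000) + I * (eM (-1254400) + I * (eM (1792000) + I *
    (eM (-716800) + I * (eM (-1433600) + I * (eM (2048000) + I * (eM (-819200))))))))))))) + a
    * ((I * (I * (I * (eM (-48000) + I * (eM (492800) + I * (eM (-1888000) + I * (eM (2752000)
    + I * (eM (1536000) + I * (eM (-10240000) + I * (eM (12390400) + I * (eM
    (-5120000)))))))))))) + a * ((I * (I * (I * (eM (118400) + I * (eM (-748800) + I * (eM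
    (441600) + I * (eM (7475200) + I * (eM (-23961600) + I * (eM (29184000) + I * (eM
    (-13004800))))))))))) + a * ((I * (I * (I * (eM (-51200) + I * (eM (-768000) + I * (eM
    (7987200) + I * (eM (-25395200) + I * (eM (34406400) + I * (eM (-17203200)))))))))) + a *
    ((I * (I * (I * (eM (-230400) + I * (eM (3123200) + I * (eM (-12851200) + I * (eM
    (21299200) + I * (eM (-12492800))))))))) + a * ((I * (I * (I * (eM (358400) + I * (eM
    (-2764800) + I * (eM (6451200) + I * (eM (-4710400)))))))) + a * ((I * (I * (I * (eM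
    (-153600) + I * (eM (716800) + I * (eM (-716800)))))))))))))))))))

/-- The coefficient of `p` in `LMGS`. -/
def eLM1000 (a I X : Pack.Ex) : Pack.Ex :=
  (((I * (eM (-240) + I * (eM (2400) + I * (eM (-9600) + I * (eM (19200) + I * (eM (-19200) + I
    * (eM (7680)))))))) + a * ((I * (eM (1600) + I * (eM (-13760) + I * (eM (46400) + I * (eM
    (-76160) + I * (eM (60160) + I * (eM (-17920)))))))) + a * ((I * (eM (-3760) + I * (eM
    (26400) + I * (eM (-69440) + I * (eM (81280) + I * (eM (-35840))))))) + a * ((I * (eM
    (3680) + I * (eM (-19520) + I * (eM (35520) + I * (eM (-22400)))))) + a * ((I * (eM (-1280)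
    + I * (eM (4480) + I * (eM (-4480)))))))))) + X * (((I * (I * (eM (160) + I * (eM (-3360) +
    I * (eM (27200) + I * (eM (-115200) + I * (eM (281600) + I * (eM (-401920) + I * (eM
    (312320) + I * (eM (-102400))))))))))) + a * ((I * (I * (eM (-320) + I * (eM (11360) + I *
    (eM (-94720) + I * (eM (354560) + I * (eM (-686080) + I * (eM (673280) + I * (eM
    (-266240)))))))))) + a * ((I * (I * (eM (-2080) + I * (eM (960) + I * (eM (70400) + I * (eM
    (-279040) + I * (eM (407040) + I * (eM (-209920))))))))) + a * ((I * (I * (eM (8000) + I *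
    (eM (-37760) + I * (eM (49920) + I * (eM (-2560) + I * (eM (-20480)))))))) + a * ((I * (I *
    (eM (-9600) + I * (eM (39680) + I * (eM (-58880) + I * (eM (35840))))))) + a * ((I * (I *
    (eM (3840) + I * (eM (-10240) + I * (eM (10240)))))))))))) + X * (((I * (I * (I * (eM
    (1280) + I * (eM (-21120) + I * (eM (153280) + I * (eM (-638720) + I * (eM (1670400) + I *
    (eM (-2805760) + I * (eM (2954240) + I * (eM (-1781760) + I * (eM (471040))))))))))))) + a
    * ((I * (I * (I * (eM (-12160) + I * (eM (175520) + I * (eM (-1089920) + I * (eM (3772800)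
    + I * (eM (-7859200) + I * (eM (9848320) + I * (eM (-6871040) + I * (eM
    (2058240)))))))))))) + a * ((I * (I * (I * (eM (46400) + I * (eM (-575520) + I * (eM
    (2975680) + I * (eM (-8208640) + I * (eM (12741120) + I * (eM (-10549760) + I * (eM
    (3640320))))))))))) + a * ((I * (I * (I * (eM (-89920) + I * (eM (937600) + I * (eM
    (-3883200) + I * (eM (7990400) + I * (eM (-8172800) + I * (eM (3325440)))))))))) + a * ((I
    * (I * (I * (eM (91520) + I * (eM (-782080) + I * (eM (2442880) + I * (eM (-3315200) + I *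
    (eM (1651200))))))))) + a * ((I * (I * (I * (eM (-44800) + I * (eM (307200) + I * (eM
    (-646400) + I * (eM (422400)))))))) + a * ((I * (I * (I * (eM (7680) + I * (eM (-43520) + I
    * (eM (43520)))))))))))))) + X * (((I * (I * (I * (I * (I * (eM (-640) + I * (eM (10880) +
    I * (eM (-80640) + I * (eM (340480) + I * (eM (-896000) + I * (eM (1505280) + I * (eM
    (-1576960) + I * (eM (942080) + I * (eM (-245760))))))))))))))) + a * ((I * (I * (I * (I *
    (eM (-1280) + I * (eM (26560) + I * (eM (-233600) + I * (eM (1145600) + I * (eM (-3443200)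
    + I * (eM (6517760) + I * (eM (-7608320) + I * (eM (5017600) + I * (eM
    (-1433600)))))))))))))) + a * ((I * (I * (I * (I * (eM (12160) + I * (eM (-194240) + I *
    (eM (1323520) + I * (eM (-4985600) + I * (eM (11212800) + I * (eM (-15057920) + I * (eM
    (11182080) + I * (eM (-3543040))))))))))))) + a * ((I * (I * (I * (I * (eM (-46720) + I *
    (eM (612480) + I * (eM (-3331200) + I * (eM (9625600) + I * (eM (-15590400) + I * (eM
    (13424640) + I * (eM (-4802560)))))))))))) + a * ((I * (I * (I * (I * (eM (92160) + I * (eM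
    (-990720) + I * (eM (4213760) + I * (eM (-8878080) + I * (eM (9277440) + I * (eM
    (-3850240))))))))))) + a * ((I * (I * (I * (I * (eM (-97280) + I * (eM (839680) + I * (eM
    (-2647040) + I * (eM (3624960) + I * (eM (-1822720)))))))))) + a * ((I * (I * (I * (I * (eM
    (51200) + I * (eM (-343040) + I * (eM (716800) + I * (eM (-471040))))))))) + a * ((I * (I *
    (I * (I * (eM (-10240) + I * (eM (51200) + I * (eM (-51200))))))))))))))))))))

/-- The coefficient of `p * w` in `LMGS`. -/
def eLM1001 (a I X : Pack.Ex) : Pack.Ex :=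
  (((I * (I * (eM (160) + I * (eM (-1920) + I * (eM (9600) + I * (eM (-25600) + I * (eM (38400)
    + I * (eM (-30720) + I * (eM (10240)))))))))) + a * ((I * (I * (eM (-800) + I * (eM (8000)
    + I * (eM (-32000) + I * (eM (64000) + I * (eM (-64000) + I * (eM (25600))))))))) + a * ((I
    * (I * (eM (1440) + I * (eM (-11520) + I * (eM (34560) + I * (eM (-46080) + I * (eM
    (23040)))))))) + a * ((I * (I * (eM (-1120) + I * (eM (6720) + I * (eM (-13440) + I * (eM
    (8960))))))) + a * ((I * (I * (eM (320) + I * (eM (-1280) + I * (eM (1280))))))))))) + X *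
    (((I * (I * (I * (eM (480) + I * (eM (-6720) + I * (eM (40320) + I * (eM (-134400) + I *
    (eM (268800) + I * (eM (-322560) + I * (eM (215040) + I * (eM (-61440)))))))))))) + a * ((I
    * (I * (I * (eM (-3360) + I * (eM (40320) + I * (eM (-201600) + I * (eM (537600) + I * (eM
    (-806400) + I * (eM (645120) + I * (eM (-215040))))))))))) + a * ((I * (I * (I * (eM (9120)
    + I * (eM (-91200) + I * (eM (364800) + I * (eM (-729600) + I * (eM (729600) + I * (eM
    (-291840)))))))))) + a * ((I * (I * (I * (eM (-12000) + I * (eM (96000) + I * (eM (-288000)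
    + I * (eM (384000) + I * (eM (-192000))))))))) + a * ((I * (I * (I * (eM (7680) + I * (eM
    (-46080) + I * (eM (92160) + I * (eM (-61440)))))))) + a * ((I * (I * (I * (eM (-1920) + I
    * (eM (7680) + I * (eM (-7680))))))))))))) + X * (((I * (I * (I * (I * (eM (320) + I * (eM
    (-5120) + I * (eM (35840) + I * (eM (-143360) + I * (eM (358400) + I * (eM (-573440) + I *
    (eM (573440) + I * (eM (-327680) + I * (eM (81920)))))))))))))) + a * ((I * (I * (I * (I *
    (eM (-2880) + I * (eM (40320) + I * (eM (-241920) + I * (eM (806400) + I * (eM (-1612800) +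
    I * (eM (1935360) + I * (eM (-1290240) + I * (eM (368640))))))))))))) + a * ((I * (I * (I *
    (I * (eM (10560) + I * (eM (-126720) + I * (eM (633600) + I * (eM (-1689600) + I * (eM
    (2534400) + I * (eM (-2027520) + I * (eM (675840)))))))))))) + a * ((I * (I * (I * (I * (eM
    (-20160) + I * (eM (201600) + I * (eM (-806400) + I * (eM (1612800) + I * (eM (-1612800) +
    I * (eM (645120))))))))))) + a * ((I * (I * (I * (I * (eM (21120) + I * (eM (-168960) + I *
    (eM (506880) + I * (eM (-675840) + I * (eM (337920)))))))))) + a * ((I * (I * (I * (I * (eM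
    (-11520) + I * (eM (69120) + I * (eM (-138240) + I * (eM (92160))))))))) + a * ((I * (I *
    (I * (I * (eM (2560) + I * (eM (-10240) + I * (eM (10240))))))))))))))))))

/-- The coefficient of `p * T` in `LMGS`. -/
def eLM1100 (a I X : Pack.Ex) : Pack.Ex :=
  (X * (((I * (eM (48) + I * (eM (-384) + I * (eM (1152) + I * (eM (-1536) + I * (eM
    (768))))))) + a * ((I * (eM (-192) + I * (eM (1152) + I * (eM (-2304) + I * (eM (1536))))))
    + a * ((I * (eM (192) + I * (eM (-768) + I * (eM (768)))))))) + X * (((I * (I * (eM (144) +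
    I * (eM (-1440) + I * (eM (5760) + I * (eM (-11520) + I * (eM (11520) + I * (eM
    (-4608))))))))) + a * ((I * (I * (eM (-864) + I * (eM (6912) + I * (eM (-20736) + I * (eM
    (27648) + I * (eM (-13824)))))))) + a * ((I * (I * (eM (1728) + I * (eM (-10368) + I * (eM
    (20736) + I * (eM (-13824))))))) + a * ((I * (I * (eM (-1152) + I * (eM (4608) + I * (eM
    (-4608)))))))))) + X * (((I * (I * (I * (eM (96) + I * (eM (-1152) + I * (eM (5760) + I *
    (eM (-15360) + I * (eM (23040) + I * (eM (-18432) + I * (eM (6144))))))))))) + a * ((I * (I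
    * (I * (eM (-768) + I * (eM (7680) + I * (eM (-30720) + I * (eM (61440) + I * (eM (-61440)
    + I * (eM (24576)))))))))) + a * ((I * (I * (I * (eM (2304) + I * (eM (-18432) + I * (eM
    (55296) + I * (eM (-73728) + I * (eM (36864))))))))) + a * ((I * (I * (I * (eM (-3072) + I
    * (eM (18432) + I * (eM (-36864) + I * (eM (24576)))))))) + a * ((I * (I * (I * (eM (1536)
    + I * (eM (-6144) + I * (eM (6144))))))))))))))))

/-- The coefficient of `p ^ 2` in `LMGS`. -/
def eLM2000 (a I X : Pack.Ex) : Pack.Ex :=
  (X * (((I * (I * (I * (eM (40) + I * (eM (-560) + I * (eM (3360) + I * (eM (-11200) + I * (eM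
    (22400) + I * (eM (-26880) + I * (eM (17920) + I * (eM (-5120)))))))))))) + a * ((I * (I *
    (I * (eM (-320) + I * (eM (3840) + I * (eM (-19200) + I * (eM (51200) + I * (eM (-76800) +
    I * (eM (61440) + I * (eM (-20480))))))))))) + a * ((I * (I * (I * (eM (1000) + I * (eM
    (-10000) + I * (eM (40000) + I * (eM (-80000) + I * (eM (80000) + I * (eM (-32000))))))))))
    + a * ((I * (I * (I * (eM (-1520) + I * (eM (12160) + I * (eM (-36480) + I * (eM (48640) +
    I * (eM (-24320))))))))) + a * ((I * (I * (I * (eM (1120) + I * (eM (-6720) + I * (eM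
    (13440) + I * (eM (-8960)))))))) + a * ((I * (I * (I * (eM (-320) + I * (eM (1280) + I *
    (eM (-1280))))))))))))) + X * (((I * (I * (I * (I * (eM (80) + I * (eM (-1280) + I * (eM
    (8960) + I * (eM (-35840) + I * (eM (89600) + I * (eM (-143360) + I * (eM (143360) + I *
    (eM (-81920) + I * (eM (20480)))))))))))))) + a * ((I * (I * (I * (I * (eM (-800) + I * (eM
    (11200) + I * (eM (-67200) + I * (eM (224000) + I * (eM (-448000) + I * (eM (537600) + I *
    (eM (-358400) + I * (eM (102400))))))))))))) + a * ((I * (I * (I * (I * (eM (3280) + I *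
    (eM (-39360) + I * (eM (196800) + I * (eM (-524800) + I * (eM (787200) + I * (eM (-629760)
    + I * (eM (209920)))))))))))) + a * ((I * (I * (I * (I * (eM (-7040) + I * (eM (70400) + I
    * (eM (-281600) + I * (eM (563200) + I * (eM (-563200) + I * (eM (225280))))))))))) + a *
    ((I * (I * (I * (I * (eM (8320) + I * (eM (-66560) + I * (eM (199680) + I * (eM (-266240) +
    I * (eM (133120)))))))))) + a * ((I * (I * (I * (I * (eM (-5120) + I * (eM (30720) + I *
    (eM (-61440) + I * (eM (40960))))))))) + a * ((I * (I * (I * (I * (eM (1280) + I * (eM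
    (-5120) + I * (eM (5120))))))))))))))))))

/-- The coefficient of `1` in `gES`. -/
def egE0000 (a I X : Pack.Ex) : Pack.Ex :=
  (((eM (-32) + I * (eM (192) + I * (eM (-384) + I * (eM (256))))) + a * ((eM (96) + I * (eM
    (-320) + I * (eM (256)))) + a * ((eM (-64) + I * (eM (64)))))) + X * (((eM (32) + I * (eM
    (-352) + I * (eM (1472) + I * (eM (-2816) + I * (eM (2048) + I * (eM (512) + I * (eM
    (-1024)))))))) + a * ((eM (-160) + I * (eM (1440) + I * (eM (-4352) + I * (eM (4608) + I *
    (eM (512) + I * (eM (-2560))))))) + a * ((eM (256) + I * (eM (-1792) + I * (eM (3200) + I *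
    (eM (-256) + I * (eM (-2048)))))) + a * ((eM (-128) + I * (eM (640) + I * (eM (-256) + I *
    (eM (-512))))))))) + X * (((I * (eM (-32) + I * (eM (256) + I * (eM (-640) + I * (I * (eM
    (2560) + I * (eM (-4096) + I * (eM (2048))))))))) + a * ((I * (eM (32) + I * (eM (384) + I
    * (eM (-4288) + I * (eM (13952) + I * (eM (-19200) + I * (eM (9728)))))))) + a * ((I * (eM
    (384) + I * (eM (-4416) + I * (eM (16960) + I * (eM (-27136) + I * (eM (15616))))))) + a *
    ((I * (eM (-896) + I * (eM (6400) + I * (eM (-14336) + I * (eM (10240)))))) + a * ((I * (eM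
    (512) + I * (eM (-2304) + I * (eM (2304)))))))))))))

/-- The coefficient of `g` in `gES`. -/
def egE0010 (a I X : Pack.Ex) : Pack.Ex :=
  (X * (((I * (eM (-32) + I * (eM (288) + I * (eM (-960) + I * (eM (1408) + I * (eM
    (-768))))))) + a * ((I * (eM (64) + I * (eM (-448) + I * (eM (1024) + I * (eM (-768)))))) +
    a * ((I * (eM (64) + I * (eM (-384) + I * (eM (768) + I * (eM (-512)))))) + a * ((I * (eM
    (-128) + I * (eM (512) + I * (eM (-512))))))))) + X * (((I * (I * (eM (-64) + I * (eM (704)
    + I * (eM (-3072) + I * (eM (6656) + I * (eM (-7168) + I * (eM (3072))))))))) + a * ((I *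
    (I * (eM (256) + I * (eM (-2304) + I * (eM (7680) + I * (eM (-11264) + I * (eM
    (6144)))))))) + a * ((I * (I * (eM (-128) + I * (eM (768) + I * (eM (-1024) + I * (eM
    (-1024) + I * (eM (2048)))))))) + a * ((I * (I * (eM (-512) + I * (eM (3072) + I * (eM
    (-6144) + I * (eM (4096))))))) + a * ((I * (I * (eM (512) + I * (eM (-2048) + I * (eM
    (2048))))))))))))))

/-- The coefficient of `T * g` in `gES`. -/
def egE0110 (a I X : Pack.Ex) : Pack.Ex :=
  (X * (((eM (-40) + I * (eM (240) + I * (eM (-480) + I * (eM (320))))) + a * ((eM (80) + I *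
    (eM (-320) + I * (eM (320)))))) + X * (((I * (eM (-80) + I * (eM (640) + I * (eM (-1920) +
    I * (eM (2560) + I * (eM (-1280))))))) + a * ((I * (eM (320) + I * (eM (-1920) + I * (eM
    (3840) + I * (eM (-2560)))))) + a * ((I * (eM (-320) + I * (eM (1280) + I * (eM
    (-1280)))))))))))

/-- The coefficient of `p` in `gES`. -/
def egE1000 (a I X : Pack.Ex) : Pack.Ex :=
  (X * (((I * (eM (-8) + I * (eM (88) + I * (eM (-400) + I * (eM (960) + I * (eM (-1280) + I *
    (eM (896) + I * (eM (-256))))))))) + a * ((I * (eM (40) + I * (eM (-360) + I * (eM (1280) +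
    I * (eM (-2240) + I * (eM (1920) + I * (eM (-640)))))))) + a * ((I * (eM (-64) + I * (eM
    (448) + I * (eM (-1152) + I * (eM (1280) + I * (eM (-512))))))) + a * ((I * (eM (32) + I *
    (eM (-160) + I * (eM (256) + I * (eM (-128))))))))))))

/-- The coefficient of `1` in `gGS`. -/
def egG0000 (a I X : Pack.Ex) : Pack.Ex :=
  (X * (((I * (I * (eM (-16) + I * (eM (32))))) + a * ((eM (16) + I * (eM (32) + I * (eM
    (-112)))) + a * ((eM (-16) + I * (eM (-64)))))) + X * (((I * (I * (I * (eM (-32) + I * (eM
    (128) + I * (eM (-128))))))) + a * ((I * (eM (32) + I * (I * (eM (-288) + I * (eM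
    (320)))))) + a * ((I * (eM (-96) + I * (eM (-192) + I * (eM (704))))) + a * ((I * (eM (64)
    + I * (eM (256)))))))) + X * (((I * (I * (I * (eM (-32) + I * (eM (208) + I * (eM (-480) +
    I * (eM (448) + I * (eM (-128))))))))) + a * ((I * (I * (I * (eM (224) + I * (eM (-1104) +
    I * (eM (1728) + I * (eM (-832)))))))) + a * ((I * (I * (I * (eM (-576) + I * (eM (1920) +
    I * (eM (-1536))))))) + a * ((I * (I * (I * (eM (640) + I * (eM (-1088)))))) + a * ((I * (I
    * (I * (eM (-256))))))))))))))

/-- The coefficient of `p` in `gGS`. -/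
def egG1000 (a I X : Pack.Ex) : Pack.Ex :=
  (((eM (2) + I * (eM (-4))) + a * ((eM (-2)))) + X * (((I * (eM (4) + I * (eM (-16) + I * (eM
    (16))))) + a * ((I * (eM (-12) + I * (eM (24)))) + a * ((I * (eM (8))))))))

/-- The coefficient of `1` in `hES`. -/
def ehE0000 (a I X : Pack.Ex) : Pack.Ex :=
  (X * (((I * (eM (-64) + I * (eM (96) + I * (eM (64))))) + a * ((eM (32) + I * (eM (128) + I *
    (eM (-224)))) + a * ((eM (-32) + I * (eM (-128)))))) + X * (((I * (eM (-64) + I * (eM (256)
    + I * (eM (-320) + I * (eM (256) + I * (eM (-256))))))) + a * ((I * (eM (384) + I * (eM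
    (-896) + I * (eM (-64) + I * (eM (640)))))) + a * ((I * (eM (-704) + I * (eM (384) + I *
    (eM (1408))))) + a * ((I * (eM (384) + I * (eM (512)))))))) + X * (((I * (I * (I * (eM
    (-64) + I * (eM (416) + I * (eM (-960) + I * (eM (896) + I * (eM (-256))))))))) + a * ((I *
    (I * (eM (64) + I * (eM (64) + I * (eM (-1440) + I * (eM (2944) + I * (eM (-1664)))))))) +
    a * ((I * (I * (eM (-320) + I * (eM (128) + I * (eM (2560) + I * (eM (-3072))))))) + a *
    ((I * (I * (eM (512) + I * (eM (256) + I * (eM (-2176)))))) + a * ((I * (I * (eM (-256) + I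
    * (eM (-512))))))))))))))

/-- The coefficient of `p` in `hES`. -/
def ehE1000 (a I X : Pack.Ex) : Pack.Ex :=
  (((eM (4) + I * (eM (-8))) + a * ((eM (-4)))) + X * (((I * (eM (8) + I * (eM (-32) + I * (eM
    (32))))) + a * ((I * (eM (-24) + I * (eM (48)))) + a * ((I * (eM (16)))))) + X * (((I * (I
    * (eM (-8) + I * (eM (48) + I * (eM (-96) + I * (eM (64))))))) + a * ((I * (I * (eM (40) +
    I * (eM (-160) + I * (eM (160)))))) + a * ((I * (I * (eM (-64) + I * (eM (128))))) + a *
    ((I * (I * (eM (32)))))))))))

/-- The coefficient of `1` in `hGS`. -/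
def ehG0000 (a I X : Pack.Ex) : Pack.Ex :=
  (((eM (-80) + I * (eM (640) + I * (eM (-1920) + I * (eM (2560) + I * (eM (-1280)))))) + a *
    ((eM (320) + I * (eM (-1760) + I * (eM (3200) + I * (eM (-1920))))) + a * ((eM (-400) + I *
    (eM (1280) + I * (eM (-960)))) + a * ((eM (160) + I * (eM (-160))))))) + X * (((eM (80) + I
    * (eM (-1200) + I * (eM (6880) + I * (eM (-19520) + I * (eM (28160) + I * (eM (-16640) + I
    * (eM (-2560) + I * (eM (5120))))))))) + a * ((eM (-480) + I * (eM (6240) + I * (eM
    (-28960) + I * (eM (60480) + I * (eM (-51840) + I * (eM (1280) + I * (eM (15360)))))))) + a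
    * ((eM (1040) + I * (eM (-11120) + I * (eM (38080) + I * (eM (-48000) + I * (eM (7680) + I
    * (eM (16640))))))) + a * ((eM (-960) + I * (eM (7680) + I * (eM (-15680) + I * (eM (4480)
    + I * (eM (7680)))))) + a * ((eM (320) + I * (eM (-1600) + I * (eM (640) + I * (eM
    (1280)))))))))) + X * (((I * (eM (-80) + I * (eM (960) + I * (eM (-5280) + I * (eM (18240)
    + I * (eM (-44800) + I * (eM (79360) + I * (eM (-94720) + I * (eM (66560) + I * (eM
    (-20480))))))))))) + a * ((I * (eM (480) + I * (eM (-4480) + I * (eM (19200) + I * (eM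
    (-55680) + I * (eM (125440) + I * (eM (-199680) + I * (eM (184320) + I * (eM
    (-71680)))))))))) + a * ((I * (eM (-1040) + I * (eM (6720) + I * (eM (-20480) + I * (eM
    (56960) + I * (eM (-138240) + I * (eM (186880) + I * (eM (-97280))))))))) + a * ((I * (eM
    (960) + I * (eM (-3200) + I * (eM (6880) + I * (eM (-35840) + I * (eM (86400) + I * (eM
    (-64000)))))))) + a * ((I * (eM (-320) + I * (I * (eM (-3200) + I * (eM (19200) + I * (eM
    (-20480))))))) + a * ((I * (I * (I * (eM (1920) + I * (eM (-2560)))))))))))))))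

/-- The coefficient of `T` in `hGS`. -/
def ehG0100 (a I X : Pack.Ex) : Pack.Ex :=
  (X * (((eM (-48) + I * (eM (288) + I * (eM (-576) + I * (eM (384))))) + a * ((eM (96) + I *
    (eM (-384) + I * (eM (384)))))) + X * (((I * (eM (-48) + I * (eM (384) + I * (eM (-1152) +
    I * (eM (1536) + I * (eM (-768))))))) + a * ((I * (eM (192) + I * (eM (-1152) + I * (eM
    (2304) + I * (eM (-1536)))))) + a * ((I * (eM (-192) + I * (eM (768) + I * (eM
    (-768)))))))))))

/-- The coefficient of `p` in `hGS`. -/
def ehG1000 (a I X : Pack.Ex) : Pack.Ex :=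
  (X * (((I * (eM (20) + I * (eM (-240) + I * (eM (1200) + I * (eM (-3200) + I * (eM (4800) + I
    * (eM (-3840) + I * (eM (1280))))))))) + a * ((I * (eM (-120) + I * (eM (1200) + I * (eM
    (-4800) + I * (eM (9600) + I * (eM (-9600) + I * (eM (3840)))))))) + a * ((I * (eM (260) +
    I * (eM (-2080) + I * (eM (6240) + I * (eM (-8320) + I * (eM (4160))))))) + a * ((I * (eM
    (-240) + I * (eM (1440) + I * (eM (-2880) + I * (eM (1920)))))) + a * ((I * (eM (80) + I *
    (eM (-320) + I * (eM (320))))))))))))

/-- The coefficient of `1` in `hMS`. -/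
def ehM0000 (a I X : Pack.Ex) : Pack.Ex :=
  (X * ((a * ((eM (-8) + I * (eM (16))) + a * ((eM (8)))))))

/-- The coefficient of `p` in `hMS`. -/
def ehM1000 (a I X : Pack.Ex) : Pack.Ex :=
  (((eM (-1) + I * (eM (2))) + a * ((eM (1)))))

/-- The coefficient of `1` in `TMES`. -/
def eN0000 (a I X : Pack.Ex) : Pack.Ex :=
  (X * (((I * (eM (192) + I * (eM (-896) + I * (eM (1344) + I * (eM (-768) + I * (eM
    (256))))))) + a * ((I * (eM (-832) + I * (eM (2304) + I * (eM (-960) + I * (eM (-640))))))
    + a * ((I * (eM (1152) + I * (eM (-1024) + I * (eM (-1408))))) + a * ((I * (eM (-512) + I *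
    (eM (-512)))))))) + X * (((I * (eM (64) + I * (eM (-64) + I * (eM (-1408) + I * (eM (4992)
    + I * (eM (-6400) + I * (eM (3584) + I * (eM (-1024))))))))) + a * ((I * (eM (-320) + I *
    (eM (-832) + I * (eM (8960) + I * (eM (-15232) + I * (eM (5632) + I * (eM (1536)))))))) + a
    * ((I * (eM (512) + I * (eM (4096) + I * (eM (-14848) + I * (eM (5120) + I * (eM
    (8192))))))) + a * ((I * (eM (-256) + I * (eM (-5376) + I * (eM (5120) + I * (eM
    (7680)))))) + a * ((I * (I * (eM (2048) + I * (eM (2048)))))))))) + X * (((I * (I * (I *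
    (eM (128) + I * (eM (-960) + I * (eM (2496) + I * (eM (-2048) + I * (eM (-1536) + I * (eM
    (3072) + I * (eM (-1024))))))))))) + a * ((I * (I * (I * (eM (-1152) + I * (eM (6720) + I *
    (eM (-11712) + I * (eM (1152) + I * (eM (13056) + I * (eM (-7680)))))))))) + a * ((I * (I *
    (I * (eM (4096) + I * (eM (-17024) + I * (eM (14208) + I * (eM (16384) + I * (eM
    (-18944))))))))) + a * ((I * (I * (I * (eM (-7168) + I * (eM (17664) + I * (eM (3840) + I *
    (eM (-20992)))))))) + a * ((I * (I * (I * (eM (6144) + I * (eM (-4608) + I * (eM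
    (-10752))))))) + a * ((I * (I * (I * (eM (-2048) + I * (eM (-2048))))))))))))))))

/-- The coefficient of `w` in `TMES`. -/
def eN0001 (a I X : Pack.Ex) : Pack.Ex :=
  (X * (((I * (eM (64) + I * (eM (-448) + I * (eM (1152) + I * (eM (-1280) + I * (eM
    (512))))))) + a * ((I * (eM (-256) + I * (eM (1280) + I * (eM (-2048) + I * (eM (1024))))))
    + a * ((I * (eM (320) + I * (eM (-960) + I * (eM (640))))) + a * ((I * (eM (-128) + I * (eM
    (128)))))))) + X * (((I * (I * (eM (64) + I * (eM (-576) + I * (eM (2048) + I * (eM (-3584)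
    + I * (eM (3072) + I * (eM (-1024))))))))) + a * ((I * (I * (eM (-384) + I * (eM (2688) + I
    * (eM (-6912) + I * (eM (7680) + I * (eM (-3072)))))))) + a * ((I * (I * (eM (832) + I *
    (eM (-4160) + I * (eM (6656) + I * (eM (-3328))))))) + a * ((I * (I * (eM (-768) + I * (eM
    (2304) + I * (eM (-1536)))))) + a * ((I * (I * (eM (256) + I * (eM (-256)))))))))))))

/-- The coefficient of `g` in `TMES`. -/
def eN0010 (a I X : Pack.Ex) : Pack.Ex :=
  (X * (((I * (I * (eM (-64) + I * (eM (192))))) + a * ((I * (eM (-64) + I * (eM (192)))) + a *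
    ((I * (I * (eM (128)))) + a * ((I * (eM (128))))))) + X * (((I * (I * (eM (64) + I * (eM
    (-576) + I * (eM (1664) + I * (eM (-1536))))))) + a * ((I * (I * (eM (-384) + I * (eM
    (2176) + I * (eM (-3072)))))) + a * ((I * (I * (eM (384) + I * (eM (-768) + I * (eM
    (-1024)))))) + a * ((I * (I * (eM (768) + I * (eM (-2048))))) + a * ((I * (I * (eM
    (-1024))))))))) + X * (((I * (I * (I * (eM (128) + I * (eM (-1152) + I * (eM (3840) + I *
    (eM (-5632) + I * (eM (3072))))))))) + a * ((I * (I * (I * (eM (-768) + I * (eM (5376) + I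
    * (eM (-12288) + I * (eM (9216)))))))) + a * ((I * (I * (I * (eM (1280) + I * (eM (-6144) +
    I * (eM (6144) + I * (eM (2048)))))))) + a * ((I * (I * (I * (eM (512) + I * (eM (-3072) +
    I * (eM (6144))))))) + a * ((I * (I * (I * (eM (-3072) + I * (eM (6144)))))) + a * ((I * (I
    * (I * (eM (2048)))))))))))))))

/-- The coefficient of `T * g` in `TMES`. -/
def eN0110 (a I X : Pack.Ex) : Pack.Ex :=
  (X * (((I * (eM (-80))) + a * ((eM (-80)))) + X * (((I * (eM (-80) + I * (eM (-160) + I * (eM
    (640))))) + a * ((I * (eM (-160) + I * (eM (1280)))) + a * ((I * (eM (640)))))) + X * (((I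
    * (I * (eM (-320) + I * (eM (960) + I * (I * (eM (-1280))))))) + a * ((I * (I * (eM (960) +
    I * (I * (eM (-3840)))))) + a * ((I * (I * (I * (eM (-3840))))) + a * ((I * (I * (eM
    (-1280)))))))) + X * (((I * (I * (I * (eM (-320) + I * (eM (1920) + I * (eM (-3840) + I *
    (eM (2560)))))))) + a * ((I * (I * (I * (eM (1920) + I * (eM (-7680) + I * (eM (7680)))))))
    + a * ((I * (I * (I * (eM (-3840) + I * (eM (7680)))))) + a * ((I * (I * (I * (eM
    (2560))))))))))))))

/-- The coefficient of `p` in `TMES`. -/
def eN1000 (a I X : Pack.Ex) : Pack.Ex :=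
  (X * (((I * (I * (eM (48) + I * (eM (-224) + I * (eM (336) + I * (eM (-192) + I * (eM
    (64)))))))) + a * ((I * (I * (eM (-208) + I * (eM (576) + I * (eM (-240) + I * (eM
    (-160))))))) + a * ((I * (I * (eM (288) + I * (eM (-256) + I * (eM (-352)))))) + a * ((I *
    (I * (eM (-128) + I * (eM (-128))))))))) + X * (((I * (I * (eM (16) + I * (eM (-16) + I *
    (eM (-352) + I * (eM (1248) + I * (eM (-1600) + I * (eM (896) + I * (eM (-256)))))))))) + a
    * ((I * (I * (eM (-80) + I * (eM (-208) + I * (eM (2240) + I * (eM (-3808) + I * (eM (1408)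
    + I * (eM (384))))))))) + a * ((I * (I * (eM (128) + I * (eM (1024) + I * (eM (-3712) + I *
    (eM (1280) + I * (eM (2048)))))))) + a * ((I * (I * (eM (-64) + I * (eM (-1344) + I * (eM
    (1280) + I * (eM (1920))))))) + a * ((I * (I * (I * (eM (512) + I * (eM (512))))))))))) + X
    * (((I * (I * (I * (I * (eM (32) + I * (eM (-240) + I * (eM (624) + I * (eM (-512) + I *
    (eM (-384) + I * (eM (768) + I * (eM (-256)))))))))))) + a * ((I * (I * (I * (I * (eM
    (-288) + I * (eM (1680) + I * (eM (-2928) + I * (eM (288) + I * (eM (3264) + I * (eM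
    (-1920))))))))))) + a * ((I * (I * (I * (I * (eM (1024) + I * (eM (-4256) + I * (eM (3552)
    + I * (eM (4096) + I * (eM (-4736)))))))))) + a * ((I * (I * (I * (I * (eM (-1792) + I *
    (eM (4416) + I * (eM (960) + I * (eM (-5248))))))))) + a * ((I * (I * (I * (I * (eM (1536)
    + I * (eM (-1152) + I * (eM (-2688)))))))) + a * ((I * (I * (I * (I * (eM (-512) + I * (eM
    (-512)))))))))))))))))

/-- The coefficient of `p * w` in `TMES`. -/
def eN1001 (a I X : Pack.Ex) : Pack.Ex :=
  (X * (((I * (I * (eM (16) + I * (eM (-112) + I * (eM (288) + I * (eM (-320) + I * (eM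
    (128)))))))) + a * ((I * (I * (eM (-64) + I * (eM (320) + I * (eM (-512) + I * (eM
    (256))))))) + a * ((I * (I * (eM (80) + I * (eM (-240) + I * (eM (160)))))) + a * ((I * (I
    * (eM (-32) + I * (eM (32))))))))) + X * (((I * (I * (I * (eM (16) + I * (eM (-144) + I *
    (eM (512) + I * (eM (-896) + I * (eM (768) + I * (eM (-256)))))))))) + a * ((I * (I * (I *
    (eM (-96) + I * (eM (672) + I * (eM (-1728) + I * (eM (1920) + I * (eM (-768))))))))) + a *
    ((I * (I * (I * (eM (208) + I * (eM (-1040) + I * (eM (1664) + I * (eM (-832)))))))) + a *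
    ((I * (I * (I * (eM (-192) + I * (eM (576) + I * (eM (-384))))))) + a * ((I * (I * (I * (eM
    (64) + I * (eM (-64))))))))))))))

/-- The coefficient of `p * g` in `TMES`. -/
def eN1010 (a I X : Pack.Ex) : Pack.Ex :=
  (((I * (eM (-8) + I * (eM (24)))) + a * (a * ((I * (eM (16)))))) + X * (((I * (I * (eM (-32)
    + I * (eM (160) + I * (eM (-192)))))) + a * ((I * (I * (eM (64) + I * (eM (-192))))) + a *
    ((I * (I * (eM (64) + I * (eM (-128))))) + a * ((I * (I * (eM (-128)))))))) + X * (((I * (I
    * (I * (eM (-32) + I * (eM (224) + I * (eM (-512) + I * (eM (384)))))))) + a * ((I * (I *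
    (I * (eM (128) + I * (eM (-640) + I * (eM (768))))))) + a * ((I * (I * (I * (eM (-64) + I *
    (eM (128) + I * (eM (256))))))) + a * ((I * (I * (I * (eM (-256) + I * (eM (512)))))) + a *
    ((I * (I * (I * (eM (256)))))))))))))

/-- The coefficient of `p * T * g` in `TMES`. -/
def eN1110 (a I X : Pack.Ex) : Pack.Ex :=
  (((eM (-10))) + X * (((I * (eM (-40) + I * (eM (80)))) + a * ((I * (eM (80))))) + X * (((I *
    (I * (eM (-40) + I * (eM (160) + I * (eM (-160)))))) + a * ((I * (I * (eM (160) + I * (eM
    (-320))))) + a * ((I * (I * (eM (-160))))))))))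

/-- The coefficient of `g` in `TMMS`. -/
def eM0010 (a I X : Pack.Ex) : Pack.Ex :=
  (((I * (eM (32) + I * (eM (-96)))) + a * (a * ((I * (eM (-64)))))) + X * (((I * (I * (eM
    (128) + I * (eM (-640) + I * (eM (768)))))) + a * ((I * (I * (eM (-256) + I * (eM (768)))))
    + a * ((I * (I * (eM (-256) + I * (eM (512))))) + a * ((I * (I * (eM (512)))))))) + X *
    (((I * (I * (I * (eM (128) + I * (eM (-896) + I * (eM (2048) + I * (eM (-1536)))))))) + a *
    ((I * (I * (I * (eM (-512) + I * (eM (2560) + I * (eM (-3072))))))) + a * ((I * (I * (I *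
    (eM (256) + I * (eM (-512) + I * (eM (-1024))))))) + a * ((I * (I * (I * (eM (1024) + I *
    (eM (-2048)))))) + a * ((I * (I * (I * (eM (-1024)))))))))))))

/-- The coefficient of `T * g` in `TMMS`. -/
def eM0110 (a I X : Pack.Ex) : Pack.Ex :=
  (((eM (40))) + X * (((I * (eM (160) + I * (eM (-320)))) + a * ((I * (eM (-320))))) + X * (((I
    * (I * (eM (160) + I * (eM (-640) + I * (eM (640)))))) + a * ((I * (I * (eM (-640) + I *
    (eM (1280))))) + a * ((I * (I * (eM (640))))))))))

/-- The coefficient of `p * g` in `TMMS`. -/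
def eM1010 (a I X : Pack.Ex) : Pack.Ex :=
  (((I * (I * (eM (8) + I * (eM (-24))))) + a * (a * ((I * (I * (eM (-16))))))) + X * (((I * (I
    * (I * (eM (32) + I * (eM (-160) + I * (eM (192))))))) + a * ((I * (I * (I * (eM (-64) + I
    * (eM (192)))))) + a * ((I * (I * (I * (eM (-64) + I * (eM (128)))))) + a * ((I * (I * (I *
    (eM (128))))))))) + X * (((I * (I * (I * (I * (eM (32) + I * (eM (-224) + I * (eM (512) + I
    * (eM (-384))))))))) + a * ((I * (I * (I * (I * (eM (-128) + I * (eM (640) + I * (eM
    (-768)))))))) + a * ((I * (I * (I * (I * (eM (64) + I * (eM (-128) + I * (eM (-256))))))))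
    + a * ((I * (I * (I * (I * (eM (256) + I * (eM (-512))))))) + a * ((I * (I * (I * (I * (eM
    (-256))))))))))))))

/-- The coefficient of `p * T * g` in `TMMS`. -/
def eM1110 (a I X : Pack.Ex) : Pack.Ex :=
  (((I * (eM (10)))) + X * (((I * (I * (eM (40) + I * (eM (-80))))) + a * ((I * (I * (eM
    (-80)))))) + X * (((I * (I * (I * (eM (40) + I * (eM (-160) + I * (eM (160))))))) + a * ((I
    * (I * (I * (eM (-160) + I * (eM (320)))))) + a * ((I * (I * (I * (eM (160)))))))))))

/-- The coefficient of `1` in `gMS`. -/
def egM0000 (a I X : Pack.Ex) : Pack.Ex :=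
  (((eM (-4))) + X * (((eM (-4) + I * (eM (8))) + a * ((eM (16) + I * (eM (-16))) + a * ((eM
    (-16))))) + X * ((a * ((I * (eM (8) + I * (eM (-32) + I * (eM (32))))) + a * ((I * (eM
    (-32) + I * (eM (64)))) + a * ((I * (eM (32))))))))))

end Vale.Agent.P100.Calib.Mid
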