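import Vale.Agent.P100.Calib.SlabWaistCorners

/-!
# The rows on a box, and for entries near the fitted ones
-/

set_option linter.unusedVariables false

namespace Vale.Agent.P100.Calib.Mid

/-- The entries are within `e`, and the fitted ones are bounded by `B`. -/
structure Near (B e h' h : Hats ℝ) : Prop where
  GG : |h.GG - h'.GG| ≤ e.GG
  EG : |h.EG - h'.EG| ≤ e.EG
  LE : |h.LE - h'.LE| ≤ e.LE
  LM : |h.LM - h'.LM| ≤ e.LM
  gE : |h.gE - h'.gE| ≤ e.gE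
  gG : |h.gG - h'.gG| ≤ e.gG
  hE : |h.hE - h'.hE| ≤ e.hE
  hG : |h.hG - h'.hG| ≤ e.hG
  hM : |h.hM - h'.hM| ≤ e.hM
  N : |h.N - h'.N| ≤ e.N
  M : |h.M - h'.M| ≤ e.M
  gM : |h.gM - h'.gM| ≤ e.gM
  bgE : |h'.gE| ≤ B.gE
  bgG : |h'.gG| ≤ B.gG
  bhE : |h'.hE| ≤ B.hE
  bhG : |h'.hG| ≤ B.hG
  bhM : |h'.hM| ≤ B.hM
  bgM : |h'.gM| ≤ B.gM

/-- The weights are nonnegative. -/
structure Wt.Good (W : Wt ℝ) : Prop where
  one : W.one = 1
  L : 0 ≤ W.L
  eL : 0 ≤ W.eL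
  G : 0 ≤ W.G
  jd : 0 ≤ W.jd
  j : 0 ≤ W.j
  jn : 0 ≤ W.jn
  jm : 0 ≤ W.jm
  mn : 0 ≤ W.mn
  mm : 0 ≤ W.mm
  dq : 0 ≤ W.dq
  dQ : 0 ≤ W.dQ
  bnQ : 0 ≤ W.bnQ
  d : 0 ≤ W.d
  bn : 0 ≤ W.bn
  C : 0 ≤ W.C

theorem prod_err {x y x' y' hx hy ex ey : ℝ} (h1 : |x - x'| ≤ ex) (h2 : |y - y'| ≤ ey)
    (b1 : |x'| ≤ hx) (b2 : |y'| ≤ hy) : |x * y - x' * y'| ≤ perr hx ex hy ey := by
  have e : x * y - x' * y' = x' * (y - y') + y' * (x - x') + (x - x') * (y - y') := by ring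
  rw [e, perr]
  refine (abs_add_le _ _).trans (add_le_add ((abs_add_le _ _).trans (add_le_add ?_ ?_)) ?_) <;>
    rw [abs_mul]
  · exact mul_le_mul b1 h2 (abs_nonneg _) ((abs_nonneg _).trans b1)
  · exact mul_le_mul b2 h1 (abs_nonneg _) ((abs_nonneg _).trans b2)
  · exact mul_le_mul h1 h2 (abs_nonneg _) ((abs_nonneg _).trans h1)

/-- A weighted difference. -/
theorem wdiff {w x x' e : ℝ} (hw : 0 ≤ w) (h : |x - x'| ≤ e) :
    w * x' - w * e ≤ w * x ∧ w * x ≤ w * x' + w * e := by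
  obtain ⟨h1, h2⟩ := abs_le.1 h
  constructor
  · have := mul_le_mul_of_nonneg_left (show x' - e ≤ x by linarith) hw; linarith
  · have := mul_le_mul_of_nonneg_left (show x ≤ x' + e by linarith) hw; linarith

section
variable {W : Wt ℝ} {B e h' h : Hats ℝ}

theorem fA_err (hW : W.Good) (n : Near B e h' h) :
    fA kR W 1 h' - errA kR W 1 B e ≤ fA kR W 1 h := by
  have l1 := wdiff hW.L n.LE
  have l2 := wdiff hW.L n.LM
  have p1 := wdiff hW.jd (prod_err n.gE n.gE n.bgE n.bgE)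
  have p2 := wdiff hW.j (prod_err n.hE n.hE n.bhE n.bhE)
  have p3 := wdiff hW.jn (prod_err n.gM n.gG n.bgM n.bgG)
  have p4 := wdiff hW.jm (prod_err n.hM n.hG n.bhM n.bhG)
  simp only [fA, errA, kR]
  push_cast
  linarith [l1.1, l2.1, p1.2, p2.2, p3.2, p4.2]

theorem fM_err (hW : W.Good) (n : Near B e h' h) :
    fM kR W 1 h' - errM kR W 1 B e ≤ fM kR W 1 h := by
  have l2 := wdiff hW.L n.LM
  have p1 := wdiff hW.dq (prod_err n.gE n.gE n.bgE n.bgE)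
  have p2 := wdiff (show 0 ≤ W.one by rw [hW.one]; norm_num) (prod_err n.hE n.hE n.bhE n.bhE)
  have p3 := wdiff hW.mn (prod_err n.gM n.gG n.bgM n.bgG)
  have p4 := wdiff hW.mm (prod_err n.hM n.hG n.bhM n.bhG)
  simp only [fM, errM, kR]
  push_cast
  linarith [l2.1, p1.2, p2.2, p3.1, p4.1]

theorem fG_err (hW : W.Good) (n : Near B e h' h) :
    fG W 1 h' - errG W 1 B e ≤ fG W 1 h := by
  have l := wdiff hW.G n.GG
  have p1 := wdiff hW.j (prod_err n.gG n.gG n.bgG n.bgG)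
  have p2 := wdiff hW.jd (prod_err n.hG n.hG n.bhG n.bhG)
  simp only [fG, errG]
  linarith [l.1, p1.2, p2.2]

theorem fE_err (hW : W.Good) (n : Near B e h' h) :
    |fE kR W 1 h - fE kR W 1 h'| ≤ errE kR W 1 B e := by
  have l := wdiff hW.eL n.EG
  have p1 := wdiff hW.j (prod_err n.gE n.gG n.bgE n.bgG)
  have p2 := wdiff hW.j (prod_err n.hE n.hG n.bhE n.bhG)
  simp only [fE, errE, kR, abs_le]
  push_cast
  constructor <;> linarith [l.1, l.2, p1.1, p1.2, p2.1, p2.2]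

end

/-- What the checks give at a point for the fitted entries. -/
structure Checked (W : Wt ℝ) (r : Row ℝ) (B e : Hats ℝ) (h : Hats ℝ) : Prop where
  r1 : ∀ i ∈ ({-1, 1} : Set ℤ), ∀ i' ∈ ({-1, 1} : Set ℤ), 0 < row1 kR W r 1 1 i i' B e h
  r2 : ∀ i ∈ ({-1, 1} : Set ℤ), 0 < row2 kR W r 1 1 i B e h
  r3 : ∀ i ∈ ({-1, 1} : Set ℤ), 0 < row3 kR W { r with sag := 0 } 1 1 i B e h
  r4 : 0 < row4 kR W r 1 1 B e h

/-- **The three dominant rows and the bound of the multiplier.** -/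
theorem Checked.true_rows {W : Wt ℝ} {r : Row ℝ} {B e h' h : Hats ℝ} (hW : W.Good)
    (c : Checked W r B e h') (n : Near B e h' h) (h2 : 0 ≤ r.l2) (h3 : 0 ≤ r.l3) :
    2 * r.dl + 2 * r.l2 * W.dQ * |fE kR W 1 h| + 2 * r.l3 * W.bnQ * |h.N| < fA kR W 1 h ∧
      W.d * |fE kR W 1 h| + r.l3 * r.dl < 4 * r.l2 * fG W 1 h ∧
      W.bn * |h.N| + r.l2 * r.dl < W.C * h.M * r.l3 ∧
      2 * r.dl < fM kR W 1 h := by
  obtain ⟨eE1, eE2⟩ := abs_le.1 (fE_err hW n)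
  obtain ⟨eN1, eN2⟩ := abs_le.1 n.N
  have eM1 := (abs_le.1 n.M).1
  have a := fA_err hW n
  have g := mul_le_mul_of_nonneg_left (fG_err hW n) (show (0 : ℝ) ≤ 4 * r.l2 by positivity)
  have m := fM_err hW n
  have r4 := c.r4
  have pm : ∀ x : ℝ, ∃ i ∈ ({-1, 1} : Set ℤ), |x| = (i : ℝ) * x := fun x => by
    rcases le_total 0 x with hx | hx
    · exact ⟨1, by simp, by rw [abs_of_nonneg hx]; simp⟩
    · exact ⟨-1, by simp, by rw [abs_of_nonpos hx]; simp⟩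
  obtain ⟨i, hi, hiE⟩ := pm (fE kR W 1 h)
  obtain ⟨j, hj, hjN⟩ := pm h.N
  have dE : |fE kR W 1 h| ≤ i * fE kR W 1 h' + errE kR W 1 B e := by
    rw [hiE]; rcases hi with rfl | rfl <;> push_cast <;> linarith
  have dN : |h.N| ≤ j * h'.N + e.N := by
    rw [hjN]; rcases hj with rfl | rfl <;> push_cast <;> linarith
  have q1 := c.r1 i hi j hj
  have q2 := c.r2 i hi
  have q3 := c.r3 j hj
  simp only [row1, row2, row3, row4, hW.one, kR] at q1 q2 q3 r4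
  push_cast at q1 q2 q3 r4
  simp only [mul_one, add_zero] at q1 q2 q3 r4
  have b1 := mul_le_mul_of_nonneg_left dE (show (0 : ℝ) ≤ 2 * r.l2 * W.dQ by
    have := hW.dQ; positivity)
  have b2 := mul_le_mul_of_nonneg_left dN (show (0 : ℝ) ≤ 2 * r.l3 * W.bnQ by
    have := hW.bnQ; positivity)
  have b3 := mul_le_mul_of_nonneg_left dE hW.d
  have b4 := mul_le_mul_of_nonneg_left dN hW.bn
  have b5 := mul_le_mul_of_nonneg_left (show h'.M - e.M ≤ h.M by linarith)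
    (mul_nonneg hW.C h3)
  refine ⟨?_, ?_, ?_, ?_⟩ <;> linarith

/-- The corners and bends give the rows at every point of the box. -/
theorem checked_of_corners {W : Wt ℝ} {r : Row ℝ} {B e : Hats ℝ} {c : Co ℝ} (hW : W.Good)
    (h2 : 0 ≤ r.l2) (h3 : 0 ≤ r.l3) (hs : 0 ≤ r.sag) {b : Range} {z : Pt ℝ} (m : b.Mem z)
    (c1 : ∀ i ∈ ({-1, 1} : Set ℤ), ∀ i' ∈ ({-1, 1} : Set ℤ),
      bend kR 1 (fun x => row1 kR W r 1 1 i i' B e (hats c 1 r.w1 x)) ≤ 0 ∧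
        ∀ α β γ ν, 0 < row1 kR W r 1 1 i i' B e (hats c 1 r.w1 (corner b.lo b.hi α β γ ν)))
    (c2 : ∀ i ∈ ({-1, 1} : Set ℤ),
      bend kR 1 (fun x => row2 kR W r 1 1 i B e (hats c 1 r.w1 x)) ≤ 0 ∧
        ∀ α β γ ν, 0 < row2 kR W r 1 1 i B e (hats c 1 r.w1 (corner b.lo b.hi α β γ ν)))
    (c3 : ∀ i ∈ ({-1, 1} : Set ℤ),
      bend kR 1 (fun x => row3 kR W { r with sag := 0 } 1 1 i B e (hats c 1 r.w1 x)) *
          (b.hi.p - b.lo.p) ^ 2 ≤ 8 * (W.bn * r.sag) ∧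
        ∀ α β γ ν, 0 < row3 kR W r 1 1 i B e (hats c 1 r.w1 (corner b.lo b.hi α β γ ν)))
    (c4 : bend kR 1 (fun x => row4 kR W r 1 1 B e (hats c 1 r.w1 x)) ≤ 0 ∧
        ∀ α β γ ν, 0 < row4 kR W r 1 1 B e (hats c 1 r.w1 (corner b.lo b.hi α β γ ν))) :
    Checked W r B e (hats c 1 r.w1 z) := by
  have hone := hW.one
  have hjd := hW.jd
  have hdq := hW.dq
  refine ⟨fun i hi i' hi' => ?_, fun i hi => ?_, fun i hi => ?_, ?_⟩
  · refine box_pos m (f := fun x => row1 kR W r 1 1 i i' B e (hats c 1 r.w1 x))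
      (cp := bend kR 1 (fun x => row1 kR W r 1 1 i i' B e (hats c 1 r.w1 x))) (σ := 0)
      (cT := fun x => -(4 * (W.jd * (c.gETg * x.g) ^ 2) * W.one))
      (cg := fun x => -(4 * (W.jd * (c.gEg + c.gETg * x.T) ^ 2) * W.one)) (cq := fun _ => 0)
      ?_ ?_ ?_ ?_ (fun _ => le_rfl) (fun x => ?_) (fun x => ?_) ?_ le_rfl (c1 i hi i' hi').2
    rotate_left 4
    · simp only [hone]; nlinarith [mul_nonneg hjd (sq_nonneg (c.gEg + c.gETg * x.T))]
    · simp only [hone]; nlinarith [mul_nonneg hjd (sq_nonneg (c.gETg * x.g))]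
    · linarith [mul_nonpos_of_nonpos_of_nonneg (c1 i hi i' hi').1
        (sq_nonneg (b.hi.p - b.lo.p))]
    all_goals
      intro p T g q
      simp only [row1, fA, errA, fE, errE, hats, bend, kR, hone]
      push_cast
      ring
  · refine box_pos m (f := fun x => row2 kR W r 1 1 i B e (hats c 1 r.w1 x))
      (cp := bend kR 1 (fun x => row2 kR W r 1 1 i B e (hats c 1 r.w1 x))) (σ := 0)
      (cT := fun _ => -(8 * r.l2 * (W.jd * c.hGT ^ 2) * W.one))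
      (cg := fun _ => 0) (cq := fun _ => 0)
      ?_ ?_ ?_ ?_ (fun _ => le_rfl) (fun _ => le_rfl) (fun x => ?_) ?_ le_rfl (c2 i hi).2
    rotate_left 4
    · simp only [hone]; nlinarith [mul_nonneg (mul_nonneg h2 hjd) (sq_nonneg c.hGT)]
    · linarith [mul_nonpos_of_nonpos_of_nonneg (c2 i hi).1 (sq_nonneg (b.hi.p - b.lo.p))]
    all_goals
      intro p T g q
      simp only [row2, fG, errG, fE, errE, hats, bend, kR, hone]
      push_cast
      ring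
  · refine box_pos m (f := fun x => row3 kR W { r with sag := 0 } 1 1 i B e (hats c 1 r.w1 x))
      (cp := bend kR 1 (fun x => row3 kR W { r with sag := 0 } 1 1 i B e (hats c 1 r.w1 x)))
      (σ := W.bn * r.sag) (cT := fun _ => 0) (cg := fun _ => 0) (cq := fun _ => 0)
      ?_ ?_ ?_ ?_ (fun _ => le_rfl) (fun _ => le_rfl) (fun _ => le_rfl) (c3 i hi).1
      (mul_nonneg hW.bn hs) (fun α β γ ν => ?_)
    rotate_left 4
    · have := (c3 i hi).2 α β γ ν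
      simp only [row3, hone, kR] at this ⊢
      linarith
    all_goals
      intro p T g q
      simp only [row3, hats, bend, kR, hone]
      push_cast
      ring
  · refine box_pos m (f := fun x => row4 kR W r 1 1 B e (hats c 1 r.w1 x))
      (cp := bend kR 1 (fun x => row4 kR W r 1 1 B e (hats c 1 r.w1 x))) (σ := 0)
      (cT := fun x => -(2 * W.dq * (c.gETg * x.g) ^ 2))
      (cg := fun x => -(2 * W.dq * (c.gEg + c.gETg * x.T) ^ 2)) (cq := fun _ => 0)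
      ?_ ?_ ?_ ?_ (fun _ => le_rfl) (fun x => ?_) (fun x => ?_) ?_ le_rfl c4.2
    rotate_left 4
    · nlinarith [mul_nonneg hdq (sq_nonneg (c.gEg + c.gETg * x.T))]
    · nlinarith [mul_nonneg hdq (sq_nonneg (c.gETg * x.g))]
    · linarith [mul_nonpos_of_nonpos_of_nonneg c4.1 (sq_nonneg (b.hi.p - b.lo.p))]
    all_goals
      intro p T g q
      simp only [row4, fM, errM, hats, bend, kR, hone]
      push_cast
      ring

end Vale.Agent.P100.Calib.Mid
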