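import Vale.Agent.P100.Calib.SlabWaistHat
import Vale.Agent.P100.Calib.SlabWaistRows
import Vale.Agent.P100.Calib.SlabGenClosedMult

/-!
# Dominant rows give the closed signs with a multiplier
-/

set_option linter.unusedVariables false
set_option linter.unusedSimpArgs false
set_option maxRecDepth 10000

namespace Vale.Agent.P100.Calib.Mid



/-- `E` and `K` times `g`. -/
def scNum (g : ℝ) (t : ClosedGen.Num) : ClosedGen.Num := ⟨t.c, t.e2, g * t.E, g * t.K, t.G, t.G1, t.D2⟩

section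
variable (a d v g W W1 R : ℝ) (t : ClosedGen.Num)

theorem LGGS_sc : ClosedGen.LGGS a d v g W W1 R t =
    ClosedGen.LGGS a d v 1 (g * W) (g * W1) 0 (scNum g t) := by
  simp only [scNum, ClosedGen.GG_g, ClosedGen.GG_g0, ClosedGen.GG_kg, ClosedGen.LGGS,
    Closed.LGGc, Closed.LGGv]
  ring

theorem LEGS_sc : ClosedGen.LEGS a d v g W W1 R t =
    ClosedGen.LEGS a d v 1 (g * W) (g * W1) 0 (scNum g t) := by
  simp only [scNum, ClosedGen.EG_g, ClosedGen.EG_g0, ClosedGen.EG_k1, ClosedGen.EG_kv,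
    Closed.LEG1, Closed.LEG1_000000_0, ClosedGen.LEGS, Closed.LEGc, Closed.LEGv, Closed.LEGw]
  ring

theorem LEES_sc : ClosedGen.LEES a d v g W W1 R t =
    ClosedGen.LEES a d v 1 (g * W) (g * W1) 0 (scNum g t) := by
  simp only [scNum, ClosedGen.EE_g, ClosedGen.EE_k1, ClosedGen.EE_kc, Closed.LEE1,
    ClosedGen.LEES, Closed.LEEc, Closed.LEEc_000000_0, Closed.LEEc_000000_1,
    Closed.LEEc_110000_0, Closed.LEEc_110000_1, Closed.LEEv, Closed.LEEw]
  ring

theorem LMGS_sc : ClosedGen.LMGS a d v g W W1 R t =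
    ClosedGen.LMGS a d v 1 (g * W) (g * W1) 0 (scNum g t) := by
  simp only [scNum, Closed.LMG1, Closed.LMG1_000000_0, Closed.LMG1_000000_1, ClosedGen.LMGS,
    Closed.LMGc, Closed.LMGc_000000_0, Closed.LMGc_000000_1, Closed.LMGv, Closed.LMGw,
    ClosedGen.MG_g, ClosedGen.MG_k1, ClosedGen.MG_kc, ClosedGen.MG_kw]
  ring

theorem gES_sc : ClosedGen.gES a d v g W W1 R t =
    ClosedGen.gES a d v 1 (g * W) (g * W1) 0 (scNum g t) := by
  simp only [scNum, ClosedGen.gES, ClosedGen.gE_1, ClosedGen.gE_c, ClosedGen.gE_k1,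
    ClosedGen.gE_w]
  ring

theorem gGS_sc : ClosedGen.gGS a d v g W W1 R t =
    ClosedGen.gGS a d v 1 (g * W) (g * W1) 0 (scNum g t) := by
  simp only [scNum, ClosedGen.gGS, ClosedGen.gG_1, ClosedGen.gG_c, ClosedGen.gG_v]
  ring

theorem hES_sc : ClosedGen.hES a d v g W W1 R t =
    ClosedGen.hES a d v 1 (g * W) (g * W1) 0 (scNum g t) := by
  simp only [scNum, ClosedGen.hES, ClosedGen.hE_c, ClosedGen.hE_v]
  ring

theorem hGS_sc : ClosedGen.hGS a d v g W W1 R t =
    ClosedGen.hGS a d v 1 (g * W) (g * W1) 0 (scNum g t) := by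
  simp only [scNum, ClosedGen.hGS, ClosedGen.hG_c, ClosedGen.hG_g, ClosedGen.hG_kc]
  ring

theorem hMS_sc : ClosedGen.hMS a d v g W W1 R t =
    ClosedGen.hMS a d v 1 (g * W) (g * W1) 0 (scNum g t) := by
  simp only [scNum, ClosedGen.hMS, ClosedGen.hM_c]
  ring

theorem TMES_sc : g * ClosedGen.TMES a d v g W W1 R t =
    ClosedGen.TMES a d v 1 (g * W) (g * W1) 0 (scNum g t) := by
  simp only [scNum, ClosedGen.TMES, ClosedGen.TME_c, ClosedGen.TME_v, ClosedGen.TME_w]
  ring

theorem TMMS_sc : g ^ 2 * ClosedGen.TMMS a d v g W W1 R t =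
    ClosedGen.TMMS a d v 1 (g * W) (g * W1) 0 (scNum g t) := by
  simp only [scNum, ClosedGen.TMMS, ClosedGen.TMM_w]
  ring

theorem gMS_sc : ClosedGen.gMS a d v g W W1 R t =
    ClosedGen.gMS a d v 1 (g * W) (g * W1) 0 (scNum g t) := by
  simp only [scNum, ClosedGen.gMS, ClosedGen.gM_1]

end

/-- The scaled entries themselves. -/
noncomputable def trueHats (a I X : ℝ) (z : Pt ℝ) : Hats ℝ :=
  { GG := nGG a I X z.p z.T z.g z.q / (10 * (1 - 2 * I - a) * (1 - 2 * I - 2 * a) * (1 - 2 * I) ^ 2)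
    EG := nEG a I X z.p z.T z.g z.q / (10 * (1 - 2 * I - a) * (1 - 2 * I - 2 * a) ^ 2 * (1 - 2 *
      I) ^ 2)
    LE := nLE a I X z.p z.T z.g z.q / (10 * (1 - 2 * I - a) * (1 - 2 * I) ^ 2)
    LM := nLM a I X z.p z.T z.g z.q / (10 * (1 - 2 * I - a) * (1 - 2 * I - 2 * a) * (1 - 2 * I)
      ^ 2)
    gE := ngE a I X z.p z.T z.g z.q / (2 * (1 - 2 * I - 2 * a) ^ 2 * (1 - 2 * I) ^ 2)
    gG := ngG a I X z.p z.T z.g z.q / (2)
    hE := nhE a I X z.p z.T z.g z.q / (2)
    hG := nhG a I X z.p z.T z.g z.q / (10 * (1 - 2 * I - a) * (1 - 2 * I - 2 * a) ^ 2 * (1 - 2 *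
      I) ^ 2)
    hM := nhM a I X z.p z.T z.g z.q / (1)
    N := nN a I X z.p z.T z.g z.q / (2 * (1 - 2 * I - 2 * a))
    M := nM a I X z.p z.T z.g z.q / (2 * (1 - 2 * I - a) * (1 - 2 * I - 2 * a))
    gM := ngM a I X z.p z.T z.g z.q / (1) }

section
variable {a I X : ℝ} (z : Pt ℝ) (hI : I ≠ 0) (hb : 1 - 2 * I - a ≠ 0)
  (hd : 1 - 2 * I - 2 * a ≠ 0) (hS : 1 - 2 * I ≠ 0)

include hI hb hd hS in
theorem LGGS_true :
    ClosedGen.LGGS a (1 - 2 * I - 2 * a) (2 * I * X) 1 (midP a I z.p) (midP a I z.p * z.q * I) 0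
        (midNum a I X z.T z.g) = a * I * (trueHats a I X z).GG := by
  have e := nGG_eq (X := X) (p := z.p) (T := z.T) (g := z.g) (w := z.q) hI hb hd hS
  simp only [trueHats]
  rw [← mul_div_assoc, eq_div_iff (by simp [hb, hd, hS])]
  linarith

include hI hb hd hS in
theorem LEGS_true :
    ClosedGen.LEGS a (1 - 2 * I - 2 * a) (2 * I * X) 1 (midP a I z.p) (midP a I z.p * z.q * I) 0
        (midNum a I X z.T z.g) = a * I * (trueHats a I X z).EG := by
  have e := nEG_eq (X := X) (p := z.p) (T := z.T) (g := z.g) (w := z.q) hI hb hd hS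
  simp only [trueHats]
  rw [← mul_div_assoc, eq_div_iff (by simp [hb, hd, hS])]
  linarith

include hI hb hd hS in
theorem LEES_true :
    ClosedGen.LEES a (1 - 2 * I - 2 * a) (2 * I * X) 1 (midP a I z.p) (midP a I z.p * z.q * I) 0
        (midNum a I X z.T z.g) = a * I * (trueHats a I X z).LE := by
  have e := nLE_eq (X := X) (p := z.p) (T := z.T) (g := z.g) (w := z.q) hI hb hd hS
  simp only [trueHats]
  rw [← mul_div_assoc, eq_div_iff (by simp [hb, hd, hS])]
  linarith

include hI hb hd hS in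
theorem LMGS_true :
    ClosedGen.LMGS a (1 - 2 * I - 2 * a) (2 * I * X) 1 (midP a I z.p) (midP a I z.p * z.q * I) 0
        (midNum a I X z.T z.g) = a * I * (trueHats a I X z).LM := by
  have e := nLM_eq (X := X) (p := z.p) (T := z.T) (g := z.g) (w := z.q) hI hb hd hS
  simp only [trueHats]
  rw [← mul_div_assoc, eq_div_iff (by simp [hb, hd, hS])]
  linarith

include hI hb hd hS in
theorem gES_true :
    ClosedGen.gES a (1 - 2 * I - 2 * a) (2 * I * X) 1 (midP a I z.p) (midP a I z.p * z.q * I) 0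
        (midNum a I X z.T z.g) = a * I * (trueHats a I X z).gE := by
  have e := ngE_eq (X := X) (p := z.p) (T := z.T) (g := z.g) (w := z.q) hI hb hd hS
  simp only [trueHats]
  rw [← mul_div_assoc, eq_div_iff (by simp [hb, hd, hS])]
  linarith

include hI hb hd hS in
theorem gGS_true :
    ClosedGen.gGS a (1 - 2 * I - 2 * a) (2 * I * X) 1 (midP a I z.p) (midP a I z.p * z.q * I) 0
        (midNum a I X z.T z.g) = a * I * (trueHats a I X z).gG := by
  have e := ngG_eq (X := X) (p := z.p) (T := z.T) (g := z.g) (w := z.q) hI hb hd hS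
  simp only [trueHats]
  rw [← mul_div_assoc, eq_div_iff (by simp [hb, hd, hS])]
  linarith

include hI hb hd hS in
theorem hES_true :
    ClosedGen.hES a (1 - 2 * I - 2 * a) (2 * I * X) 1 (midP a I z.p) (midP a I z.p * z.q * I) 0
        (midNum a I X z.T z.g) = a * I * (trueHats a I X z).hE := by
  have e := nhE_eq (X := X) (p := z.p) (T := z.T) (g := z.g) (w := z.q) hI hb hd hS
  simp only [trueHats]
  rw [← mul_div_assoc, eq_div_iff (by simp [hb, hd, hS])]
  linarith

include hI hb hd hS in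
theorem hGS_true :
    ClosedGen.hGS a (1 - 2 * I - 2 * a) (2 * I * X) 1 (midP a I z.p) (midP a I z.p * z.q * I) 0
        (midNum a I X z.T z.g) = a * I * (trueHats a I X z).hG := by
  have e := nhG_eq (X := X) (p := z.p) (T := z.T) (g := z.g) (w := z.q) hI hb hd hS
  simp only [trueHats]
  rw [← mul_div_assoc, eq_div_iff (by simp [hb, hd, hS])]
  linarith

include hI hb hd hS in
theorem hMS_true :
    ClosedGen.hMS a (1 - 2 * I - 2 * a) (2 * I * X) 1 (midP a I z.p) (midP a I z.p * z.q * I) 0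
        (midNum a I X z.T z.g) = a * I * (trueHats a I X z).hM := by
  have e := nhM_eq (X := X) (p := z.p) (T := z.T) (g := z.g) (w := z.q) hI hb hd hS
  simp only [trueHats]
  rw [← mul_div_assoc, eq_div_iff (by simp [hb, hd, hS])]
  linarith

include hI hb hd hS in
theorem TMES_true :
    ClosedGen.TMES a (1 - 2 * I - 2 * a) (2 * I * X) 1 (midP a I z.p) (midP a I z.p * z.q * I) 0
        (midNum a I X z.T z.g) = a * I * (trueHats a I X z).N := by
  have e := nN_eq (X := X) (p := z.p) (T := z.T) (g := z.g) (w := z.q) hI hb hd hS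
  simp only [trueHats]
  rw [← mul_div_assoc, eq_div_iff (by simp [hb, hd, hS])]
  linarith

include hI hb hd hS in
theorem TMMS_true :
    ClosedGen.TMMS a (1 - 2 * I - 2 * a) (2 * I * X) 1 (midP a I z.p) (midP a I z.p * z.q * I) 0
        (midNum a I X z.T z.g) = (trueHats a I X z).M := by
  have e := nM_eq (X := X) (p := z.p) (T := z.T) (g := z.g) (w := z.q) hI hb hd hS
  simp only [trueHats]
  rw [eq_div_iff (by simp [hb, hd, hS])]
  linarith

include hI hb hd hS in
theorem gMS_true :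
    ClosedGen.gMS a (1 - 2 * I - 2 * a) (2 * I * X) 1 (midP a I z.p) (midP a I z.p * z.q * I) 0
        (midNum a I X z.T z.g) = I * (trueHats a I X z).gM := by
  have e := ngM_eq (X := X) (p := z.p) (T := z.T) (g := z.g) (w := z.q) hI hb hd hS
  simp only [trueHats]
  rw [div_one]
  linarith

end

end Vale.Agent.P100.Calib.Mid
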