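import Vale.Agent.P100.Calib.SlabWaistFit

/-!
# The expressions checked for a cell

The variables are `a`, `I`, `s`, `u`; the unit of `X` and of the intermediates is a thousandth.
-/

set_option linter.unusedVariables false

namespace Vale.Agent.P100.Calib.Mid

open Pack

attribute [local instance] exAdd exSub exMul

/-- The fit of the gap, in millionths, and its errors. -/
structure LLFit where
  z00 : List ℤ
  z10 : List ℤ
  z11 : List ℤ
  z21 : List ℤ
  z22 : List ℤ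
  e00 : ℤ
  e10 : ℤ
  e11 : ℤ
  e21 : ℤ
  e22 : ℤ

section
variable {R : Type} [Add R] [Sub R] [Mul R] (k : ℤ → R)

/-- A coefficient of the gap, less its error. -/
def llCo (z : List ℤ) (e : ℤ) (a I X o : R) : R :=
  quart k (vecOf z) a I X o - k e * o * o * o * o

/-- The coefficient of `H ^ 0`. -/
def LLFit.A0 (L : LLFit) (a I X u o : R) : R :=
  llCo k L.z00 L.e00 a I X o + llCo k L.z10 L.e10 a I X o * u

/-- The coefficient of `H`. -/
def LLFit.A1 (L : LLFit) (a I X u o : R) : R :=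
  (llCo k L.z11 L.e11 a I X o + llCo k L.z21 L.e21 a I X o * u) * u

/-- The coefficient of `H ^ 2`. -/
def LLFit.A2 (L : LLFit) (a I X u o : R) : R := llCo k L.z22 L.e22 a I X o * u * u

/-- The room below the exit curve, in the unit `o`; the sharper curve for small `a` when `low`. -/
def exitQ (low : Bool) (a I X u o : R) : R :=
  (cond low (k 56 + k 100 * I - k 5 * u * u) (k 56 + k 100 * I)) * o -
    (k 50 - k 100 * a * u - k 25 * (I * u * (k 2 + k 3 * u))) * X

end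

/-- What a cell is checked against: fits, box, band ends. -/
structure Ctx where
  P : Fit
  L : LLFit
  low : Bool
  x0 : ℤ
  x1 : ℤ
  A : Seg
  B : Seg
  U : Seg
  m0 : ℤ
  m1 : ℤ
  c : Cell

/-- The sign of a flag. -/
def sgn (i : Bool) : ℤ := cond i 1 (-1)

/-- The unit of `X`. -/
def oE : Ex := Ex.num 1000

/-- `a`. -/
def aE : Ex := Ex.var 0

/-- `I`. -/
def IE : Ex := Ex.var 1

/-- `s`. -/
def sE : Ex := Ex.var 2

/-- `u`. -/
def uE : Ex := Ex.var 3

/-- The unit of the entries. -/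
def unitE : Ex := oE * oE * oE * (oE * oE * oE) * oE

namespace Ctx

variable (T : Ctx)

/-- `X`. -/
def X : Ex := T.c.X Ex.num aE IE sE

/-- The coefficients. -/
def co : Co Ex := T.P.co Ex.num (oE * aE) (oE * IE) T.X oE

/-- The weights. -/
def W : Wt Ex := wts Ex.num (oE * aE) (oE * IE) T.X oE

/-- The row numbers. -/
def r : Row Ex := T.c.row Ex.num unitE aE IE sE

/-- The bounds of the fitted entries. -/
def B' : Hats Ex := T.c.B.map (fun v => Ex.num v * unitE)

/-- The errors. -/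
def e : Hats Ex := T.c.e.map (fun v => Ex.num v * unitE)

/-- The unit of the entries times a million. -/
def su : Ex := Ex.num 1000000 * unitE

/-- The entries at a point. -/
def h (z : Pt Ex) : Hats Ex := hats T.co oE (Ex.num T.c.w1) z

/-- A corner. -/
def z (α β γ ν : Bool) : Pt Ex :=
  corner (T.c.lo Ex.num aE IE sE) (T.c.hi Ex.num aE IE sE) α β γ ν

/-- Row one at a corner. -/
def eR1 (i i' α β γ ν : Bool) : Ex :=
  row1 Ex.num T.W T.r oE su (sgn i) (sgn i') T.B' T.e (T.h (T.z α β γ ν)) - Ex.num 1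

/-- The bend of row one. -/
def eB1 (i i' : Bool) : Ex := Ex.num 0 -
  bend Ex.num oE (fun z => row1 Ex.num T.W T.r oE su (sgn i) (sgn i') T.B' T.e (T.h z))

/-- Row two at a corner. -/
def eR2 (i α β γ : Bool) : Ex :=
  row2 Ex.num T.W T.r oE su (sgn i) T.B' T.e (T.h (T.z α β γ false)) - Ex.num 1

/-- The bend of row two. -/
def eB2 (i : Bool) : Ex := Ex.num 0 -
  bend Ex.num oE (fun z => row2 Ex.num T.W T.r oE su (sgn i) T.B' T.e (T.h z))

/-- Row three at a corner. -/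
def eR3 (i α β γ ν : Bool) : Ex :=
  row3 Ex.num T.W T.r oE su (sgn i) T.B' T.e (T.h (T.z α β γ ν)) - Ex.num 1

/-- The bend of row three against its sag. -/
def eB3 (i : Bool) : Ex :=
  Ex.num 8 * T.W.bn * T.r.sag * su * oE * oE * oE * oE -
    bend Ex.num oE (fun z => row3 Ex.num T.W T.r oE su (sgn i) T.B' T.e (T.h z)) *
      ((T.c.hi Ex.num aE IE sE).p - (T.c.lo Ex.num aE IE sE).p) *
      ((T.c.hi Ex.num aE IE sE).p - (T.c.lo Ex.num aE IE sE).p)

/-- Row four at a corner. -/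
def eR4 (α β γ ν : Bool) : Ex :=
  row4 Ex.num T.W T.r oE su T.B' T.e (T.h (T.z α β γ ν)) - Ex.num 1

/-- The bend of row four. -/
def eB4 : Ex := Ex.num 0 -
  bend Ex.num oE (fun z => row4 Ex.num T.W T.r oE su T.B' T.e (T.h z))

/-- The bound of `gE`. -/
def eHgE (i α β γ : Bool) : Ex :=
  T.B'.gE + Ex.num (sgn i) * (T.h (T.z α β γ false)).gE - Ex.num 1

/-- The bound of `gG`. -/
def eHgG (i α : Bool) : Ex :=
  T.B'.gG + Ex.num (sgn i) * (T.h (T.z α false false false)).gG - Ex.num 1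

/-- The bound of `hE`. -/
def eHhE (i α : Bool) : Ex :=
  T.B'.hE + Ex.num (sgn i) * (T.h (T.z α false false false)).hE - Ex.num 1

/-- The bound of `hG`. -/
def eHhG (i α β : Bool) : Ex :=
  T.B'.hG + Ex.num (sgn i) * (T.h (T.z α β false false)).hG - Ex.num 1

/-- The bound of `hM`. -/
def eHhM (i α : Bool) : Ex :=
  T.B'.hM + Ex.num (sgn i) * (T.h (T.z α false false false)).hM - Ex.num 1

/-- The bound of `gM`. -/
def eHgM (i : Bool) : Ex :=
  T.B'.gM + Ex.num (sgn i) * (T.h (T.z false false false false)).gM - Ex.num 1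

/-- The bound of `p`. -/
def eVp (i α : Bool) : Ex := Ex.num T.c.vm.p + Ex.num (sgn i) * (T.z α false false false).p

/-- The bound of `T`. -/
def eVT (i β : Bool) : Ex := Ex.num T.c.vm.T + Ex.num (sgn i) * (T.z false β false false).T

/-- The bound of `g`. -/
def eVg (i γ : Bool) : Ex := Ex.num T.c.vm.g + Ex.num (sgn i) * (T.z false false γ false).g

/-- The bound of `w`. -/
def eVw (i α ν : Bool) : Ex := Ex.num T.c.vm.q * oE +
  Ex.num (sgn i) * ((T.z α false false ν).q * oE + Ex.num T.c.w1 * (T.z α false false ν).p)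

/-- `X` above the piece's lower end. -/
def eX0 : Ex := T.X - Ex.num T.x0

/-- `X` below the piece's upper end. -/
def eX1 : Ex := Ex.num T.x1 - T.X

/-- The band end. -/
def nE (m : Bool) : Ex := endN Ex.num (cond m T.m1 T.m0) aE IE T.X uE oE

/-- The band denominator. -/
def dE : Ex := endD Ex.num aE IE uE oE

/-- A quadratic with a sign. -/
def sQ (up : Bool) (g : Quad Ex) : Quad Ex :=
  cond up ⟨Ex.num 0 - g.g0, Ex.num 0 - g.g1, Ex.num 0 - g.g2⟩ g

/-- A linear bound at a band end. -/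
def eLin (g : Quad Ex) (m : Bool) : Ex := g.g0 * dE + g.g1 * T.nE m

/-- The bound of `p` at a band end. -/
def eQp (up m : Bool) : Ex :=
  T.eLin (sQ up (piQ Ex.num aE IE T.X uE oE
    (cond up (T.c.hi Ex.num aE IE sE).p (T.c.lo Ex.num aE IE sE).p))) m

/-- The bound of `T` at a band end. -/
def eQT (up m : Bool) : Ex :=
  T.eLin (sQ up (timeQ Ex.num aE IE T.X uE oE
    (cond up (T.c.hi Ex.num aE IE sE).T (T.c.lo Ex.num aE IE sE).T))) m

/-- The bound of `g` at a band end. -/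
def eQg (up m : Bool) : Ex :=
  T.eLin (sQ up (gamQ Ex.num aE IE T.X uE oE
    (cond up (T.c.hi Ex.num aE IE sE).g (T.c.lo Ex.num aE IE sE).g))) m

/-- The quadratic of the bound of `q`. -/
def qQ (up : Bool) : Quad Ex :=
  sQ up (omQ Ex.num aE IE T.X uE oE (Ex.num T.c.w1)
    (cond up (T.c.hi Ex.num aE IE sE).q (T.c.lo Ex.num aE IE sE).q))

/-- The bound of `q` at a band end. -/
def eQq (up m : Bool) : Ex := (T.qQ up).at (T.nE m) dE

/-- The bound of `q` at a band end, less the sag. -/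
def eQqs (up m : Bool) : Ex :=
  Ex.num 4 * T.eQq up m - (T.qQ up).g2 * (T.nE true - T.nE false) * (T.nE true - T.nE false)

/-- The multiplier of the flow. -/
def mu : Ex := poly8 Ex.num T.c.mu aE IE sE

/-- The multiplier of the exit. -/
def nu : Ex := poly8 Ex.num T.c.nu aE IE sE

/-- The quadratic of the gap. -/
def gQ : Quad Ex :=
  gapQ Ex.num (T.L.A0 Ex.num (oE * aE) (oE * IE) T.X uE oE)
    (T.L.A1 Ex.num (oE * aE) (oE * IE) T.X uE oE) (T.L.A2 Ex.num (oE * aE) (oE * IE) T.X uE oE)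
    aE IE T.X uE oE T.r.dl T.mu T.nu (exitQ Ex.num T.low aE IE T.X uE oE)

/-- The gap at a band end. -/
def eGap (m : Bool) : Ex := T.gQ.at (T.nE m) dE

/-- The gap at a band end, less the sag. -/
def eGaps (m : Bool) : Ex :=
  Ex.num 4 * T.eGap m - T.gQ.g2 * (T.nE true - T.nE false) * (T.nE true - T.nE false)

/-- `X` between the trap and the lower end of the cell. -/
def Xf : Ex := Ex.num 960 * (Ex.num 1 - sE) + poly3 Ex.num T.c.xl aE IE * sE

/-- The flow is not positive below the cell. -/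
def eXlo : Ex := Ex.num 0 -
  ((flowQ Ex.num aE IE T.Xf uE oE).g0 * dE +
    (flowQ Ex.num aE IE T.Xf uE oE).g1 * endN Ex.num T.m1 aE IE T.Xf uE oE)

/-- The exit is passed above the cell. -/
def eXhi : Ex := Ex.num 0 - exitQ Ex.num T.low aE IE (poly3 Ex.num T.c.xh aE IE) uE oE

/-- Nonnegative on the box of `(a, I, s)`. -/
def N3 (e : Ex) : Prop := Nn T.A T.B segOne segOne e

/-- Nonnegative on the box of `(a, I, s, u)`. -/
def N4 (e : Ex) : Prop := Nn T.A T.B segOne T.U e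

/-- The errors cover those of the coefficients. -/
def errOk : Bool :=
  let v : Hats ℤ := hats T.P.eps 1000 0 T.c.vm
  decide (v.GG ≤ T.c.e.GG * 1000000000) && decide (v.EG ≤ T.c.e.EG * 1000000000) &&
    decide (v.LE ≤ T.c.e.LE * 1000000000) && decide (v.LM ≤ T.c.e.LM * 1000000000) &&
    decide (v.gE ≤ T.c.e.gE * 1000000000) && decide (v.gG ≤ T.c.e.gG * 1000000000) &&
    decide (v.hE ≤ T.c.e.hE * 1000000000) && decide (v.hG ≤ T.c.e.hG * 1000000000) &&
    decide (v.hM ≤ T.c.e.hM * 1000000000) && decide (v.N ≤ T.c.e.N * 1000000000) &&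
    decide (v.M ≤ T.c.e.M * 1000000000) && decide (v.gM ≤ T.c.e.gM * 1000000000) &&
    decide (0 ≤ T.c.sag) && decide (0 ≤ T.m0) && decide (T.m0 ≤ T.m1) && decide (T.m1 ≤ 2)

/-- The checks of a cell. -/
structure Ok : Prop where
  r1 : ∀ i i' α β γ ν, T.N3 (T.eR1 i i' α β γ ν)
  b1 : ∀ i i', T.N3 (T.eB1 i i')
  r2 : ∀ i α β γ, T.N3 (T.eR2 i α β γ)
  b2 : ∀ i, T.N3 (T.eB2 i)
  r3 : ∀ i α β γ ν, T.N3 (T.eR3 i α β γ ν)
  b3 : ∀ i, T.N3 (T.eB3 i)
  r4 : ∀ α β γ ν, T.N3 (T.eR4 α β γ ν)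
  b4 : T.N3 T.eB4
  hgE : ∀ i α β γ, T.N3 (T.eHgE i α β γ)
  hgG : ∀ i α, T.N3 (T.eHgG i α)
  hhE : ∀ i α, T.N3 (T.eHhE i α)
  hhG : ∀ i α β, T.N3 (T.eHhG i α β)
  hhM : ∀ i α, T.N3 (T.eHhM i α)
  hgM : ∀ i, T.N3 (T.eHgM i)
  vp : ∀ i α, T.N3 (T.eVp i α)
  vT : ∀ i β, T.N3 (T.eVT i β)
  vg : ∀ i γ, T.N3 (T.eVg i γ)
  vw : ∀ i α ν, T.N3 (T.eVw i α ν)
  X0 : T.N3 T.eX0
  X1 : T.N3 T.eX1
  dl : T.N3 T.r.dl
  l2 : T.N3 (T.r.l2 - Ex.num 1)
  l3 : T.N3 (T.r.l3 - Ex.num 1)
  mu : T.N3 T.mu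
  nu : T.N3 T.nu
  qp : ∀ up m, T.N4 (T.eQp up m)
  qT : ∀ up m, T.N4 (T.eQT up m)
  qg : ∀ up m, T.N4 (T.eQg up m)
  qq : ∀ up m, T.N4 (T.eQq up m)
  qqs : ∀ up m, T.N4 (T.eQqs up m)
  gap : ∀ m, T.N4 (T.eGap m)
  gaps : ∀ m, T.N4 (T.eGaps m)
  xlo : T.N4 T.eXlo
  xhi : T.N4 T.eXhi
  err : T.errOk = true

end Ctx

end Vale.Agent.P100.Calib.Mid
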