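import Vale.Agent.P100.Calib.SlabWaistBox
import Vale.Agent.P100.Calib.SlabWaistDet

/-!
# Fitted coefficients, and the distance to the true scaled entries
-/

set_option linter.unusedVariables false
set_option linter.unusedSimpArgs false

namespace Vale.Agent.P100.Calib.Mid

open Pack

attribute [local instance] exAdd exSub exMul

/-- The entry of a list as a coefficient vector. -/
def vecOf {n : ℕ} (l : List ℤ) : Fin n → ℤ := fun i => l.getD i 0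

/-- The fitted coefficients of a piece of `a`, in millionths, and their errors. -/
structure Fit where
  z : Co (List ℤ)
  eps : Co ℤ

section
variable {R : Type} [Add R] [Sub R] [Mul R] (k : ℤ → R)

/-- The fitted coefficients at `(a, I, X)` in the unit `o`. -/
def Fit.co (P : Fit) (a I X o : R) : Co R :=
  { GG0 := quart k (vecOf P.z.GG0) a I X o
    GGT := quart k (vecOf P.z.GGT) a I X o
    GGp := quart k (vecOf P.z.GGp) a I X o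
    GGpT := quart k (vecOf P.z.GGpT) a I X o
    EG0 := quart k (vecOf P.z.EG0) a I X o
    EGg := quart k (vecOf P.z.EGg) a I X o
    EGT := quart k (vecOf P.z.EGT) a I X o
    EGTg := quart k (vecOf P.z.EGTg) a I X o
    EGp := quart k (vecOf P.z.EGp) a I X o
    EGpT := quart k (vecOf P.z.EGpT) a I X o
    LE0 := quart k (vecOf P.z.LE0) a I X o
    LEw := quart k (vecOf P.z.LEw) a I X o
    LEg := quart k (vecOf P.z.LEg) a I X o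
    LET := quart k (vecOf P.z.LET) a I X o
    LETg := quart k (vecOf P.z.LETg) a I X o
    LEp := quart k (vecOf P.z.LEp) a I X o
    LEpw := quart k (vecOf P.z.LEpw) a I X o
    LEpT := quart k (vecOf P.z.LEpT) a I X o
    LEpp := quart k (vecOf P.z.LEpp) a I X o
    LM0 := quart k (vecOf P.z.LM0) a I X o
    LMw := quart k (vecOf P.z.LMw) a I X o
    LMg := quart k (vecOf P.z.LMg) a I X o
    LMT := quart k (vecOf P.z.LMT) a I X o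
    LMTg := quart k (vecOf P.z.LMTg) a I X o
    LMp := quart k (vecOf P.z.LMp) a I X o
    LMpw := quart k (vecOf P.z.LMpw) a I X o
    LMpT := quart k (vecOf P.z.LMpT) a I X o
    LMpp := quart k (vecOf P.z.LMpp) a I X o
    gE0 := quart k (vecOf P.z.gE0) a I X o
    gEg := quart k (vecOf P.z.gEg) a I X o
    gETg := quart k (vecOf P.z.gETg) a I X o
    gEp := quart k (vecOf P.z.gEp) a I X o
    gG0 := cubic k (vecOf P.z.gG0) a I X o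
    gGp := cubic k (vecOf P.z.gGp) a I X o
    hE0 := quart k (vecOf P.z.hE0) a I X o
    hEp := quart k (vecOf P.z.hEp) a I X o
    hG0 := quart k (vecOf P.z.hG0) a I X o
    hGT := quart k (vecOf P.z.hGT) a I X o
    hGp := quart k (vecOf P.z.hGp) a I X o
    hM0 := cubic k (vecOf P.z.hM0) a I X o
    hMp := cubic k (vecOf P.z.hMp) a I X o
    N0 := quart k (vecOf P.z.N0) a I X o
    Nw := quart k (vecOf P.z.Nw) a I X o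
    Ng := quart k (vecOf P.z.Ng) a I X o
    NTg := quart k (vecOf P.z.NTg) a I X o
    Np := quart k (vecOf P.z.Np) a I X o
    Npw := quart k (vecOf P.z.Npw) a I X o
    Npg := quart k (vecOf P.z.Npg) a I X o
    NpTg := quart k (vecOf P.z.NpTg) a I X o
    Mg := quart k (vecOf P.z.Mg) a I X o
    MTg := quart k (vecOf P.z.MTg) a I X o
    Mpg := quart k (vecOf P.z.Mpg) a I X o
    MpTg := quart k (vecOf P.z.MpTg) a I X o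
    gM0 := cubic k (vecOf P.z.gM0) a I X o }

end

/-- The true coefficients. -/
noncomputable def trueCo (a I X : ℝ) : Co ℝ :=
  { GG0 := cGG0000 a I X /
      (10 * (1 - 2 * I - a) * (1 - 2 * I - 2 * a) * (1 - 2 * I) * (1 - 2 * I))
    GGT := cGG0100 a I X /
      (10 * (1 - 2 * I - a) * (1 - 2 * I - 2 * a) * (1 - 2 * I) * (1 - 2 * I))
    GGp := cGG1000 a I X /
      (10 * (1 - 2 * I - a) * (1 - 2 * I - 2 * a) * (1 - 2 * I) * (1 - 2 * I))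
    GGpT := cGG1100 a I X /
      (10 * (1 - 2 * I - a) * (1 - 2 * I - 2 * a) * (1 - 2 * I) * (1 - 2 * I))
    EG0 := cEG0000 a I X /
      (10 * (1 - 2 * I - a) * (1 - 2 * I - 2 * a) * (1 - 2 * I - 2 * a) * (1 - 2 * I) * (1 - 2 * I))
    EGg := cEG0010 a I X /
      (10 * (1 - 2 * I - a) * (1 - 2 * I - 2 * a) * (1 - 2 * I - 2 * a) * (1 - 2 * I) * (1 - 2 * I))
    EGT := cEG0100 a I X /
      (10 * (1 - 2 * I - a) * (1 - 2 * I - 2 * a) * (1 - 2 * I - 2 * a) * (1 - 2 * I) * (1 - 2 * I))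
    EGTg := cEG0110 a I X /
      (10 * (1 - 2 * I - a) * (1 - 2 * I - 2 * a) * (1 - 2 * I - 2 * a) * (1 - 2 * I) * (1 - 2 * I))
    EGp := cEG1000 a I X /
      (10 * (1 - 2 * I - a) * (1 - 2 * I - 2 * a) * (1 - 2 * I - 2 * a) * (1 - 2 * I) * (1 - 2 * I))
    EGpT := cEG1100 a I X /
      (10 * (1 - 2 * I - a) * (1 - 2 * I - 2 * a) * (1 - 2 * I - 2 * a) * (1 - 2 * I) * (1 - 2 * I))
    LE0 := cLE0000 a I X /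
      (10 * (1 - 2 * I - a) * (1 - 2 * I) * (1 - 2 * I))
    LEw := cLE0001 a I X /
      (10 * (1 - 2 * I - a) * (1 - 2 * I) * (1 - 2 * I))
    LEg := cLE0010 a I X /
      (10 * (1 - 2 * I - a) * (1 - 2 * I) * (1 - 2 * I))
    LET := cLE0100 a I X /
      (10 * (1 - 2 * I - a) * (1 - 2 * I) * (1 - 2 * I))
    LETg := cLE0110 a I X /
      (10 * (1 - 2 * I - a) * (1 - 2 * I) * (1 - 2 * I))
    LEp := cLE1000 a I X /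
      (10 * (1 - 2 * I - a) * (1 - 2 * I) * (1 - 2 * I))
    LEpw := cLE1001 a I X /
      (10 * (1 - 2 * I - a) * (1 - 2 * I) * (1 - 2 * I))
    LEpT := cLE1100 a I X /
      (10 * (1 - 2 * I - a) * (1 - 2 * I) * (1 - 2 * I))
    LEpp := cLE2000 a I X /
      (10 * (1 - 2 * I - a) * (1 - 2 * I) * (1 - 2 * I))
    LM0 := cLM0000 a I X /
      (10 * (1 - 2 * I - a) * (1 - 2 * I - 2 * a) * (1 - 2 * I) * (1 - 2 * I))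
    LMw := cLM0001 a I X /
      (10 * (1 - 2 * I - a) * (1 - 2 * I - 2 * a) * (1 - 2 * I) * (1 - 2 * I))
    LMg := cLM0010 a I X /
      (10 * (1 - 2 * I - a) * (1 - 2 * I - 2 * a) * (1 - 2 * I) * (1 - 2 * I))
    LMT := cLM0100 a I X /
      (10 * (1 - 2 * I - a) * (1 - 2 * I - 2 * a) * (1 - 2 * I) * (1 - 2 * I))
    LMTg := cLM0110 a I X /
      (10 * (1 - 2 * I - a) * (1 - 2 * I - 2 * a) * (1 - 2 * I) * (1 - 2 * I))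
    LMp := cLM1000 a I X /
      (10 * (1 - 2 * I - a) * (1 - 2 * I - 2 * a) * (1 - 2 * I) * (1 - 2 * I))
    LMpw := cLM1001 a I X /
      (10 * (1 - 2 * I - a) * (1 - 2 * I - 2 * a) * (1 - 2 * I) * (1 - 2 * I))
    LMpT := cLM1100 a I X /
      (10 * (1 - 2 * I - a) * (1 - 2 * I - 2 * a) * (1 - 2 * I) * (1 - 2 * I))
    LMpp := cLM2000 a I X /
      (10 * (1 - 2 * I - a) * (1 - 2 * I - 2 * a) * (1 - 2 * I) * (1 - 2 * I))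
    gE0 := cgE0000 a I X /
      (2 * (1 - 2 * I - 2 * a) * (1 - 2 * I - 2 * a) * (1 - 2 * I) * (1 - 2 * I))
    gEg := cgE0010 a I X /
      (2 * (1 - 2 * I - 2 * a) * (1 - 2 * I - 2 * a) * (1 - 2 * I) * (1 - 2 * I))
    gETg := cgE0110 a I X /
      (2 * (1 - 2 * I - 2 * a) * (1 - 2 * I - 2 * a) * (1 - 2 * I) * (1 - 2 * I))
    gEp := cgE1000 a I X /
      (2 * (1 - 2 * I - 2 * a) * (1 - 2 * I - 2 * a) * (1 - 2 * I) * (1 - 2 * I))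
    gG0 := cgG0000 a I X /
      (2)
    gGp := cgG1000 a I X /
      (2)
    hE0 := chE0000 a I X /
      (2)
    hEp := chE1000 a I X /
      (2)
    hG0 := chG0000 a I X /
      (10 * (1 - 2 * I - a) * (1 - 2 * I - 2 * a) * (1 - 2 * I - 2 * a) * (1 - 2 * I) * (1 - 2 * I))
    hGT := chG0100 a I X /
      (10 * (1 - 2 * I - a) * (1 - 2 * I - 2 * a) * (1 - 2 * I - 2 * a) * (1 - 2 * I) * (1 - 2 * I))
    hGp := chG1000 a I X /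
      (10 * (1 - 2 * I - a) * (1 - 2 * I - 2 * a) * (1 - 2 * I - 2 * a) * (1 - 2 * I) * (1 - 2 * I))
    hM0 := chM0000 a I X /
      (1)
    hMp := chM1000 a I X /
      (1)
    N0 := cN0000 a I X /
      (2 * (1 - 2 * I - 2 * a))
    Nw := cN0001 a I X /
      (2 * (1 - 2 * I - 2 * a))
    Ng := cN0010 a I X /
      (2 * (1 - 2 * I - 2 * a))
    NTg := cN0110 a I X /
      (2 * (1 - 2 * I - 2 * a))
    Np := cN1000 a I X /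
      (2 * (1 - 2 * I - 2 * a))
    Npw := cN1001 a I X /
      (2 * (1 - 2 * I - 2 * a))
    Npg := cN1010 a I X /
      (2 * (1 - 2 * I - 2 * a))
    NpTg := cN1110 a I X /
      (2 * (1 - 2 * I - 2 * a))
    Mg := cM0010 a I X /
      (2 * (1 - 2 * I - a) * (1 - 2 * I - 2 * a))
    MTg := cM0110 a I X /
      (2 * (1 - 2 * I - a) * (1 - 2 * I - 2 * a))
    Mpg := cM1010 a I X /
      (2 * (1 - 2 * I - a) * (1 - 2 * I - 2 * a))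
    MpTg := cM1110 a I X /
      (2 * (1 - 2 * I - a) * (1 - 2 * I - 2 * a))
    gM0 := cgM0000 a I X /
      (1) }

theorem trueHats_eq (a I X w1 : ℝ) (z : Pt ℝ) :
    trueHats a I X z = hats (trueCo a I X) 1 w1 ⟨z.p, z.T, z.g, z.q - w1 * z.p⟩ := by
  simp only [trueHats, hats, trueCo, Hats.mk.injEq, nGG, nEG, nLE, nLM, ngE, ngG,
    nhE, nhG, nhM, nN, nM, ngM]
  refine ⟨?_, ?_, ?_, ?_, ?_, ?_, ?_, ?_, ?_, ?_, ?_, ?_⟩ <;> ring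

/-- `1 - 2 I - a`. -/
def eb : Ex := Ex.num 1 - Ex.num 2 * Ex.var 1 - Ex.var 0

/-- `1 - 2 I - 2 a`. -/
def ed : Ex := Ex.num 1 - Ex.num 2 * Ex.var 1 - Ex.num 2 * Ex.var 0

/-- `1 - 2 I`. -/
def eS : Ex := Ex.num 1 - Ex.num 2 * Ex.var 1

/-- The fitted coefficient is not below the exact one. -/
def apUp (den c P : Ex) (e : ℤ) : Ex := den * (P + Ex.num e) - Ex.num 1000000 * c

/-- The fitted coefficient is not above the exact one. -/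
def apDn (den c P : Ex) (e : ℤ) : Ex := Ex.num 1000000 * c - den * (P + Ex.num (-e))

/-- Nonnegative on a box. -/
def Nn (A B C D : Seg) (e : Ex) : Prop :=
  ∀ a b c d : ℝ, A.Mem a → B.Mem b → C.Mem c → D.Mem d → 0 ≤ e.eval (vec4 a b c d)

/-- A box is proper. -/
def Seg.Proper (g : Seg) : Bool := decide (g.lo < g.hi) && decide (0 < g.den)

theorem nn_of_check {A B C D : Seg} {K n₀ n₁ n₂ n₃ : ℕ} {e : Pack.Ex}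
    (h : checkFour (box4 A B C D) K n₀ n₁ n₂ n₃ e = true)
    (hp : (A.Proper && B.Proper && C.Proper && D.Proper) = true) : Nn A B C D e := by
  simp only [Seg.Proper, Bool.and_eq_true, decide_eq_true_eq] at hp
  obtain ⟨⟨⟨hA, hB⟩, hC⟩, hD⟩ := hp
  exact fun a b c d ma mb mc md => nonneg_on hA hB hC hD h ma mb mc md

/-- The unit interval. -/
def segOne : Seg := ⟨0, 1, 1⟩

/-- Both sides of one coefficient. -/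
def Approx (A B C : Seg) (den c P : Ex) (e : ℤ) : Prop :=
  Nn A B C segOne (apUp den c P e) ∧ Nn A B C segOne (apDn den c P e)

theorem approx_at {A B C : Seg} {den c P : Ex} {e : ℤ} (h : Approx A B C den c P e) {a I X : ℝ}
    (ma : A.Mem a) (mb : B.Mem I) (mc : C.Mem X) (hd : 0 < den.eval (vec4 a I X 0)) :
    |c.eval (vec4 a I X 0) / den.eval (vec4 a I X 0) - P.eval (vec4 a I X 0) / 1000000| ≤
      (e : ℝ) / 1000000 := by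
  have m0 : segOne.Mem (0 : ℝ) := by constructor <;> norm_num [segOne]
  have u := h.1 a I X 0 ma mb mc m0
  have d := h.2 a I X 0 ma mb mc m0
  simp only [apUp, apDn] at u d
  change 0 ≤ _ * (_ + ((e : ℤ) : ℝ)) - ((1000000 : ℤ) : ℝ) * _ at u
  change 0 ≤ ((1000000 : ℤ) : ℝ) * _ - _ * (_ + ((-e : ℤ) : ℝ)) at d
  push_cast at u d
  generalize den.eval (vec4 a I X 0) = D at *
  generalize c.eval (vec4 a I X 0) = C at *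
  generalize P.eval (vec4 a I X 0) = Q at *
  rw [abs_le]
  constructor
  · rw [le_sub_iff_add_le, le_div_iff₀ hd]; linarith
  · rw [sub_le_iff_le_add, div_le_iff₀ hd]; linarith

/-- The checks of a fit on a piece. -/
structure Fit.Ok (P : Fit) (A B C : Seg) : Prop where
  GG0 : Approx A B C (Ex.num 10 * eb * ed * eS * eS) (eGG0000 (Ex.var 0) (Ex.var 1) (Ex.var 2))
    ((P.co Ex.num (Ex.var 0) (Ex.var 1) (Ex.var 2) (Ex.num 1)).GG0) P.eps.GG0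
  GGT : Approx A B C (Ex.num 10 * eb * ed * eS * eS) (eGG0100 (Ex.var 0) (Ex.var 1) (Ex.var 2))
    ((P.co Ex.num (Ex.var 0) (Ex.var 1) (Ex.var 2) (Ex.num 1)).GGT) P.eps.GGT
  GGp : Approx A B C (Ex.num 10 * eb * ed * eS * eS) (eGG1000 (Ex.var 0) (Ex.var 1) (Ex.var 2))
    ((P.co Ex.num (Ex.var 0) (Ex.var 1) (Ex.var 2) (Ex.num 1)).GGp) P.eps.GGp
  GGpT : Approx A B C (Ex.num 10 * eb * ed * eS * eS) (eGG1100 (Ex.var 0) (Ex.var 1) (Ex.var 2))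
    ((P.co Ex.num (Ex.var 0) (Ex.var 1) (Ex.var 2) (Ex.num 1)).GGpT) P.eps.GGpT
  EG0 : Approx A B C (Ex.num 10 * eb * ed * ed * eS * eS) (eEG0000 (Ex.var 0) (Ex.var 1) (Ex.var 2))
    ((P.co Ex.num (Ex.var 0) (Ex.var 1) (Ex.var 2) (Ex.num 1)).EG0) P.eps.EG0
  EGg : Approx A B C (Ex.num 10 * eb * ed * ed * eS * eS) (eEG0010 (Ex.var 0) (Ex.var 1) (Ex.var 2))
    ((P.co Ex.num (Ex.var 0) (Ex.var 1) (Ex.var 2) (Ex.num 1)).EGg) P.eps.EGg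
  EGT : Approx A B C (Ex.num 10 * eb * ed * ed * eS * eS) (eEG0100 (Ex.var 0) (Ex.var 1) (Ex.var 2))
    ((P.co Ex.num (Ex.var 0) (Ex.var 1) (Ex.var 2) (Ex.num 1)).EGT) P.eps.EGT
  EGTg : Approx A B C (Ex.num 10 * eb * ed * ed * eS * eS) (eEG0110 (Ex.var 0) (Ex.var 1) (Ex.var 2))
    ((P.co Ex.num (Ex.var 0) (Ex.var 1) (Ex.var 2) (Ex.num 1)).EGTg) P.eps.EGTg
  EGp : Approx A B C (Ex.num 10 * eb * ed * ed * eS * eS) (eEG1000 (Ex.var 0) (Ex.var 1) (Ex.var 2))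
    ((P.co Ex.num (Ex.var 0) (Ex.var 1) (Ex.var 2) (Ex.num 1)).EGp) P.eps.EGp
  EGpT : Approx A B C (Ex.num 10 * eb * ed * ed * eS * eS) (eEG1100 (Ex.var 0) (Ex.var 1) (Ex.var 2))
    ((P.co Ex.num (Ex.var 0) (Ex.var 1) (Ex.var 2) (Ex.num 1)).EGpT) P.eps.EGpT
  LE0 : Approx A B C (Ex.num 10 * eb * eS * eS) (eLE0000 (Ex.var 0) (Ex.var 1) (Ex.var 2))
    ((P.co Ex.num (Ex.var 0) (Ex.var 1) (Ex.var 2) (Ex.num 1)).LE0) P.eps.LE0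
  LEw : Approx A B C (Ex.num 10 * eb * eS * eS) (eLE0001 (Ex.var 0) (Ex.var 1) (Ex.var 2))
    ((P.co Ex.num (Ex.var 0) (Ex.var 1) (Ex.var 2) (Ex.num 1)).LEw) P.eps.LEw
  LEg : Approx A B C (Ex.num 10 * eb * eS * eS) (eLE0010 (Ex.var 0) (Ex.var 1) (Ex.var 2))
    ((P.co Ex.num (Ex.var 0) (Ex.var 1) (Ex.var 2) (Ex.num 1)).LEg) P.eps.LEg
  LET : Approx A B C (Ex.num 10 * eb * eS * eS) (eLE0100 (Ex.var 0) (Ex.var 1) (Ex.var 2))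
    ((P.co Ex.num (Ex.var 0) (Ex.var 1) (Ex.var 2) (Ex.num 1)).LET) P.eps.LET
  LETg : Approx A B C (Ex.num 10 * eb * eS * eS) (eLE0110 (Ex.var 0) (Ex.var 1) (Ex.var 2))
    ((P.co Ex.num (Ex.var 0) (Ex.var 1) (Ex.var 2) (Ex.num 1)).LETg) P.eps.LETg
  LEp : Approx A B C (Ex.num 10 * eb * eS * eS) (eLE1000 (Ex.var 0) (Ex.var 1) (Ex.var 2))
    ((P.co Ex.num (Ex.var 0) (Ex.var 1) (Ex.var 2) (Ex.num 1)).LEp) P.eps.LEp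
  LEpw : Approx A B C (Ex.num 10 * eb * eS * eS) (eLE1001 (Ex.var 0) (Ex.var 1) (Ex.var 2))
    ((P.co Ex.num (Ex.var 0) (Ex.var 1) (Ex.var 2) (Ex.num 1)).LEpw) P.eps.LEpw
  LEpT : Approx A B C (Ex.num 10 * eb * eS * eS) (eLE1100 (Ex.var 0) (Ex.var 1) (Ex.var 2))
    ((P.co Ex.num (Ex.var 0) (Ex.var 1) (Ex.var 2) (Ex.num 1)).LEpT) P.eps.LEpT
  LEpp : Approx A B C (Ex.num 10 * eb * eS * eS) (eLE2000 (Ex.var 0) (Ex.var 1) (Ex.var 2))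
    ((P.co Ex.num (Ex.var 0) (Ex.var 1) (Ex.var 2) (Ex.num 1)).LEpp) P.eps.LEpp
  LM0 : Approx A B C (Ex.num 10 * eb * ed * eS * eS) (eLM0000 (Ex.var 0) (Ex.var 1) (Ex.var 2))
    ((P.co Ex.num (Ex.var 0) (Ex.var 1) (Ex.var 2) (Ex.num 1)).LM0) P.eps.LM0
  LMw : Approx A B C (Ex.num 10 * eb * ed * eS * eS) (eLM0001 (Ex.var 0) (Ex.var 1) (Ex.var 2))
    ((P.co Ex.num (Ex.var 0) (Ex.var 1) (Ex.var 2) (Ex.num 1)).LMw) P.eps.LMw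
  LMg : Approx A B C (Ex.num 10 * eb * ed * eS * eS) (eLM0010 (Ex.var 0) (Ex.var 1) (Ex.var 2))
    ((P.co Ex.num (Ex.var 0) (Ex.var 1) (Ex.var 2) (Ex.num 1)).LMg) P.eps.LMg
  LMT : Approx A B C (Ex.num 10 * eb * ed * eS * eS) (eLM0100 (Ex.var 0) (Ex.var 1) (Ex.var 2))
    ((P.co Ex.num (Ex.var 0) (Ex.var 1) (Ex.var 2) (Ex.num 1)).LMT) P.eps.LMT
  LMTg : Approx A B C (Ex.num 10 * eb * ed * eS * eS) (eLM0110 (Ex.var 0) (Ex.var 1) (Ex.var 2))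
    ((P.co Ex.num (Ex.var 0) (Ex.var 1) (Ex.var 2) (Ex.num 1)).LMTg) P.eps.LMTg
  LMp : Approx A B C (Ex.num 10 * eb * ed * eS * eS) (eLM1000 (Ex.var 0) (Ex.var 1) (Ex.var 2))
    ((P.co Ex.num (Ex.var 0) (Ex.var 1) (Ex.var 2) (Ex.num 1)).LMp) P.eps.LMp
  LMpw : Approx A B C (Ex.num 10 * eb * ed * eS * eS) (eLM1001 (Ex.var 0) (Ex.var 1) (Ex.var 2))
    ((P.co Ex.num (Ex.var 0) (Ex.var 1) (Ex.var 2) (Ex.num 1)).LMpw) P.eps.LMpw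
  LMpT : Approx A B C (Ex.num 10 * eb * ed * eS * eS) (eLM1100 (Ex.var 0) (Ex.var 1) (Ex.var 2))
    ((P.co Ex.num (Ex.var 0) (Ex.var 1) (Ex.var 2) (Ex.num 1)).LMpT) P.eps.LMpT
  LMpp : Approx A B C (Ex.num 10 * eb * ed * eS * eS) (eLM2000 (Ex.var 0) (Ex.var 1) (Ex.var 2))
    ((P.co Ex.num (Ex.var 0) (Ex.var 1) (Ex.var 2) (Ex.num 1)).LMpp) P.eps.LMpp
  gE0 : Approx A B C (Ex.num 2 * ed * ed * eS * eS) (egE0000 (Ex.var 0) (Ex.var 1) (Ex.var 2))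
    ((P.co Ex.num (Ex.var 0) (Ex.var 1) (Ex.var 2) (Ex.num 1)).gE0) P.eps.gE0
  gEg : Approx A B C (Ex.num 2 * ed * ed * eS * eS) (egE0010 (Ex.var 0) (Ex.var 1) (Ex.var 2))
    ((P.co Ex.num (Ex.var 0) (Ex.var 1) (Ex.var 2) (Ex.num 1)).gEg) P.eps.gEg
  gETg : Approx A B C (Ex.num 2 * ed * ed * eS * eS) (egE0110 (Ex.var 0) (Ex.var 1) (Ex.var 2))
    ((P.co Ex.num (Ex.var 0) (Ex.var 1) (Ex.var 2) (Ex.num 1)).gETg) P.eps.gETg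
  gEp : Approx A B C (Ex.num 2 * ed * ed * eS * eS) (egE1000 (Ex.var 0) (Ex.var 1) (Ex.var 2))
    ((P.co Ex.num (Ex.var 0) (Ex.var 1) (Ex.var 2) (Ex.num 1)).gEp) P.eps.gEp
  gG0 : Approx A B C (Ex.num 2) (egG0000 (Ex.var 0) (Ex.var 1) (Ex.var 2))
    ((P.co Ex.num (Ex.var 0) (Ex.var 1) (Ex.var 2) (Ex.num 1)).gG0) P.eps.gG0
  gGp : Approx A B C (Ex.num 2) (egG1000 (Ex.var 0) (Ex.var 1) (Ex.var 2))
    ((P.co Ex.num (Ex.var 0) (Ex.var 1) (Ex.var 2) (Ex.num 1)).gGp) P.eps.gGp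
  hE0 : Approx A B C (Ex.num 2) (ehE0000 (Ex.var 0) (Ex.var 1) (Ex.var 2))
    ((P.co Ex.num (Ex.var 0) (Ex.var 1) (Ex.var 2) (Ex.num 1)).hE0) P.eps.hE0
  hEp : Approx A B C (Ex.num 2) (ehE1000 (Ex.var 0) (Ex.var 1) (Ex.var 2))
    ((P.co Ex.num (Ex.var 0) (Ex.var 1) (Ex.var 2) (Ex.num 1)).hEp) P.eps.hEp
  hG0 : Approx A B C (Ex.num 10 * eb * ed * ed * eS * eS) (ehG0000 (Ex.var 0) (Ex.var 1) (Ex.var 2))
    ((P.co Ex.num (Ex.var 0) (Ex.var 1) (Ex.var 2) (Ex.num 1)).hG0) P.eps.hG0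
  hGT : Approx A B C (Ex.num 10 * eb * ed * ed * eS * eS) (ehG0100 (Ex.var 0) (Ex.var 1) (Ex.var 2))
    ((P.co Ex.num (Ex.var 0) (Ex.var 1) (Ex.var 2) (Ex.num 1)).hGT) P.eps.hGT
  hGp : Approx A B C (Ex.num 10 * eb * ed * ed * eS * eS) (ehG1000 (Ex.var 0) (Ex.var 1) (Ex.var 2))
    ((P.co Ex.num (Ex.var 0) (Ex.var 1) (Ex.var 2) (Ex.num 1)).hGp) P.eps.hGp
  hM0 : Approx A B C (Ex.num 1) (ehM0000 (Ex.var 0) (Ex.var 1) (Ex.var 2))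
    ((P.co Ex.num (Ex.var 0) (Ex.var 1) (Ex.var 2) (Ex.num 1)).hM0) P.eps.hM0
  hMp : Approx A B C (Ex.num 1) (ehM1000 (Ex.var 0) (Ex.var 1) (Ex.var 2))
    ((P.co Ex.num (Ex.var 0) (Ex.var 1) (Ex.var 2) (Ex.num 1)).hMp) P.eps.hMp
  N0 : Approx A B C (Ex.num 2 * ed) (eN0000 (Ex.var 0) (Ex.var 1) (Ex.var 2))
    ((P.co Ex.num (Ex.var 0) (Ex.var 1) (Ex.var 2) (Ex.num 1)).N0) P.eps.N0
  Nw : Approx A B C (Ex.num 2 * ed) (eN0001 (Ex.var 0) (Ex.var 1) (Ex.var 2))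
    ((P.co Ex.num (Ex.var 0) (Ex.var 1) (Ex.var 2) (Ex.num 1)).Nw) P.eps.Nw
  Ng : Approx A B C (Ex.num 2 * ed) (eN0010 (Ex.var 0) (Ex.var 1) (Ex.var 2))
    ((P.co Ex.num (Ex.var 0) (Ex.var 1) (Ex.var 2) (Ex.num 1)).Ng) P.eps.Ng
  NTg : Approx A B C (Ex.num 2 * ed) (eN0110 (Ex.var 0) (Ex.var 1) (Ex.var 2))
    ((P.co Ex.num (Ex.var 0) (Ex.var 1) (Ex.var 2) (Ex.num 1)).NTg) P.eps.NTg
  Np : Approx A B C (Ex.num 2 * ed) (eN1000 (Ex.var 0) (Ex.var 1) (Ex.var 2))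
    ((P.co Ex.num (Ex.var 0) (Ex.var 1) (Ex.var 2) (Ex.num 1)).Np) P.eps.Np
  Npw : Approx A B C (Ex.num 2 * ed) (eN1001 (Ex.var 0) (Ex.var 1) (Ex.var 2))
    ((P.co Ex.num (Ex.var 0) (Ex.var 1) (Ex.var 2) (Ex.num 1)).Npw) P.eps.Npw
  Npg : Approx A B C (Ex.num 2 * ed) (eN1010 (Ex.var 0) (Ex.var 1) (Ex.var 2))
    ((P.co Ex.num (Ex.var 0) (Ex.var 1) (Ex.var 2) (Ex.num 1)).Npg) P.eps.Npg
  NpTg : Approx A B C (Ex.num 2 * ed) (eN1110 (Ex.var 0) (Ex.var 1) (Ex.var 2))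
    ((P.co Ex.num (Ex.var 0) (Ex.var 1) (Ex.var 2) (Ex.num 1)).NpTg) P.eps.NpTg
  Mg : Approx A B C (Ex.num 2 * eb * ed) (eM0010 (Ex.var 0) (Ex.var 1) (Ex.var 2))
    ((P.co Ex.num (Ex.var 0) (Ex.var 1) (Ex.var 2) (Ex.num 1)).Mg) P.eps.Mg
  MTg : Approx A B C (Ex.num 2 * eb * ed) (eM0110 (Ex.var 0) (Ex.var 1) (Ex.var 2))
    ((P.co Ex.num (Ex.var 0) (Ex.var 1) (Ex.var 2) (Ex.num 1)).MTg) P.eps.MTg
  Mpg : Approx A B C (Ex.num 2 * eb * ed) (eM1010 (Ex.var 0) (Ex.var 1) (Ex.var 2))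
    ((P.co Ex.num (Ex.var 0) (Ex.var 1) (Ex.var 2) (Ex.num 1)).Mpg) P.eps.Mpg
  MpTg : Approx A B C (Ex.num 2 * eb * ed) (eM1110 (Ex.var 0) (Ex.var 1) (Ex.var 2))
    ((P.co Ex.num (Ex.var 0) (Ex.var 1) (Ex.var 2) (Ex.num 1)).MpTg) P.eps.MpTg
  gM0 : Approx A B C (Ex.num 1) (egM0000 (Ex.var 0) (Ex.var 1) (Ex.var 2))
    ((P.co Ex.num (Ex.var 0) (Ex.var 1) (Ex.var 2) (Ex.num 1)).gM0) P.eps.gM0

/-- The fitted coefficients as numbers. -/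
noncomputable def Fit.val (P : Fit) (a I X : ℝ) : Co ℝ :=
  (P.co kR a I X 1).map (· / 1000000)

/-- The errors as numbers. -/
noncomputable def Fit.err (P : Fit) : Co ℝ := P.eps.map (fun e : ℤ => (e : ℝ) / 1000000)

/-- Fieldwise distance of coefficients. -/
structure CoNear (c c' e : Co ℝ) : Prop where
  GG0 : |c.GG0 - c'.GG0| ≤ e.GG0
  GGT : |c.GGT - c'.GGT| ≤ e.GGT
  GGp : |c.GGp - c'.GGp| ≤ e.GGp
  GGpT : |c.GGpT - c'.GGpT| ≤ e.GGpT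
  EG0 : |c.EG0 - c'.EG0| ≤ e.EG0
  EGg : |c.EGg - c'.EGg| ≤ e.EGg
  EGT : |c.EGT - c'.EGT| ≤ e.EGT
  EGTg : |c.EGTg - c'.EGTg| ≤ e.EGTg
  EGp : |c.EGp - c'.EGp| ≤ e.EGp
  EGpT : |c.EGpT - c'.EGpT| ≤ e.EGpT
  LE0 : |c.LE0 - c'.LE0| ≤ e.LE0
  LEw : |c.LEw - c'.LEw| ≤ e.LEw
  LEg : |c.LEg - c'.LEg| ≤ e.LEg
  LET : |c.LET - c'.LET| ≤ e.LET
  LETg : |c.LETg - c'.LETg| ≤ e.LETg
  LEp : |c.LEp - c'.LEp| ≤ e.LEp
  LEpw : |c.LEpw - c'.LEpw| ≤ e.LEpw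
  LEpT : |c.LEpT - c'.LEpT| ≤ e.LEpT
  LEpp : |c.LEpp - c'.LEpp| ≤ e.LEpp
  LM0 : |c.LM0 - c'.LM0| ≤ e.LM0
  LMw : |c.LMw - c'.LMw| ≤ e.LMw
  LMg : |c.LMg - c'.LMg| ≤ e.LMg
  LMT : |c.LMT - c'.LMT| ≤ e.LMT
  LMTg : |c.LMTg - c'.LMTg| ≤ e.LMTg
  LMp : |c.LMp - c'.LMp| ≤ e.LMp
  LMpw : |c.LMpw - c'.LMpw| ≤ e.LMpw
  LMpT : |c.LMpT - c'.LMpT| ≤ e.LMpT
  LMpp : |c.LMpp - c'.LMpp| ≤ e.LMpp
  gE0 : |c.gE0 - c'.gE0| ≤ e.gE0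
  gEg : |c.gEg - c'.gEg| ≤ e.gEg
  gETg : |c.gETg - c'.gETg| ≤ e.gETg
  gEp : |c.gEp - c'.gEp| ≤ e.gEp
  gG0 : |c.gG0 - c'.gG0| ≤ e.gG0
  gGp : |c.gGp - c'.gGp| ≤ e.gGp
  hE0 : |c.hE0 - c'.hE0| ≤ e.hE0
  hEp : |c.hEp - c'.hEp| ≤ e.hEp
  hG0 : |c.hG0 - c'.hG0| ≤ e.hG0
  hGT : |c.hGT - c'.hGT| ≤ e.hGT
  hGp : |c.hGp - c'.hGp| ≤ e.hGp
  hM0 : |c.hM0 - c'.hM0| ≤ e.hM0
  hMp : |c.hMp - c'.hMp| ≤ e.hMp
  N0 : |c.N0 - c'.N0| ≤ e.N0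
  Nw : |c.Nw - c'.Nw| ≤ e.Nw
  Ng : |c.Ng - c'.Ng| ≤ e.Ng
  NTg : |c.NTg - c'.NTg| ≤ e.NTg
  Np : |c.Np - c'.Np| ≤ e.Np
  Npw : |c.Npw - c'.Npw| ≤ e.Npw
  Npg : |c.Npg - c'.Npg| ≤ e.Npg
  NpTg : |c.NpTg - c'.NpTg| ≤ e.NpTg
  Mg : |c.Mg - c'.Mg| ≤ e.Mg
  MTg : |c.MTg - c'.MTg| ≤ e.MTg
  Mpg : |c.Mpg - c'.Mpg| ≤ e.Mpg
  MpTg : |c.MpTg - c'.MpTg| ≤ e.MpTg
  gM0 : |c.gM0 - c'.gM0| ≤ e.gM0

theorem Fit.Ok.near {P : Fit} {A B C : Seg} (h : P.Ok A B C) {a I X : ℝ} (ma : A.Mem a)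
    (mb : B.Mem I) (mc : C.Mem X) (hI : I < 1 / 2) (hd : 0 < 1 - 2 * I - 2 * a) (ha : 0 ≤ a) :
    CoNear (trueCo a I X) (P.val a I X) P.err := by
  have hb : 0 < 1 - 2 * I - a := by linarith
  have hS : 0 < 1 - 2 * I := by linarith
  have ec : (P.co Ex.num (Ex.var 0) (Ex.var 1) (Ex.var 2) (Ex.num 1)).map
      (·.eval (vec4 a I X 0)) = P.co kR a I X 1 := by rw [← Int.cast_one (R := ℝ)]; rfl
  constructor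
  · have q := approx_at h.GG0 ma mb mc (by
      show 0 < ((10 : ℤ) : ℝ) * (((1 : ℤ) : ℝ) - ((2 : ℤ) : ℝ) * I - a) * (((1 : ℤ) : ℝ) - ((2 : ℤ) : ℝ) * I - ((2 : ℤ) : ℝ) * a) * (((1 : ℤ) : ℝ) - ((2 : ℤ) : ℝ) * I) * (((1 : ℤ) : ℝ) - ((2 : ℤ) : ℝ) * I)
      push_cast; positivity)
    rw [show (P.co Ex.num (Ex.var 0) (Ex.var 1) (Ex.var 2) (Ex.num 1)).GG0.eval
      (vec4 a I X 0) = (P.co kR a I X 1).GG0 from congrArg Co.GG0 ec, val_GG0000] at q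
    change |cGG0000 a I X / (((10 : ℤ) : ℝ) * (((1 : ℤ) : ℝ) - ((2 : ℤ) : ℝ) * I - a) * (((1 : ℤ) : ℝ) - ((2 : ℤ) : ℝ) * I - ((2 : ℤ) : ℝ) * a) * (((1 : ℤ) : ℝ) - ((2 : ℤ) : ℝ) * I) * (((1 : ℤ) : ℝ) - ((2 : ℤ) : ℝ) * I)) - _| ≤ _ at q
    push_cast at q
    exact q
  · have q := approx_at h.GGT ma mb mc (by
      show 0 < ((10 : ℤ) : ℝ) * (((1 : ℤ) : ℝ) - ((2 : ℤ) : ℝ) * I - a) * (((1 : ℤ) : ℝ) - ((2 : ℤ) : ℝ) * I - ((2 : ℤ) : ℝ) * a) * (((1 : ℤ) : ℝ) - ((2 : ℤ) : ℝ) * I) * (((1 : ℤ) : ℝ) - ((2 : ℤ) : ℝ) * I)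
      push_cast; positivity)
    rw [show (P.co Ex.num (Ex.var 0) (Ex.var 1) (Ex.var 2) (Ex.num 1)).GGT.eval
      (vec4 a I X 0) = (P.co kR a I X 1).GGT from congrArg Co.GGT ec, val_GG0100] at q
    change |cGG0100 a I X / (((10 : ℤ) : ℝ) * (((1 : ℤ) : ℝ) - ((2 : ℤ) : ℝ) * I - a) * (((1 : ℤ) : ℝ) - ((2 : ℤ) : ℝ) * I - ((2 : ℤ) : ℝ) * a) * (((1 : ℤ) : ℝ) - ((2 : ℤ) : ℝ) * I) * (((1 : ℤ) : ℝ) - ((2 : ℤ) : ℝ) * I)) - _| ≤ _ at q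
    push_cast at q
    exact q
  · have q := approx_at h.GGp ma mb mc (by
      show 0 < ((10 : ℤ) : ℝ) * (((1 : ℤ) : ℝ) - ((2 : ℤ) : ℝ) * I - a) * (((1 : ℤ) : ℝ) - ((2 : ℤ) : ℝ) * I - ((2 : ℤ) : ℝ) * a) * (((1 : ℤ) : ℝ) - ((2 : ℤ) : ℝ) * I) * (((1 : ℤ) : ℝ) - ((2 : ℤ) : ℝ) * I)
      push_cast; positivity)
    rw [show (P.co Ex.num (Ex.var 0) (Ex.var 1) (Ex.var 2) (Ex.num 1)).GGp.eval
      (vec4 a I X 0) = (P.co kR a I X 1).GGp from congrArg Co.GGp ec, val_GG1000] at q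
    change |cGG1000 a I X / (((10 : ℤ) : ℝ) * (((1 : ℤ) : ℝ) - ((2 : ℤ) : ℝ) * I - a) * (((1 : ℤ) : ℝ) - ((2 : ℤ) : ℝ) * I - ((2 : ℤ) : ℝ) * a) * (((1 : ℤ) : ℝ) - ((2 : ℤ) : ℝ) * I) * (((1 : ℤ) : ℝ) - ((2 : ℤ) : ℝ) * I)) - _| ≤ _ at q
    push_cast at q
    exact q
  · have q := approx_at h.GGpT ma mb mc (by
      show 0 < ((10 : ℤ) : ℝ) * (((1 : ℤ) : ℝ) - ((2 : ℤ) : ℝ) * I - a) * (((1 : ℤ) : ℝ) - ((2 : ℤ) : ℝ) * I - ((2 : ℤ) : ℝ) * a) * (((1 : ℤ) : ℝ) - ((2 : ℤ) : ℝ) * I) * (((1 : ℤ) : ℝ) - ((2 : ℤ) : ℝ) * I)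
      push_cast; positivity)
    rw [show (P.co Ex.num (Ex.var 0) (Ex.var 1) (Ex.var 2) (Ex.num 1)).GGpT.eval
      (vec4 a I X 0) = (P.co kR a I X 1).GGpT from congrArg Co.GGpT ec, val_GG1100] at q
    change |cGG1100 a I X / (((10 : ℤ) : ℝ) * (((1 : ℤ) : ℝ) - ((2 : ℤ) : ℝ) * I - a) * (((1 : ℤ) : ℝ) - ((2 : ℤ) : ℝ) * I - ((2 : ℤ) : ℝ) * a) * (((1 : ℤ) : ℝ) - ((2 : ℤ) : ℝ) * I) * (((1 : ℤ) : ℝ) - ((2 : ℤ) : ℝ) * I)) - _| ≤ _ at q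
    push_cast at q
    exact q
  · have q := approx_at h.EG0 ma mb mc (by
      show 0 < ((10 : ℤ) : ℝ) * (((1 : ℤ) : ℝ) - ((2 : ℤ) : ℝ) * I - a) * (((1 : ℤ) : ℝ) - ((2 : ℤ) : ℝ) * I - ((2 : ℤ) : ℝ) * a) * (((1 : ℤ) : ℝ) - ((2 : ℤ) : ℝ) * I - ((2 : ℤ) : ℝ) * a) * (((1 : ℤ) : ℝ) - ((2 : ℤ) : ℝ) * I) * (((1 : ℤ) : ℝ) - ((2 : ℤ) : ℝ) * I)
      push_cast; positivity)
    rw [show (P.co Ex.num (Ex.var 0) (Ex.var 1) (Ex.var 2) (Ex.num 1)).EG0.eval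
      (vec4 a I X 0) = (P.co kR a I X 1).EG0 from congrArg Co.EG0 ec, val_EG0000] at q
    change |cEG0000 a I X / (((10 : ℤ) : ℝ) * (((1 : ℤ) : ℝ) - ((2 : ℤ) : ℝ) * I - a) * (((1 : ℤ) : ℝ) - ((2 : ℤ) : ℝ) * I - ((2 : ℤ) : ℝ) * a) * (((1 : ℤ) : ℝ) - ((2 : ℤ) : ℝ) * I - ((2 : ℤ) : ℝ) * a) * (((1 : ℤ) : ℝ) - ((2 : ℤ) : ℝ) * I) * (((1 : ℤ) : ℝ) - ((2 : ℤ) : ℝ) * I)) - _| ≤ _ at q
    push_cast at q
    exact q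
  · have q := approx_at h.EGg ma mb mc (by
      show 0 < ((10 : ℤ) : ℝ) * (((1 : ℤ) : ℝ) - ((2 : ℤ) : ℝ) * I - a) * (((1 : ℤ) : ℝ) - ((2 : ℤ) : ℝ) * I - ((2 : ℤ) : ℝ) * a) * (((1 : ℤ) : ℝ) - ((2 : ℤ) : ℝ) * I - ((2 : ℤ) : ℝ) * a) * (((1 : ℤ) : ℝ) - ((2 : ℤ) : ℝ) * I) * (((1 : ℤ) : ℝ) - ((2 : ℤ) : ℝ) * I)
      push_cast; positivity)
    rw [show (P.co Ex.num (Ex.var 0) (Ex.var 1) (Ex.var 2) (Ex.num 1)).EGg.eval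
      (vec4 a I X 0) = (P.co kR a I X 1).EGg from congrArg Co.EGg ec, val_EG0010] at q
    change |cEG0010 a I X / (((10 : ℤ) : ℝ) * (((1 : ℤ) : ℝ) - ((2 : ℤ) : ℝ) * I - a) * (((1 : ℤ) : ℝ) - ((2 : ℤ) : ℝ) * I - ((2 : ℤ) : ℝ) * a) * (((1 : ℤ) : ℝ) - ((2 : ℤ) : ℝ) * I - ((2 : ℤ) : ℝ) * a) * (((1 : ℤ) : ℝ) - ((2 : ℤ) : ℝ) * I) * (((1 : ℤ) : ℝ) - ((2 : ℤ) : ℝ) * I)) - _| ≤ _ at q
    push_cast at q
    exact q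
  · have q := approx_at h.EGT ma mb mc (by
      show 0 < ((10 : ℤ) : ℝ) * (((1 : ℤ) : ℝ) - ((2 : ℤ) : ℝ) * I - a) * (((1 : ℤ) : ℝ) - ((2 : ℤ) : ℝ) * I - ((2 : ℤ) : ℝ) * a) * (((1 : ℤ) : ℝ) - ((2 : ℤ) : ℝ) * I - ((2 : ℤ) : ℝ) * a) * (((1 : ℤ) : ℝ) - ((2 : ℤ) : ℝ) * I) * (((1 : ℤ) : ℝ) - ((2 : ℤ) : ℝ) * I)
      push_cast; positivity)
    rw [show (P.co Ex.num (Ex.var 0) (Ex.var 1) (Ex.var 2) (Ex.num 1)).EGT.eval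
      (vec4 a I X 0) = (P.co kR a I X 1).EGT from congrArg Co.EGT ec, val_EG0100] at q
    change |cEG0100 a I X / (((10 : ℤ) : ℝ) * (((1 : ℤ) : ℝ) - ((2 : ℤ) : ℝ) * I - a) * (((1 : ℤ) : ℝ) - ((2 : ℤ) : ℝ) * I - ((2 : ℤ) : ℝ) * a) * (((1 : ℤ) : ℝ) - ((2 : ℤ) : ℝ) * I - ((2 : ℤ) : ℝ) * a) * (((1 : ℤ) : ℝ) - ((2 : ℤ) : ℝ) * I) * (((1 : ℤ) : ℝ) - ((2 : ℤ) : ℝ) * I)) - _| ≤ _ at q
    push_cast at q
    exact q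
  · have q := approx_at h.EGTg ma mb mc (by
      show 0 < ((10 : ℤ) : ℝ) * (((1 : ℤ) : ℝ) - ((2 : ℤ) : ℝ) * I - a) * (((1 : ℤ) : ℝ) - ((2 : ℤ) : ℝ) * I - ((2 : ℤ) : ℝ) * a) * (((1 : ℤ) : ℝ) - ((2 : ℤ) : ℝ) * I - ((2 : ℤ) : ℝ) * a) * (((1 : ℤ) : ℝ) - ((2 : ℤ) : ℝ) * I) * (((1 : ℤ) : ℝ) - ((2 : ℤ) : ℝ) * I)
      push_cast; positivity)
    rw [show (P.co Ex.num (Ex.var 0) (Ex.var 1) (Ex.var 2) (Ex.num 1)).EGTg.eval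
      (vec4 a I X 0) = (P.co kR a I X 1).EGTg from congrArg Co.EGTg ec, val_EG0110] at q
    change |cEG0110 a I X / (((10 : ℤ) : ℝ) * (((1 : ℤ) : ℝ) - ((2 : ℤ) : ℝ) * I - a) * (((1 : ℤ) : ℝ) - ((2 : ℤ) : ℝ) * I - ((2 : ℤ) : ℝ) * a) * (((1 : ℤ) : ℝ) - ((2 : ℤ) : ℝ) * I - ((2 : ℤ) : ℝ) * a) * (((1 : ℤ) : ℝ) - ((2 : ℤ) : ℝ) * I) * (((1 : ℤ) : ℝ) - ((2 : ℤ) : ℝ) * I)) - _| ≤ _ at q
    push_cast at q
    exact q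
  · have q := approx_at h.EGp ma mb mc (by
      show 0 < ((10 : ℤ) : ℝ) * (((1 : ℤ) : ℝ) - ((2 : ℤ) : ℝ) * I - a) * (((1 : ℤ) : ℝ) - ((2 : ℤ) : ℝ) * I - ((2 : ℤ) : ℝ) * a) * (((1 : ℤ) : ℝ) - ((2 : ℤ) : ℝ) * I - ((2 : ℤ) : ℝ) * a) * (((1 : ℤ) : ℝ) - ((2 : ℤ) : ℝ) * I) * (((1 : ℤ) : ℝ) - ((2 : ℤ) : ℝ) * I)
      push_cast; positivity)
    rw [show (P.co Ex.num (Ex.var 0) (Ex.var 1) (Ex.var 2) (Ex.num 1)).EGp.eval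
      (vec4 a I X 0) = (P.co kR a I X 1).EGp from congrArg Co.EGp ec, val_EG1000] at q
    change |cEG1000 a I X / (((10 : ℤ) : ℝ) * (((1 : ℤ) : ℝ) - ((2 : ℤ) : ℝ) * I - a) * (((1 : ℤ) : ℝ) - ((2 : ℤ) : ℝ) * I - ((2 : ℤ) : ℝ) * a) * (((1 : ℤ) : ℝ) - ((2 : ℤ) : ℝ) * I - ((2 : ℤ) : ℝ) * a) * (((1 : ℤ) : ℝ) - ((2 : ℤ) : ℝ) * I) * (((1 : ℤ) : ℝ) - ((2 : ℤ) : ℝ) * I)) - _| ≤ _ at q
    push_cast at q
    exact q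
  · have q := approx_at h.EGpT ma mb mc (by
      show 0 < ((10 : ℤ) : ℝ) * (((1 : ℤ) : ℝ) - ((2 : ℤ) : ℝ) * I - a) * (((1 : ℤ) : ℝ) - ((2 : ℤ) : ℝ) * I - ((2 : ℤ) : ℝ) * a) * (((1 : ℤ) : ℝ) - ((2 : ℤ) : ℝ) * I - ((2 : ℤ) : ℝ) * a) * (((1 : ℤ) : ℝ) - ((2 : ℤ) : ℝ) * I) * (((1 : ℤ) : ℝ) - ((2 : ℤ) : ℝ) * I)
      push_cast; positivity)
    rw [show (P.co Ex.num (Ex.var 0) (Ex.var 1) (Ex.var 2) (Ex.num 1)).EGpT.eval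
      (vec4 a I X 0) = (P.co kR a I X 1).EGpT from congrArg Co.EGpT ec, val_EG1100] at q
    change |cEG1100 a I X / (((10 : ℤ) : ℝ) * (((1 : ℤ) : ℝ) - ((2 : ℤ) : ℝ) * I - a) * (((1 : ℤ) : ℝ) - ((2 : ℤ) : ℝ) * I - ((2 : ℤ) : ℝ) * a) * (((1 : ℤ) : ℝ) - ((2 : ℤ) : ℝ) * I - ((2 : ℤ) : ℝ) * a) * (((1 : ℤ) : ℝ) - ((2 : ℤ) : ℝ) * I) * (((1 : ℤ) : ℝ) - ((2 : ℤ) : ℝ) * I)) - _| ≤ _ at q
    push_cast at q
    exact q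
  · have q := approx_at h.LE0 ma mb mc (by
      show 0 < ((10 : ℤ) : ℝ) * (((1 : ℤ) : ℝ) - ((2 : ℤ) : ℝ) * I - a) * (((1 : ℤ) : ℝ) - ((2 : ℤ) : ℝ) * I) * (((1 : ℤ) : ℝ) - ((2 : ℤ) : ℝ) * I)
      push_cast; positivity)
    rw [show (P.co Ex.num (Ex.var 0) (Ex.var 1) (Ex.var 2) (Ex.num 1)).LE0.eval
      (vec4 a I X 0) = (P.co kR a I X 1).LE0 from congrArg Co.LE0 ec, val_LE0000] at q
    change |cLE0000 a I X / (((10 : ℤ) : ℝ) * (((1 : ℤ) : ℝ) - ((2 : ℤ) : ℝ) * I - a) * (((1 : ℤ) : ℝ) - ((2 : ℤ) : ℝ) * I) * (((1 : ℤ) : ℝ) - ((2 : ℤ) : ℝ) * I)) - _| ≤ _ at q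
    push_cast at q
    exact q
  · have q := approx_at h.LEw ma mb mc (by
      show 0 < ((10 : ℤ) : ℝ) * (((1 : ℤ) : ℝ) - ((2 : ℤ) : ℝ) * I - a) * (((1 : ℤ) : ℝ) - ((2 : ℤ) : ℝ) * I) * (((1 : ℤ) : ℝ) - ((2 : ℤ) : ℝ) * I)
      push_cast; positivity)
    rw [show (P.co Ex.num (Ex.var 0) (Ex.var 1) (Ex.var 2) (Ex.num 1)).LEw.eval
      (vec4 a I X 0) = (P.co kR a I X 1).LEw from congrArg Co.LEw ec, val_LE0001] at q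
    change |cLE0001 a I X / (((10 : ℤ) : ℝ) * (((1 : ℤ) : ℝ) - ((2 : ℤ) : ℝ) * I - a) * (((1 : ℤ) : ℝ) - ((2 : ℤ) : ℝ) * I) * (((1 : ℤ) : ℝ) - ((2 : ℤ) : ℝ) * I)) - _| ≤ _ at q
    push_cast at q
    exact q
  · have q := approx_at h.LEg ma mb mc (by
      show 0 < ((10 : ℤ) : ℝ) * (((1 : ℤ) : ℝ) - ((2 : ℤ) : ℝ) * I - a) * (((1 : ℤ) : ℝ) - ((2 : ℤ) : ℝ) * I) * (((1 : ℤ) : ℝ) - ((2 : ℤ) : ℝ) * I)
      push_cast; positivity)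
    rw [show (P.co Ex.num (Ex.var 0) (Ex.var 1) (Ex.var 2) (Ex.num 1)).LEg.eval
      (vec4 a I X 0) = (P.co kR a I X 1).LEg from congrArg Co.LEg ec, val_LE0010] at q
    change |cLE0010 a I X / (((10 : ℤ) : ℝ) * (((1 : ℤ) : ℝ) - ((2 : ℤ) : ℝ) * I - a) * (((1 : ℤ) : ℝ) - ((2 : ℤ) : ℝ) * I) * (((1 : ℤ) : ℝ) - ((2 : ℤ) : ℝ) * I)) - _| ≤ _ at q
    push_cast at q
    exact q
  · have q := approx_at h.LET ma mb mc (by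
      show 0 < ((10 : ℤ) : ℝ) * (((1 : ℤ) : ℝ) - ((2 : ℤ) : ℝ) * I - a) * (((1 : ℤ) : ℝ) - ((2 : ℤ) : ℝ) * I) * (((1 : ℤ) : ℝ) - ((2 : ℤ) : ℝ) * I)
      push_cast; positivity)
    rw [show (P.co Ex.num (Ex.var 0) (Ex.var 1) (Ex.var 2) (Ex.num 1)).LET.eval
      (vec4 a I X 0) = (P.co kR a I X 1).LET from congrArg Co.LET ec, val_LE0100] at q
    change |cLE0100 a I X / (((10 : ℤ) : ℝ) * (((1 : ℤ) : ℝ) - ((2 : ℤ) : ℝ) * I - a) * (((1 : ℤ) : ℝ) - ((2 : ℤ) : ℝ) * I) * (((1 : ℤ) : ℝ) - ((2 : ℤ) : ℝ) * I)) - _| ≤ _ at q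
    push_cast at q
    exact q
  · have q := approx_at h.LETg ma mb mc (by
      show 0 < ((10 : ℤ) : ℝ) * (((1 : ℤ) : ℝ) - ((2 : ℤ) : ℝ) * I - a) * (((1 : ℤ) : ℝ) - ((2 : ℤ) : ℝ) * I) * (((1 : ℤ) : ℝ) - ((2 : ℤ) : ℝ) * I)
      push_cast; positivity)
    rw [show (P.co Ex.num (Ex.var 0) (Ex.var 1) (Ex.var 2) (Ex.num 1)).LETg.eval
      (vec4 a I X 0) = (P.co kR a I X 1).LETg from congrArg Co.LETg ec, val_LE0110] at q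
    change |cLE0110 a I X / (((10 : ℤ) : ℝ) * (((1 : ℤ) : ℝ) - ((2 : ℤ) : ℝ) * I - a) * (((1 : ℤ) : ℝ) - ((2 : ℤ) : ℝ) * I) * (((1 : ℤ) : ℝ) - ((2 : ℤ) : ℝ) * I)) - _| ≤ _ at q
    push_cast at q
    exact q
  · have q := approx_at h.LEp ma mb mc (by
      show 0 < ((10 : ℤ) : ℝ) * (((1 : ℤ) : ℝ) - ((2 : ℤ) : ℝ) * I - a) * (((1 : ℤ) : ℝ) - ((2 : ℤ) : ℝ) * I) * (((1 : ℤ) : ℝ) - ((2 : ℤ) : ℝ) * I)
      push_cast; positivity)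
    rw [show (P.co Ex.num (Ex.var 0) (Ex.var 1) (Ex.var 2) (Ex.num 1)).LEp.eval
      (vec4 a I X 0) = (P.co kR a I X 1).LEp from congrArg Co.LEp ec, val_LE1000] at q
    change |cLE1000 a I X / (((10 : ℤ) : ℝ) * (((1 : ℤ) : ℝ) - ((2 : ℤ) : ℝ) * I - a) * (((1 : ℤ) : ℝ) - ((2 : ℤ) : ℝ) * I) * (((1 : ℤ) : ℝ) - ((2 : ℤ) : ℝ) * I)) - _| ≤ _ at q
    push_cast at q
    exact q
  · have q := approx_at h.LEpw ma mb mc (by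
      show 0 < ((10 : ℤ) : ℝ) * (((1 : ℤ) : ℝ) - ((2 : ℤ) : ℝ) * I - a) * (((1 : ℤ) : ℝ) - ((2 : ℤ) : ℝ) * I) * (((1 : ℤ) : ℝ) - ((2 : ℤ) : ℝ) * I)
      push_cast; positivity)
    rw [show (P.co Ex.num (Ex.var 0) (Ex.var 1) (Ex.var 2) (Ex.num 1)).LEpw.eval
      (vec4 a I X 0) = (P.co kR a I X 1).LEpw from congrArg Co.LEpw ec, val_LE1001] at q
    change |cLE1001 a I X / (((10 : ℤ) : ℝ) * (((1 : ℤ) : ℝ) - ((2 : ℤ) : ℝ) * I - a) * (((1 : ℤ) : ℝ) - ((2 : ℤ) : ℝ) * I) * (((1 : ℤ) : ℝ) - ((2 : ℤ) : ℝ) * I)) - _| ≤ _ at q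
    push_cast at q
    exact q
  · have q := approx_at h.LEpT ma mb mc (by
      show 0 < ((10 : ℤ) : ℝ) * (((1 : ℤ) : ℝ) - ((2 : ℤ) : ℝ) * I - a) * (((1 : ℤ) : ℝ) - ((2 : ℤ) : ℝ) * I) * (((1 : ℤ) : ℝ) - ((2 : ℤ) : ℝ) * I)
      push_cast; positivity)
    rw [show (P.co Ex.num (Ex.var 0) (Ex.var 1) (Ex.var 2) (Ex.num 1)).LEpT.eval
      (vec4 a I X 0) = (P.co kR a I X 1).LEpT from congrArg Co.LEpT ec, val_LE1100] at q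
    change |cLE1100 a I X / (((10 : ℤ) : ℝ) * (((1 : ℤ) : ℝ) - ((2 : ℤ) : ℝ) * I - a) * (((1 : ℤ) : ℝ) - ((2 : ℤ) : ℝ) * I) * (((1 : ℤ) : ℝ) - ((2 : ℤ) : ℝ) * I)) - _| ≤ _ at q
    push_cast at q
    exact q
  · have q := approx_at h.LEpp ma mb mc (by
      show 0 < ((10 : ℤ) : ℝ) * (((1 : ℤ) : ℝ) - ((2 : ℤ) : ℝ) * I - a) * (((1 : ℤ) : ℝ) - ((2 : ℤ) : ℝ) * I) * (((1 : ℤ) : ℝ) - ((2 : ℤ) : ℝ) * I)
      push_cast; positivity)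
    rw [show (P.co Ex.num (Ex.var 0) (Ex.var 1) (Ex.var 2) (Ex.num 1)).LEpp.eval
      (vec4 a I X 0) = (P.co kR a I X 1).LEpp from congrArg Co.LEpp ec, val_LE2000] at q
    change |cLE2000 a I X / (((10 : ℤ) : ℝ) * (((1 : ℤ) : ℝ) - ((2 : ℤ) : ℝ) * I - a) * (((1 : ℤ) : ℝ) - ((2 : ℤ) : ℝ) * I) * (((1 : ℤ) : ℝ) - ((2 : ℤ) : ℝ) * I)) - _| ≤ _ at q
    push_cast at q
    exact q
  · have q := approx_at h.LM0 ma mb mc (by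
      show 0 < ((10 : ℤ) : ℝ) * (((1 : ℤ) : ℝ) - ((2 : ℤ) : ℝ) * I - a) * (((1 : ℤ) : ℝ) - ((2 : ℤ) : ℝ) * I - ((2 : ℤ) : ℝ) * a) * (((1 : ℤ) : ℝ) - ((2 : ℤ) : ℝ) * I) * (((1 : ℤ) : ℝ) - ((2 : ℤ) : ℝ) * I)
      push_cast; positivity)
    rw [show (P.co Ex.num (Ex.var 0) (Ex.var 1) (Ex.var 2) (Ex.num 1)).LM0.eval
      (vec4 a I X 0) = (P.co kR a I X 1).LM0 from congrArg Co.LM0 ec, val_LM0000] at q
    change |cLM0000 a I X / (((10 : ℤ) : ℝ) * (((1 : ℤ) : ℝ) - ((2 : ℤ) : ℝ) * I - a) * (((1 : ℤ) : ℝ) - ((2 : ℤ) : ℝ) * I - ((2 : ℤ) : ℝ) * a) * (((1 : ℤ) : ℝ) - ((2 : ℤ) : ℝ) * I) * (((1 : ℤ) : ℝ) - ((2 : ℤ) : ℝ) * I)) - _| ≤ _ at q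
    push_cast at q
    exact q
  · have q := approx_at h.LMw ma mb mc (by
      show 0 < ((10 : ℤ) : ℝ) * (((1 : ℤ) : ℝ) - ((2 : ℤ) : ℝ) * I - a) * (((1 : ℤ) : ℝ) - ((2 : ℤ) : ℝ) * I - ((2 : ℤ) : ℝ) * a) * (((1 : ℤ) : ℝ) - ((2 : ℤ) : ℝ) * I) * (((1 : ℤ) : ℝ) - ((2 : ℤ) : ℝ) * I)
      push_cast; positivity)
    rw [show (P.co Ex.num (Ex.var 0) (Ex.var 1) (Ex.var 2) (Ex.num 1)).LMw.eval
      (vec4 a I X 0) = (P.co kR a I X 1).LMw from congrArg Co.LMw ec, val_LM0001] at q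
    change |cLM0001 a I X / (((10 : ℤ) : ℝ) * (((1 : ℤ) : ℝ) - ((2 : ℤ) : ℝ) * I - a) * (((1 : ℤ) : ℝ) - ((2 : ℤ) : ℝ) * I - ((2 : ℤ) : ℝ) * a) * (((1 : ℤ) : ℝ) - ((2 : ℤ) : ℝ) * I) * (((1 : ℤ) : ℝ) - ((2 : ℤ) : ℝ) * I)) - _| ≤ _ at q
    push_cast at q
    exact q
  · have q := approx_at h.LMg ma mb mc (by
      show 0 < ((10 : ℤ) : ℝ) * (((1 : ℤ) : ℝ) - ((2 : ℤ) : ℝ) * I - a) * (((1 : ℤ) : ℝ) - ((2 : ℤ) : ℝ) * I - ((2 : ℤ) : ℝ) * a) * (((1 : ℤ) : ℝ) - ((2 : ℤ) : ℝ) * I) * (((1 : ℤ) : ℝ) - ((2 : ℤ) : ℝ) * I)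
      push_cast; positivity)
    rw [show (P.co Ex.num (Ex.var 0) (Ex.var 1) (Ex.var 2) (Ex.num 1)).LMg.eval
      (vec4 a I X 0) = (P.co kR a I X 1).LMg from congrArg Co.LMg ec, val_LM0010] at q
    change |cLM0010 a I X / (((10 : ℤ) : ℝ) * (((1 : ℤ) : ℝ) - ((2 : ℤ) : ℝ) * I - a) * (((1 : ℤ) : ℝ) - ((2 : ℤ) : ℝ) * I - ((2 : ℤ) : ℝ) * a) * (((1 : ℤ) : ℝ) - ((2 : ℤ) : ℝ) * I) * (((1 : ℤ) : ℝ) - ((2 : ℤ) : ℝ) * I)) - _| ≤ _ at q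
    push_cast at q
    exact q
  · have q := approx_at h.LMT ma mb mc (by
      show 0 < ((10 : ℤ) : ℝ) * (((1 : ℤ) : ℝ) - ((2 : ℤ) : ℝ) * I - a) * (((1 : ℤ) : ℝ) - ((2 : ℤ) : ℝ) * I - ((2 : ℤ) : ℝ) * a) * (((1 : ℤ) : ℝ) - ((2 : ℤ) : ℝ) * I) * (((1 : ℤ) : ℝ) - ((2 : ℤ) : ℝ) * I)
      push_cast; positivity)
    rw [show (P.co Ex.num (Ex.var 0) (Ex.var 1) (Ex.var 2) (Ex.num 1)).LMT.eval
      (vec4 a I X 0) = (P.co kR a I X 1).LMT from congrArg Co.LMT ec, val_LM0100] at q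
    change |cLM0100 a I X / (((10 : ℤ) : ℝ) * (((1 : ℤ) : ℝ) - ((2 : ℤ) : ℝ) * I - a) * (((1 : ℤ) : ℝ) - ((2 : ℤ) : ℝ) * I - ((2 : ℤ) : ℝ) * a) * (((1 : ℤ) : ℝ) - ((2 : ℤ) : ℝ) * I) * (((1 : ℤ) : ℝ) - ((2 : ℤ) : ℝ) * I)) - _| ≤ _ at q
    push_cast at q
    exact q
  · have q := approx_at h.LMTg ma mb mc (by
      show 0 < ((10 : ℤ) : ℝ) * (((1 : ℤ) : ℝ) - ((2 : ℤ) : ℝ) * I - a) * (((1 : ℤ) : ℝ) - ((2 : ℤ) : ℝ) * I - ((2 : ℤ) : ℝ) * a) * (((1 : ℤ) : ℝ) - ((2 : ℤ) : ℝ) * I) * (((1 : ℤ) : ℝ) - ((2 : ℤ) : ℝ) * I)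
      push_cast; positivity)
    rw [show (P.co Ex.num (Ex.var 0) (Ex.var 1) (Ex.var 2) (Ex.num 1)).LMTg.eval
      (vec4 a I X 0) = (P.co kR a I X 1).LMTg from congrArg Co.LMTg ec, val_LM0110] at q
    change |cLM0110 a I X / (((10 : ℤ) : ℝ) * (((1 : ℤ) : ℝ) - ((2 : ℤ) : ℝ) * I - a) * (((1 : ℤ) : ℝ) - ((2 : ℤ) : ℝ) * I - ((2 : ℤ) : ℝ) * a) * (((1 : ℤ) : ℝ) - ((2 : ℤ) : ℝ) * I) * (((1 : ℤ) : ℝ) - ((2 : ℤ) : ℝ) * I)) - _| ≤ _ at q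
    push_cast at q
    exact q
  · have q := approx_at h.LMp ma mb mc (by
      show 0 < ((10 : ℤ) : ℝ) * (((1 : ℤ) : ℝ) - ((2 : ℤ) : ℝ) * I - a) * (((1 : ℤ) : ℝ) - ((2 : ℤ) : ℝ) * I - ((2 : ℤ) : ℝ) * a) * (((1 : ℤ) : ℝ) - ((2 : ℤ) : ℝ) * I) * (((1 : ℤ) : ℝ) - ((2 : ℤ) : ℝ) * I)
      push_cast; positivity)
    rw [show (P.co Ex.num (Ex.var 0) (Ex.var 1) (Ex.var 2) (Ex.num 1)).LMp.eval
      (vec4 a I X 0) = (P.co kR a I X 1).LMp from congrArg Co.LMp ec, val_LM1000] at q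
    change |cLM1000 a I X / (((10 : ℤ) : ℝ) * (((1 : ℤ) : ℝ) - ((2 : ℤ) : ℝ) * I - a) * (((1 : ℤ) : ℝ) - ((2 : ℤ) : ℝ) * I - ((2 : ℤ) : ℝ) * a) * (((1 : ℤ) : ℝ) - ((2 : ℤ) : ℝ) * I) * (((1 : ℤ) : ℝ) - ((2 : ℤ) : ℝ) * I)) - _| ≤ _ at q
    push_cast at q
    exact q
  · have q := approx_at h.LMpw ma mb mc (by
      show 0 < ((10 : ℤ) : ℝ) * (((1 : ℤ) : ℝ) - ((2 : ℤ) : ℝ) * I - a) * (((1 : ℤ) : ℝ) - ((2 : ℤ) : ℝ) * I - ((2 : ℤ) : ℝ) * a) * (((1 : ℤ) : ℝ) - ((2 : ℤ) : ℝ) * I) * (((1 : ℤ) : ℝ) - ((2 : ℤ) : ℝ) * I)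
      push_cast; positivity)
    rw [show (P.co Ex.num (Ex.var 0) (Ex.var 1) (Ex.var 2) (Ex.num 1)).LMpw.eval
      (vec4 a I X 0) = (P.co kR a I X 1).LMpw from congrArg Co.LMpw ec, val_LM1001] at q
    change |cLM1001 a I X / (((10 : ℤ) : ℝ) * (((1 : ℤ) : ℝ) - ((2 : ℤ) : ℝ) * I - a) * (((1 : ℤ) : ℝ) - ((2 : ℤ) : ℝ) * I - ((2 : ℤ) : ℝ) * a) * (((1 : ℤ) : ℝ) - ((2 : ℤ) : ℝ) * I) * (((1 : ℤ) : ℝ) - ((2 : ℤ) : ℝ) * I)) - _| ≤ _ at q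
    push_cast at q
    exact q
  · have q := approx_at h.LMpT ma mb mc (by
      show 0 < ((10 : ℤ) : ℝ) * (((1 : ℤ) : ℝ) - ((2 : ℤ) : ℝ) * I - a) * (((1 : ℤ) : ℝ) - ((2 : ℤ) : ℝ) * I - ((2 : ℤ) : ℝ) * a) * (((1 : ℤ) : ℝ) - ((2 : ℤ) : ℝ) * I) * (((1 : ℤ) : ℝ) - ((2 : ℤ) : ℝ) * I)
      push_cast; positivity)
    rw [show (P.co Ex.num (Ex.var 0) (Ex.var 1) (Ex.var 2) (Ex.num 1)).LMpT.eval
      (vec4 a I X 0) = (P.co kR a I X 1).LMpT from congrArg Co.LMpT ec, val_LM1100] at q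
    change |cLM1100 a I X / (((10 : ℤ) : ℝ) * (((1 : ℤ) : ℝ) - ((2 : ℤ) : ℝ) * I - a) * (((1 : ℤ) : ℝ) - ((2 : ℤ) : ℝ) * I - ((2 : ℤ) : ℝ) * a) * (((1 : ℤ) : ℝ) - ((2 : ℤ) : ℝ) * I) * (((1 : ℤ) : ℝ) - ((2 : ℤ) : ℝ) * I)) - _| ≤ _ at q
    push_cast at q
    exact q
  · have q := approx_at h.LMpp ma mb mc (by
      show 0 < ((10 : ℤ) : ℝ) * (((1 : ℤ) : ℝ) - ((2 : ℤ) : ℝ) * I - a) * (((1 : ℤ) : ℝ) - ((2 : ℤ) : ℝ) * I - ((2 : ℤ) : ℝ) * a) * (((1 : ℤ) : ℝ) - ((2 : ℤ) : ℝ) * I) * (((1 : ℤ) : ℝ) - ((2 : ℤ) : ℝ) * I)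
      push_cast; positivity)
    rw [show (P.co Ex.num (Ex.var 0) (Ex.var 1) (Ex.var 2) (Ex.num 1)).LMpp.eval
      (vec4 a I X 0) = (P.co kR a I X 1).LMpp from congrArg Co.LMpp ec, val_LM2000] at q
    change |cLM2000 a I X / (((10 : ℤ) : ℝ) * (((1 : ℤ) : ℝ) - ((2 : ℤ) : ℝ) * I - a) * (((1 : ℤ) : ℝ) - ((2 : ℤ) : ℝ) * I - ((2 : ℤ) : ℝ) * a) * (((1 : ℤ) : ℝ) - ((2 : ℤ) : ℝ) * I) * (((1 : ℤ) : ℝ) - ((2 : ℤ) : ℝ) * I)) - _| ≤ _ at q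
    push_cast at q
    exact q
  · have q := approx_at h.gE0 ma mb mc (by
      show 0 < ((2 : ℤ) : ℝ) * (((1 : ℤ) : ℝ) - ((2 : ℤ) : ℝ) * I - ((2 : ℤ) : ℝ) * a) * (((1 : ℤ) : ℝ) - ((2 : ℤ) : ℝ) * I - ((2 : ℤ) : ℝ) * a) * (((1 : ℤ) : ℝ) - ((2 : ℤ) : ℝ) * I) * (((1 : ℤ) : ℝ) - ((2 : ℤ) : ℝ) * I)
      push_cast; positivity)
    rw [show (P.co Ex.num (Ex.var 0) (Ex.var 1) (Ex.var 2) (Ex.num 1)).gE0.eval
      (vec4 a I X 0) = (P.co kR a I X 1).gE0 from congrArg Co.gE0 ec, val_gE0000] at q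
    change |cgE0000 a I X / (((2 : ℤ) : ℝ) * (((1 : ℤ) : ℝ) - ((2 : ℤ) : ℝ) * I - ((2 : ℤ) : ℝ) * a) * (((1 : ℤ) : ℝ) - ((2 : ℤ) : ℝ) * I - ((2 : ℤ) : ℝ) * a) * (((1 : ℤ) : ℝ) - ((2 : ℤ) : ℝ) * I) * (((1 : ℤ) : ℝ) - ((2 : ℤ) : ℝ) * I)) - _| ≤ _ at q
    push_cast at q
    exact q
  · have q := approx_at h.gEg ma mb mc (by
      show 0 < ((2 : ℤ) : ℝ) * (((1 : ℤ) : ℝ) - ((2 : ℤ) : ℝ) * I - ((2 : ℤ) : ℝ) * a) * (((1 : ℤ) : ℝ) - ((2 : ℤ) : ℝ) * I - ((2 : ℤ) : ℝ) * a) * (((1 : ℤ) : ℝ) - ((2 : ℤ) : ℝ) * I) * (((1 : ℤ) : ℝ) - ((2 : ℤ) : ℝ) * I)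
      push_cast; positivity)
    rw [show (P.co Ex.num (Ex.var 0) (Ex.var 1) (Ex.var 2) (Ex.num 1)).gEg.eval
      (vec4 a I X 0) = (P.co kR a I X 1).gEg from congrArg Co.gEg ec, val_gE0010] at q
    change |cgE0010 a I X / (((2 : ℤ) : ℝ) * (((1 : ℤ) : ℝ) - ((2 : ℤ) : ℝ) * I - ((2 : ℤ) : ℝ) * a) * (((1 : ℤ) : ℝ) - ((2 : ℤ) : ℝ) * I - ((2 : ℤ) : ℝ) * a) * (((1 : ℤ) : ℝ) - ((2 : ℤ) : ℝ) * I) * (((1 : ℤ) : ℝ) - ((2 : ℤ) : ℝ) * I)) - _| ≤ _ at q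
    push_cast at q
    exact q
  · have q := approx_at h.gETg ma mb mc (by
      show 0 < ((2 : ℤ) : ℝ) * (((1 : ℤ) : ℝ) - ((2 : ℤ) : ℝ) * I - ((2 : ℤ) : ℝ) * a) * (((1 : ℤ) : ℝ) - ((2 : ℤ) : ℝ) * I - ((2 : ℤ) : ℝ) * a) * (((1 : ℤ) : ℝ) - ((2 : ℤ) : ℝ) * I) * (((1 : ℤ) : ℝ) - ((2 : ℤ) : ℝ) * I)
      push_cast; positivity)
    rw [show (P.co Ex.num (Ex.var 0) (Ex.var 1) (Ex.var 2) (Ex.num 1)).gETg.eval
      (vec4 a I X 0) = (P.co kR a I X 1).gETg from congrArg Co.gETg ec, val_gE0110] at q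
    change |cgE0110 a I X / (((2 : ℤ) : ℝ) * (((1 : ℤ) : ℝ) - ((2 : ℤ) : ℝ) * I - ((2 : ℤ) : ℝ) * a) * (((1 : ℤ) : ℝ) - ((2 : ℤ) : ℝ) * I - ((2 : ℤ) : ℝ) * a) * (((1 : ℤ) : ℝ) - ((2 : ℤ) : ℝ) * I) * (((1 : ℤ) : ℝ) - ((2 : ℤ) : ℝ) * I)) - _| ≤ _ at q
    push_cast at q
    exact q
  · have q := approx_at h.gEp ma mb mc (by
      show 0 < ((2 : ℤ) : ℝ) * (((1 : ℤ) : ℝ) - ((2 : ℤ) : ℝ) * I - ((2 : ℤ) : ℝ) * a) * (((1 : ℤ) : ℝ) - ((2 : ℤ) : ℝ) * I - ((2 : ℤ) : ℝ) * a) * (((1 : ℤ) : ℝ) - ((2 : ℤ) : ℝ) * I) * (((1 : ℤ) : ℝ) - ((2 : ℤ) : ℝ) * I)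
      push_cast; positivity)
    rw [show (P.co Ex.num (Ex.var 0) (Ex.var 1) (Ex.var 2) (Ex.num 1)).gEp.eval
      (vec4 a I X 0) = (P.co kR a I X 1).gEp from congrArg Co.gEp ec, val_gE1000] at q
    change |cgE1000 a I X / (((2 : ℤ) : ℝ) * (((1 : ℤ) : ℝ) - ((2 : ℤ) : ℝ) * I - ((2 : ℤ) : ℝ) * a) * (((1 : ℤ) : ℝ) - ((2 : ℤ) : ℝ) * I - ((2 : ℤ) : ℝ) * a) * (((1 : ℤ) : ℝ) - ((2 : ℤ) : ℝ) * I) * (((1 : ℤ) : ℝ) - ((2 : ℤ) : ℝ) * I)) - _| ≤ _ at q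
    push_cast at q
    exact q
  · have q := approx_at h.gG0 ma mb mc (by
      show 0 < ((2 : ℤ) : ℝ)
      push_cast; positivity)
    rw [show (P.co Ex.num (Ex.var 0) (Ex.var 1) (Ex.var 2) (Ex.num 1)).gG0.eval
      (vec4 a I X 0) = (P.co kR a I X 1).gG0 from congrArg Co.gG0 ec, val_gG0000] at q
    change |cgG0000 a I X / (((2 : ℤ) : ℝ)) - _| ≤ _ at q
    push_cast at q
    exact q
  · have q := approx_at h.gGp ma mb mc (by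
      show 0 < ((2 : ℤ) : ℝ)
      push_cast; positivity)
    rw [show (P.co Ex.num (Ex.var 0) (Ex.var 1) (Ex.var 2) (Ex.num 1)).gGp.eval
      (vec4 a I X 0) = (P.co kR a I X 1).gGp from congrArg Co.gGp ec, val_gG1000] at q
    change |cgG1000 a I X / (((2 : ℤ) : ℝ)) - _| ≤ _ at q
    push_cast at q
    exact q
  · have q := approx_at h.hE0 ma mb mc (by
      show 0 < ((2 : ℤ) : ℝ)
      push_cast; positivity)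
    rw [show (P.co Ex.num (Ex.var 0) (Ex.var 1) (Ex.var 2) (Ex.num 1)).hE0.eval
      (vec4 a I X 0) = (P.co kR a I X 1).hE0 from congrArg Co.hE0 ec, val_hE0000] at q
    change |chE0000 a I X / (((2 : ℤ) : ℝ)) - _| ≤ _ at q
    push_cast at q
    exact q
  · have q := approx_at h.hEp ma mb mc (by
      show 0 < ((2 : ℤ) : ℝ)
      push_cast; positivity)
    rw [show (P.co Ex.num (Ex.var 0) (Ex.var 1) (Ex.var 2) (Ex.num 1)).hEp.eval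
      (vec4 a I X 0) = (P.co kR a I X 1).hEp from congrArg Co.hEp ec, val_hE1000] at q
    change |chE1000 a I X / (((2 : ℤ) : ℝ)) - _| ≤ _ at q
    push_cast at q
    exact q
  · have q := approx_at h.hG0 ma mb mc (by
      show 0 < ((10 : ℤ) : ℝ) * (((1 : ℤ) : ℝ) - ((2 : ℤ) : ℝ) * I - a) * (((1 : ℤ) : ℝ) - ((2 : ℤ) : ℝ) * I - ((2 : ℤ) : ℝ) * a) * (((1 : ℤ) : ℝ) - ((2 : ℤ) : ℝ) * I - ((2 : ℤ) : ℝ) * a) * (((1 : ℤ) : ℝ) - ((2 : ℤ) : ℝ) * I) * (((1 : ℤ) : ℝ) - ((2 : ℤ) : ℝ) * I)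
      push_cast; positivity)
    rw [show (P.co Ex.num (Ex.var 0) (Ex.var 1) (Ex.var 2) (Ex.num 1)).hG0.eval
      (vec4 a I X 0) = (P.co kR a I X 1).hG0 from congrArg Co.hG0 ec, val_hG0000] at q
    change |chG0000 a I X / (((10 : ℤ) : ℝ) * (((1 : ℤ) : ℝ) - ((2 : ℤ) : ℝ) * I - a) * (((1 : ℤ) : ℝ) - ((2 : ℤ) : ℝ) * I - ((2 : ℤ) : ℝ) * a) * (((1 : ℤ) : ℝ) - ((2 : ℤ) : ℝ) * I - ((2 : ℤ) : ℝ) * a) * (((1 : ℤ) : ℝ) - ((2 : ℤ) : ℝ) * I) * (((1 : ℤ) : ℝ) - ((2 : ℤ) : ℝ) * I)) - _| ≤ _ at q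
    push_cast at q
    exact q
  · have q := approx_at h.hGT ma mb mc (by
      show 0 < ((10 : ℤ) : ℝ) * (((1 : ℤ) : ℝ) - ((2 : ℤ) : ℝ) * I - a) * (((1 : ℤ) : ℝ) - ((2 : ℤ) : ℝ) * I - ((2 : ℤ) : ℝ) * a) * (((1 : ℤ) : ℝ) - ((2 : ℤ) : ℝ) * I - ((2 : ℤ) : ℝ) * a) * (((1 : ℤ) : ℝ) - ((2 : ℤ) : ℝ) * I) * (((1 : ℤ) : ℝ) - ((2 : ℤ) : ℝ) * I)
      push_cast; positivity)
    rw [show (P.co Ex.num (Ex.var 0) (Ex.var 1) (Ex.var 2) (Ex.num 1)).hGT.eval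
      (vec4 a I X 0) = (P.co kR a I X 1).hGT from congrArg Co.hGT ec, val_hG0100] at q
    change |chG0100 a I X / (((10 : ℤ) : ℝ) * (((1 : ℤ) : ℝ) - ((2 : ℤ) : ℝ) * I - a) * (((1 : ℤ) : ℝ) - ((2 : ℤ) : ℝ) * I - ((2 : ℤ) : ℝ) * a) * (((1 : ℤ) : ℝ) - ((2 : ℤ) : ℝ) * I - ((2 : ℤ) : ℝ) * a) * (((1 : ℤ) : ℝ) - ((2 : ℤ) : ℝ) * I) * (((1 : ℤ) : ℝ) - ((2 : ℤ) : ℝ) * I)) - _| ≤ _ at q
    push_cast at q
    exact q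
  · have q := approx_at h.hGp ma mb mc (by
      show 0 < ((10 : ℤ) : ℝ) * (((1 : ℤ) : ℝ) - ((2 : ℤ) : ℝ) * I - a) * (((1 : ℤ) : ℝ) - ((2 : ℤ) : ℝ) * I - ((2 : ℤ) : ℝ) * a) * (((1 : ℤ) : ℝ) - ((2 : ℤ) : ℝ) * I - ((2 : ℤ) : ℝ) * a) * (((1 : ℤ) : ℝ) - ((2 : ℤ) : ℝ) * I) * (((1 : ℤ) : ℝ) - ((2 : ℤ) : ℝ) * I)
      push_cast; positivity)
    rw [show (P.co Ex.num (Ex.var 0) (Ex.var 1) (Ex.var 2) (Ex.num 1)).hGp.eval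
      (vec4 a I X 0) = (P.co kR a I X 1).hGp from congrArg Co.hGp ec, val_hG1000] at q
    change |chG1000 a I X / (((10 : ℤ) : ℝ) * (((1 : ℤ) : ℝ) - ((2 : ℤ) : ℝ) * I - a) * (((1 : ℤ) : ℝ) - ((2 : ℤ) : ℝ) * I - ((2 : ℤ) : ℝ) * a) * (((1 : ℤ) : ℝ) - ((2 : ℤ) : ℝ) * I - ((2 : ℤ) : ℝ) * a) * (((1 : ℤ) : ℝ) - ((2 : ℤ) : ℝ) * I) * (((1 : ℤ) : ℝ) - ((2 : ℤ) : ℝ) * I)) - _| ≤ _ at q
    push_cast at q
    exact q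
  · have q := approx_at h.hM0 ma mb mc (by
      show 0 < ((1 : ℤ) : ℝ)
      push_cast; positivity)
    rw [show (P.co Ex.num (Ex.var 0) (Ex.var 1) (Ex.var 2) (Ex.num 1)).hM0.eval
      (vec4 a I X 0) = (P.co kR a I X 1).hM0 from congrArg Co.hM0 ec, val_hM0000] at q
    change |chM0000 a I X / (((1 : ℤ) : ℝ)) - _| ≤ _ at q
    push_cast at q
    exact q
  · have q := approx_at h.hMp ma mb mc (by
      show 0 < ((1 : ℤ) : ℝ)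
      push_cast; positivity)
    rw [show (P.co Ex.num (Ex.var 0) (Ex.var 1) (Ex.var 2) (Ex.num 1)).hMp.eval
      (vec4 a I X 0) = (P.co kR a I X 1).hMp from congrArg Co.hMp ec, val_hM1000] at q
    change |chM1000 a I X / (((1 : ℤ) : ℝ)) - _| ≤ _ at q
    push_cast at q
    exact q
  · have q := approx_at h.N0 ma mb mc (by
      show 0 < ((2 : ℤ) : ℝ) * (((1 : ℤ) : ℝ) - ((2 : ℤ) : ℝ) * I - ((2 : ℤ) : ℝ) * a)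
      push_cast; positivity)
    rw [show (P.co Ex.num (Ex.var 0) (Ex.var 1) (Ex.var 2) (Ex.num 1)).N0.eval
      (vec4 a I X 0) = (P.co kR a I X 1).N0 from congrArg Co.N0 ec, val_N0000] at q
    change |cN0000 a I X / (((2 : ℤ) : ℝ) * (((1 : ℤ) : ℝ) - ((2 : ℤ) : ℝ) * I - ((2 : ℤ) : ℝ) * a)) - _| ≤ _ at q
    push_cast at q
    exact q
  · have q := approx_at h.Nw ma mb mc (by
      show 0 < ((2 : ℤ) : ℝ) * (((1 : ℤ) : ℝ) - ((2 : ℤ) : ℝ) * I - ((2 : ℤ) : ℝ) * a)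
      push_cast; positivity)
    rw [show (P.co Ex.num (Ex.var 0) (Ex.var 1) (Ex.var 2) (Ex.num 1)).Nw.eval
      (vec4 a I X 0) = (P.co kR a I X 1).Nw from congrArg Co.Nw ec, val_N0001] at q
    change |cN0001 a I X / (((2 : ℤ) : ℝ) * (((1 : ℤ) : ℝ) - ((2 : ℤ) : ℝ) * I - ((2 : ℤ) : ℝ) * a)) - _| ≤ _ at q
    push_cast at q
    exact q
  · have q := approx_at h.Ng ma mb mc (by
      show 0 < ((2 : ℤ) : ℝ) * (((1 : ℤ) : ℝ) - ((2 : ℤ) : ℝ) * I - ((2 : ℤ) : ℝ) * a)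
      push_cast; positivity)
    rw [show (P.co Ex.num (Ex.var 0) (Ex.var 1) (Ex.var 2) (Ex.num 1)).Ng.eval
      (vec4 a I X 0) = (P.co kR a I X 1).Ng from congrArg Co.Ng ec, val_N0010] at q
    change |cN0010 a I X / (((2 : ℤ) : ℝ) * (((1 : ℤ) : ℝ) - ((2 : ℤ) : ℝ) * I - ((2 : ℤ) : ℝ) * a)) - _| ≤ _ at q
    push_cast at q
    exact q
  · have q := approx_at h.NTg ma mb mc (by
      show 0 < ((2 : ℤ) : ℝ) * (((1 : ℤ) : ℝ) - ((2 : ℤ) : ℝ) * I - ((2 : ℤ) : ℝ) * a)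
      push_cast; positivity)
    rw [show (P.co Ex.num (Ex.var 0) (Ex.var 1) (Ex.var 2) (Ex.num 1)).NTg.eval
      (vec4 a I X 0) = (P.co kR a I X 1).NTg from congrArg Co.NTg ec, val_N0110] at q
    change |cN0110 a I X / (((2 : ℤ) : ℝ) * (((1 : ℤ) : ℝ) - ((2 : ℤ) : ℝ) * I - ((2 : ℤ) : ℝ) * a)) - _| ≤ _ at q
    push_cast at q
    exact q
  · have q := approx_at h.Np ma mb mc (by
      show 0 < ((2 : ℤ) : ℝ) * (((1 : ℤ) : ℝ) - ((2 : ℤ) : ℝ) * I - ((2 : ℤ) : ℝ) * a)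
      push_cast; positivity)
    rw [show (P.co Ex.num (Ex.var 0) (Ex.var 1) (Ex.var 2) (Ex.num 1)).Np.eval
      (vec4 a I X 0) = (P.co kR a I X 1).Np from congrArg Co.Np ec, val_N1000] at q
    change |cN1000 a I X / (((2 : ℤ) : ℝ) * (((1 : ℤ) : ℝ) - ((2 : ℤ) : ℝ) * I - ((2 : ℤ) : ℝ) * a)) - _| ≤ _ at q
    push_cast at q
    exact q
  · have q := approx_at h.Npw ma mb mc (by
      show 0 < ((2 : ℤ) : ℝ) * (((1 : ℤ) : ℝ) - ((2 : ℤ) : ℝ) * I - ((2 : ℤ) : ℝ) * a)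
      push_cast; positivity)
    rw [show (P.co Ex.num (Ex.var 0) (Ex.var 1) (Ex.var 2) (Ex.num 1)).Npw.eval
      (vec4 a I X 0) = (P.co kR a I X 1).Npw from congrArg Co.Npw ec, val_N1001] at q
    change |cN1001 a I X / (((2 : ℤ) : ℝ) * (((1 : ℤ) : ℝ) - ((2 : ℤ) : ℝ) * I - ((2 : ℤ) : ℝ) * a)) - _| ≤ _ at q
    push_cast at q
    exact q
  · have q := approx_at h.Npg ma mb mc (by
      show 0 < ((2 : ℤ) : ℝ) * (((1 : ℤ) : ℝ) - ((2 : ℤ) : ℝ) * I - ((2 : ℤ) : ℝ) * a)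
      push_cast; positivity)
    rw [show (P.co Ex.num (Ex.var 0) (Ex.var 1) (Ex.var 2) (Ex.num 1)).Npg.eval
      (vec4 a I X 0) = (P.co kR a I X 1).Npg from congrArg Co.Npg ec, val_N1010] at q
    change |cN1010 a I X / (((2 : ℤ) : ℝ) * (((1 : ℤ) : ℝ) - ((2 : ℤ) : ℝ) * I - ((2 : ℤ) : ℝ) * a)) - _| ≤ _ at q
    push_cast at q
    exact q
  · have q := approx_at h.NpTg ma mb mc (by
      show 0 < ((2 : ℤ) : ℝ) * (((1 : ℤ) : ℝ) - ((2 : ℤ) : ℝ) * I - ((2 : ℤ) : ℝ) * a)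
      push_cast; positivity)
    rw [show (P.co Ex.num (Ex.var 0) (Ex.var 1) (Ex.var 2) (Ex.num 1)).NpTg.eval
      (vec4 a I X 0) = (P.co kR a I X 1).NpTg from congrArg Co.NpTg ec, val_N1110] at q
    change |cN1110 a I X / (((2 : ℤ) : ℝ) * (((1 : ℤ) : ℝ) - ((2 : ℤ) : ℝ) * I - ((2 : ℤ) : ℝ) * a)) - _| ≤ _ at q
    push_cast at q
    exact q
  · have q := approx_at h.Mg ma mb mc (by
      show 0 < ((2 : ℤ) : ℝ) * (((1 : ℤ) : ℝ) - ((2 : ℤ) : ℝ) * I - a) * (((1 : ℤ) : ℝ) - ((2 : ℤ) : ℝ) * I - ((2 : ℤ) : ℝ) * a)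
      push_cast; positivity)
    rw [show (P.co Ex.num (Ex.var 0) (Ex.var 1) (Ex.var 2) (Ex.num 1)).Mg.eval
      (vec4 a I X 0) = (P.co kR a I X 1).Mg from congrArg Co.Mg ec, val_M0010] at q
    change |cM0010 a I X / (((2 : ℤ) : ℝ) * (((1 : ℤ) : ℝ) - ((2 : ℤ) : ℝ) * I - a) * (((1 : ℤ) : ℝ) - ((2 : ℤ) : ℝ) * I - ((2 : ℤ) : ℝ) * a)) - _| ≤ _ at q
    push_cast at q
    exact q
  · have q := approx_at h.MTg ma mb mc (by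
      show 0 < ((2 : ℤ) : ℝ) * (((1 : ℤ) : ℝ) - ((2 : ℤ) : ℝ) * I - a) * (((1 : ℤ) : ℝ) - ((2 : ℤ) : ℝ) * I - ((2 : ℤ) : ℝ) * a)
      push_cast; positivity)
    rw [show (P.co Ex.num (Ex.var 0) (Ex.var 1) (Ex.var 2) (Ex.num 1)).MTg.eval
      (vec4 a I X 0) = (P.co kR a I X 1).MTg from congrArg Co.MTg ec, val_M0110] at q
    change |cM0110 a I X / (((2 : ℤ) : ℝ) * (((1 : ℤ) : ℝ) - ((2 : ℤ) : ℝ) * I - a) * (((1 : ℤ) : ℝ) - ((2 : ℤ) : ℝ) * I - ((2 : ℤ) : ℝ) * a)) - _| ≤ _ at q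
    push_cast at q
    exact q
  · have q := approx_at h.Mpg ma mb mc (by
      show 0 < ((2 : ℤ) : ℝ) * (((1 : ℤ) : ℝ) - ((2 : ℤ) : ℝ) * I - a) * (((1 : ℤ) : ℝ) - ((2 : ℤ) : ℝ) * I - ((2 : ℤ) : ℝ) * a)
      push_cast; positivity)
    rw [show (P.co Ex.num (Ex.var 0) (Ex.var 1) (Ex.var 2) (Ex.num 1)).Mpg.eval
      (vec4 a I X 0) = (P.co kR a I X 1).Mpg from congrArg Co.Mpg ec, val_M1010] at q
    change |cM1010 a I X / (((2 : ℤ) : ℝ) * (((1 : ℤ) : ℝ) - ((2 : ℤ) : ℝ) * I - a) * (((1 : ℤ) : ℝ) - ((2 : ℤ) : ℝ) * I - ((2 : ℤ) : ℝ) * a)) - _| ≤ _ at q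
    push_cast at q
    exact q
  · have q := approx_at h.MpTg ma mb mc (by
      show 0 < ((2 : ℤ) : ℝ) * (((1 : ℤ) : ℝ) - ((2 : ℤ) : ℝ) * I - a) * (((1 : ℤ) : ℝ) - ((2 : ℤ) : ℝ) * I - ((2 : ℤ) : ℝ) * a)
      push_cast; positivity)
    rw [show (P.co Ex.num (Ex.var 0) (Ex.var 1) (Ex.var 2) (Ex.num 1)).MpTg.eval
      (vec4 a I X 0) = (P.co kR a I X 1).MpTg from congrArg Co.MpTg ec, val_M1110] at q
    change |cM1110 a I X / (((2 : ℤ) : ℝ) * (((1 : ℤ) : ℝ) - ((2 : ℤ) : ℝ) * I - a) * (((1 : ℤ) : ℝ) - ((2 : ℤ) : ℝ) * I - ((2 : ℤ) : ℝ) * a)) - _| ≤ _ at q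
    push_cast at q
    exact q
  · have q := approx_at h.gM0 ma mb mc (by
      show 0 < ((1 : ℤ) : ℝ)
      push_cast; positivity)
    rw [show (P.co Ex.num (Ex.var 0) (Ex.var 1) (Ex.var 2) (Ex.num 1)).gM0.eval
      (vec4 a I X 0) = (P.co kR a I X 1).gM0 from congrArg Co.gM0 ec, val_gM0000] at q
    change |cgM0000 a I X / (((1 : ℤ) : ℝ)) - _| ≤ _ at q
    push_cast at q
    exact q

theorem mono_err {c c' e : ℝ} (h : |c - c'| ≤ e) {x v : ℝ} (hx : |x| ≤ v) :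
    |(c - c') * x| ≤ e * v := by
  rw [abs_mul]
  exact mul_le_mul h hx (abs_nonneg _) ((abs_nonneg _).trans h)

/-- **The entries are as near as the coefficients allow.** -/
theorem hats_near {c c' e : Co ℝ} (h : CoNear c c' e) {z : Pt ℝ} {w1 : ℝ} {v : Pt ℝ}
    (hp : |z.p| ≤ v.p) (hT : |z.T| ≤ v.T) (hg : |z.g| ≤ v.g) (hw : |z.q + w1 * z.p| ≤ v.q) :
    |(hats c 1 w1 z).GG - (hats c' 1 w1 z).GG| ≤ (hats e 1 0 v).GG ∧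
    |(hats c 1 w1 z).EG - (hats c' 1 w1 z).EG| ≤ (hats e 1 0 v).EG ∧
    |(hats c 1 w1 z).LE - (hats c' 1 w1 z).LE| ≤ (hats e 1 0 v).LE ∧
    |(hats c 1 w1 z).LM - (hats c' 1 w1 z).LM| ≤ (hats e 1 0 v).LM ∧
    |(hats c 1 w1 z).gE - (hats c' 1 w1 z).gE| ≤ (hats e 1 0 v).gE ∧
    |(hats c 1 w1 z).gG - (hats c' 1 w1 z).gG| ≤ (hats e 1 0 v).gG ∧
    |(hats c 1 w1 z).hE - (hats c' 1 w1 z).hE| ≤ (hats e 1 0 v).hE ∧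
    |(hats c 1 w1 z).hG - (hats c' 1 w1 z).hG| ≤ (hats e 1 0 v).hG ∧
    |(hats c 1 w1 z).hM - (hats c' 1 w1 z).hM| ≤ (hats e 1 0 v).hM ∧
    |(hats c 1 w1 z).N - (hats c' 1 w1 z).N| ≤ (hats e 1 0 v).N ∧
    |(hats c 1 w1 z).M - (hats c' 1 w1 z).M| ≤ (hats e 1 0 v).M ∧
    |(hats c 1 w1 z).gM - (hats c' 1 w1 z).gM| ≤ (hats e 1 0 v).gM := by
  have hTg : |z.T * z.g| ≤ v.T * v.g := by
    rw [abs_mul]; exact mul_le_mul hT hg (abs_nonneg _) ((abs_nonneg _).trans hT)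
  have hpT := (abs_mul _ _).le.trans
    (mul_le_mul hp hT (abs_nonneg _) ((abs_nonneg _).trans hp))
  have hpp := (abs_mul _ _).le.trans
    (mul_le_mul hp hp (abs_nonneg _) ((abs_nonneg _).trans hp))
  have hpg := (abs_mul _ _).le.trans
    (mul_le_mul hp hg (abs_nonneg _) ((abs_nonneg _).trans hp))
  have hpw := (abs_mul _ _).le.trans
    (mul_le_mul hp hw (abs_nonneg _) ((abs_nonneg _).trans hp))
  have hpTg := (abs_mul _ _).le.trans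
    (mul_le_mul hp hTg (abs_nonneg _) ((abs_nonneg _).trans hp))
  refine ⟨?_, ?_, ?_, ?_, ?_, ?_, ?_, ?_, ?_, ?_, ?_, ?_⟩
  · have e0 := abs_le.1 h.GG0
    have e1 := abs_le.1 (mono_err h.GGT hT)
    have e2 := abs_le.1 (mono_err h.GGp hp)
    have e3 := abs_le.1 (mono_err h.GGpT hpT)
    simp only [hats, abs_le]
    constructor <;> linarith [e0.1, e0.2, e1.1, e1.2, e2.1, e2.2, e3.1, e3.2]
  · have e0 := abs_le.1 h.EG0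
    have e1 := abs_le.1 (mono_err h.EGg hg)
    have e2 := abs_le.1 (mono_err h.EGT hT)
    have e3 := abs_le.1 (mono_err h.EGTg hTg)
    have e4 := abs_le.1 (mono_err h.EGp hp)
    have e5 := abs_le.1 (mono_err h.EGpT hpT)
    simp only [hats, abs_le]
    constructor <;> linarith [e0.1, e0.2, e1.1, e1.2, e2.1, e2.2, e3.1, e3.2, e4.1, e4.2, e5.1, e5.2]
  · have e0 := abs_le.1 h.LE0
    have e1 := abs_le.1 (mono_err h.LEw hw)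
    have e2 := abs_le.1 (mono_err h.LEg hg)
    have e3 := abs_le.1 (mono_err h.LET hT)
    have e4 := abs_le.1 (mono_err h.LETg hTg)
    have e5 := abs_le.1 (mono_err h.LEp hp)
    have e6 := abs_le.1 (mono_err h.LEpw hpw)
    have e7 := abs_le.1 (mono_err h.LEpT hpT)
    have e8 := abs_le.1 (mono_err h.LEpp hpp)
    simp only [hats, abs_le]
    constructor <;> linarith [e0.1, e0.2, e1.1, e1.2, e2.1, e2.2, e3.1, e3.2, e4.1, e4.2, e5.1, e5.2, e6.1, e6.2, e7.1, e7.2, e8.1, e8.2]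
  · have e0 := abs_le.1 h.LM0
    have e1 := abs_le.1 (mono_err h.LMw hw)
    have e2 := abs_le.1 (mono_err h.LMg hg)
    have e3 := abs_le.1 (mono_err h.LMT hT)
    have e4 := abs_le.1 (mono_err h.LMTg hTg)
    have e5 := abs_le.1 (mono_err h.LMp hp)
    have e6 := abs_le.1 (mono_err h.LMpw hpw)
    have e7 := abs_le.1 (mono_err h.LMpT hpT)
    have e8 := abs_le.1 (mono_err h.LMpp hpp)
    simp only [hats, abs_le]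
    constructor <;> linarith [e0.1, e0.2, e1.1, e1.2, e2.1, e2.2, e3.1, e3.2, e4.1, e4.2, e5.1, e5.2, e6.1, e6.2, e7.1, e7.2, e8.1, e8.2]
  · have e0 := abs_le.1 h.gE0
    have e1 := abs_le.1 (mono_err h.gEg hg)
    have e2 := abs_le.1 (mono_err h.gETg hTg)
    have e3 := abs_le.1 (mono_err h.gEp hp)
    simp only [hats, abs_le]
    constructor <;> linarith [e0.1, e0.2, e1.1, e1.2, e2.1, e2.2, e3.1, e3.2]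
  · have e0 := abs_le.1 h.gG0
    have e1 := abs_le.1 (mono_err h.gGp hp)
    simp only [hats, abs_le]
    constructor <;> linarith [e0.1, e0.2, e1.1, e1.2]
  · have e0 := abs_le.1 h.hE0
    have e1 := abs_le.1 (mono_err h.hEp hp)
    simp only [hats, abs_le]
    constructor <;> linarith [e0.1, e0.2, e1.1, e1.2]
  · have e0 := abs_le.1 h.hG0
    have e1 := abs_le.1 (mono_err h.hGT hT)
    have e2 := abs_le.1 (mono_err h.hGp hp)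
    simp only [hats, abs_le]
    constructor <;> linarith [e0.1, e0.2, e1.1, e1.2, e2.1, e2.2]
  · have e0 := abs_le.1 h.hM0
    have e1 := abs_le.1 (mono_err h.hMp hp)
    simp only [hats, abs_le]
    constructor <;> linarith [e0.1, e0.2, e1.1, e1.2]
  · have e0 := abs_le.1 h.N0
    have e1 := abs_le.1 (mono_err h.Nw hw)
    have e2 := abs_le.1 (mono_err h.Ng hg)
    have e3 := abs_le.1 (mono_err h.NTg hTg)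
    have e4 := abs_le.1 (mono_err h.Np hp)
    have e5 := abs_le.1 (mono_err h.Npw hpw)
    have e6 := abs_le.1 (mono_err h.Npg hpg)
    have e7 := abs_le.1 (mono_err h.NpTg hpTg)
    simp only [hats, abs_le]
    constructor <;> linarith [e0.1, e0.2, e1.1, e1.2, e2.1, e2.2, e3.1, e3.2, e4.1, e4.2, e5.1, e5.2, e6.1, e6.2, e7.1, e7.2]
  · have e0 := abs_le.1 (mono_err h.Mg hg)
    have e1 := abs_le.1 (mono_err h.MTg hTg)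
    have e2 := abs_le.1 (mono_err h.Mpg hpg)
    have e3 := abs_le.1 (mono_err h.MpTg hpTg)
    simp only [hats, abs_le]
    constructor <;> linarith [e0.1, e0.2, e1.1, e1.2, e2.1, e2.2, e3.1, e3.2]
  · have e0 := abs_le.1 h.gM0
    simp only [hats, abs_le]
    constructor <;> linarith [e0.1, e0.2]

end Vale.Agent.P100.Calib.Mid
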