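import Vale.Agent.P100.Calib.SlabWaistCoef
import Vale.Agent.P100.Calib.SlabGenClosed

/-!
# Exact coefficients of the linear part of the gap
-/

set_option linter.unusedVariables false
set_option linter.unusedSimpArgs false
set_option maxRecDepth 10000
set_option maxHeartbeats 1600000

namespace Vale.Agent.P100.Calib.Mid

open Pack

local instance midGapAdd : Add Pack.Ex := ⟨Ex.add⟩
local instance midGapMul : Mul Pack.Ex := ⟨Ex.mul⟩

/-- The coefficient of `u ^ 0 * H ^ 0` in the gap. -/
def eLL00 (a I X : Pack.Ex) : Pack.Ex :=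
  (((eM (800) + I * (eM (-2560) + I * (eM (-1280) + I * (eM (10240) + I * (eM (-7680)))))) + a
    * ((eM (-800) + I * (eM (960) + I * (eM (3200) + I * (eM (-3840))))) + a * ((I * (eM
    (-1280) + I * (eM (5120) + I * (eM (-5120))))) + a * ((I * (eM (1280) + I * (eM
    (-2560)))))))) + X * (((eM (320) + I * (eM (1440) + I * (eM (-12160) + I * (eM (320) + I *
    (eM (97280) + I * (eM (-179200) + I * (eM (92160) + I * (eM (5120))))))))) + a * ((eM
    (-1280) + I * (eM (-4320) + I * (eM (19200) + I * (eM (57600) + I * (eM (-222720) + I * (eM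
    (176640) + I * (eM (-10240)))))))) + a * ((eM (1600) + I * (eM (1600) + I * (eM (-6080) + I
    * (eM (-13760) + I * (eM (-5120) + I * (eM (37120))))))) + a * ((eM (-640) + I * (eM (1280)
    + I * (eM (21120) + I * (eM (-83840) + I * (eM (83200)))))) + a * ((I * (I * (eM (-15360) +
    I * (eM (30720)))))))))) + X * (((I * (eM (1600) + I * (eM (-9600) + I * (eM (22720) + I *
    (eM (-83520) + I * (eM (396160) + I * (eM (-954880) + I * (eM (1034240) + I * (eM (-373760)
    + I * (eM (-51200))))))))))) + a * ((I * (eM (-9600) + I * (eM (44800) + I * (eM (-92800) +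
    I * (eM (419200) + I * (eM (-1574400) + I * (eM (2508800) + I * (eM (-1433600) + I * (eM
    (51200)))))))))) + a * ((I * (eM (20800) + I * (eM (-73600) + I * (eM (131520) + I * (eM
    (-584000) + I * (eM (1468800) + I * (eM (-1181440) + I * (eM (79360))))))))) + a * ((I *
    (eM (-19200) + I * (eM (51200) + I * (eM (-20480) + I * (eM (-57600) + I * (eM (261120) + I
    * (eM (-332800)))))))) + a * ((I * (eM (6400) + I * (eM (-12800) + I * (eM (-113920) + I *
    (eM (449280) + I * (eM (-442880))))))) + a * ((I * (I * (I * (eM (66560) + I * (eM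
    (-133120)))))))))))) + X * (((I * (I * (eM (2560) + I * (eM (-27520) + I * (eM (132480) + I
    * (eM (-422720) + I * (eM (1112320) + I * (eM (-2353920) + I * (eM (3338240) + I * (eM
    (-2575360) + I * (eM (675840) + I * (eM (143360))))))))))))) + a * ((I * (I * (eM (-20480)
    + I * (eM (182400) + I * (eM (-725760) + I * (eM (2053120) + I * (eM (-5120000) + I * (eM
    (9512960) + I * (eM (-10137600) + I * (eM (4587520) + I * (eM (-163840)))))))))))) + a *
    ((I * (I * (eM (64000) + I * (eM (-454400) + I * (eM (1439360) + I * (eM (-3656000) + I *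
    (eM (8537600) + I * (eM (-12582400) + I * (eM (8294400) + I * (eM (-1233920))))))))))) + a
    * ((I * (I * (eM (-97280) + I * (eM (519680) + I * (eM (-1203200) + I * (eM (2661760) + I *
    (eM (-5320960) + I * (eM (4948480) + I * (eM (-1059840)))))))))) + a * ((I * (I * (eM
    (71680) + I * (eM (-261120) + I * (eM (261120) + I * (eM (-96000) + I * (eM (-128000) + I *
    (eM (435200))))))))) + a * ((I * (I * (eM (-20480) + I * (eM (40960) + I * (eM (204800) + I
    * (eM (-806400) + I * (eM (793600)))))))) + a * ((I * (I * (I * (I * (eM (-112640) + I *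
    (eM (225280)))))))))))))) + X * (((I * (I * (I * (eM (1280) + I * (eM (-17920) + I * (eM
    (113280) + I * (eM (-443840) + I * (eM (1257600) + I * (eM (-2753280) + I * (eM (4528640) +
    I * (eM (-5084160) + I * (eM (3348480) + I * (eM (-921600) + I * (eM (-40960)))))))))))))))
    + a * ((I * (I * (I * (eM (-12800) + I * (eM (153600) + I * (eM (-829440) + I * (eM
    (2846080) + I * (eM (-7395840) + I * (eM (15014400) + I * (eM (-21606400) + I * (eM
    (19015680) + I * (eM (-8232960) + I * (eM (942080)))))))))))))) + a * ((I * (I * (I * (eM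
    (52480) + I * (eM (-524800) + I * (eM (2368640) + I * (eM (-7202240) + I * (eM (17742720) +
    I * (eM (-32990720) + I * (eM (38446080) + I * (eM (-22891520) + I * (eM
    (4659200))))))))))))) + a * ((I * (I * (I * (eM (-112640) + I * (eM (901120) + I * (eM
    (-3321600) + I * (eM (9359360) + I * (eM (-22538240) + I * (eM (35758080) + I * (eM
    (-28897280) + I * (eM (8355840)))))))))))) + a * ((I * (I * (I * (eM (133120) + I * (eM
    (-798720) + I * (eM (2370560) + I * (eM (-6837760) + I * (eM (15590400) + I * (eM
    (-17827840) + I * (eM (7106560))))))))))) + a * ((I * (I * (I * (eM (-81920) + I * (eM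
    (327680) + I * (eM (-808960) + I * (eM (2703360) + I * (eM (-4874240) + I * (eM
    (2785280)))))))))) + a * ((I * (I * (I * (eM (20480) + I * (eM (-40960) + I * (eM (92160) +
    I * (eM (-343040) + I * (eM (317440))))))))) + a * ((I * (I * (I * (I * (I * (eM (20480) +
    I * (eM (-40960)))))))))))))))) + X * (((I * (I * (I * (I * (I * (I * (eM (1280) + I * (eM
    (-21120) + I * (eM (153600) + I * (eM (-645120) + I * (eM (1720320) + I * (eM (-3010560) +
    I * (eM (3440640) + I * (eM (-2457600) + I * (eM (983040) + I * (eM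
    (-163840))))))))))))))))) + a * ((I * (I * (I * (I * (I * (I * (eM (-17920) + I * (eM
    (263680) + I * (eM (-1684480) + I * (eM (6092800) + I * (eM (-13619200) + I * (eM
    (19210240) + I * (eM (-16629760) + I * (eM (8028160) + I * (eM (-1638400)))))))))))))))) +
    a * ((I * (I * (I * (I * (I * (I * (eM (108800) + I * (eM (-1406080) + I * (eM (7733760) +
    I * (eM (-23436800) + I * (eM (42188800) + I * (eM (-45004800) + I * (eM (26255360) + I *
    (eM (-6430720))))))))))))))) + a * ((I * (I * (I * (I * (I * (I * (eM (-373760) + I * (eM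
    (4158720) + I * (eM (-19161600) + I * (eM (46745600) + I * (eM (-63590400) + I * (eM
    (45649920) + I * (eM (-13475840)))))))))))))) + a * ((I * (I * (I * (I * (I * (I * (eM
    (793600) + I * (eM (-7398400) + I * (eM (27443200) + I * (eM (-50585600) + I * (eM
    (46284800) + I * (eM (-16793600))))))))))))) + a * ((I * (I * (I * (I * (I * (I * (eM
    (-1064960) + I * (eM (7997440) + I * (eM (-22425600) + I * (eM (27811840) + I * (eM
    (-12861440)))))))))))) + a * ((I * (I * (I * (I * (I * (I * (eM (880640) + I * (eM
    (-5007360) + I * (eM (9461760) + I * (eM (-5939200))))))))))) + a * ((I * (I * (I * (I * (I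
    * (I * (eM (-409600) + I * (eM (1576960) + I * (eM (-1515520)))))))))) + a * ((I * (I * (I
    * (I * (I * (I * (eM (81920) + I * (eM (-163840))))))))))))))))))))))))

/-- The coefficient of `u ^ 0 * H ^ 0` in the gap. -/
def cLL00 (a I X : ℝ) : ℝ :=
  (((800 + I * ((-2560) + I * ((-1280) + I * (10240 + I * ((-7680)))))) + a * (((-800) + I *
    (960 + I * (3200 + I * ((-3840))))) + a * ((I * ((-1280) + I * (5120 + I * ((-5120))))) + a
    * ((I * (1280 + I * ((-2560)))))))) + X * (((320 + I * (1440 + I * ((-12160) + I * (320 + I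
    * (97280 + I * ((-179200) + I * (92160 + I * (5120)))))))) + a * (((-1280) + I * ((-4320) +
    I * (19200 + I * (57600 + I * ((-222720) + I * (176640 + I * ((-10240)))))))) + a * ((1600
    + I * (1600 + I * ((-6080) + I * ((-13760) + I * ((-5120) + I * (37120)))))) + a * (((-640)
    + I * (1280 + I * (21120 + I * ((-83840) + I * (83200))))) + a * ((I * (I * ((-15360) + I *
    (30720))))))))) + X * (((I * (1600 + I * ((-9600) + I * (22720 + I * ((-83520) + I *
    (396160 + I * ((-954880) + I * (1034240 + I * ((-373760) + I * ((-51200))))))))))) + a *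
    ((I * ((-9600) + I * (44800 + I * ((-92800) + I * (419200 + I * ((-1574400) + I * (2508800
    + I * ((-1433600) + I * (51200))))))))) + a * ((I * (20800 + I * ((-73600) + I * (131520 +
    I * ((-584000) + I * (1468800 + I * ((-1181440) + I * (79360)))))))) + a * ((I * ((-19200)
    + I * (51200 + I * ((-20480) + I * ((-57600) + I * (261120 + I * ((-332800)))))))) + a *
    ((I * (6400 + I * ((-12800) + I * ((-113920) + I * (449280 + I * ((-442880))))))) + a * ((I
    * (I * (I * (66560 + I * ((-133120)))))))))))) + X * (((I * (I * (2560 + I * ((-27520) + I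
    * (132480 + I * ((-422720) + I * (1112320 + I * ((-2353920) + I * (3338240 + I *
    ((-2575360) + I * (675840 + I * (143360)))))))))))) + a * ((I * (I * ((-20480) + I *
    (182400 + I * ((-725760) + I * (2053120 + I * ((-5120000) + I * (9512960 + I * ((-10137600)
    + I * (4587520 + I * ((-163840)))))))))))) + a * ((I * (I * (64000 + I * ((-454400) + I *
    (1439360 + I * ((-3656000) + I * (8537600 + I * ((-12582400) + I * (8294400 + I *
    ((-1233920))))))))))) + a * ((I * (I * ((-97280) + I * (519680 + I * ((-1203200) + I *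
    (2661760 + I * ((-5320960) + I * (4948480 + I * ((-1059840)))))))))) + a * ((I * (I *
    (71680 + I * ((-261120) + I * (261120 + I * ((-96000) + I * ((-128000) + I *
    (435200)))))))) + a * ((I * (I * ((-20480) + I * (40960 + I * (204800 + I * ((-806400) + I
    * (793600))))))) + a * ((I * (I * (I * (I * ((-112640) + I * (225280))))))))))))) + X *
    (((I * (I * (I * (1280 + I * ((-17920) + I * (113280 + I * ((-443840) + I * (1257600 + I *
    ((-2753280) + I * (4528640 + I * ((-5084160) + I * (3348480 + I * ((-921600) + I *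
    ((-40960))))))))))))))) + a * ((I * (I * (I * ((-12800) + I * (153600 + I * ((-829440) + I
    * (2846080 + I * ((-7395840) + I * (15014400 + I * ((-21606400) + I * (19015680 + I *
    ((-8232960) + I * (942080))))))))))))) + a * ((I * (I * (I * (52480 + I * ((-524800) + I *
    (2368640 + I * ((-7202240) + I * (17742720 + I * ((-32990720) + I * (38446080 + I *
    ((-22891520) + I * (4659200)))))))))))) + a * ((I * (I * (I * ((-112640) + I * (901120 + I
    * ((-3321600) + I * (9359360 + I * ((-22538240) + I * (35758080 + I * ((-28897280) + I *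
    (8355840))))))))))) + a * ((I * (I * (I * (133120 + I * ((-798720) + I * (2370560 + I *
    ((-6837760) + I * (15590400 + I * ((-17827840) + I * (7106560)))))))))) + a * ((I * (I * (I
    * ((-81920) + I * (327680 + I * ((-808960) + I * (2703360 + I * ((-4874240) + I *
    (2785280))))))))) + a * ((I * (I * (I * (20480 + I * ((-40960) + I * (92160 + I *
    ((-343040) + I * (317440)))))))) + a * ((I * (I * (I * (I * (I * (20480 + I *
    ((-40960)))))))))))))))) + X * (((I * (I * (I * (I * (I * (I * (1280 + I * ((-21120) + I *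
    (153600 + I * ((-645120) + I * (1720320 + I * ((-3010560) + I * (3440640 + I * ((-2457600)
    + I * (983040 + I * ((-163840))))))))))))))))) + a * ((I * (I * (I * (I * (I * (I *
    ((-17920) + I * (263680 + I * ((-1684480) + I * (6092800 + I * ((-13619200) + I * (19210240
    + I * ((-16629760) + I * (8028160 + I * ((-1638400)))))))))))))))) + a * ((I * (I * (I * (I
    * (I * (I * (108800 + I * ((-1406080) + I * (7733760 + I * ((-23436800) + I * (42188800 + I
    * ((-45004800) + I * (26255360 + I * ((-6430720))))))))))))))) + a * ((I * (I * (I * (I *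
    (I * (I * ((-373760) + I * (4158720 + I * ((-19161600) + I * (46745600 + I * ((-63590400) +
    I * (45649920 + I * ((-13475840)))))))))))))) + a * ((I * (I * (I * (I * (I * (I * (793600
    + I * ((-7398400) + I * (27443200 + I * ((-50585600) + I * (46284800 + I *
    ((-16793600))))))))))))) + a * ((I * (I * (I * (I * (I * (I * ((-1064960) + I * (7997440 +
    I * ((-22425600) + I * (27811840 + I * ((-12861440)))))))))))) + a * ((I * (I * (I * (I *
    (I * (I * (880640 + I * ((-5007360) + I * (9461760 + I * ((-5939200))))))))))) + a * ((I *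
    (I * (I * (I * (I * (I * ((-409600) + I * (1576960 + I * ((-1515520)))))))))) + a * ((I *
    (I * (I * (I * (I * (I * (81920 + I * ((-163840))))))))))))))))))))))))

theorem val_LL00 (x : ℕ → ℝ) (a I X : Pack.Ex) :
    (eLL00 a I X).eval x = cLL00 (a.eval x) (I.eval x) (X.eval x) := by
  simp only [eLL00, cLL00, eval_addM, eval_mulM, eval_numM]
  push_cast
  rfl

/-- The coefficient of `u ^ 1 * H ^ 0` in the gap. -/
def eLL10 (a I X : Pack.Ex) : Pack.Ex :=
  (((eM (-800) + I * (eM (2560) + I * (eM (1280) + I * (eM (-10240) + I * (eM (7680)))))) + a *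
    ((eM (800) + I * (eM (-160) + I * (eM (-2560) + I * (eM (1920))))) + a * ((I * (eM (1280) +
    I * (eM (-5120) + I * (eM (5120))))) + a * ((I * (eM (-1280) + I * (eM (1280)))))))) + X *
    (((eM (-600) + I * (eM (-640) + I * (eM (12960) + I * (I * (eM (-115840) + I * (eM (215040)
    + I * (eM (-115200)))))))) + a * ((eM (1600) + I * (eM (6400) + I * (eM (-25920) + I * (eM
    (-51840) + I * (eM (199680) + I * (eM (-138240))))))) + a * ((eM (-800) + I * (eM (-7360) +
    I * (eM (12160) + I * (eM (-30720) + I * (eM (94720) + I * (eM (-76800))))))) + a * ((I *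
    (I * (eM (-28160) + I * (eM (102400) + I * (eM (-92160)))))) + a * ((I * (eM (1280) + I *
    (eM (15360) + I * (eM (-15360)))))))))) + X * (((I * (eM (-3200) + I * (eM (18560) + I *
    (eM (-36800) + I * (eM (104320) + I * (eM (-540160) + I * (eM (1377280) + I * (eM
    (-1551360) + I * (eM (645120)))))))))) + a * ((I * (eM (14800) + I * (eM (-52000) + I * (eM
    (37280) + I * (eM (-318720) + I * (eM (1651200) + I * (eM (-2654720) + I * (eM
    (1374720))))))))) + a * ((I * (eM (-20800) + I * (eM (18560) + I * (eM (83840) + I * (eM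
    (144640) + I * (eM (-509440) + I * (eM (-76800) + I * (eM (430080))))))))) + a * ((I * (eM
    (8000) + I * (eM (21760) + I * (eM (-158080) + I * (eM (677120) + I * (eM (-1379840) + I *
    (eM (916480)))))))) + a * ((I * (I * (eM (10240) + I * (eM (158720) + I * (eM (-629760) + I
    * (eM (542720))))))) + a * ((I * (I * (eM (-17920) + I * (eM (-56320) + I * (eM
    (56320)))))))))))) + X * (((I * (I * (eM (-5600) + I * (eM (53120) + I * (eM (-217600) + I
    * (eM (606720) + I * (eM (-1612800) + I * (eM (3737600) + I * (eM (-5693440) + I * (eM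
    (4710400) + I * (eM (-1597440)))))))))))) + a * ((I * (I * (eM (36800) + I * (eM (-268160)
    + I * (eM (812800) + I * (eM (-1958400) + I * (eM (5466880) + I * (eM (-11194880) + I * (eM
    (11822080) + I * (eM (-4823040))))))))))) + a * ((I * (I * (eM (-86400) + I * (eM (426240)
    + I * (eM (-734720) + I * (eM (1510400) + I * (eM (-4743680) + I * (eM (6584320) + I * (eM
    (-2099200) + I * (eM (-1064960))))))))))) + a * ((I * (I * (eM (83200) + I * (eM (-190720)
    + I * (eM (-266240) + I * (eM (1251840) + I * (eM (-3000320) + I * (eM (5120000) + I * (eM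
    (-3215360)))))))))) + a * ((I * (I * (eM (-25600) + I * (eM (2560) + I * (eM (517120) + I *
    (eM (-2708480) + I * (eM (5253120) + I * (eM (-3256320))))))))) + a * ((I * (I * (I * (eM
    (-107520) + I * (eM (-143360) + I * (eM (1280000) + I * (eM (-1126400)))))))) + a * ((I *
    (I * (I * (eM (92160) + I * (eM (20480) + I * (eM (-20480)))))))))))))) + X * (((I * (I *
    (I * (eM (-3200) + I * (eM (39680) + I * (eM (-218880) + I * (eM (750080) + I * (eM
    (-1940480) + I * (eM (4147200) + I * (eM (-6901760) + I * (eM (7823360) + I * (eM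
    (-5160960) + I * (eM (1474560)))))))))))))) + a * ((I * (I * (I * (eM (27200) + I * (eM
    (-275840) + I * (eM (1207680) + I * (eM (-3317760) + I * (eM (7482880) + I * (eM
    (-14653440) + I * (eM (20531200) + I * (eM (-16465920) + I * (eM (5529600))))))))))))) + a
    * ((I * (I * (I * (eM (-89600) + I * (eM (693760) + I * (eM (-2129920) + I * (eM (4034560)
    + I * (eM (-7802880) + I * (eM (13967360) + I * (eM (-13762560) + I * (eM (4259840) + I *
    (eM (983040))))))))))))) + a * ((I * (I * (I * (eM (140800) + I * (eM (-724480) + I * (eM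
    (911360) + I * (eM (660480) + I * (eM (-2252800) + I * (eM (3768320) + I * (eM (-6062080) +
    I * (eM (3686400)))))))))))) + a * ((I * (I * (I * (eM (-102400) + I * (eM (266240) + I *
    (eM (614400) + I * (eM (-3645440) + I * (eM (8273920) + I * (eM (-10321920) + I * (eM
    (4915200))))))))))) + a * ((I * (I * (I * (eM (25600) + I * (eM (-174080) + I * (eM
    (235520) + I * (eM (1351680) + I * (eM (-3973120) + I * (eM (2457600)))))))))) + a * ((I *
    (I * (I * (I * (eM (368640) + I * (eM (-901120) + I * (eM (327680)))))))) + a * ((I * (I *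
    (I * (I * (eM (-204800) + I * (eM (245760) + I * (eM (-245760)))))))))))))))) + X * ((a *
    ((I * (I * (I * (I * (I * (eM (2560) + I * (eM (-38400) + I * (eM (250880) + I * (eM
    (-936960) + I * (eM (2201600) + I * (eM (-3358720) + I * (eM (3276800) + I * (eM (-1884160)
    + I * (eM (491520))))))))))))))) + a * ((I * (I * (I * (I * (I * (eM (-25600) + I * (eM
    (332800) + I * (eM (-1843200) + I * (eM (5683200) + I * (eM (-10649600) + I * (eM
    (12288000) + I * (eM (-8192000) + I * (eM (2457600)))))))))))))) + a * ((I * (I * (I * (I *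
    (I * (eM (97280) + I * (eM (-1064960) + I * (eM (4802560) + I * (eM (-11571200) + I * (eM
    (15974400) + I * (eM (-12124160) + I * (eM (3768320) + I * (eM (327680)))))))))))))) + a *
    ((I * (I * (I * (I * (I * (eM (-153600) + I * (eM (1331200) + I * (eM (-4403200) + I * (eM
    (6963200) + I * (eM (-4915200) + I * (I * (eM (1638400))))))))))))) + a * ((I * (I * (I *
    (I * (I * (I * (eM (204800) + I * (eM (-1638400) + I * (eM (4505600) + I * (eM (-5734400) +
    I * (eM (3276800)))))))))))) + a * ((I * (I * (I * (I * (I * (eM (327680) + I * (eM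
    (-2048000) + I * (eM (5079040) + I * (eM (-6062080) + I * (eM (3276800))))))))))) + a * ((I
    * (I * (I * (I * (I * (eM (-409600) + I * (eM (1638400) + I * (eM (-2457600) + I * (eM
    (1638400)))))))))) + a * ((I * (I * (I * (I * (I * (eM (163840) + I * (eM (-327680) + I *
    (eM (327680))))))))))))))))))))))))

/-- The coefficient of `u ^ 1 * H ^ 0` in the gap. -/
def cLL10 (a I X : ℝ) : ℝ :=
  ((((-800) + I * (2560 + I * (1280 + I * ((-10240) + I * (7680))))) + a * ((800 + I * ((-160)
    + I * ((-2560) + I * (1920)))) + a * ((I * (1280 + I * ((-5120) + I * (5120)))) + a * ((I *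
    ((-1280) + I * (1280))))))) + X * ((((-600) + I * ((-640) + I * (12960 + I * (I *
    ((-115840) + I * (215040 + I * ((-115200)))))))) + a * ((1600 + I * (6400 + I * ((-25920) +
    I * ((-51840) + I * (199680 + I * ((-138240))))))) + a * (((-800) + I * ((-7360) + I *
    (12160 + I * ((-30720) + I * (94720 + I * ((-76800))))))) + a * ((I * (I * ((-28160) + I *
    (102400 + I * ((-92160)))))) + a * ((I * (1280 + I * (15360 + I * ((-15360)))))))))) + X *
    (((I * ((-3200) + I * (18560 + I * ((-36800) + I * (104320 + I * ((-540160) + I * (1377280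
    + I * ((-1551360) + I * (645120))))))))) + a * ((I * (14800 + I * ((-52000) + I * (37280 +
    I * ((-318720) + I * (1651200 + I * ((-2654720) + I * (1374720)))))))) + a * ((I *
    ((-20800) + I * (18560 + I * (83840 + I * (144640 + I * ((-509440) + I * ((-76800) + I *
    (430080)))))))) + a * ((I * (8000 + I * (21760 + I * ((-158080) + I * (677120 + I *
    ((-1379840) + I * (916480))))))) + a * ((I * (I * (10240 + I * (158720 + I * ((-629760) + I
    * (542720)))))) + a * ((I * (I * ((-17920) + I * ((-56320) + I * (56320))))))))))) + X *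
    (((I * (I * ((-5600) + I * (53120 + I * ((-217600) + I * (606720 + I * ((-1612800) + I *
    (3737600 + I * ((-5693440) + I * (4710400 + I * ((-1597440)))))))))))) + a * ((I * (I *
    (36800 + I * ((-268160) + I * (812800 + I * ((-1958400) + I * (5466880 + I * ((-11194880) +
    I * (11822080 + I * ((-4823040))))))))))) + a * ((I * (I * ((-86400) + I * (426240 + I *
    ((-734720) + I * (1510400 + I * ((-4743680) + I * (6584320 + I * ((-2099200) + I *
    ((-1064960))))))))))) + a * ((I * (I * (83200 + I * ((-190720) + I * ((-266240) + I *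
    (1251840 + I * ((-3000320) + I * (5120000 + I * ((-3215360)))))))))) + a * ((I * (I *
    ((-25600) + I * (2560 + I * (517120 + I * ((-2708480) + I * (5253120 + I *
    ((-3256320))))))))) + a * ((I * (I * (I * ((-107520) + I * ((-143360) + I * (1280000 + I *
    ((-1126400)))))))) + a * ((I * (I * (I * (92160 + I * (20480 + I * ((-20480)))))))))))))) +
    X * (((I * (I * (I * ((-3200) + I * (39680 + I * ((-218880) + I * (750080 + I * ((-1940480)
    + I * (4147200 + I * ((-6901760) + I * (7823360 + I * ((-5160960) + I *
    (1474560))))))))))))) + a * ((I * (I * (I * (27200 + I * ((-275840) + I * (1207680 + I *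
    ((-3317760) + I * (7482880 + I * ((-14653440) + I * (20531200 + I * ((-16465920) + I *
    (5529600)))))))))))) + a * ((I * (I * (I * ((-89600) + I * (693760 + I * ((-2129920) + I *
    (4034560 + I * ((-7802880) + I * (13967360 + I * ((-13762560) + I * (4259840 + I *
    (983040)))))))))))) + a * ((I * (I * (I * (140800 + I * ((-724480) + I * (911360 + I *
    (660480 + I * ((-2252800) + I * (3768320 + I * ((-6062080) + I * (3686400))))))))))) + a *
    ((I * (I * (I * ((-102400) + I * (266240 + I * (614400 + I * ((-3645440) + I * (8273920 + I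
    * ((-10321920) + I * (4915200)))))))))) + a * ((I * (I * (I * (25600 + I * ((-174080) + I *
    (235520 + I * (1351680 + I * ((-3973120) + I * (2457600))))))))) + a * ((I * (I * (I * (I *
    (368640 + I * ((-901120) + I * (327680))))))) + a * ((I * (I * (I * (I * ((-204800) + I *
    (245760 + I * ((-245760)))))))))))))))) + X * ((a * ((I * (I * (I * (I * (I * (2560 + I *
    ((-38400) + I * (250880 + I * ((-936960) + I * (2201600 + I * ((-3358720) + I * (3276800 +
    I * ((-1884160) + I * (491520)))))))))))))) + a * ((I * (I * (I * (I * (I * ((-25600) + I *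
    (332800 + I * ((-1843200) + I * (5683200 + I * ((-10649600) + I * (12288000 + I *
    ((-8192000) + I * (2457600))))))))))))) + a * ((I * (I * (I * (I * (I * (97280 + I *
    ((-1064960) + I * (4802560 + I * ((-11571200) + I * (15974400 + I * ((-12124160) + I *
    (3768320 + I * (327680))))))))))))) + a * ((I * (I * (I * (I * (I * ((-153600) + I *
    (1331200 + I * ((-4403200) + I * (6963200 + I * ((-4915200) + I * (I * (1638400))))))))))))
    + a * ((I * (I * (I * (I * (I * (I * (204800 + I * ((-1638400) + I * (4505600 + I *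
    ((-5734400) + I * (3276800))))))))))) + a * ((I * (I * (I * (I * (I * (327680 + I *
    ((-2048000) + I * (5079040 + I * ((-6062080) + I * (3276800)))))))))) + a * ((I * (I * (I *
    (I * (I * ((-409600) + I * (1638400 + I * ((-2457600) + I * (1638400))))))))) + a * ((I *
    (I * (I * (I * (I * (163840 + I * ((-327680) + I * (327680)))))))))))))))))))))))

theorem val_LL10 (x : ℕ → ℝ) (a I X : Pack.Ex) :
    (eLL10 a I X).eval x = cLL10 (a.eval x) (I.eval x) (X.eval x) := by
  simp only [eLL10, cLL10, eval_addM, eval_mulM, eval_numM]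
  push_cast
  rfl

/-- The coefficient of `u ^ 1 * H ^ 1` in the gap. -/
def eLL11 (a I X : Pack.Ex) : Pack.Ex :=
  (((eM (-800) + I * (eM (4800) + I * (eM (-9600) + I * (eM (6400))))) + a * ((eM (2400) + I *
    (eM (-9600) + I * (eM (9600)))) + a * ((eM (-1600) + I * (eM (3200)))))) + X * (((eM (-368)
    + I * (eM (-448) + I * (eM (17440) + I * (eM (-64288) + I * (eM (93888) + I * (eM (-62720)
    + I * (eM (40960) + I * (eM (-43520) + I * (eM (15360)))))))))) + a * ((eM (2432) + I * (eM
    (416) + I * (eM (-55008) + I * (eM (130496) + I * (eM (-78080) + I * (eM (15360) + I * (eM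
    (-69120) + I * (eM (35840))))))))) + a * ((eM (-6272) + I * (eM (8800) + I * (eM (23488) +
    I * (eM (3360) + I * (eM (-76480) + I * (eM (1920) + I * (eM (19200)))))))) + a * ((eM
    (8000) + I * (eM (-23680) + I * (eM (40640) + I * (eM (-70400) + I * (eM (44800) + I * (eM
    (-10240))))))) + a * ((eM (-5120) + I * (eM (17280) + I * (eM (-20480) + I * (eM (18560) +
    I * (eM (-11520)))))) + a * ((eM (1280) + I * (eM (-2560) + I * (eM (1280) + I * (eM
    (-2560))))))))))) + X * (((I * (eM (-1744) + I * (eM (14464) + I * (eM (-43232) + I * (eM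
    (45696) + I * (eM (40832) + I * (eM (-222208) + I * (eM (499200) + I * (eM (-727040) + I *
    (eM (563200) + I * (eM (-163840)))))))))))) + a * ((I * (eM (15264) + I * (eM (-110656) + I
    * (eM (304800) + I * (eM (-414016) + I * (eM (267776) + I * (eM (320000) + I * (eM
    (-1369600) + I * (eM (1612800) + I * (eM (-593920))))))))))) + a * ((I * (eM (-54528) + I *
    (eM (345056) + I * (eM (-880768) + I * (eM (1304576) + I * (eM (-1164800) + I * (eM
    (-140800) + I * (eM (1433600) + I * (eM (-778240)))))))))) + a * ((I * (eM (101952) + I *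
    (eM (-558400) + I * (eM (1268032) + I * (eM (-1672960) + I * (eM (1126400) + I * (eM
    (163840) + I * (eM (-394240))))))))) + a * ((I * (eM (-105600) + I * (eM (483200) + I * (eM
    (-865920) + I * (eM (815360) + I * (eM (-345600) + I * (eM (5120)))))))) + a * ((I * (eM
    (57600) + I * (eM (-198400) + I * (eM (216320) + I * (eM (-133120) + I * (eM (66560)))))))
    + a * ((I * (eM (-12800) + I * (eM (25600) + I * (eM (-7680) + I * (eM (15360)))))))))))))
    + X * (((I * (I * (eM (-2656) + I * (eM (34688) + I * (eM (-196800) + I * (eM (627360) + I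
    * (eM (-1177280) + I * (eM (1076352) + I * (eM (463104) + I * (eM (-2736640) + I * (eM
    (3578880) + I * (eM (-2222080) + I * (eM (552960)))))))))))))) + a * ((I * (I * (eM (28928)
    + I * (eM (-329088) + I * (eM (1599744) + I * (eM (-4267072) + I * (eM (6372096) + I * (eM
    (-3634944) + I * (eM (-4720640) + I * (eM (11289600) + I * (eM (-9031680) + I * (eM
    (2682880))))))))))))) + a * ((I * (I * (eM (-132864) + I * (eM (1293056) + I * (eM
    (-5263680) + I * (eM (11388576) + I * (eM (-12791616) + I * (eM (2812160) + I * (eM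
    (11481600) + I * (eM (-14036480) + I * (eM (5258240)))))))))))) + a * ((I * (I * (eM
    (333312) + I * (eM (-2709504) + I * (eM (8940672) + I * (eM (-14971904) + I * (eM
    (11463680) + I * (eM (1781760) + I * (eM (-9943040) + I * (eM (5242880))))))))))) + a * ((I
    * (I * (eM (-493056) + I * (eM (3235840) + I * (eM (-8224256) + I * (eM (9847040) + I * (eM
    (-4175360) + I * (eM (-2585600) + I * (eM (2693120)))))))))) + a * ((I * (I * (eM (430080)
    + I * (eM (-2160640) + I * (eM (3855360) + I * (eM (-2826240) + I * (eM (348160) + I * (eM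
    (573440))))))))) + a * ((I * (I * (eM (-204800) + I * (eM (716800) + I * (eM (-721920) + I
    * (eM (227840) + I * (eM (-25600)))))))) + a * ((I * (I * (eM (40960) + I * (eM (-81920) +
    I * (eM (10240) + I * (eM (-20480))))))))))))))) + X * (((I * (I * (I * (eM (-1280) + I *
    (eM (21120) + I * (eM (-153600) + I * (eM (640320) + I * (eM (-1648640) + I * (eM (2544640)
    + I * (eM (-1720320) + I * (eM (-1484800) + I * (eM (4751360) + I * (eM (-4997120) + I *
    (eM (2621440) + I * (eM (-573440)))))))))))))))) + a * ((I * (I * (I * (eM (16640) + I *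
    (eM (-241920) + I * (eM (1525120) + I * (eM (-5383680) + I * (eM (11274240) + I * (eM
    (-12789760) + I * (eM (2519040) + I * (eM (14376960) + I * (eM (-21463040) + I * (eM
    (13598720) + I * (eM (-3440640))))))))))))))) + a * ((I * (I * (I * (eM (-93440) + I * (eM
    (1176960) + I * (eM (-6295680) + I * (eM (18280000) + I * (eM (-29681920) + I * (eM
    (21364480) + I * (eM (10362880) + I * (eM (-35415040) + I * (eM (28979200) + I * (eM
    (-8744960)))))))))))))) + a * ((I * (I * (I * (eM (295680) + I * (eM (-3157760) + I * (eM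
    (13932800) + I * (eM (-31964800) + I * (eM (37305600) + I * (eM (-10613760) + I * (eM
    (-26183680) + I * (eM (32307200) + I * (eM (-12185600))))))))))))) + a * ((I * (I * (I *
    (eM (-576000) + I * (eM (5068800) + I * (eM (-17740800) + I * (eM (30297600) + I * (eM
    (-22016000) + I * (eM (-5222400) + I * (eM (19660800) + I * (eM (-10035200)))))))))))) + a
    * ((I * (I * (I * (eM (706560) + I * (eM (-4925440) + I * (eM (12902400) + I * (eM
    (-14832640) + I * (eM (4372480) + I * (eM (6000640) + I * (eM (-4874240))))))))))) + a *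
    ((I * (I * (I * (eM (-532480) + I * (eM (2775040) + I * (eM (-4925440) + I * (eM (3036160)
    + I * (eM (593920) + I * (eM (-1290240)))))))))) + a * ((I * (I * (I * (eM (225280) + I *
    (eM (-798720) + I * (eM (757760) + I * (eM (-51200) + I * (eM (-143360))))))))) + a * ((I *
    (I * (I * (eM (-40960) + I * (eM (81920))))))))))))))))))))

/-- The coefficient of `u ^ 1 * H ^ 1` in the gap. -/
def cLL11 (a I X : ℝ) : ℝ :=
  ((((-800) + I * (4800 + I * ((-9600) + I * (6400)))) + a * ((2400 + I * ((-9600) + I *
    (9600))) + a * (((-1600) + I * (3200))))) + X * ((((-368) + I * ((-448) + I * (17440 + I *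
    ((-64288) + I * (93888 + I * ((-62720) + I * (40960 + I * ((-43520) + I * (15360))))))))) +
    a * ((2432 + I * (416 + I * ((-55008) + I * (130496 + I * ((-78080) + I * (15360 + I *
    ((-69120) + I * (35840)))))))) + a * (((-6272) + I * (8800 + I * (23488 + I * (3360 + I *
    ((-76480) + I * (1920 + I * (19200))))))) + a * ((8000 + I * ((-23680) + I * (40640 + I *
    ((-70400) + I * (44800 + I * ((-10240))))))) + a * (((-5120) + I * (17280 + I * ((-20480) +
    I * (18560 + I * ((-11520)))))) + a * ((1280 + I * ((-2560) + I * (1280 + I *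
    ((-2560))))))))))) + X * (((I * ((-1744) + I * (14464 + I * ((-43232) + I * (45696 + I *
    (40832 + I * ((-222208) + I * (499200 + I * ((-727040) + I * (563200 + I *
    ((-163840)))))))))))) + a * ((I * (15264 + I * ((-110656) + I * (304800 + I * ((-414016) +
    I * (267776 + I * (320000 + I * ((-1369600) + I * (1612800 + I * ((-593920))))))))))) + a *
    ((I * ((-54528) + I * (345056 + I * ((-880768) + I * (1304576 + I * ((-1164800) + I *
    ((-140800) + I * (1433600 + I * ((-778240)))))))))) + a * ((I * (101952 + I * ((-558400) +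
    I * (1268032 + I * ((-1672960) + I * (1126400 + I * (163840 + I * ((-394240))))))))) + a *
    ((I * ((-105600) + I * (483200 + I * ((-865920) + I * (815360 + I * ((-345600) + I *
    (5120))))))) + a * ((I * (57600 + I * ((-198400) + I * (216320 + I * ((-133120) + I *
    (66560)))))) + a * ((I * ((-12800) + I * (25600 + I * ((-7680) + I * (15360)))))))))))) + X
    * (((I * (I * ((-2656) + I * (34688 + I * ((-196800) + I * (627360 + I * ((-1177280) + I *
    (1076352 + I * (463104 + I * ((-2736640) + I * (3578880 + I * ((-2222080) + I *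
    (552960))))))))))))) + a * ((I * (I * (28928 + I * ((-329088) + I * (1599744 + I *
    ((-4267072) + I * (6372096 + I * ((-3634944) + I * ((-4720640) + I * (11289600 + I *
    ((-9031680) + I * (2682880)))))))))))) + a * ((I * (I * ((-132864) + I * (1293056 + I *
    ((-5263680) + I * (11388576 + I * ((-12791616) + I * (2812160 + I * (11481600 + I *
    ((-14036480) + I * (5258240))))))))))) + a * ((I * (I * (333312 + I * ((-2709504) + I *
    (8940672 + I * ((-14971904) + I * (11463680 + I * (1781760 + I * ((-9943040) + I *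
    (5242880)))))))))) + a * ((I * (I * ((-493056) + I * (3235840 + I * ((-8224256) + I *
    (9847040 + I * ((-4175360) + I * ((-2585600) + I * (2693120))))))))) + a * ((I * (I *
    (430080 + I * ((-2160640) + I * (3855360 + I * ((-2826240) + I * (348160 + I *
    (573440)))))))) + a * ((I * (I * ((-204800) + I * (716800 + I * ((-721920) + I * (227840 +
    I * ((-25600)))))))) + a * ((I * (I * (40960 + I * ((-81920) + I * (10240 + I *
    ((-20480))))))))))))))) + X * (((I * (I * (I * ((-1280) + I * (21120 + I * ((-153600) + I *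
    (640320 + I * ((-1648640) + I * (2544640 + I * ((-1720320) + I * ((-1484800) + I * (4751360
    + I * ((-4997120) + I * (2621440 + I * ((-573440)))))))))))))))) + a * ((I * (I * (I *
    (16640 + I * ((-241920) + I * (1525120 + I * ((-5383680) + I * (11274240 + I * ((-12789760)
    + I * (2519040 + I * (14376960 + I * ((-21463040) + I * (13598720 + I *
    ((-3440640))))))))))))))) + a * ((I * (I * (I * ((-93440) + I * (1176960 + I * ((-6295680)
    + I * (18280000 + I * ((-29681920) + I * (21364480 + I * (10362880 + I * ((-35415040) + I *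
    (28979200 + I * ((-8744960)))))))))))))) + a * ((I * (I * (I * (295680 + I * ((-3157760) +
    I * (13932800 + I * ((-31964800) + I * (37305600 + I * ((-10613760) + I * ((-26183680) + I
    * (32307200 + I * ((-12185600))))))))))))) + a * ((I * (I * (I * ((-576000) + I * (5068800
    + I * ((-17740800) + I * (30297600 + I * ((-22016000) + I * ((-5222400) + I * (19660800 + I
    * ((-10035200)))))))))))) + a * ((I * (I * (I * (706560 + I * ((-4925440) + I * (12902400 +
    I * ((-14832640) + I * (4372480 + I * (6000640 + I * ((-4874240))))))))))) + a * ((I * (I *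
    (I * ((-532480) + I * (2775040 + I * ((-4925440) + I * (3036160 + I * (593920 + I *
    ((-1290240)))))))))) + a * ((I * (I * (I * (225280 + I * ((-798720) + I * (757760 + I *
    ((-51200) + I * ((-143360))))))))) + a * ((I * (I * (I * ((-40960) + I *
    (81920)))))))))))))))))))

theorem val_LL11 (x : ℕ → ℝ) (a I X : Pack.Ex) :
    (eLL11 a I X).eval x = cLL11 (a.eval x) (I.eval x) (X.eval x) := by
  simp only [eLL11, cLL11, eval_addM, eval_mulM, eval_numM]
  push_cast
  rfl

/-- The coefficient of `u ^ 2 * H ^ 1` in the gap. -/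
def eLL21 (a I X : Pack.Ex) : Pack.Ex :=
  (((eM (800) + I * (eM (-4800) + I * (eM (9600) + I * (eM (-6400))))) + a * ((eM (-2400) + I *
    (eM (8800) + I * (eM (-8000)))) + a * ((eM (1600) + I * (eM (-1600)))))) + X * (((eM (600)
    + I * (eM (-400) + I * (eM (-20800) + I * (eM (86400) + I * (eM (-131200) + I * (eM
    (70400))))))) + a * ((eM (-2800) + I * (eM (-4800) + I * (eM (91200) + I * (eM (-217600) +
    I * (eM (153600)))))) + a * ((eM (4000) + I * (eM (17600) + I * (eM (-99200) + I * (eM
    (96000))))) + a * ((eM (-1600) + I * (eM (-12800) + I * (eM (12800)))))))) + X * (((I * (eM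
    (3200) + I * (eM (-24000) + I * (eM (48000) + I * (eM (64000) + I * (eM (-384000) + I * (eM
    (537600) + I * (eM (-256000))))))))) + a * ((I * (eM (-21200) + I * (eM (115200) + I * (eM
    (-84000) + I * (eM (-564800) + I * (eM (1276800) + I * (eM (-787200)))))))) + a * ((I * (eM
    (50400) + I * (eM (-168000) + I * (eM (-139200) + I * (eM (960000) + I * (eM
    (-825600))))))) + a * ((I * (eM (-49600) + I * (eM (57600) + I * (eM (240000) + I * (eM
    (-313600)))))) + a * ((I * (eM (16000) + I * (eM (19200) + I * (eM (-19200)))))))))) + X *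
    (((I * (I * (eM (5600) + I * (eM (-62400) + I * (eM (278400) + I * (eM (-608000) + I * (eM
    (576000) + I * (eM (76800) + I * (eM (-563200) + I * (eM (307200))))))))))) + a * ((I * (I
    * (eM (-48000) + I * (eM (438400) + I * (eM (-1513600) + I * (eM (2252800) + I * (eM
    (-742400) + I * (eM (-1484800) + I * (eM (1177600)))))))))) + a * ((I * (I * (eM (160000) +
    I * (eM (-1139200) + I * (eM (2790400) + I * (eM (-2201600) + I * (eM (-1024000) + I * (eM
    (1638400))))))))) + a * ((I * (I * (eM (-256000) + I * (eM (1305600) + I * (eM (-1920000) +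
    I * (eM (204800) + I * (eM (921600)))))))) + a * ((I * (I * (eM (192000) + I * (eM
    (-588800) + I * (eM (358400) + I * (eM (102400))))))) + a * ((I * (I * (eM (-51200) + I *
    (eM (51200) + I * (eM (-51200)))))))))))) + X * (((I * (I * (I * (eM (3200) + I * (eM
    (-44800) + I * (eM (268800) + I * (eM (-896000) + I * (eM (1792000) + I * (eM (-2150400) +
    I * (eM (1433600) + I * (eM (-409600)))))))))))) + a * ((I * (I * (I * (eM (-33600) + I *
    (eM (403200) + I * (eM (-2019200) + I * (eM (5408000) + I * (eM (-8192000) + I * (eM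
    (6707200) + I * (eM (-2406400) + I * (eM (102400)))))))))))) + a * ((I * (I * (I * (eM
    (144000) + I * (eM (-1440000) + I * (eM (5792000) + I * (eM (-11776000) + I * (eM
    (12288000) + I * (eM (-5632000) + I * (eM (512000))))))))))) + a * ((I * (I * (I * (eM
    (-320000) + I * (eM (2560000) + I * (eM (-7808000) + I * (eM (11008000) + I * (eM
    (-6656000) + I * (eM (1024000)))))))))) + a * ((I * (I * (I * (eM (384000) + I * (eM
    (-2304000) + I * (eM (4864000) + I * (eM (-4096000) + I * (eM (1024000))))))))) + a * ((I *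
    (I * (I * (eM (-230400) + I * (eM (921600) + I * (eM (-1177600) + I * (eM (512000)))))))) +
    a * ((I * (I * (I * (eM (51200) + I * (eM (-102400) + I * (eM (102400)))))))))))))))))))

/-- The coefficient of `u ^ 2 * H ^ 1` in the gap. -/
def cLL21 (a I X : ℝ) : ℝ :=
  (((800 + I * ((-4800) + I * (9600 + I * ((-6400))))) + a * (((-2400) + I * (8800 + I *
    ((-8000)))) + a * ((1600 + I * ((-1600)))))) + X * (((600 + I * ((-400) + I * ((-20800) + I
    * (86400 + I * ((-131200) + I * (70400)))))) + a * (((-2800) + I * ((-4800) + I * (91200 +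
    I * ((-217600) + I * (153600))))) + a * ((4000 + I * (17600 + I * ((-99200) + I *
    (96000)))) + a * (((-1600) + I * ((-12800) + I * (12800))))))) + X * (((I * (3200 + I *
    ((-24000) + I * (48000 + I * (64000 + I * ((-384000) + I * (537600 + I * ((-256000)))))))))
    + a * ((I * ((-21200) + I * (115200 + I * ((-84000) + I * ((-564800) + I * (1276800 + I *
    ((-787200)))))))) + a * ((I * (50400 + I * ((-168000) + I * ((-139200) + I * (960000 + I *
    ((-825600))))))) + a * ((I * ((-49600) + I * (57600 + I * (240000 + I * ((-313600)))))) + a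
    * ((I * (16000 + I * (19200 + I * ((-19200)))))))))) + X * (((I * (I * (5600 + I *
    ((-62400) + I * (278400 + I * ((-608000) + I * (576000 + I * (76800 + I * ((-563200) + I *
    (307200)))))))))) + a * ((I * (I * ((-48000) + I * (438400 + I * ((-1513600) + I * (2252800
    + I * ((-742400) + I * ((-1484800) + I * (1177600))))))))) + a * ((I * (I * (160000 + I *
    ((-1139200) + I * (2790400 + I * ((-2201600) + I * ((-1024000) + I * (1638400)))))))) + a *
    ((I * (I * ((-256000) + I * (1305600 + I * ((-1920000) + I * (204800 + I * (921600))))))) +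
    a * ((I * (I * (192000 + I * ((-588800) + I * (358400 + I * (102400)))))) + a * ((I * (I *
    ((-51200) + I * (51200 + I * ((-51200)))))))))))) + X * (((I * (I * (I * (3200 + I *
    ((-44800) + I * (268800 + I * ((-896000) + I * (1792000 + I * ((-2150400) + I * (1433600 +
    I * ((-409600)))))))))))) + a * ((I * (I * (I * ((-33600) + I * (403200 + I * ((-2019200) +
    I * (5408000 + I * ((-8192000) + I * (6707200 + I * ((-2406400) + I * (102400))))))))))) +
    a * ((I * (I * (I * (144000 + I * ((-1440000) + I * (5792000 + I * ((-11776000) + I *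
    (12288000 + I * ((-5632000) + I * (512000)))))))))) + a * ((I * (I * (I * ((-320000) + I *
    (2560000 + I * ((-7808000) + I * (11008000 + I * ((-6656000) + I * (1024000))))))))) + a *
    ((I * (I * (I * (384000 + I * ((-2304000) + I * (4864000 + I * ((-4096000) + I *
    (1024000)))))))) + a * ((I * (I * (I * ((-230400) + I * (921600 + I * ((-1177600) + I *
    (512000))))))) + a * ((I * (I * (I * (51200 + I * ((-102400) + I *
    (102400))))))))))))))))))

theorem val_LL21 (x : ℕ → ℝ) (a I X : Pack.Ex) :
    (eLL21 a I X).eval x = cLL21 (a.eval x) (I.eval x) (X.eval x) := by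
  simp only [eLL21, cLL21, eval_addM, eval_mulM, eval_numM]
  push_cast
  rfl

/-- The coefficient of `u ^ 2 * H ^ 2` in the gap. -/
def eLL22 (a I X : Pack.Ex) : Pack.Ex :=
  (X * (((eM (48) + I * (eM (-288) + I * (eM (384) + I * (eM (768) + I * (eM (-2304) + I * (eM
    (1536))))))) + a * ((eM (-288) + I * (eM (1152) + I * (I * (eM (-4608) + I * (eM
    (4608)))))) + a * ((eM (576) + I * (eM (-1152) + I * (eM (-2304) + I * (eM (4608))))) + a *
    ((eM (-384) + I * (I * (eM (1536)))))))) + X * (((I * (eM (144) + I * (eM (-1152) + I * (eM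
    (2880) + I * (I * (eM (-11520) + I * (eM (18432) + I * (eM (-9216))))))))) + a * ((I * (eM
    (-1152) + I * (eM (6912) + I * (eM (-9216) + I * (eM (-18432) + I * (eM (55296) + I * (eM
    (-36864)))))))) + a * ((I * (eM (3456) + I * (eM (-13824) + I * (I * (eM (55296) + I * (eM
    (-55296))))))) + a * ((I * (eM (-4608) + I * (eM (9216) + I * (eM (18432) + I * (eM
    (-36864)))))) + a * ((I * (eM (2304) + I * (I * (eM (-9216)))))))))) + X * (((I * (I * (eM
    (96) + I * (eM (-960) + I * (eM (3456) + I * (eM (-3840) + I * (eM (-7680) + I * (eM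
    (27648) + I * (eM (-30720) + I * (eM (12288))))))))))) + a * ((I * (I * (eM (-960) + I *
    (eM (7680) + I * (eM (-19200) + I * (I * (eM (76800) + I * (eM (-122880) + I * (eM
    (61440)))))))))) + a * ((I * (I * (eM (3840) + I * (eM (-23040) + I * (eM (30720) + I * (eM
    (61440) + I * (eM (-184320) + I * (eM (122880))))))))) + a * ((I * (I * (eM (-7680) + I *
    (eM (30720) + I * (I * (eM (-122880) + I * (eM (122880)))))))) + a * ((I * (I * (eM (7680)
    + I * (eM (-15360) + I * (eM (-30720) + I * (eM (61440))))))) + a * ((I * (I * (eM (-3072)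
    + I * (I * (eM (12288))))))))))))))))

/-- The coefficient of `u ^ 2 * H ^ 2` in the gap. -/
def cLL22 (a I X : ℝ) : ℝ :=
  (X * (((48 + I * ((-288) + I * (384 + I * (768 + I * ((-2304) + I * (1536)))))) + a *
    (((-288) + I * (1152 + I * (I * ((-4608) + I * (4608))))) + a * ((576 + I * ((-1152) + I *
    ((-2304) + I * (4608)))) + a * (((-384) + I * (I * (1536))))))) + X * (((I * (144 + I *
    ((-1152) + I * (2880 + I * (I * ((-11520) + I * (18432 + I * ((-9216))))))))) + a * ((I *
    ((-1152) + I * (6912 + I * ((-9216) + I * ((-18432) + I * (55296 + I * ((-36864)))))))) + a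
    * ((I * (3456 + I * ((-13824) + I * (I * (55296 + I * ((-55296))))))) + a * ((I * ((-4608)
    + I * (9216 + I * (18432 + I * ((-36864)))))) + a * ((I * (2304 + I * (I *
    ((-9216)))))))))) + X * (((I * (I * (96 + I * ((-960) + I * (3456 + I * ((-3840) + I *
    ((-7680) + I * (27648 + I * ((-30720) + I * (12288)))))))))) + a * ((I * (I * ((-960) + I *
    (7680 + I * ((-19200) + I * (I * (76800 + I * ((-122880) + I * (61440))))))))) + a * ((I *
    (I * (3840 + I * ((-23040) + I * (30720 + I * (61440 + I * ((-184320) + I * (122880))))))))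
    + a * ((I * (I * ((-7680) + I * (30720 + I * (I * ((-122880) + I * (122880))))))) + a * ((I
    * (I * (7680 + I * ((-15360) + I * ((-30720) + I * (61440)))))) + a * ((I * (I * ((-3072) +
    I * (I * (12288)))))))))))))))

theorem val_LL22 (x : ℕ → ℝ) (a I X : Pack.Ex) :
    (eLL22 a I X).eval x = cLL22 (a.eval x) (I.eval x) (X.eval x) := by
  simp only [eLL22, cLL22, eval_addM, eval_mulM, eval_numM]
  push_cast
  rfl

/-- The gap, times a power of the denominators. -/
noncomputable def nLL (a I X u H : ℝ) : ℝ :=
  cLL00 a I X + cLL10 a I X * u + cLL11 a I X * (u * H) +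
    cLL21 a I X * (u ^ 2 * H) + cLL22 a I X * (u ^ 2 * H ^ 2)

/-- The numbers of the family at a point of the middle. -/
noncomputable def llNum (a I X u H : ℝ) : ClosedGen.Num :=
  ⟨a * (1 - 2 * I - a), -(1 - 2 * a - I / 2) * I,
    (-2 * (1 - 3 * I - 2 * a ^ 2) * I * (1 + (1 - 2 * I - 2 * a) * (2 * I * X)) -
      5 / 2 * (1 - u * (1 - 2 * I - 2 * a) * H)) / (1 - 2 * I - 2 * a),
    -(5 / 2) * (1 - u * (1 - 2 * I - 2 * a) * H),
    (-a * (1 - 3 * a - I) * I - 3 / 10 * (a / (1 - 2 * I - a)) * ((1 - u * (1 - 2 * I - 2 * a) * H) /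
      (1 + (1 - 2 * I - 2 * a) * (2 * I * X)))) / (1 - 2 * I - 2 * a) ^ 2,
    -(3 / 10) * (a / (1 - 2 * I - a)) * ((1 - u * (1 - 2 * I - 2 * a) * H) /
      (1 + (1 - 2 * I - 2 * a) * (2 * I * X))) / (1 - 2 * I - 2 * a) ^ 2,
    ((1 - 2 * I) ^ 2 - 2 * a * (1 - I)) / ((1 - 2 * I) ^ 2 * (1 - 2 * I - 2 * a) ^ 2)⟩

theorem nLL_eq {a I X u H g W1 : ℝ} (hI : I ≠ 0) (hb : 1 - 2 * I - a ≠ 0) (hd : 1 - 2 * I - 2 * a ≠ 0)
    (hS : 1 - 2 * I ≠ 0) (hQ : 1 + (1 - 2 * I - 2 * a) * (2 * I * X) ≠ 0) :
    a * I * nLL a I X u H = ClosedGen.LLGS a (1 - 2 * I - 2 * a) (2 * I * X) g (2 * I * H / (1 - 2 * I))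
        W1 ((1 - 2 * I) * u / (2 * I)) (llNum a I X u H) *
      (20 * (1 - 2 * I) * (1 - 2 * I - 2 * a) * (1 + 2 * (1 - 2 * I - 2 * a) * I * X)) := by
  have eb : a + (1 - 2 * I - 2 * a) = 1 - 2 * I - a := by ring
  simp only [nLL, cLL00, cLL10, cLL11, cLL21, cLL22, llNum, ClosedGen.LG_g, ClosedGen.LG_kw,
    ClosedGen.LLGS, Closed.LLGc, Closed.LLGv, Closed.LLGw, eb]
  generalize hD : 1 - 2 * I - 2 * a = d at *
  generalize hB : 1 - 2 * I - a = b at *
  generalize hC : 1 - 2 * I = S at *
  generalize hQ1 : 1 + d * (2 * I * X) = Q at *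
  rw [show (1 : ℝ) + 2 * d * I * X = Q by rw [← hQ1]; ring]
  field_simp
  subst hQ1 hC hB hD
  ring

end Vale.Agent.P100.Calib.Mid
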