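import Vale.Agent.P100.Calib.SlabWaistCell
import Vale.Agent.P100.Calib.SlabWaistGap

/-!
# The fitted gap is below the exact one
-/

set_option linter.unusedVariables false
set_option linter.unusedSimpArgs false

namespace Vale.Agent.P100.Calib.Mid

open Pack

attribute [local instance] exAdd exSub exMul

/-- The denominator of the gap. -/
def denLL : Ex :=
  Ex.num 20 * (Ex.num 1 - Ex.num 2 * Ex.var 1) *
    (Ex.num 1 - Ex.num 2 * Ex.var 1 - Ex.num 2 * Ex.var 0) *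
    (Ex.num 1 + Ex.num 2 * (Ex.num 1 - Ex.num 2 * Ex.var 1 - Ex.num 2 * Ex.var 0) * Ex.var 1 *
      Ex.var 2)

/-- A fitted coefficient of the gap as an expression. -/
def llFit (z : List ℤ) : Ex :=
  quart Ex.num (vecOf z) (Ex.var 0) (Ex.var 1) (Ex.var 2) (Ex.num 1)

/-- The fits of the gap are good. -/
structure LLFit.Ok (L : LLFit) (A B C : Seg) : Prop where
  e00 : Approx A B C denLL (eLL00 (Ex.var 0) (Ex.var 1) (Ex.var 2)) (llFit L.z00) L.e00
  e10 : Approx A B C denLL (eLL10 (Ex.var 0) (Ex.var 1) (Ex.var 2)) (llFit L.z10) L.e10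
  e11 : Approx A B C denLL (eLL11 (Ex.var 0) (Ex.var 1) (Ex.var 2)) (llFit L.z11) L.e11
  e21 : Approx A B C denLL (eLL21 (Ex.var 0) (Ex.var 1) (Ex.var 2)) (llFit L.z21) L.e21
  e22 : Approx A B C denLL (eLL22 (Ex.var 0) (Ex.var 1) (Ex.var 2)) (llFit L.z22) L.e22

variable {a I X : ℝ}

theorem eval_denLL : denLL.eval (vec4 a I X 0) =
    20 * (1 - 2 * I) * (1 - 2 * I - 2 * a) * (1 + 2 * (1 - 2 * I - 2 * a) * I * X) := by
  show ((20 : ℤ) : ℝ) * (((1 : ℤ) : ℝ) - ((2 : ℤ) : ℝ) * I) *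
    (((1 : ℤ) : ℝ) - ((2 : ℤ) : ℝ) * I - ((2 : ℤ) : ℝ) * a) *
    (((1 : ℤ) : ℝ) + ((2 : ℤ) : ℝ) * (((1 : ℤ) : ℝ) - ((2 : ℤ) : ℝ) * I - ((2 : ℤ) : ℝ) * a) *
      I * X) = _
  push_cast
  rfl

theorem eval_llFit (z : List ℤ) :
    (llFit z).eval (vec4 a I X 0) = quart kR (vecOf z) a I X 1 := by
  rw [← Int.cast_one (R := ℝ)]
  rfl

theorem llCo_le {A B C : Seg} {c : Ex} {r : ℝ} {z : List ℤ} {e : ℤ}
    (h : Approx A B C denLL c (llFit z) e) (ma : A.Mem a) (mb : B.Mem I) (mc : C.Mem X)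
    (hd : 0 < denLL.eval (vec4 a I X 0)) (hc : c.eval (vec4 a I X 0) = r) :
    llCo kR z e a I X 1 / 1000000 ≤ r / denLL.eval (vec4 a I X 0) := by
  have q := abs_le.1 (approx_at h ma mb mc hd)
  rw [eval_llFit, hc] at q
  simp only [llCo, kR, mul_one]
  rw [sub_div]
  linarith [q.1]

theorem LLFit.Ok.low {L : LLFit} {A B C : Seg} (h : L.Ok A B C) (ma : A.Mem a) (mb : B.Mem I)
    (mc : C.Mem X) (hI : 0 < I) (hd : 0 < 1 - 2 * I - 2 * a) (ha : 0 ≤ a) (hX : 0 ≤ X)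
    {u H : ℝ} (hu : 0 ≤ u) (hH : 0 ≤ H) :
    (L.A0 kR a I X u 1 + L.A1 kR a I X u 1 * H + L.A2 kR a I X u 1 * H ^ 2) / 1000000 ≤
      nLL a I X u H / (20 * (1 - 2 * I) * (1 - 2 * I - 2 * a) *
        (1 + 2 * (1 - 2 * I - 2 * a) * I * X)) := by
  have hS : 0 < 1 - 2 * I := by linarith
  have hden : 0 < denLL.eval (vec4 a I X 0) := by rw [eval_denLL]; positivity
  have q00 := llCo_le h.e00 ma mb mc hden (val_LL00 _ _ _ _)
  have q10 := mul_le_mul_of_nonneg_right (llCo_le h.e10 ma mb mc hden (val_LL10 _ _ _ _)) hu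
  have q11 := mul_le_mul_of_nonneg_right (llCo_le h.e11 ma mb mc hden (val_LL11 _ _ _ _))
    (mul_nonneg hu hH)
  have q21 := mul_le_mul_of_nonneg_right (llCo_le h.e21 ma mb mc hden (val_LL21 _ _ _ _))
    (mul_nonneg (sq_nonneg u) hH)
  have q22 := mul_le_mul_of_nonneg_right (llCo_le h.e22 ma mb mc hden (val_LL22 _ _ _ _))
    (mul_nonneg (sq_nonneg u) (sq_nonneg H))
  rw [← eval_denLL]
  simp only [nLL, LLFit.A0, LLFit.A1, LLFit.A2, add_div]
  change _ ≤ _ at q00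
  simp only [div_mul_eq_mul_div] at q10 q11 q21 q22
  refine le_trans (le_of_eq ?_) (add_le_add (add_le_add (add_le_add (add_le_add q00 q10) q11) q21) q22)
  ring

end Vale.Agent.P100.Calib.Mid
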