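import Vale.Agent.P100.Calib.SlabWaistFits
import Vale.Agent.P100.Calib.SlabWaistLL

/-!
# The fits of piece Bw are good
-/

namespace Vale.Agent.P100.Calib.Mid

open Pack

attribute [local instance] exAdd exSub exMul

set_option linter.defProp false

def fitBw_GG0_Up : checkFour (box4 segAB segI segXBw segOne) 258 6 11 4 0
    (apUp (Ex.num 10 * eb * ed * eS * eS)
      (eGG0000 (Ex.var 0) (Ex.var 1) (Ex.var 2)) ((fitBw.co Ex.num (Ex.var 0) (Ex.var 1) (Ex.var 2) (Ex.num 1)).GG0)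
      fitBw.eps.GG0) = true := by decide +kernel

def fitBw_GG0_Dn : checkFour (box4 segAB segI segXBw segOne) 258 6 11 4 0
    (apDn (Ex.num 10 * eb * ed * eS * eS)
      (eGG0000 (Ex.var 0) (Ex.var 1) (Ex.var 2)) ((fitBw.co Ex.num (Ex.var 0) (Ex.var 1) (Ex.var 2) (Ex.num 1)).GG0)
      fitBw.eps.GG0) = true := by decide +kernel

def fitBw_GGT_Up : checkFour (box4 segAB segI segXBw segOne) 228 6 8 4 0
    (apUp (Ex.num 10 * eb * ed * eS * eS)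
      (eGG0100 (Ex.var 0) (Ex.var 1) (Ex.var 2)) ((fitBw.co Ex.num (Ex.var 0) (Ex.var 1) (Ex.var 2) (Ex.num 1)).GGT)
      fitBw.eps.GGT) = true := by decide +kernel

def fitBw_GGT_Dn : checkFour (box4 segAB segI segXBw segOne) 228 6 8 4 0
    (apDn (Ex.num 10 * eb * ed * eS * eS)
      (eGG0100 (Ex.var 0) (Ex.var 1) (Ex.var 2)) ((fitBw.co Ex.num (Ex.var 0) (Ex.var 1) (Ex.var 2) (Ex.num 1)).GGT)
      fitBw.eps.GGT) = true := by decide +kernel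

def fitBw_GGp_Up : checkFour (box4 segAB segI segXBw segOne) 218 6 8 4 0
    (apUp (Ex.num 10 * eb * ed * eS * eS)
      (eGG1000 (Ex.var 0) (Ex.var 1) (Ex.var 2)) ((fitBw.co Ex.num (Ex.var 0) (Ex.var 1) (Ex.var 2) (Ex.num 1)).GGp)
      fitBw.eps.GGp) = true := by decide +kernel

def fitBw_GGp_Dn : checkFour (box4 segAB segI segXBw segOne) 218 6 8 4 0
    (apDn (Ex.num 10 * eb * ed * eS * eS)
      (eGG1000 (Ex.var 0) (Ex.var 1) (Ex.var 2)) ((fitBw.co Ex.num (Ex.var 0) (Ex.var 1) (Ex.var 2) (Ex.num 1)).GGp)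
      fitBw.eps.GGp) = true := by decide +kernel

def fitBw_GGpT_Up : checkFour (box4 segAB segI segXBw segOne) 220 6 8 4 0
    (apUp (Ex.num 10 * eb * ed * eS * eS)
      (eGG1100 (Ex.var 0) (Ex.var 1) (Ex.var 2)) ((fitBw.co Ex.num (Ex.var 0) (Ex.var 1) (Ex.var 2) (Ex.num 1)).GGpT)
      fitBw.eps.GGpT) = true := by decide +kernel

def fitBw_GGpT_Dn : checkFour (box4 segAB segI segXBw segOne) 220 6 8 4 0
    (apDn (Ex.num 10 * eb * ed * eS * eS)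
      (eGG1100 (Ex.var 0) (Ex.var 1) (Ex.var 2)) ((fitBw.co Ex.num (Ex.var 0) (Ex.var 1) (Ex.var 2) (Ex.num 1)).GGpT)
      fitBw.eps.GGpT) = true := by decide +kernel

def fitBw_EG0_Up : checkFour (box4 segAB segI segXBw segOne) 332 8 15 4 0
    (apUp (Ex.num 10 * eb * ed * ed * eS * eS)
      (eEG0000 (Ex.var 0) (Ex.var 1) (Ex.var 2)) ((fitBw.co Ex.num (Ex.var 0) (Ex.var 1) (Ex.var 2) (Ex.num 1)).EG0)
      fitBw.eps.EG0) = true := by decide +kernel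

def fitBw_EG0_Dn : checkFour (box4 segAB segI segXBw segOne) 332 8 15 4 0
    (apDn (Ex.num 10 * eb * ed * ed * eS * eS)
      (eEG0000 (Ex.var 0) (Ex.var 1) (Ex.var 2)) ((fitBw.co Ex.num (Ex.var 0) (Ex.var 1) (Ex.var 2) (Ex.num 1)).EG0)
      fitBw.eps.EG0) = true := by decide +kernel

def fitBw_EGg_Up : checkFour (box4 segAB segI segXBw segOne) 278 7 12 4 0
    (apUp (Ex.num 10 * eb * ed * ed * eS * eS)
      (eEG0010 (Ex.var 0) (Ex.var 1) (Ex.var 2)) ((fitBw.co Ex.num (Ex.var 0) (Ex.var 1) (Ex.var 2) (Ex.num 1)).EGg)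
      fitBw.eps.EGg) = true := by decide +kernel

def fitBw_EGg_Dn : checkFour (box4 segAB segI segXBw segOne) 278 7 12 4 0
    (apDn (Ex.num 10 * eb * ed * ed * eS * eS)
      (eEG0010 (Ex.var 0) (Ex.var 1) (Ex.var 2)) ((fitBw.co Ex.num (Ex.var 0) (Ex.var 1) (Ex.var 2) (Ex.num 1)).EGg)
      fitBw.eps.EGg) = true := by decide +kernel

def fitBw_EGT_Up : checkFour (box4 segAB segI segXBw segOne) 255 7 9 4 0
    (apUp (Ex.num 10 * eb * ed * ed * eS * eS)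
      (eEG0100 (Ex.var 0) (Ex.var 1) (Ex.var 2)) ((fitBw.co Ex.num (Ex.var 0) (Ex.var 1) (Ex.var 2) (Ex.num 1)).EGT)
      fitBw.eps.EGT) = true := by decide +kernel

def fitBw_EGT_Dn : checkFour (box4 segAB segI segXBw segOne) 255 7 9 4 0
    (apDn (Ex.num 10 * eb * ed * ed * eS * eS)
      (eEG0100 (Ex.var 0) (Ex.var 1) (Ex.var 2)) ((fitBw.co Ex.num (Ex.var 0) (Ex.var 1) (Ex.var 2) (Ex.num 1)).EGT)
      fitBw.eps.EGT) = true := by decide +kernel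

def fitBw_EGTg_Up : checkFour (box4 segAB segI segXBw segOne) 262 7 10 4 0
    (apUp (Ex.num 10 * eb * ed * ed * eS * eS)
      (eEG0110 (Ex.var 0) (Ex.var 1) (Ex.var 2)) ((fitBw.co Ex.num (Ex.var 0) (Ex.var 1) (Ex.var 2) (Ex.num 1)).EGTg)
      fitBw.eps.EGTg) = true := by decide +kernel

def fitBw_EGTg_Dn : checkFour (box4 segAB segI segXBw segOne) 262 7 10 4 0
    (apDn (Ex.num 10 * eb * ed * ed * eS * eS)
      (eEG0110 (Ex.var 0) (Ex.var 1) (Ex.var 2)) ((fitBw.co Ex.num (Ex.var 0) (Ex.var 1) (Ex.var 2) (Ex.num 1)).EGTg)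
      fitBw.eps.EGTg) = true := by decide +kernel

def fitBw_EGp_Up : checkFour (box4 segAB segI segXBw segOne) 292 7 13 4 0
    (apUp (Ex.num 10 * eb * ed * ed * eS * eS)
      (eEG1000 (Ex.var 0) (Ex.var 1) (Ex.var 2)) ((fitBw.co Ex.num (Ex.var 0) (Ex.var 1) (Ex.var 2) (Ex.num 1)).EGp)
      fitBw.eps.EGp) = true := by decide +kernel

def fitBw_EGp_Dn : checkFour (box4 segAB segI segXBw segOne) 292 7 13 4 0
    (apDn (Ex.num 10 * eb * ed * ed * eS * eS)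
      (eEG1000 (Ex.var 0) (Ex.var 1) (Ex.var 2)) ((fitBw.co Ex.num (Ex.var 0) (Ex.var 1) (Ex.var 2) (Ex.num 1)).EGp)
      fitBw.eps.EGp) = true := by decide +kernel

def fitBw_EGpT_Up : checkFour (box4 segAB segI segXBw segOne) 251 7 9 4 0
    (apUp (Ex.num 10 * eb * ed * ed * eS * eS)
      (eEG1100 (Ex.var 0) (Ex.var 1) (Ex.var 2)) ((fitBw.co Ex.num (Ex.var 0) (Ex.var 1) (Ex.var 2) (Ex.num 1)).EGpT)
      fitBw.eps.EGpT) = true := by decide +kernel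

def fitBw_EGpT_Dn : checkFour (box4 segAB segI segXBw segOne) 251 7 9 4 0
    (apDn (Ex.num 10 * eb * ed * ed * eS * eS)
      (eEG1100 (Ex.var 0) (Ex.var 1) (Ex.var 2)) ((fitBw.co Ex.num (Ex.var 0) (Ex.var 1) (Ex.var 2) (Ex.num 1)).EGpT)
      fitBw.eps.EGpT) = true := by decide +kernel

def fitBw_LE0_Up : checkFour (box4 segAB segI segXBw segOne) 331 8 14 5 0
    (apUp (Ex.num 10 * eb * eS * eS)
      (eLE0000 (Ex.var 0) (Ex.var 1) (Ex.var 2)) ((fitBw.co Ex.num (Ex.var 0) (Ex.var 1) (Ex.var 2) (Ex.num 1)).LE0)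
      fitBw.eps.LE0) = true := by decide +kernel

def fitBw_LE0_Dn : checkFour (box4 segAB segI segXBw segOne) 331 8 14 5 0
    (apDn (Ex.num 10 * eb * eS * eS)
      (eLE0000 (Ex.var 0) (Ex.var 1) (Ex.var 2)) ((fitBw.co Ex.num (Ex.var 0) (Ex.var 1) (Ex.var 2) (Ex.num 1)).LE0)
      fitBw.eps.LE0) = true := by decide +kernel

def fitBw_LEw_Up : checkFour (box4 segAB segI segXBw segOne) 230 5 9 4 0
    (apUp (Ex.num 10 * eb * eS * eS)
      (eLE0001 (Ex.var 0) (Ex.var 1) (Ex.var 2)) ((fitBw.co Ex.num (Ex.var 0) (Ex.var 1) (Ex.var 2) (Ex.num 1)).LEw)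
      fitBw.eps.LEw) = true := by decide +kernel

def fitBw_LEw_Dn : checkFour (box4 segAB segI segXBw segOne) 230 5 9 4 0
    (apDn (Ex.num 10 * eb * eS * eS)
      (eLE0001 (Ex.var 0) (Ex.var 1) (Ex.var 2)) ((fitBw.co Ex.num (Ex.var 0) (Ex.var 1) (Ex.var 2) (Ex.num 1)).LEw)
      fitBw.eps.LEw) = true := by decide +kernel

def fitBw_LEg_Up : checkFour (box4 segAB segI segXBw segOne) 277 7 12 4 0
    (apUp (Ex.num 10 * eb * eS * eS)
      (eLE0010 (Ex.var 0) (Ex.var 1) (Ex.var 2)) ((fitBw.co Ex.num (Ex.var 0) (Ex.var 1) (Ex.var 2) (Ex.num 1)).LEg)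
      fitBw.eps.LEg) = true := by decide +kernel

def fitBw_LEg_Dn : checkFour (box4 segAB segI segXBw segOne) 277 7 12 4 0
    (apDn (Ex.num 10 * eb * eS * eS)
      (eLE0010 (Ex.var 0) (Ex.var 1) (Ex.var 2)) ((fitBw.co Ex.num (Ex.var 0) (Ex.var 1) (Ex.var 2) (Ex.num 1)).LEg)
      fitBw.eps.LEg) = true := by decide +kernel

def fitBw_LET_Up : checkFour (box4 segAB segI segXBw segOne) 216 5 8 4 0
    (apUp (Ex.num 10 * eb * eS * eS)
      (eLE0100 (Ex.var 0) (Ex.var 1) (Ex.var 2)) ((fitBw.co Ex.num (Ex.var 0) (Ex.var 1) (Ex.var 2) (Ex.num 1)).LET)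
      fitBw.eps.LET) = true := by decide +kernel

def fitBw_LET_Dn : checkFour (box4 segAB segI segXBw segOne) 216 5 8 4 0
    (apDn (Ex.num 10 * eb * eS * eS)
      (eLE0100 (Ex.var 0) (Ex.var 1) (Ex.var 2)) ((fitBw.co Ex.num (Ex.var 0) (Ex.var 1) (Ex.var 2) (Ex.num 1)).LET)
      fitBw.eps.LET) = true := by decide +kernel

def fitBw_LETg_Up : checkFour (box4 segAB segI segXBw segOne) 238 5 10 4 0
    (apUp (Ex.num 10 * eb * eS * eS)
      (eLE0110 (Ex.var 0) (Ex.var 1) (Ex.var 2)) ((fitBw.co Ex.num (Ex.var 0) (Ex.var 1) (Ex.var 2) (Ex.num 1)).LETg)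
      fitBw.eps.LETg) = true := by decide +kernel

def fitBw_LETg_Dn : checkFour (box4 segAB segI segXBw segOne) 238 5 10 4 0
    (apDn (Ex.num 10 * eb * eS * eS)
      (eLE0110 (Ex.var 0) (Ex.var 1) (Ex.var 2)) ((fitBw.co Ex.num (Ex.var 0) (Ex.var 1) (Ex.var 2) (Ex.num 1)).LETg)
      fitBw.eps.LETg) = true := by decide +kernel

def fitBw_LEp_Up : checkFour (box4 segAB segI segXBw segOne) 305 7 14 4 0
    (apUp (Ex.num 10 * eb * eS * eS)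
      (eLE1000 (Ex.var 0) (Ex.var 1) (Ex.var 2)) ((fitBw.co Ex.num (Ex.var 0) (Ex.var 1) (Ex.var 2) (Ex.num 1)).LEp)
      fitBw.eps.LEp) = true := by decide +kernel

def fitBw_LEp_Dn : checkFour (box4 segAB segI segXBw segOne) 305 7 14 4 0
    (apDn (Ex.num 10 * eb * eS * eS)
      (eLE1000 (Ex.var 0) (Ex.var 1) (Ex.var 2)) ((fitBw.co Ex.num (Ex.var 0) (Ex.var 1) (Ex.var 2) (Ex.num 1)).LEp)
      fitBw.eps.LEp) = true := by decide +kernel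

def fitBw_LEpw_Up : checkFour (box4 segAB segI segXBw segOne) 234 5 10 4 0
    (apUp (Ex.num 10 * eb * eS * eS)
      (eLE1001 (Ex.var 0) (Ex.var 1) (Ex.var 2)) ((fitBw.co Ex.num (Ex.var 0) (Ex.var 1) (Ex.var 2) (Ex.num 1)).LEpw)
      fitBw.eps.LEpw) = true := by decide +kernel

def fitBw_LEpw_Dn : checkFour (box4 segAB segI segXBw segOne) 234 5 10 4 0
    (apDn (Ex.num 10 * eb * eS * eS)
      (eLE1001 (Ex.var 0) (Ex.var 1) (Ex.var 2)) ((fitBw.co Ex.num (Ex.var 0) (Ex.var 1) (Ex.var 2) (Ex.num 1)).LEpw)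
      fitBw.eps.LEpw) = true := by decide +kernel

def fitBw_LEpT_Up : checkFour (box4 segAB segI segXBw segOne) 212 5 8 4 0
    (apUp (Ex.num 10 * eb * eS * eS)
      (eLE1100 (Ex.var 0) (Ex.var 1) (Ex.var 2)) ((fitBw.co Ex.num (Ex.var 0) (Ex.var 1) (Ex.var 2) (Ex.num 1)).LEpT)
      fitBw.eps.LEpT) = true := by decide +kernel

def fitBw_LEpT_Dn : checkFour (box4 segAB segI segXBw segOne) 212 5 8 4 0
    (apDn (Ex.num 10 * eb * eS * eS)
      (eLE1100 (Ex.var 0) (Ex.var 1) (Ex.var 2)) ((fitBw.co Ex.num (Ex.var 0) (Ex.var 1) (Ex.var 2) (Ex.num 1)).LEpT)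
      fitBw.eps.LEpT) = true := by decide +kernel

def fitBw_LEpp_Up : checkFour (box4 segAB segI segXBw segOne) 229 5 10 4 0
    (apUp (Ex.num 10 * eb * eS * eS)
      (eLE2000 (Ex.var 0) (Ex.var 1) (Ex.var 2)) ((fitBw.co Ex.num (Ex.var 0) (Ex.var 1) (Ex.var 2) (Ex.num 1)).LEpp)
      fitBw.eps.LEpp) = true := by decide +kernel

def fitBw_LEpp_Dn : checkFour (box4 segAB segI segXBw segOne) 229 5 10 4 0
    (apDn (Ex.num 10 * eb * eS * eS)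
      (eLE2000 (Ex.var 0) (Ex.var 1) (Ex.var 2)) ((fitBw.co Ex.num (Ex.var 0) (Ex.var 1) (Ex.var 2) (Ex.num 1)).LEpp)
      fitBw.eps.LEpp) = true := by decide +kernel

def fitBw_LM0_Up : checkFour (box4 segAB segI segXBw segOne) 363 9 16 5 0
    (apUp (Ex.num 10 * eb * ed * eS * eS)
      (eLM0000 (Ex.var 0) (Ex.var 1) (Ex.var 2)) ((fitBw.co Ex.num (Ex.var 0) (Ex.var 1) (Ex.var 2) (Ex.num 1)).LM0)
      fitBw.eps.LM0) = true := by decide +kernel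

def fitBw_LM0_Dn : checkFour (box4 segAB segI segXBw segOne) 363 9 16 5 0
    (apDn (Ex.num 10 * eb * ed * eS * eS)
      (eLM0000 (Ex.var 0) (Ex.var 1) (Ex.var 2)) ((fitBw.co Ex.num (Ex.var 0) (Ex.var 1) (Ex.var 2) (Ex.num 1)).LM0)
      fitBw.eps.LM0) = true := by decide +kernel

def fitBw_LMw_Up : checkFour (box4 segAB segI segXBw segOne) 259 6 11 4 0
    (apUp (Ex.num 10 * eb * ed * eS * eS)
      (eLM0001 (Ex.var 0) (Ex.var 1) (Ex.var 2)) ((fitBw.co Ex.num (Ex.var 0) (Ex.var 1) (Ex.var 2) (Ex.num 1)).LMw)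
      fitBw.eps.LMw) = true := by decide +kernel

def fitBw_LMw_Dn : checkFour (box4 segAB segI segXBw segOne) 259 6 11 4 0
    (apDn (Ex.num 10 * eb * ed * eS * eS)
      (eLM0001 (Ex.var 0) (Ex.var 1) (Ex.var 2)) ((fitBw.co Ex.num (Ex.var 0) (Ex.var 1) (Ex.var 2) (Ex.num 1)).LMw)
      fitBw.eps.LMw) = true := by decide +kernel

def fitBw_LMg_Up : checkFour (box4 segAB segI segXBw segOne) 306 8 13 4 0
    (apUp (Ex.num 10 * eb * ed * eS * eS)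
      (eLM0010 (Ex.var 0) (Ex.var 1) (Ex.var 2)) ((fitBw.co Ex.num (Ex.var 0) (Ex.var 1) (Ex.var 2) (Ex.num 1)).LMg)
      fitBw.eps.LMg) = true := by decide +kernel

def fitBw_LMg_Dn : checkFour (box4 segAB segI segXBw segOne) 306 8 13 4 0
    (apDn (Ex.num 10 * eb * ed * eS * eS)
      (eLM0010 (Ex.var 0) (Ex.var 1) (Ex.var 2)) ((fitBw.co Ex.num (Ex.var 0) (Ex.var 1) (Ex.var 2) (Ex.num 1)).LMg)
      fitBw.eps.LMg) = true := by decide +kernel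

def fitBw_LMT_Up : checkFour (box4 segAB segI segXBw segOne) 252 6 10 4 0
    (apUp (Ex.num 10 * eb * ed * eS * eS)
      (eLM0100 (Ex.var 0) (Ex.var 1) (Ex.var 2)) ((fitBw.co Ex.num (Ex.var 0) (Ex.var 1) (Ex.var 2) (Ex.num 1)).LMT)
      fitBw.eps.LMT) = true := by decide +kernel

def fitBw_LMT_Dn : checkFour (box4 segAB segI segXBw segOne) 252 6 10 4 0
    (apDn (Ex.num 10 * eb * ed * eS * eS)
      (eLM0100 (Ex.var 0) (Ex.var 1) (Ex.var 2)) ((fitBw.co Ex.num (Ex.var 0) (Ex.var 1) (Ex.var 2) (Ex.num 1)).LMT)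
      fitBw.eps.LMT) = true := by decide +kernel

def fitBw_LMTg_Up : checkFour (box4 segAB segI segXBw segOne) 267 6 11 4 0
    (apUp (Ex.num 10 * eb * ed * eS * eS)
      (eLM0110 (Ex.var 0) (Ex.var 1) (Ex.var 2)) ((fitBw.co Ex.num (Ex.var 0) (Ex.var 1) (Ex.var 2) (Ex.num 1)).LMTg)
      fitBw.eps.LMTg) = true := by decide +kernel

def fitBw_LMTg_Dn : checkFour (box4 segAB segI segXBw segOne) 267 6 11 4 0
    (apDn (Ex.num 10 * eb * ed * eS * eS)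
      (eLM0110 (Ex.var 0) (Ex.var 1) (Ex.var 2)) ((fitBw.co Ex.num (Ex.var 0) (Ex.var 1) (Ex.var 2) (Ex.num 1)).LMTg)
      fitBw.eps.LMTg) = true := by decide +kernel

def fitBw_LMp_Up : checkFour (box4 segAB segI segXBw segOne) 291 7 13 4 0
    (apUp (Ex.num 10 * eb * ed * eS * eS)
      (eLM1000 (Ex.var 0) (Ex.var 1) (Ex.var 2)) ((fitBw.co Ex.num (Ex.var 0) (Ex.var 1) (Ex.var 2) (Ex.num 1)).LMp)
      fitBw.eps.LMp) = true := by decide +kernel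

def fitBw_LMp_Dn : checkFour (box4 segAB segI segXBw segOne) 291 7 13 4 0
    (apDn (Ex.num 10 * eb * ed * eS * eS)
      (eLM1000 (Ex.var 0) (Ex.var 1) (Ex.var 2)) ((fitBw.co Ex.num (Ex.var 0) (Ex.var 1) (Ex.var 2) (Ex.num 1)).LMp)
      fitBw.eps.LMp) = true := by decide +kernel

def fitBw_LMpw_Up : checkFour (box4 segAB segI segXBw segOne) 263 6 12 4 0
    (apUp (Ex.num 10 * eb * ed * eS * eS)
      (eLM1001 (Ex.var 0) (Ex.var 1) (Ex.var 2)) ((fitBw.co Ex.num (Ex.var 0) (Ex.var 1) (Ex.var 2) (Ex.num 1)).LMpw)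
      fitBw.eps.LMpw) = true := by decide +kernel

def fitBw_LMpw_Dn : checkFour (box4 segAB segI segXBw segOne) 263 6 12 4 0
    (apDn (Ex.num 10 * eb * ed * eS * eS)
      (eLM1001 (Ex.var 0) (Ex.var 1) (Ex.var 2)) ((fitBw.co Ex.num (Ex.var 0) (Ex.var 1) (Ex.var 2) (Ex.num 1)).LMpw)
      fitBw.eps.LMpw) = true := by decide +kernel

def fitBw_LMpT_Up : checkFour (box4 segAB segI segXBw segOne) 234 6 9 4 0
    (apUp (Ex.num 10 * eb * ed * eS * eS)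
      (eLM1100 (Ex.var 0) (Ex.var 1) (Ex.var 2)) ((fitBw.co Ex.num (Ex.var 0) (Ex.var 1) (Ex.var 2) (Ex.num 1)).LMpT)
      fitBw.eps.LMpT) = true := by decide +kernel

def fitBw_LMpT_Dn : checkFour (box4 segAB segI segXBw segOne) 234 6 9 4 0
    (apDn (Ex.num 10 * eb * ed * eS * eS)
      (eLM1100 (Ex.var 0) (Ex.var 1) (Ex.var 2)) ((fitBw.co Ex.num (Ex.var 0) (Ex.var 1) (Ex.var 2) (Ex.num 1)).LMpT)
      fitBw.eps.LMpT) = true := by decide +kernel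

def fitBw_LMpp_Up : checkFour (box4 segAB segI segXBw segOne) 258 6 12 4 0
    (apUp (Ex.num 10 * eb * ed * eS * eS)
      (eLM2000 (Ex.var 0) (Ex.var 1) (Ex.var 2)) ((fitBw.co Ex.num (Ex.var 0) (Ex.var 1) (Ex.var 2) (Ex.num 1)).LMpp)
      fitBw.eps.LMpp) = true := by decide +kernel

def fitBw_LMpp_Dn : checkFour (box4 segAB segI segXBw segOne) 258 6 12 4 0
    (apDn (Ex.num 10 * eb * ed * eS * eS)
      (eLM2000 (Ex.var 0) (Ex.var 1) (Ex.var 2)) ((fitBw.co Ex.num (Ex.var 0) (Ex.var 1) (Ex.var 2) (Ex.num 1)).LMpp)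
      fitBw.eps.LMpp) = true := by decide +kernel

def fitBw_gE0_Up : checkFour (box4 segAB segI segXBw segOne) 229 6 8 4 0
    (apUp (Ex.num 2 * ed * ed * eS * eS)
      (egE0000 (Ex.var 0) (Ex.var 1) (Ex.var 2)) ((fitBw.co Ex.num (Ex.var 0) (Ex.var 1) (Ex.var 2) (Ex.num 1)).gE0)
      fitBw.eps.gE0) = true := by decide +kernel

def fitBw_gE0_Dn : checkFour (box4 segAB segI segXBw segOne) 229 6 8 4 0
    (apDn (Ex.num 2 * ed * ed * eS * eS)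
      (egE0000 (Ex.var 0) (Ex.var 1) (Ex.var 2)) ((fitBw.co Ex.num (Ex.var 0) (Ex.var 1) (Ex.var 2) (Ex.num 1)).gE0)
      fitBw.eps.gE0) = true := by decide +kernel

def fitBw_gEg_Up : checkFour (box4 segAB segI segXBw segOne) 224 6 8 4 0
    (apUp (Ex.num 2 * ed * ed * eS * eS)
      (egE0010 (Ex.var 0) (Ex.var 1) (Ex.var 2)) ((fitBw.co Ex.num (Ex.var 0) (Ex.var 1) (Ex.var 2) (Ex.num 1)).gEg)
      fitBw.eps.gEg) = true := by decide +kernel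

def fitBw_gEg_Dn : checkFour (box4 segAB segI segXBw segOne) 224 6 8 4 0
    (apDn (Ex.num 2 * ed * ed * eS * eS)
      (egE0010 (Ex.var 0) (Ex.var 1) (Ex.var 2)) ((fitBw.co Ex.num (Ex.var 0) (Ex.var 1) (Ex.var 2) (Ex.num 1)).gEg)
      fitBw.eps.gEg) = true := by decide +kernel

def fitBw_gETg_Up : checkFour (box4 segAB segI segXBw segOne) 229 6 8 4 0
    (apUp (Ex.num 2 * ed * ed * eS * eS)
      (egE0110 (Ex.var 0) (Ex.var 1) (Ex.var 2)) ((fitBw.co Ex.num (Ex.var 0) (Ex.var 1) (Ex.var 2) (Ex.num 1)).gETg)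
      fitBw.eps.gETg) = true := by decide +kernel

def fitBw_gETg_Dn : checkFour (box4 segAB segI segXBw segOne) 229 6 8 4 0
    (apDn (Ex.num 2 * ed * ed * eS * eS)
      (egE0110 (Ex.var 0) (Ex.var 1) (Ex.var 2)) ((fitBw.co Ex.num (Ex.var 0) (Ex.var 1) (Ex.var 2) (Ex.num 1)).gETg)
      fitBw.eps.gETg) = true := by decide +kernel

def fitBw_gEp_Up : checkFour (box4 segAB segI segXBw segOne) 221 6 8 4 0
    (apUp (Ex.num 2 * ed * ed * eS * eS)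
      (egE1000 (Ex.var 0) (Ex.var 1) (Ex.var 2)) ((fitBw.co Ex.num (Ex.var 0) (Ex.var 1) (Ex.var 2) (Ex.num 1)).gEp)
      fitBw.eps.gEp) = true := by decide +kernel

def fitBw_gEp_Dn : checkFour (box4 segAB segI segXBw segOne) 221 6 8 4 0
    (apDn (Ex.num 2 * ed * ed * eS * eS)
      (egE1000 (Ex.var 0) (Ex.var 1) (Ex.var 2)) ((fitBw.co Ex.num (Ex.var 0) (Ex.var 1) (Ex.var 2) (Ex.num 1)).gEp)
      fitBw.eps.gEp) = true := by decide +kernel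

def fitBw_gG0_Up : checkFour (box4 segAB segI segXBw segOne) 180 4 7 3 0
    (apUp (Ex.num 2)
      (egG0000 (Ex.var 0) (Ex.var 1) (Ex.var 2)) ((fitBw.co Ex.num (Ex.var 0) (Ex.var 1) (Ex.var 2) (Ex.num 1)).gG0)
      fitBw.eps.gG0) = true := by decide +kernel

def fitBw_gG0_Dn : checkFour (box4 segAB segI segXBw segOne) 180 4 7 3 0
    (apDn (Ex.num 2)
      (egG0000 (Ex.var 0) (Ex.var 1) (Ex.var 2)) ((fitBw.co Ex.num (Ex.var 0) (Ex.var 1) (Ex.var 2) (Ex.num 1)).gG0)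
      fitBw.eps.gG0) = true := by decide +kernel

def fitBw_gGp_Up : checkFour (box4 segAB segI segXBw segOne) 124 3 3 3 0
    (apUp (Ex.num 2)
      (egG1000 (Ex.var 0) (Ex.var 1) (Ex.var 2)) ((fitBw.co Ex.num (Ex.var 0) (Ex.var 1) (Ex.var 2) (Ex.num 1)).gGp)
      fitBw.eps.gGp) = true := by decide +kernel

def fitBw_gGp_Dn : checkFour (box4 segAB segI segXBw segOne) 124 3 3 3 0
    (apDn (Ex.num 2)
      (egG1000 (Ex.var 0) (Ex.var 1) (Ex.var 2)) ((fitBw.co Ex.num (Ex.var 0) (Ex.var 1) (Ex.var 2) (Ex.num 1)).gGp)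
      fitBw.eps.gGp) = true := by decide +kernel

def fitBw_hE0_Up : checkFour (box4 segAB segI segXBw segOne) 193 4 7 4 0
    (apUp (Ex.num 2)
      (ehE0000 (Ex.var 0) (Ex.var 1) (Ex.var 2)) ((fitBw.co Ex.num (Ex.var 0) (Ex.var 1) (Ex.var 2) (Ex.num 1)).hE0)
      fitBw.eps.hE0) = true := by decide +kernel

def fitBw_hE0_Dn : checkFour (box4 segAB segI segXBw segOne) 193 4 7 4 0
    (apDn (Ex.num 2)
      (ehE0000 (Ex.var 0) (Ex.var 1) (Ex.var 2)) ((fitBw.co Ex.num (Ex.var 0) (Ex.var 1) (Ex.var 2) (Ex.num 1)).hE0)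
      fitBw.eps.hE0) = true := by decide +kernel

def fitBw_hEp_Up : checkFour (box4 segAB segI segXBw segOne) 168 4 5 4 0
    (apUp (Ex.num 2)
      (ehE1000 (Ex.var 0) (Ex.var 1) (Ex.var 2)) ((fitBw.co Ex.num (Ex.var 0) (Ex.var 1) (Ex.var 2) (Ex.num 1)).hEp)
      fitBw.eps.hEp) = true := by decide +kernel

def fitBw_hEp_Dn : checkFour (box4 segAB segI segXBw segOne) 168 4 5 4 0
    (apDn (Ex.num 2)
      (ehE1000 (Ex.var 0) (Ex.var 1) (Ex.var 2)) ((fitBw.co Ex.num (Ex.var 0) (Ex.var 1) (Ex.var 2) (Ex.num 1)).hEp)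
      fitBw.eps.hEp) = true := by decide +kernel

def fitBw_hG0_Up : checkFour (box4 segAB segI segXBw segOne) 252 7 9 4 0
    (apUp (Ex.num 10 * eb * ed * ed * eS * eS)
      (ehG0000 (Ex.var 0) (Ex.var 1) (Ex.var 2)) ((fitBw.co Ex.num (Ex.var 0) (Ex.var 1) (Ex.var 2) (Ex.num 1)).hG0)
      fitBw.eps.hG0) = true := by decide +kernel

def fitBw_hG0_Dn : checkFour (box4 segAB segI segXBw segOne) 252 7 9 4 0
    (apDn (Ex.num 10 * eb * ed * ed * eS * eS)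
      (ehG0000 (Ex.var 0) (Ex.var 1) (Ex.var 2)) ((fitBw.co Ex.num (Ex.var 0) (Ex.var 1) (Ex.var 2) (Ex.num 1)).hG0)
      fitBw.eps.hG0) = true := by decide +kernel

def fitBw_hGT_Up : checkFour (box4 segAB segI segXBw segOne) 253 7 9 4 0
    (apUp (Ex.num 10 * eb * ed * ed * eS * eS)
      (ehG0100 (Ex.var 0) (Ex.var 1) (Ex.var 2)) ((fitBw.co Ex.num (Ex.var 0) (Ex.var 1) (Ex.var 2) (Ex.num 1)).hGT)
      fitBw.eps.hGT) = true := by decide +kernel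

def fitBw_hGT_Dn : checkFour (box4 segAB segI segXBw segOne) 253 7 9 4 0
    (apDn (Ex.num 10 * eb * ed * ed * eS * eS)
      (ehG0100 (Ex.var 0) (Ex.var 1) (Ex.var 2)) ((fitBw.co Ex.num (Ex.var 0) (Ex.var 1) (Ex.var 2) (Ex.num 1)).hGT)
      fitBw.eps.hGT) = true := by decide +kernel

def fitBw_hGp_Up : checkFour (box4 segAB segI segXBw segOne) 244 7 9 4 0
    (apUp (Ex.num 10 * eb * ed * ed * eS * eS)
      (ehG1000 (Ex.var 0) (Ex.var 1) (Ex.var 2)) ((fitBw.co Ex.num (Ex.var 0) (Ex.var 1) (Ex.var 2) (Ex.num 1)).hGp)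
      fitBw.eps.hGp) = true := by decide +kernel

def fitBw_hGp_Dn : checkFour (box4 segAB segI segXBw segOne) 244 7 9 4 0
    (apDn (Ex.num 10 * eb * ed * ed * eS * eS)
      (ehG1000 (Ex.var 0) (Ex.var 1) (Ex.var 2)) ((fitBw.co Ex.num (Ex.var 0) (Ex.var 1) (Ex.var 2) (Ex.num 1)).hGp)
      fitBw.eps.hGp) = true := by decide +kernel

def fitBw_hM0_Up : checkFour (box4 segAB segI segXBw segOne) 123 3 3 3 0
    (apUp (Ex.num 1)
      (ehM0000 (Ex.var 0) (Ex.var 1) (Ex.var 2)) ((fitBw.co Ex.num (Ex.var 0) (Ex.var 1) (Ex.var 2) (Ex.num 1)).hM0)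
      fitBw.eps.hM0) = true := by decide +kernel

def fitBw_hM0_Dn : checkFour (box4 segAB segI segXBw segOne) 123 3 3 3 0
    (apDn (Ex.num 1)
      (ehM0000 (Ex.var 0) (Ex.var 1) (Ex.var 2)) ((fitBw.co Ex.num (Ex.var 0) (Ex.var 1) (Ex.var 2) (Ex.num 1)).hM0)
      fitBw.eps.hM0) = true := by decide +kernel

def fitBw_hMp_Up : checkFour (box4 segAB segI segXBw segOne) 122 3 3 3 0
    (apUp (Ex.num 1)
      (ehM1000 (Ex.var 0) (Ex.var 1) (Ex.var 2)) ((fitBw.co Ex.num (Ex.var 0) (Ex.var 1) (Ex.var 2) (Ex.num 1)).hMp)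
      fitBw.eps.hMp) = true := by decide +kernel

def fitBw_hMp_Dn : checkFour (box4 segAB segI segXBw segOne) 122 3 3 3 0
    (apDn (Ex.num 1)
      (ehM1000 (Ex.var 0) (Ex.var 1) (Ex.var 2)) ((fitBw.co Ex.num (Ex.var 0) (Ex.var 1) (Ex.var 2) (Ex.num 1)).hMp)
      fitBw.eps.hMp) = true := by decide +kernel

def fitBw_N0_Up : checkFour (box4 segAB segI segXBw segOne) 226 5 9 4 0
    (apUp (Ex.num 2 * ed)
      (eN0000 (Ex.var 0) (Ex.var 1) (Ex.var 2)) ((fitBw.co Ex.num (Ex.var 0) (Ex.var 1) (Ex.var 2) (Ex.num 1)).N0)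
      fitBw.eps.N0) = true := by decide +kernel

def fitBw_N0_Dn : checkFour (box4 segAB segI segXBw segOne) 226 5 9 4 0
    (apDn (Ex.num 2 * ed)
      (eN0000 (Ex.var 0) (Ex.var 1) (Ex.var 2)) ((fitBw.co Ex.num (Ex.var 0) (Ex.var 1) (Ex.var 2) (Ex.num 1)).N0)
      fitBw.eps.N0) = true := by decide +kernel

def fitBw_Nw_Up : checkFour (box4 segAB segI segXBw segOne) 201 5 7 4 0
    (apUp (Ex.num 2 * ed)
      (eN0001 (Ex.var 0) (Ex.var 1) (Ex.var 2)) ((fitBw.co Ex.num (Ex.var 0) (Ex.var 1) (Ex.var 2) (Ex.num 1)).Nw)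
      fitBw.eps.Nw) = true := by decide +kernel

def fitBw_Nw_Dn : checkFour (box4 segAB segI segXBw segOne) 201 5 7 4 0
    (apDn (Ex.num 2 * ed)
      (eN0001 (Ex.var 0) (Ex.var 1) (Ex.var 2)) ((fitBw.co Ex.num (Ex.var 0) (Ex.var 1) (Ex.var 2) (Ex.num 1)).Nw)
      fitBw.eps.Nw) = true := by decide +kernel

def fitBw_Ng_Up : checkFour (box4 segAB segI segXBw segOne) 201 5 7 4 0
    (apUp (Ex.num 2 * ed)
      (eN0010 (Ex.var 0) (Ex.var 1) (Ex.var 2)) ((fitBw.co Ex.num (Ex.var 0) (Ex.var 1) (Ex.var 2) (Ex.num 1)).Ng)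
      fitBw.eps.Ng) = true := by decide +kernel

def fitBw_Ng_Dn : checkFour (box4 segAB segI segXBw segOne) 201 5 7 4 0
    (apDn (Ex.num 2 * ed)
      (eN0010 (Ex.var 0) (Ex.var 1) (Ex.var 2)) ((fitBw.co Ex.num (Ex.var 0) (Ex.var 1) (Ex.var 2) (Ex.num 1)).Ng)
      fitBw.eps.Ng) = true := by decide +kernel

def fitBw_NTg_Up : checkFour (box4 segAB segI segXBw segOne) 196 5 6 4 0
    (apUp (Ex.num 2 * ed)
      (eN0110 (Ex.var 0) (Ex.var 1) (Ex.var 2)) ((fitBw.co Ex.num (Ex.var 0) (Ex.var 1) (Ex.var 2) (Ex.num 1)).NTg)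
      fitBw.eps.NTg) = true := by decide +kernel

def fitBw_NTg_Dn : checkFour (box4 segAB segI segXBw segOne) 196 5 6 4 0
    (apDn (Ex.num 2 * ed)
      (eN0110 (Ex.var 0) (Ex.var 1) (Ex.var 2)) ((fitBw.co Ex.num (Ex.var 0) (Ex.var 1) (Ex.var 2) (Ex.num 1)).NTg)
      fitBw.eps.NTg) = true := by decide +kernel

def fitBw_Np_Up : checkFour (box4 segAB segI segXBw segOne) 230 5 10 4 0
    (apUp (Ex.num 2 * ed)
      (eN1000 (Ex.var 0) (Ex.var 1) (Ex.var 2)) ((fitBw.co Ex.num (Ex.var 0) (Ex.var 1) (Ex.var 2) (Ex.num 1)).Np)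
      fitBw.eps.Np) = true := by decide +kernel

def fitBw_Np_Dn : checkFour (box4 segAB segI segXBw segOne) 230 5 10 4 0
    (apDn (Ex.num 2 * ed)
      (eN1000 (Ex.var 0) (Ex.var 1) (Ex.var 2)) ((fitBw.co Ex.num (Ex.var 0) (Ex.var 1) (Ex.var 2) (Ex.num 1)).Np)
      fitBw.eps.Np) = true := by decide +kernel

def fitBw_Npw_Up : checkFour (box4 segAB segI segXBw segOne) 205 5 8 4 0
    (apUp (Ex.num 2 * ed)
      (eN1001 (Ex.var 0) (Ex.var 1) (Ex.var 2)) ((fitBw.co Ex.num (Ex.var 0) (Ex.var 1) (Ex.var 2) (Ex.num 1)).Npw)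
      fitBw.eps.Npw) = true := by decide +kernel

def fitBw_Npw_Dn : checkFour (box4 segAB segI segXBw segOne) 205 5 8 4 0
    (apDn (Ex.num 2 * ed)
      (eN1001 (Ex.var 0) (Ex.var 1) (Ex.var 2)) ((fitBw.co Ex.num (Ex.var 0) (Ex.var 1) (Ex.var 2) (Ex.num 1)).Npw)
      fitBw.eps.Npw) = true := by decide +kernel

def fitBw_Npg_Up : checkFour (box4 segAB segI segXBw segOne) 187 5 6 4 0
    (apUp (Ex.num 2 * ed)
      (eN1010 (Ex.var 0) (Ex.var 1) (Ex.var 2)) ((fitBw.co Ex.num (Ex.var 0) (Ex.var 1) (Ex.var 2) (Ex.num 1)).Npg)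
      fitBw.eps.Npg) = true := by decide +kernel

def fitBw_Npg_Dn : checkFour (box4 segAB segI segXBw segOne) 187 5 6 4 0
    (apDn (Ex.num 2 * ed)
      (eN1010 (Ex.var 0) (Ex.var 1) (Ex.var 2)) ((fitBw.co Ex.num (Ex.var 0) (Ex.var 1) (Ex.var 2) (Ex.num 1)).Npg)
      fitBw.eps.Npg) = true := by decide +kernel

def fitBw_NpTg_Up : checkFour (box4 segAB segI segXBw segOne) 181 5 5 4 0
    (apUp (Ex.num 2 * ed)
      (eN1110 (Ex.var 0) (Ex.var 1) (Ex.var 2)) ((fitBw.co Ex.num (Ex.var 0) (Ex.var 1) (Ex.var 2) (Ex.num 1)).NpTg)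
      fitBw.eps.NpTg) = true := by decide +kernel

def fitBw_NpTg_Dn : checkFour (box4 segAB segI segXBw segOne) 181 5 5 4 0
    (apDn (Ex.num 2 * ed)
      (eN1110 (Ex.var 0) (Ex.var 1) (Ex.var 2)) ((fitBw.co Ex.num (Ex.var 0) (Ex.var 1) (Ex.var 2) (Ex.num 1)).NpTg)
      fitBw.eps.NpTg) = true := by decide +kernel

def fitBw_Mg_Up : checkFour (box4 segAB segI segXBw segOne) 201 6 6 4 0
    (apUp (Ex.num 2 * eb * ed)
      (eM0010 (Ex.var 0) (Ex.var 1) (Ex.var 2)) ((fitBw.co Ex.num (Ex.var 0) (Ex.var 1) (Ex.var 2) (Ex.num 1)).Mg)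
      fitBw.eps.Mg) = true := by decide +kernel

def fitBw_Mg_Dn : checkFour (box4 segAB segI segXBw segOne) 201 6 6 4 0
    (apDn (Ex.num 2 * eb * ed)
      (eM0010 (Ex.var 0) (Ex.var 1) (Ex.var 2)) ((fitBw.co Ex.num (Ex.var 0) (Ex.var 1) (Ex.var 2) (Ex.num 1)).Mg)
      fitBw.eps.Mg) = true := by decide +kernel

def fitBw_MTg_Up : checkFour (box4 segAB segI segXBw segOne) 206 6 6 4 0
    (apUp (Ex.num 2 * eb * ed)
      (eM0110 (Ex.var 0) (Ex.var 1) (Ex.var 2)) ((fitBw.co Ex.num (Ex.var 0) (Ex.var 1) (Ex.var 2) (Ex.num 1)).MTg)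
      fitBw.eps.MTg) = true := by decide +kernel

def fitBw_MTg_Dn : checkFour (box4 segAB segI segXBw segOne) 206 6 6 4 0
    (apDn (Ex.num 2 * eb * ed)
      (eM0110 (Ex.var 0) (Ex.var 1) (Ex.var 2)) ((fitBw.co Ex.num (Ex.var 0) (Ex.var 1) (Ex.var 2) (Ex.num 1)).MTg)
      fitBw.eps.MTg) = true := by decide +kernel

def fitBw_Mpg_Up : checkFour (box4 segAB segI segXBw segOne) 206 6 7 4 0
    (apUp (Ex.num 2 * eb * ed)
      (eM1010 (Ex.var 0) (Ex.var 1) (Ex.var 2)) ((fitBw.co Ex.num (Ex.var 0) (Ex.var 1) (Ex.var 2) (Ex.num 1)).Mpg)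
      fitBw.eps.Mpg) = true := by decide +kernel

def fitBw_Mpg_Dn : checkFour (box4 segAB segI segXBw segOne) 206 6 7 4 0
    (apDn (Ex.num 2 * eb * ed)
      (eM1010 (Ex.var 0) (Ex.var 1) (Ex.var 2)) ((fitBw.co Ex.num (Ex.var 0) (Ex.var 1) (Ex.var 2) (Ex.num 1)).Mpg)
      fitBw.eps.Mpg) = true := by decide +kernel

def fitBw_MpTg_Up : checkFour (box4 segAB segI segXBw segOne) 200 6 6 4 0
    (apUp (Ex.num 2 * eb * ed)
      (eM1110 (Ex.var 0) (Ex.var 1) (Ex.var 2)) ((fitBw.co Ex.num (Ex.var 0) (Ex.var 1) (Ex.var 2) (Ex.num 1)).MpTg)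
      fitBw.eps.MpTg) = true := by decide +kernel

def fitBw_MpTg_Dn : checkFour (box4 segAB segI segXBw segOne) 200 6 6 4 0
    (apDn (Ex.num 2 * eb * ed)
      (eM1110 (Ex.var 0) (Ex.var 1) (Ex.var 2)) ((fitBw.co Ex.num (Ex.var 0) (Ex.var 1) (Ex.var 2) (Ex.num 1)).MpTg)
      fitBw.eps.MpTg) = true := by decide +kernel

def fitBw_gM0_Up : checkFour (box4 segAB segI segXBw segOne) 126 3 3 3 0
    (apUp (Ex.num 1)
      (egM0000 (Ex.var 0) (Ex.var 1) (Ex.var 2)) ((fitBw.co Ex.num (Ex.var 0) (Ex.var 1) (Ex.var 2) (Ex.num 1)).gM0)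
      fitBw.eps.gM0) = true := by decide +kernel

def fitBw_gM0_Dn : checkFour (box4 segAB segI segXBw segOne) 126 3 3 3 0
    (apDn (Ex.num 1)
      (egM0000 (Ex.var 0) (Ex.var 1) (Ex.var 2)) ((fitBw.co Ex.num (Ex.var 0) (Ex.var 1) (Ex.var 2) (Ex.num 1)).gM0)
      fitBw.eps.gM0) = true := by decide +kernel

def llfBw_00_Up : checkFour (box4 segAB segI segXBw segOne) 342 8 15 5 0
    (apUp denLL (eLL00 (Ex.var 0) (Ex.var 1) (Ex.var 2)) (llFit llfBw.z00)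
      llfBw.e00) = true := by decide +kernel

def llfBw_00_Dn : checkFour (box4 segAB segI segXBw segOne) 342 8 15 5 0
    (apDn denLL (eLL00 (Ex.var 0) (Ex.var 1) (Ex.var 2)) (llFit llfBw.z00)
      llfBw.e00) = true := by decide +kernel

def llfBw_10_Up : checkFour (box4 segAB segI segXBw segOne) 320 8 13 5 0
    (apUp denLL (eLL10 (Ex.var 0) (Ex.var 1) (Ex.var 2)) (llFit llfBw.z10)
      llfBw.e10) = true := by decide +kernel

def llfBw_10_Dn : checkFour (box4 segAB segI segXBw segOne) 320 8 13 5 0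
    (apDn denLL (eLL10 (Ex.var 0) (Ex.var 1) (Ex.var 2)) (llFit llfBw.z10)
      llfBw.e10) = true := by decide +kernel

def llfBw_11_Up : checkFour (box4 segAB segI segXBw segOne) 331 8 14 5 0
    (apUp denLL (eLL11 (Ex.var 0) (Ex.var 1) (Ex.var 2)) (llFit llfBw.z11)
      llfBw.e11) = true := by decide +kernel

def llfBw_11_Dn : checkFour (box4 segAB segI segXBw segOne) 331 8 14 5 0
    (apDn denLL (eLL11 (Ex.var 0) (Ex.var 1) (Ex.var 2)) (llFit llfBw.z11)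
      llfBw.e11) = true := by decide +kernel

def llfBw_21_Up : checkFour (box4 segAB segI segXBw segOne) 266 6 10 5 0
    (apUp denLL (eLL21 (Ex.var 0) (Ex.var 1) (Ex.var 2)) (llFit llfBw.z21)
      llfBw.e21) = true := by decide +kernel

def llfBw_21_Dn : checkFour (box4 segAB segI segXBw segOne) 266 6 10 5 0
    (apDn denLL (eLL21 (Ex.var 0) (Ex.var 1) (Ex.var 2)) (llFit llfBw.z21)
      llfBw.e21) = true := by decide +kernel

def llfBw_22_Up : checkFour (box4 segAB segI segXBw segOne) 251 6 9 5 0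
    (apUp denLL (eLL22 (Ex.var 0) (Ex.var 1) (Ex.var 2)) (llFit llfBw.z22)
      llfBw.e22) = true := by decide +kernel

def llfBw_22_Dn : checkFour (box4 segAB segI segXBw segOne) 251 6 9 5 0
    (apDn denLL (eLL22 (Ex.var 0) (Ex.var 1) (Ex.var 2)) (llFit llfBw.z22)
      llfBw.e22) = true := by decide +kernel

theorem fitBw_ok : fitBw.Ok segAB segI segXBw where
  GG0 := ⟨nn_of_check fitBw_GG0_Up rfl, nn_of_check fitBw_GG0_Dn rfl⟩
  GGT := ⟨nn_of_check fitBw_GGT_Up rfl, nn_of_check fitBw_GGT_Dn rfl⟩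
  GGp := ⟨nn_of_check fitBw_GGp_Up rfl, nn_of_check fitBw_GGp_Dn rfl⟩
  GGpT := ⟨nn_of_check fitBw_GGpT_Up rfl, nn_of_check fitBw_GGpT_Dn rfl⟩
  EG0 := ⟨nn_of_check fitBw_EG0_Up rfl, nn_of_check fitBw_EG0_Dn rfl⟩
  EGg := ⟨nn_of_check fitBw_EGg_Up rfl, nn_of_check fitBw_EGg_Dn rfl⟩
  EGT := ⟨nn_of_check fitBw_EGT_Up rfl, nn_of_check fitBw_EGT_Dn rfl⟩
  EGTg := ⟨nn_of_check fitBw_EGTg_Up rfl, nn_of_check fitBw_EGTg_Dn rfl⟩
  EGp := ⟨nn_of_check fitBw_EGp_Up rfl, nn_of_check fitBw_EGp_Dn rfl⟩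
  EGpT := ⟨nn_of_check fitBw_EGpT_Up rfl, nn_of_check fitBw_EGpT_Dn rfl⟩
  LE0 := ⟨nn_of_check fitBw_LE0_Up rfl, nn_of_check fitBw_LE0_Dn rfl⟩
  LEw := ⟨nn_of_check fitBw_LEw_Up rfl, nn_of_check fitBw_LEw_Dn rfl⟩
  LEg := ⟨nn_of_check fitBw_LEg_Up rfl, nn_of_check fitBw_LEg_Dn rfl⟩
  LET := ⟨nn_of_check fitBw_LET_Up rfl, nn_of_check fitBw_LET_Dn rfl⟩
  LETg := ⟨nn_of_check fitBw_LETg_Up rfl, nn_of_check fitBw_LETg_Dn rfl⟩
  LEp := ⟨nn_of_check fitBw_LEp_Up rfl, nn_of_check fitBw_LEp_Dn rfl⟩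
  LEpw := ⟨nn_of_check fitBw_LEpw_Up rfl, nn_of_check fitBw_LEpw_Dn rfl⟩
  LEpT := ⟨nn_of_check fitBw_LEpT_Up rfl, nn_of_check fitBw_LEpT_Dn rfl⟩
  LEpp := ⟨nn_of_check fitBw_LEpp_Up rfl, nn_of_check fitBw_LEpp_Dn rfl⟩
  LM0 := ⟨nn_of_check fitBw_LM0_Up rfl, nn_of_check fitBw_LM0_Dn rfl⟩
  LMw := ⟨nn_of_check fitBw_LMw_Up rfl, nn_of_check fitBw_LMw_Dn rfl⟩
  LMg := ⟨nn_of_check fitBw_LMg_Up rfl, nn_of_check fitBw_LMg_Dn rfl⟩
  LMT := ⟨nn_of_check fitBw_LMT_Up rfl, nn_of_check fitBw_LMT_Dn rfl⟩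
  LMTg := ⟨nn_of_check fitBw_LMTg_Up rfl, nn_of_check fitBw_LMTg_Dn rfl⟩
  LMp := ⟨nn_of_check fitBw_LMp_Up rfl, nn_of_check fitBw_LMp_Dn rfl⟩
  LMpw := ⟨nn_of_check fitBw_LMpw_Up rfl, nn_of_check fitBw_LMpw_Dn rfl⟩
  LMpT := ⟨nn_of_check fitBw_LMpT_Up rfl, nn_of_check fitBw_LMpT_Dn rfl⟩
  LMpp := ⟨nn_of_check fitBw_LMpp_Up rfl, nn_of_check fitBw_LMpp_Dn rfl⟩
  gE0 := ⟨nn_of_check fitBw_gE0_Up rfl, nn_of_check fitBw_gE0_Dn rfl⟩
  gEg := ⟨nn_of_check fitBw_gEg_Up rfl, nn_of_check fitBw_gEg_Dn rfl⟩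
  gETg := ⟨nn_of_check fitBw_gETg_Up rfl, nn_of_check fitBw_gETg_Dn rfl⟩
  gEp := ⟨nn_of_check fitBw_gEp_Up rfl, nn_of_check fitBw_gEp_Dn rfl⟩
  gG0 := ⟨nn_of_check fitBw_gG0_Up rfl, nn_of_check fitBw_gG0_Dn rfl⟩
  gGp := ⟨nn_of_check fitBw_gGp_Up rfl, nn_of_check fitBw_gGp_Dn rfl⟩
  hE0 := ⟨nn_of_check fitBw_hE0_Up rfl, nn_of_check fitBw_hE0_Dn rfl⟩
  hEp := ⟨nn_of_check fitBw_hEp_Up rfl, nn_of_check fitBw_hEp_Dn rfl⟩
  hG0 := ⟨nn_of_check fitBw_hG0_Up rfl, nn_of_check fitBw_hG0_Dn rfl⟩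
  hGT := ⟨nn_of_check fitBw_hGT_Up rfl, nn_of_check fitBw_hGT_Dn rfl⟩
  hGp := ⟨nn_of_check fitBw_hGp_Up rfl, nn_of_check fitBw_hGp_Dn rfl⟩
  hM0 := ⟨nn_of_check fitBw_hM0_Up rfl, nn_of_check fitBw_hM0_Dn rfl⟩
  hMp := ⟨nn_of_check fitBw_hMp_Up rfl, nn_of_check fitBw_hMp_Dn rfl⟩
  N0 := ⟨nn_of_check fitBw_N0_Up rfl, nn_of_check fitBw_N0_Dn rfl⟩
  Nw := ⟨nn_of_check fitBw_Nw_Up rfl, nn_of_check fitBw_Nw_Dn rfl⟩
  Ng := ⟨nn_of_check fitBw_Ng_Up rfl, nn_of_check fitBw_Ng_Dn rfl⟩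
  NTg := ⟨nn_of_check fitBw_NTg_Up rfl, nn_of_check fitBw_NTg_Dn rfl⟩
  Np := ⟨nn_of_check fitBw_Np_Up rfl, nn_of_check fitBw_Np_Dn rfl⟩
  Npw := ⟨nn_of_check fitBw_Npw_Up rfl, nn_of_check fitBw_Npw_Dn rfl⟩
  Npg := ⟨nn_of_check fitBw_Npg_Up rfl, nn_of_check fitBw_Npg_Dn rfl⟩
  NpTg := ⟨nn_of_check fitBw_NpTg_Up rfl, nn_of_check fitBw_NpTg_Dn rfl⟩
  Mg := ⟨nn_of_check fitBw_Mg_Up rfl, nn_of_check fitBw_Mg_Dn rfl⟩
  MTg := ⟨nn_of_check fitBw_MTg_Up rfl, nn_of_check fitBw_MTg_Dn rfl⟩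
  Mpg := ⟨nn_of_check fitBw_Mpg_Up rfl, nn_of_check fitBw_Mpg_Dn rfl⟩
  MpTg := ⟨nn_of_check fitBw_MpTg_Up rfl, nn_of_check fitBw_MpTg_Dn rfl⟩
  gM0 := ⟨nn_of_check fitBw_gM0_Up rfl, nn_of_check fitBw_gM0_Dn rfl⟩

theorem llfBw_ok : llfBw.Ok segAB segI segXBw where
  e00 := ⟨nn_of_check llfBw_00_Up rfl, nn_of_check llfBw_00_Dn rfl⟩
  e10 := ⟨nn_of_check llfBw_10_Up rfl, nn_of_check llfBw_10_Dn rfl⟩
  e11 := ⟨nn_of_check llfBw_11_Up rfl, nn_of_check llfBw_11_Dn rfl⟩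
  e21 := ⟨nn_of_check llfBw_21_Up rfl, nn_of_check llfBw_21_Dn rfl⟩
  e22 := ⟨nn_of_check llfBw_22_Up rfl, nn_of_check llfBw_22_Dn rfl⟩

end Vale.Agent.P100.Calib.Mid
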