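import Mathlib

/-!
# The rows of the block in the middle of the tail, over any carrier

The scaled entries are forms in `(p, T, g, w)` with coefficient polynomials of `(a, I, X)`. The
same definitions serve for expressions, checked by the kernel, and for reals: `o` is the unit of
the arguments and `m` the unit of the coefficients, both `1` over the reals. The variable `q`
stands for `w - w₁ p`.
-/

set_option linter.unusedVariables false

namespace Vale.Agent.P100.Calib.Mid

/-- The coefficients of the twelve scaled entries, one field per monomial. -/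
structure Co (R : Type) where
  GG0 : R
  GGT : R
  GGp : R
  GGpT : R
  EG0 : R
  EGg : R
  EGT : R
  EGTg : R
  EGp : R
  EGpT : R
  LE0 : R
  LEw : R
  LEg : R
  LET : R
  LETg : R
  LEp : R
  LEpw : R
  LEpT : R
  LEpp : R
  LM0 : R
  LMw : R
  LMg : R
  LMT : R
  LMTg : R
  LMp : R
  LMpw : R
  LMpT : R
  LMpp : R
  gE0 : R
  gEg : R
  gETg : R
  gEp : R
  gG0 : R
  gGp : R
  hE0 : R
  hEp : R
  hG0 : R
  hGT : R
  hGp : R
  hM0 : R
  hMp : R
  N0 : R
  Nw : R
  Ng : R
  NTg : R
  Np : R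
  Npw : R
  Npg : R
  NpTg : R
  Mg : R
  MTg : R
  Mpg : R
  MpTg : R
  gM0 : R

/-- The twelve scaled entries, or bounds of them. -/
structure Hats (R : Type) where
  GG : R
  EG : R
  LE : R
  LM : R
  gE : R
  gG : R
  hE : R
  hG : R
  hM : R
  N : R
  M : R
  gM : R

/-- A point of the box of intermediates. -/
structure Pt (R : Type) where
  p : R
  T : R
  g : R
  q : R

/-- The weights of the forms. -/
structure Wt (R : Type) where
  one : R
  L : R
  eL : R
  G : R
  jd : R
  j : R
  jn : R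
  jm : R
  mn : R
  mm : R
  dq : R
  dQ : R
  bnQ : R
  d : R
  bn : R
  C : R

/-- The numbers of a cell at a point: the multiplier, the two weights, the slope, the sag. -/
structure Row (R : Type) where
  dl : R
  l2 : R
  l3 : R
  w1 : R
  sag : R

section
variable {R : Type} [Add R] [Sub R] [Mul R] (k : ℤ → R)

/-- A polynomial of degree four in `(a, I, X)`, homogenised by `o`. -/
def quart (z : Fin 35 → ℤ) (a I X o : R) : R :=
  k (z 0) * o * o * o * o +
  (k (z 1) * a + k (z 2) * I + k (z 3) * X) * o * o * o +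
  (k (z 4) * a * a + k (z 5) * a * I + k (z 6) * a * X + k (z 7) * I * I + k (z 8) * I * X +
    k (z 9) * X * X) * o * o +
  ((k (z 10) * a + k (z 11) * I + k (z 12) * X) * a * a +
    (k (z 13) * I + k (z 14) * X) * a * I + k (z 15) * a * X * X +
    (k (z 16) * I + k (z 17) * X) * I * I + (k (z 18) * I + k (z 19) * X) * X * X) * o +
  ((k (z 20) * a + k (z 21) * I + k (z 22) * X) * a * a * a +
    (k (z 23) * I + k (z 24) * X) * a * a * I + k (z 25) * a * a * X * X +
    (k (z 26) * I + k (z 27) * X) * a * I * I + (k (z 28) * I + k (z 29) * X) * a * X * X +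
    (k (z 30) * I + k (z 31) * X) * I * I * I + k (z 32) * I * I * X * X +
    (k (z 33) * I + k (z 34) * X) * X * X * X)

/-- A polynomial of degree three in `(a, I, X)`, homogenised by `o` to degree four. -/
def cubic (z : Fin 20 → ℤ) (a I X o : R) : R :=
  (k (z 0) * o * o * o +
  (k (z 1) * a + k (z 2) * I + k (z 3) * X) * o * o +
  (k (z 4) * a * a + k (z 5) * a * I + k (z 6) * a * X + k (z 7) * I * I + k (z 8) * I * X +
    k (z 9) * X * X) * o +
  ((k (z 10) * a + k (z 11) * I + k (z 12) * X) * a * a +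
    (k (z 13) * I + k (z 14) * X) * a * I + k (z 15) * a * X * X +
    (k (z 16) * I + k (z 17) * X) * I * I + (k (z 18) * I + k (z 19) * X) * X * X)) * o

/-- The weights at `(a, I, X)`, of degree eight. -/
def wts (a I X o : R) : Wt R :=
  let b := o - k 2 * I - a
  let d := o - k 2 * I - k 2 * a
  let o2 := o * o
  let o4 := o2 * o2
  let Q := o2 * o + k 2 * d * I * X
  let X0 := o4 * o2
  { one := o4 * o4
    L := k 16 * b * X * X0
    eL := k 8 * b * X * X0
    G := k 16 * b * X * (k 2 * o2 * o + k 2 * d * I * X) * Q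
    jd := (o - I) * d * d * Q * o2
    j := (o - I) * X0 * o
    jn := k 32 * (o - I) * b * I * X * o4
    jm := k 16 * (o - I) * I * X * d * d * Q
    mn := k 32 * b * I * I * X * o4
    mm := k 16 * I * I * X * d * d * Q
    dq := d * d * Q * o2 * o
    dQ := d * Q * o4
    bnQ := k 16 * b * X * d * Q * o2
    d := d * X0 * o
    bn := k 16 * b * X * d * o4 * o
    C := k 64 * b * b * X * X * d * d * o2 }

/-- The entries at a point, `w = q + w₁ p`, in units `m o⁷`. -/
def hats (c : Co R) (o w1 : R) (z : Pt R) : Hats R :=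
  let w := z.q * o + w1 * z.p
  let o3 := o * o * o
  let lift := fun e => e * o3
  { GG := c.GG0 * o3 + c.GGT * z.T * o * o + (c.GGp * o + c.GGpT * z.T) * z.p * o
    EG := c.EG0 * o3 + (c.EGg * o + c.EGTg * z.T) * z.g * o + c.EGT * z.T * o * o +
      (c.EGp * o + c.EGpT * z.T) * z.p * o
    LE := c.LE0 * o3 + c.LEw * w * o + (c.LEg * o + c.LETg * z.T) * z.g * o +
      c.LET * z.T * o * o + (c.LEp * o * o + c.LEpw * w + (c.LEpT * z.T + c.LEpp * z.p) * o) * z.p
    LM := c.LM0 * o3 + c.LMw * w * o + (c.LMg * o + c.LMTg * z.T) * z.g * o +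
      c.LMT * z.T * o * o + (c.LMp * o * o + c.LMpw * w + (c.LMpT * z.T + c.LMpp * z.p) * o) * z.p
    gE := c.gE0 * o3 + (c.gEg * o + c.gETg * z.T) * z.g * o + c.gEp * z.p * o * o
    gG := c.gG0 * o3 + c.gGp * z.p * o * o
    hE := c.hE0 * o3 + c.hEp * z.p * o * o
    hG := c.hG0 * o3 + c.hGT * z.T * o * o + c.hGp * z.p * o * o
    hM := c.hM0 * o3 + c.hMp * z.p * o * o
    N := c.N0 * o3 + c.Nw * w * o + (c.Ng * o + c.NTg * z.T) * z.g * o +
      (c.Np * o * o + c.Npw * w + (c.Npg * o + c.NpTg * z.T) * z.g) * z.p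
    M := (c.Mg * o + c.MTg * z.T) * z.g * o + (c.Mpg * o + c.MpTg * z.T) * z.g * z.p
    gM := lift c.gM0 }

/-- The bound of the error of a product. -/
def perr (hx ex hy ey : R) : R := hx * ey + hy * ex + ex * ey

/-- Twice the entry `EE + MG`; `s` is the unit of the entries. -/
def fA (W : Wt R) (s : R) (h : Hats R) : R :=
  W.L * s * (k 2 * h.LE + h.LM) -
    k 2 * (W.jd * h.gE * h.gE + W.j * h.hE * h.hE + W.jn * h.gM * h.gG + W.jm * h.hM * h.hG)

/-- Its error. -/
def errA (W : Wt R) (s : R) (h e : Hats R) : R :=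
  W.L * s * (k 2 * e.LE + e.LM) +
    k 2 * (W.jd * perr h.gE e.gE h.gE e.gE + W.j * perr h.hE e.hE h.hE e.hE +
      W.jn * perr h.gM e.gM h.gG e.gG + W.jm * perr h.hM e.hM h.hG e.hG)

/-- Twice the entry `MG`. -/
def fM (W : Wt R) (s : R) (h : Hats R) : R :=
  W.L * s * h.LM + k 2 * (W.mn * h.gM * h.gG + W.mm * h.hM * h.hG) -
    (W.dq * h.gE * h.gE + W.one * h.hE * h.hE)

/-- Its error. -/
def errM (W : Wt R) (s : R) (h e : Hats R) : R :=
  W.L * s * e.LM + k 2 * (W.mn * perr h.gM e.gM h.gG e.gG + W.mm * perr h.hM e.hM h.hG e.hG) +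
    (W.dq * perr h.gE e.gE h.gE e.gE + W.one * perr h.hE e.hE h.hE e.hE)

/-- The entry `EG`. -/
def fE (W : Wt R) (s : R) (h : Hats R) : R :=
  W.eL * s * h.EG - k 2 * W.j * (h.gE * h.gG + h.hE * h.hG)

/-- Its error. -/
def errE (W : Wt R) (s : R) (h e : Hats R) : R :=
  W.eL * s * e.EG + k 2 * W.j * (perr h.gE e.gE h.gG e.gG + perr h.hE e.hE h.hG e.hG)

/-- The entry `GG`. -/
def fG (W : Wt R) (s : R) (h : Hats R) : R :=
  W.G * s * h.GG - (W.j * h.gG * h.gG + W.jd * h.hG * h.hG)

/-- Its error. -/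
def errG (W : Wt R) (s : R) (h e : Hats R) : R :=
  W.G * s * e.GG + (W.j * perr h.gG e.gG h.gG e.gG + W.jd * perr h.hG e.hG h.hG e.hG)

/-- The first row, with signs `i`, `i'` of the two entries off the diagonal. -/
def row1 (W : Wt R) (r : Row R) (o s : R) (i i' : ℤ) (B e h : Hats R) : R :=
  (fA k W s h - errA k W s B e) * W.one * o * o - k 2 * r.dl * o * W.one * W.one * s * s -
    k 2 * r.l2 * W.dQ * (k i * fE k W s h + errE k W s B e) * o -
    k 2 * r.l3 * W.bnQ * (k i' * h.N + e.N) * W.one * s * o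

/-- The second row. -/
def row2 (W : Wt R) (r : Row R) (o s : R) (i : ℤ) (B e h : Hats R) : R :=
  k 4 * r.l2 * (fG W s h - errG W s B e) * W.one * o -
    W.d * (k i * fE k W s h + errE k W s B e) * o * o - r.l3 * r.dl * W.one * W.one * s * s

/-- The third row. -/
def row3 (W : Wt R) (r : Row R) (o s : R) (i : ℤ) (B e h : Hats R) : R :=
  W.C * s * (h.M - e.M) * r.l3 * o - W.bn * s * (k i * h.N + e.N + r.sag) * o * o -
    r.l2 * r.dl * W.one * s * s

/-- The row of the entry `MG`. -/
def row4 (W : Wt R) (r : Row R) (o s : R) (B e h : Hats R) : R :=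
  (fM k W s h - errM k W s B e) * o - k 2 * r.dl * W.one * s * s

/-- Twice the coefficient of `p ^ 2` of a function of `p`. -/
def bend (o : R) (f : Pt R → R) : R :=
  f ⟨o, k 0, k 0, k 0⟩ + f ⟨k (-1) * o, k 0, k 0, k 0⟩ - k 2 * f ⟨k 0, k 0, k 0, k 0⟩

end

end Vale.Agent.P100.Calib.Mid
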