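import Vale.Agent.P100.Calib.SlabGenClosed

/-!
# The numbers of the family with the intermediates of the middle of the tail as variables

`a`, `I = 1/N`, `X = v/(2I)`, and `p`, `T`, `g` with `b g W = 4 + I p`, `T = (1 - u h)/(1 + d v)` and
`g` standing for `I` times `g`; the entries are evaluated at `g := 1`, `W := b g W/b`.
-/

namespace Vale.Agent.P100.Calib.Mid

/-- `g W`. -/
noncomputable def midP (a I p : ℝ) : ℝ := (4 + I * p) / (1 - 2 * I - a)

/-- The numbers, `E` and `K` standing for `g E` and `g K`. -/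
noncomputable def midNum (a I X T g : ℝ) : ClosedGen.Num :=
  ⟨a * (1 - 2 * I - a), -(1 - 2 * a - I / 2) * I,
    -(g * (1 + (1 - 2 * I - 2 * a) * (2 * I * X)) *
      (2 * I * (1 - 3 * I - 2 * a * a) + 5 / 2 * T)) / ((1 - 2 * I - 2 * a) * I),
    -(5 / 2 * g * (1 + (1 - 2 * I - 2 * a) * (2 * I * X)) * T) / I,
    (-(a * (1 - 3 * a - I) * I) - 3 / 10 * a * T / (1 - 2 * I - a)) / (1 - 2 * I - 2 * a) ^ 2,
    -(3 / 10 * a * T / (1 - 2 * I - a)) / (1 - 2 * I - 2 * a) ^ 2,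
    ((1 - 2 * I) ^ 2 - 2 * a * (1 - I)) / ((1 - 2 * I) ^ 2 * (1 - 2 * I - 2 * a) ^ 2)⟩

end Vale.Agent.P100.Calib.Mid
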