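import Vale.Agent.P100.Calib.SlabWaistCoef
import Vale.Agent.P100.Calib.SlabWaistNum

/-!
# The scaled entries `nEG`, `ngG`, `ngM`: exact forms in `(p, T, g, w)`

`p` stands for `(b g W - 4)/I`, `T` for `(1 - u h)/(1 + d v)`, `g` for `I` times `g`, `w` for `g W1/(I g W)`.
-/

set_option linter.unusedVariables false
set_option linter.unusedSimpArgs false
set_option maxRecDepth 10000
set_option maxHeartbeats 4000000

namespace Vale.Agent.P100.Calib.Mid

/-- The scaled `LEGS`, times a power of the denominators. -/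
noncomputable def nEG (a I X p T g w : ℝ) : ℝ :=
  cEG0000 a I X + cEG0010 a I X * (g) + cEG0100 a I X * (T) + cEG0110 a I X * (T * g) + cEG1000
    a I X * (p) + cEG1100 a I X * (p * T)

theorem nEG_eq {a I X p T g w : ℝ} (hI : I ≠ 0) (hb : 1 - 2 * I - a ≠ 0)
    (hd : 1 - 2 * I - 2 * a ≠ 0) (hS : 1 - 2 * I ≠ 0) :
    a * I * nEG a I X p T g w = ClosedGen.LEGS a (1 - 2 * I - 2 * a) (2 * I * X) 1
        (midP a I p) (midP a I p * w * I) 0 (midNum a I X T g) *
      (10 * (1 - 2 * I - a) * (1 - 2 * I - 2 * a) ^ 2 * (1 - 2 * I) ^ 2) := by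
  have eb : a + (1 - 2 * I - 2 * a) = 1 - 2 * I - a := by ring
  simp only [nEG, cEG0000, cEG0010, cEG0100, cEG0110, cEG1000, cEG1100, midP, midNum,
    ClosedGen.EG_g, ClosedGen.EG_g0, ClosedGen.EG_k1, ClosedGen.EG_kv, Closed.LEG1,
    Closed.LEG1_000000_0, ClosedGen.LEGS, Closed.LEGc, Closed.LEGv, Closed.LEGw, eb]
  generalize hD : 1 - 2 * I - 2 * a = d at *
  generalize hB : 1 - 2 * I - a = b at *
  generalize hC : 1 - 2 * I = S at *
  field_simp
  subst hC hB hD
  ring

/-- The scaled `gGS`, times a power of the denominators. -/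
noncomputable def ngG (a I X p T g w : ℝ) : ℝ :=
  cgG0000 a I X + cgG1000 a I X * (p)

theorem ngG_eq {a I X p T g w : ℝ} (hI : I ≠ 0) (hb : 1 - 2 * I - a ≠ 0)
    (hd : 1 - 2 * I - 2 * a ≠ 0) (hS : 1 - 2 * I ≠ 0) :
    a * I * ngG a I X p T g w = ClosedGen.gGS a (1 - 2 * I - 2 * a) (2 * I * X) 1
        (midP a I p) (midP a I p * w * I) 0 (midNum a I X T g) *
      (2) := by
  have eb : a + (1 - 2 * I - 2 * a) = 1 - 2 * I - a := by ring
  simp only [ngG, cgG0000, cgG1000, midP, midNum, ClosedGen.gGS, ClosedGen.gG_1,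
    ClosedGen.gG_c, ClosedGen.gG_v, eb]
  generalize hD : 1 - 2 * I - 2 * a = d at *
  generalize hB : 1 - 2 * I - a = b at *
  generalize hC : 1 - 2 * I = S at *
  field_simp
  subst hC hB hD
  ring

/-- The scaled `gMS`, times a power of the denominators. -/
noncomputable def ngM (a I X p T g w : ℝ) : ℝ :=
  cgM0000 a I X

theorem ngM_eq {a I X p T g w : ℝ} (hI : I ≠ 0) (hb : 1 - 2 * I - a ≠ 0)
    (hd : 1 - 2 * I - 2 * a ≠ 0) (hS : 1 - 2 * I ≠ 0) :
    I * ngM a I X p T g w = ClosedGen.gMS a (1 - 2 * I - 2 * a) (2 * I * X) 1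
        (midP a I p) (midP a I p * w * I) 0 (midNum a I X T g) *
      (1) := by
  have eb : a + (1 - 2 * I - 2 * a) = 1 - 2 * I - a := by ring
  simp only [ngM, cgM0000, midP, midNum, ClosedGen.gMS, ClosedGen.gM_1, eb]
  generalize hD : 1 - 2 * I - 2 * a = d at *
  generalize hB : 1 - 2 * I - a = b at *
  generalize hC : 1 - 2 * I = S at *
  field_simp
  subst hC hB hD
  ring

end Vale.Agent.P100.Calib.Mid
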