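import Vale.Agent.P100.Calib.SlabWaistCoef
import Vale.Agent.P100.Calib.SlabWaistNum

/-!
# The scaled entries `nLE`, `ngE`: exact forms in `(p, T, g, w)`

`p` stands for `(b g W - 4)/I`, `T` for `(1 - u h)/(1 + d v)`, `g` for `I` times `g`, `w` for `g W1/(I g W)`.
-/

set_option linter.unusedVariables false
set_option linter.unusedSimpArgs false
set_option maxRecDepth 10000
set_option maxHeartbeats 4000000

namespace Vale.Agent.P100.Calib.Mid

/-- The scaled `LEES`, times a power of the denominators. -/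
noncomputable def nLE (a I X p T g w : ℝ) : ℝ :=
  cLE0000 a I X + cLE0001 a I X * (w) + cLE0010 a I X * (g) + cLE0100 a I X * (T) + cLE0110 a I
    X * (T * g) + cLE1000 a I X * (p) + cLE1001 a I X * (p * w) + cLE1100 a I X * (p * T) +
    cLE2000 a I X * (p ^ 2)

theorem nLE_eq {a I X p T g w : ℝ} (hI : I ≠ 0) (hb : 1 - 2 * I - a ≠ 0)
    (hd : 1 - 2 * I - 2 * a ≠ 0) (hS : 1 - 2 * I ≠ 0) :
    a * I * nLE a I X p T g w = ClosedGen.LEES a (1 - 2 * I - 2 * a) (2 * I * X) 1
        (midP a I p) (midP a I p * w * I) 0 (midNum a I X T g) *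
      (10 * (1 - 2 * I - a) * (1 - 2 * I) ^ 2) := by
  have eb : a + (1 - 2 * I - 2 * a) = 1 - 2 * I - a := by ring
  simp only [nLE, cLE0000, cLE0001, cLE0010, cLE0100, cLE0110, cLE1000, cLE1001, cLE1100,
    cLE2000, midP, midNum, ClosedGen.EE_g, ClosedGen.EE_k1, ClosedGen.EE_kc, Closed.LEE1,
    ClosedGen.LEES, Closed.LEEc, Closed.LEEc_000000_0, Closed.LEEc_000000_1,
    Closed.LEEc_110000_0, Closed.LEEc_110000_1, Closed.LEEv, Closed.LEEw, eb]
  generalize hD : 1 - 2 * I - 2 * a = d at *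
  generalize hB : 1 - 2 * I - a = b at *
  generalize hC : 1 - 2 * I = S at *
  field_simp
  subst hC hB hD
  ring

/-- The scaled `gES`, times a power of the denominators. -/
noncomputable def ngE (a I X p T g w : ℝ) : ℝ :=
  cgE0000 a I X + cgE0010 a I X * (g) + cgE0110 a I X * (T * g) + cgE1000 a I X * (p)

theorem ngE_eq {a I X p T g w : ℝ} (hI : I ≠ 0) (hb : 1 - 2 * I - a ≠ 0)
    (hd : 1 - 2 * I - 2 * a ≠ 0) (hS : 1 - 2 * I ≠ 0) :
    a * I * ngE a I X p T g w = ClosedGen.gES a (1 - 2 * I - 2 * a) (2 * I * X) 1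
        (midP a I p) (midP a I p * w * I) 0 (midNum a I X T g) *
      (2 * (1 - 2 * I - 2 * a) ^ 2 * (1 - 2 * I) ^ 2) := by
  have eb : a + (1 - 2 * I - 2 * a) = 1 - 2 * I - a := by ring
  simp only [ngE, cgE0000, cgE0010, cgE0110, cgE1000, midP, midNum, ClosedGen.gES,
    ClosedGen.gE_1, ClosedGen.gE_c, ClosedGen.gE_k1, ClosedGen.gE_w, eb]
  generalize hD : 1 - 2 * I - 2 * a = d at *
  generalize hB : 1 - 2 * I - a = b at *
  generalize hC : 1 - 2 * I = S at *
  field_simp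
  subst hC hB hD
  ring

end Vale.Agent.P100.Calib.Mid
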