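import Vale.Agent.P100.Calib.SlabWaistCoef
import Vale.Agent.P100.Calib.SlabWaistNum

/-!
# The scaled entries `nLM`: exact forms in `(p, T, g, w)`

`p` stands for `(b g W - 4)/I`, `T` for `(1 - u h)/(1 + d v)`, `g` for `I` times `g`, `w` for `g W1/(I g W)`.
-/

set_option linter.unusedVariables false
set_option linter.unusedSimpArgs false
set_option maxRecDepth 10000
set_option maxHeartbeats 4000000

namespace Vale.Agent.P100.Calib.Mid

/-- The scaled `LMGS`, times a power of the denominators. -/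
noncomputable def nLM (a I X p T g w : ℝ) : ℝ :=
  cLM0000 a I X + cLM0001 a I X * (w) + cLM0010 a I X * (g) + cLM0100 a I X * (T) + cLM0110 a I
    X * (T * g) + cLM1000 a I X * (p) + cLM1001 a I X * (p * w) + cLM1100 a I X * (p * T) +
    cLM2000 a I X * (p ^ 2)

theorem nLM_eq {a I X p T g w : ℝ} (hI : I ≠ 0) (hb : 1 - 2 * I - a ≠ 0)
    (hd : 1 - 2 * I - 2 * a ≠ 0) (hS : 1 - 2 * I ≠ 0) :
    a * I * nLM a I X p T g w = ClosedGen.LMGS a (1 - 2 * I - 2 * a) (2 * I * X) 1
        (midP a I p) (midP a I p * w * I) 0 (midNum a I X T g) *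
      (10 * (1 - 2 * I - a) * (1 - 2 * I - 2 * a) * (1 - 2 * I) ^ 2) := by
  have eb : a + (1 - 2 * I - 2 * a) = 1 - 2 * I - a := by ring
  simp only [nLM, cLM0000, cLM0001, cLM0010, cLM0100, cLM0110, cLM1000, cLM1001, cLM1100,
    cLM2000, midP, midNum, Closed.LMG1, Closed.LMG1_000000_0, Closed.LMG1_000000_1,
    ClosedGen.LMGS, Closed.LMGc, Closed.LMGc_000000_0, Closed.LMGc_000000_1, Closed.LMGv,
    Closed.LMGw, ClosedGen.MG_g, ClosedGen.MG_k1, ClosedGen.MG_kc, ClosedGen.MG_kw, eb]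
  generalize hD : 1 - 2 * I - 2 * a = d at *
  generalize hB : 1 - 2 * I - a = b at *
  generalize hC : 1 - 2 * I = S at *
  field_simp
  subst hC hB hD
  ring

end Vale.Agent.P100.Calib.Mid
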