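import Vale.Agent.P100.Calib.SlabWaistCoef
import Vale.Agent.P100.Calib.SlabWaistNum

/-!
# The scaled entries `nN`, `nM`: exact forms in `(p, T, g, w)`

`p` stands for `(b g W - 4)/I`, `T` for `(1 - u h)/(1 + d v)`, `g` for `I` times `g`, `w` for `g W1/(I g W)`.
-/

set_option linter.unusedVariables false
set_option linter.unusedSimpArgs false
set_option maxRecDepth 10000
set_option maxHeartbeats 4000000

namespace Vale.Agent.P100.Calib.Mid

/-- The scaled `TMES`, times a power of the denominators. -/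
noncomputable def nN (a I X p T g w : ℝ) : ℝ :=
  cN0000 a I X + cN0001 a I X * (w) + cN0010 a I X * (g) + cN0110 a I X * (T * g) + cN1000 a I
    X * (p) + cN1001 a I X * (p * w) + cN1010 a I X * (p * g) + cN1110 a I X * (p * T * g)

theorem nN_eq {a I X p T g w : ℝ} (hI : I ≠ 0) (hb : 1 - 2 * I - a ≠ 0)
    (hd : 1 - 2 * I - 2 * a ≠ 0) (hS : 1 - 2 * I ≠ 0) :
    a * I * nN a I X p T g w = ClosedGen.TMES a (1 - 2 * I - 2 * a) (2 * I * X) 1
        (midP a I p) (midP a I p * w * I) 0 (midNum a I X T g) *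
      (2 * (1 - 2 * I - 2 * a)) := by
  have eb : a + (1 - 2 * I - 2 * a) = 1 - 2 * I - a := by ring
  simp only [nN, cN0000, cN0001, cN0010, cN0110, cN1000, cN1001, cN1010, cN1110, midP, midNum,
    ClosedGen.TMES, ClosedGen.TME_c, ClosedGen.TME_v, ClosedGen.TME_w, eb]
  generalize hD : 1 - 2 * I - 2 * a = d at *
  generalize hB : 1 - 2 * I - a = b at *
  generalize hC : 1 - 2 * I = S at *
  field_simp
  subst hC hB hD
  ring

/-- The scaled `TMMS`, times a power of the denominators. -/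
noncomputable def nM (a I X p T g w : ℝ) : ℝ :=
  cM0010 a I X * (g) + cM0110 a I X * (T * g) + cM1010 a I X * (p * g) + cM1110 a I X * (p * T
    * g)

theorem nM_eq {a I X p T g w : ℝ} (hI : I ≠ 0) (hb : 1 - 2 * I - a ≠ 0)
    (hd : 1 - 2 * I - 2 * a ≠ 0) (hS : 1 - 2 * I ≠ 0) :
    nM a I X p T g w = ClosedGen.TMMS a (1 - 2 * I - 2 * a) (2 * I * X) 1
        (midP a I p) (midP a I p * w * I) 0 (midNum a I X T g) *
      (2 * (1 - 2 * I - a) * (1 - 2 * I - 2 * a)) := by
  have eb : a + (1 - 2 * I - 2 * a) = 1 - 2 * I - a := by ring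
  simp only [nM, cM0010, cM0110, cM1010, cM1110, midP, midNum, ClosedGen.TMMS, ClosedGen.TMM_w,
    eb]
  generalize hD : 1 - 2 * I - 2 * a = d at *
  generalize hB : 1 - 2 * I - a = b at *
  generalize hC : 1 - 2 * I = S at *
  field_simp
  subst hC hB hD
  ring

end Vale.Agent.P100.Calib.Mid
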