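import Vale.Agent.P100.Calib.SlabWaistHatA
import Vale.Agent.P100.Calib.SlabWaistHatB
import Vale.Agent.P100.Calib.SlabWaistHatC
import Vale.Agent.P100.Calib.SlabWaistHatD
import Vale.Agent.P100.Calib.SlabWaistHatE

/-!
# The scaled entries: exact forms in `(p, T, g, w)`

`p` stands for `(b g W - 4)/I`, `T` for `(1 - u h)/(1 + d v)`, `g` for `I` times `g`, `w` for `g W1/(I g W)`.
-/
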