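import Vale.Agent.P100.Calib.SlabWaistCoef
import Vale.Agent.P100.Calib.SlabWaistNum

/-!
# The scaled entries `nGG`, `nhE`, `nhG`, `nhM`: exact forms in `(p, T, g, w)`

`p` stands for `(b g W - 4)/I`, `T` for `(1 - u h)/(1 + d v)`, `g` for `I` times `g`, `w` for `g W1/(I g W)`.
-/

set_option linter.unusedVariables false
set_option linter.unusedSimpArgs false
set_option maxRecDepth 10000
set_option maxHeartbeats 4000000

namespace Vale.Agent.P100.Calib.Mid

/-- The scaled `LGGS`, times a power of the denominators. -/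
noncomputable def nGG (a I X p T g w : ℝ) : ℝ :=
  cGG0000 a I X + cGG0100 a I X * (T) + cGG1000 a I X * (p) + cGG1100 a I X * (p * T)

theorem nGG_eq {a I X p T g w : ℝ} (hI : I ≠ 0) (hb : 1 - 2 * I - a ≠ 0)
    (hd : 1 - 2 * I - 2 * a ≠ 0) (hS : 1 - 2 * I ≠ 0) :
    a * I * nGG a I X p T g w = ClosedGen.LGGS a (1 - 2 * I - 2 * a) (2 * I * X) 1
        (midP a I p) (midP a I p * w * I) 0 (midNum a I X T g) *
      (10 * (1 - 2 * I - a) * (1 - 2 * I - 2 * a) * (1 - 2 * I) ^ 2) := by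
  have eb : a + (1 - 2 * I - 2 * a) = 1 - 2 * I - a := by ring
  simp only [nGG, cGG0000, cGG0100, cGG1000, cGG1100, midP, midNum, ClosedGen.GG_g,
    ClosedGen.GG_g0, ClosedGen.GG_kg, ClosedGen.LGGS, Closed.LGGc, Closed.LGGv, eb]
  generalize hD : 1 - 2 * I - 2 * a = d at *
  generalize hB : 1 - 2 * I - a = b at *
  generalize hC : 1 - 2 * I = S at *
  field_simp
  subst hC hB hD
  ring

/-- The scaled `hES`, times a power of the denominators. -/
noncomputable def nhE (a I X p T g w : ℝ) : ℝ :=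
  chE0000 a I X + chE1000 a I X * (p)

theorem nhE_eq {a I X p T g w : ℝ} (hI : I ≠ 0) (hb : 1 - 2 * I - a ≠ 0)
    (hd : 1 - 2 * I - 2 * a ≠ 0) (hS : 1 - 2 * I ≠ 0) :
    a * I * nhE a I X p T g w = ClosedGen.hES a (1 - 2 * I - 2 * a) (2 * I * X) 1
        (midP a I p) (midP a I p * w * I) 0 (midNum a I X T g) *
      (2) := by
  have eb : a + (1 - 2 * I - 2 * a) = 1 - 2 * I - a := by ring
  simp only [nhE, chE0000, chE1000, midP, midNum, ClosedGen.hES, ClosedGen.hE_c,
    ClosedGen.hE_v, eb]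
  generalize hD : 1 - 2 * I - 2 * a = d at *
  generalize hB : 1 - 2 * I - a = b at *
  generalize hC : 1 - 2 * I = S at *
  field_simp
  subst hC hB hD
  ring

/-- The scaled `hGS`, times a power of the denominators. -/
noncomputable def nhG (a I X p T g w : ℝ) : ℝ :=
  chG0000 a I X + chG0100 a I X * (T) + chG1000 a I X * (p)

theorem nhG_eq {a I X p T g w : ℝ} (hI : I ≠ 0) (hb : 1 - 2 * I - a ≠ 0)
    (hd : 1 - 2 * I - 2 * a ≠ 0) (hS : 1 - 2 * I ≠ 0) :
    a * I * nhG a I X p T g w = ClosedGen.hGS a (1 - 2 * I - 2 * a) (2 * I * X) 1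
        (midP a I p) (midP a I p * w * I) 0 (midNum a I X T g) *
      (10 * (1 - 2 * I - a) * (1 - 2 * I - 2 * a) ^ 2 * (1 - 2 * I) ^ 2) := by
  have eb : a + (1 - 2 * I - 2 * a) = 1 - 2 * I - a := by ring
  simp only [nhG, chG0000, chG0100, chG1000, midP, midNum, ClosedGen.hGS, ClosedGen.hG_c,
    ClosedGen.hG_g, ClosedGen.hG_kc, eb]
  generalize hD : 1 - 2 * I - 2 * a = d at *
  generalize hB : 1 - 2 * I - a = b at *
  generalize hC : 1 - 2 * I = S at *
  field_simp
  subst hC hB hD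
  ring

/-- The scaled `hMS`, times a power of the denominators. -/
noncomputable def nhM (a I X p T g w : ℝ) : ℝ :=
  chM0000 a I X + chM1000 a I X * (p)

theorem nhM_eq {a I X p T g w : ℝ} (hI : I ≠ 0) (hb : 1 - 2 * I - a ≠ 0)
    (hd : 1 - 2 * I - 2 * a ≠ 0) (hS : 1 - 2 * I ≠ 0) :
    a * I * nhM a I X p T g w = ClosedGen.hMS a (1 - 2 * I - 2 * a) (2 * I * X) 1
        (midP a I p) (midP a I p * w * I) 0 (midNum a I X T g) *
      (1) := by
  have eb : a + (1 - 2 * I - 2 * a) = 1 - 2 * I - a := by ring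
  simp only [nhM, chM0000, chM1000, midP, midNum, ClosedGen.hMS, ClosedGen.hM_c, eb]
  generalize hD : 1 - 2 * I - 2 * a = d at *
  generalize hB : 1 - 2 * I - a = b at *
  generalize hC : 1 - 2 * I = S at *
  field_simp
  subst hC hB hD
  ring

end Vale.Agent.P100.Calib.Mid
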