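import Vale.Agent.P100.Calib.SlabWaistLL

/-!
# A point of the middle lies in the box of its cell

`H` is between two quarter points of the band and below the exit curve; the flow is positive.
-/

set_option linter.unusedVariables false
set_option linter.unusedSimpArgs false

namespace Vale.Agent.P100.Calib.Mid

open Pack

attribute [local instance] exAdd exSub exMul

/-- A point of the middle of the tail, `N = 1/I`, `v = 2 I X`, `g = s/y`. -/
structure Point (a I X u H g W1 : ℝ) : Prop where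
  a0 : 0 < a
  a1 : a ≤ 31 / 100
  I0 : 0 < I
  I1 : I ≤ 1 / 20
  u0 : 0 < u
  u1 : u < 1
  X0 : 96 / 100 ≤ X
  av : 2 * a * I * X < 1
  H0 : 0 < H
  den : 0 < den0 kR a I X 1 - den1 kR a I u 1 * H
  g0 : 0 < g
  g_eq : g * (I * (1 - 2 * I - a) * (den0 kR a I X 1 - den1 kR a I u 1 * H)) =
    2 * qnN kR a I X u 1
  q_eq : W1 * (1 - 2 * I) / (2 * I ^ 2 * H) * (I * (1 - 2 * I - a) * u * (1 - 2 * I) * H) =
    (1 - 2 * I) * (1 + (1 - a) * (2 * I * X)) +
      ((1 - 2 * I) * u * (a - (1 - a) * (1 - 2 * I - 2 * a) * (2 * I * X)) -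
        (1 + 2 * I) * (1 - 2 * I - a)) * H
  flow : 4 - 8 * a * I * X < (1 - 2 * I - a) * (g * (2 * I * H / (1 - 2 * I)))

/-- The intermediates of a point. -/
noncomputable def zPt (a I X u H g W1 : ℝ) : Pt ℝ :=
  ⟨((1 - 2 * I - a) * (g * (2 * I * H / (1 - 2 * I))) - 4) / I,
    (1 - u * (1 - 2 * I - 2 * a) * H) / (1 + (1 - 2 * I - 2 * a) * (2 * I * X)), I * g,
    W1 * (1 - 2 * I) / (2 * I ^ 2 * H)⟩

/-- The intermediates with the fourth less `w1` times the first. -/
def shift (w1 : ℝ) (z : Pt ℝ) : Pt ℝ := ⟨z.p, z.T, z.g, z.q - w1 * z.p⟩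

section
variable {a I X u H g W1 : ℝ} (P : Point a I X u H g W1)

include P

theorem Point.hb : 0 < 1 - 2 * I - a := by linarith [P.a1, P.I1]

theorem Point.hd : 0 < 1 - 2 * I - 2 * a := by linarith [P.a1, P.I1]

theorem Point.hS : 0 < 1 - 2 * I := by linarith [P.I1]

theorem Point.hQ : 0 < 1 + (1 - 2 * I - 2 * a) * (2 * I * X) := by
  have := P.hd; have := P.I0; have := P.X0; positivity

theorem Point.qn_pos : 0 < qnN kR a I X u 1 := by
  have : 0 < g * (I * (1 - 2 * I - a) * (den0 kR a I X 1 - den1 kR a I u 1 * H)) :=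
    mul_pos P.g0 (mul_pos (mul_pos P.I0 P.hb) P.den)
  linarith [P.g_eq]

theorem Point.val_p (p : ℝ) : (piQ kR a I X u 1 p).g0 + (piQ kR a I X u 1 p).g1 * H =
    ((zPt a I X u H g W1).p - p) *
      (I * (1 - 2 * I) * (den0 kR a I X 1 - den1 kR a I u 1 * H)) := by
  have e := P.g_eq
  have hI := P.I0.ne'
  have hS := P.hS.ne'
  have ez : ((zPt a I X u H g W1).p - p) *
      (I * (1 - 2 * I) * (den0 kR a I X 1 - den1 kR a I u 1 * H)) =
      (2 * g * I * (1 - 2 * I - a) * H - (4 + I * p) * (1 - 2 * I)) *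
        (den0 kR a I X 1 - den1 kR a I u 1 * H) := by
    simp only [zPt]
    field_simp
    ring
  rw [ez]
  simp only [piQ, kR]
  push_cast
  linear_combination (-2 * H) * e

theorem Point.val_T (T : ℝ) : (timeQ kR a I X u 1 T).g0 + (timeQ kR a I X u 1 T).g1 * H =
    ((zPt a I X u H g W1).T - T) * (1 + (1 - 2 * I - 2 * a) * (2 * I * X)) := by
  have hQ := P.hQ.ne'
  simp only [zPt]
  rw [sub_mul, div_mul_cancel₀ _ hQ]
  simp only [timeQ, den1, kR]
  push_cast
  ring

theorem Point.val_g (c : ℝ) : (gamQ kR a I X u 1 c).g0 + (gamQ kR a I X u 1 c).g1 * H =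
    ((zPt a I X u H g W1).g - c) *
      ((1 - 2 * I - a) * (den0 kR a I X 1 - den1 kR a I u 1 * H)) := by
  have e := P.g_eq
  simp only [gamQ, zPt, kR]
  push_cast
  linear_combination (-1 : ℝ) * e

theorem Point.val_q (w1 c : ℝ) : (omQ kR a I X u 1 w1 c).val H =
    ((zPt a I X u H g W1).q - w1 * (zPt a I X u H g W1).p - c) *
      (I * (1 - 2 * I - a) * u * (1 - 2 * I) * H *
        (den0 kR a I X 1 - den1 kR a I u 1 * H)) := by
  have e := P.q_eq
  have e0 := P.val_p 0
  have eq : (zPt a I X u H g W1).q = W1 * (1 - 2 * I) / (2 * I ^ 2 * H) := rfl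
  rw [← eq] at e
  generalize (zPt a I X u H g W1).q = q at e ⊢
  generalize (zPt a I X u H g W1).p = p at e0 ⊢
  simp only [omQ, Quad.val, piQ, kR] at e0 ⊢
  push_cast at e0 ⊢
  linear_combination (den0 kR a I X 1 - den1 kR a I u 1 * H) * (-e) -
    w1 * (1 - 2 * I - a) * u * H * e0

theorem Point.flow_pos : 0 < (flowQ kR a I X u 1).g0 + (flowQ kR a I X u 1).g1 * H := by
  simp only [flowQ, kR]
  rw [P.val_p]
  refine mul_pos ?_ (mul_pos (mul_pos P.I0 P.hS) P.den)
  have := P.flow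
  have e : (zPt a I X u H g W1).p - (((0 : ℤ) : ℝ) - ((8 : ℤ) : ℝ) * a * X) =
      ((1 - 2 * I - a) * (g * (2 * I * H / (1 - 2 * I))) - 4 + 8 * a * I * X) / I := by
    have hI := P.I0.ne'
    simp only [zPt]
    push_cast
    field_simp
    ring
  rw [e]
  exact div_pos (by linarith) P.I0

theorem Point.flow_slope : 0 ≤ (flowQ kR a I X u 1).g1 := by
  have := P.qn_pos
  have := P.av
  simp only [flowQ, piQ, den1, kR]
  push_cast
  have : 0 ≤ 4 * (1 - 2 * I) * 1 + I * (0 - 8 * a * X) * (1 - 2 * I) := by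
    linarith [mul_nonneg (show 0 ≤ 4 - 8 * a * I * X by linarith) P.hS.le]
  have := P.u0
  have := P.hd
  positivity

end

namespace Ctx

variable {T : Ctx} {a I s u X H g W1 : ℝ}

theorem Xr_mul : 1000 * T.Xr a I s = T.c.X kR a I s := by rw [Xr]; ring

theorem ev_dE : dE.eval (vec4 a I s u) = 1000 * endD kR a I u 1 := by
  show endD kR a I u ((1000 : ℤ) : ℝ) = _
  rw [thousand, ← endD_scale]

theorem ev_nE (m : Bool) : (T.nE m).eval (vec4 a I s u) =
    1000 * endN kR (cond m T.m1 T.m0) a I (T.Xr a I s) u 1 := by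
  show endN kR (cond m T.m1 T.m0) a I (T.c.X kR a I s) u ((1000 : ℤ) : ℝ) = _
  rw [thousand, ← endN_scale, Xr_mul]

/-- `H` is between the ends of the band part. -/
structure Between (T : Ctx) (a I X u H : ℝ) : Prop where
  D : 0 < endD kR a I u 1
  lo : endN kR T.m0 a I X u 1 ≤ H * endD kR a I u 1
  hi : H * endD kR a I u 1 ≤ endN kR T.m1 a I X u 1

/-- A linear bound of a cell at the point. -/
theorem lin_at (m : T.In a I s u) (hH : T.Between a I (T.Xr a I s) u H) {e : Bool → Ex}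
    {c g0 g1 : ℝ} (hc : 0 < c)
    (he : ∀ b, (e b).eval (vec4 a I s u) =
      c * g0 * (1000 * endD kR a I u 1) + c * g1 * (T.nE b).eval (vec4 a I s u))
    (h : ∀ b, T.N4 (e b)) : 0 ≤ g0 + g1 * H := by
  have e0 := m.at4 (h false)
  have e1 := m.at4 (h true)
  rw [he, ev_nE] at e0 e1
  refine lin_nonneg hH.D hH.lo hH.hi ?_ ?_ <;>
    refine nonneg_of_mul_nonneg_right (a := c * 1000) ?_ (by positivity)
  · simp only [cond] at e0; linarith
  · simp only [cond] at e1; linarith

theorem qual_at (m : T.In a I s u) (hH : T.Between a I (T.Xr a I s) u H) {G : Quad Ex}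
    {e es : Bool → Ex} (he : ∀ b, e b = G.at (T.nE b) dE)
    (hes : ∀ b, es b = Ex.num 4 * e b - G.g2 * (T.nE true - T.nE false) * (T.nE true - T.nE false))
    (h : ∀ b, T.N4 (e b)) (hs : ∀ b, T.N4 (es b)) :
    0 ≤ (⟨G.g0.eval (vec4 a I s u), G.g1.eval (vec4 a I s u), G.g2.eval (vec4 a I s u)⟩ :
      Quad ℝ).val H := by
  have e0 := m.at4 (h false)
  have e1 := m.at4 (h true)
  have s0 := m.at4 (hs false)
  have s1 := m.at4 (hs true)
  rw [he, eval_at, ev_dE] at e0 e1
  rw [hes, he] at s0 s1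
  change 0 ≤ ((4 : ℤ) : ℝ) * (G.at _ _).eval (vec4 a I s u) - G.g2.eval (vec4 a I s u) *
    ((T.nE true).eval (vec4 a I s u) - (T.nE false).eval (vec4 a I s u)) *
    ((T.nE true).eval (vec4 a I s u) - (T.nE false).eval (vec4 a I s u)) at s0 s1
  rw [eval_at, ev_dE] at s0 s1
  push_cast at s0 s1
  refine quad_nonneg (by linarith [hH.D]) ?_ ?_ e0 e1 s0 s1 <;> rw [ev_nE] <;>
    simp only [cond] <;> linarith [hH.lo, hH.hi]

/-- What the box of a cell is entered with. -/
theorem Ok.inside (h : T.Ok) (m : T.In a I s u) (P : Point a I X u H g W1)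
    (hX : T.Xr a I s = X) (hH : T.Between a I X u H) :
    (T.range a I s).Mem (shift (T.rr a I s).w1 (zPt a I X u H g W1)) := by
  subst hX
  have dp : 0 < I * (1 - 2 * I) * (den0 kR a I (T.Xr a I s) 1 - den1 kR a I u 1 * H) :=
    mul_pos (mul_pos P.I0 P.hS) P.den
  have dg : 0 < (1 - 2 * I - a) * (den0 kR a I (T.Xr a I s) 1 - den1 kR a I u 1 * H) :=
    mul_pos P.hb P.den
  have dq : 0 < I * (1 - 2 * I - a) * u * (1 - 2 * I) * H *
      (den0 kR a I (T.Xr a I s) 1 - den1 kR a I u 1 * H) :=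
    mul_pos (mul_pos (mul_pos (mul_pos (mul_pos P.I0 P.hb) P.u0) P.hS) P.H0) P.den
  constructor
  · have k := lin_at m hH (e := T.eQp false) (c := 1000 ^ 2)
      (g0 := (piQ kR a I (T.Xr a I s) u 1 (T.lor a I s).p).g0)
      (g1 := (piQ kR a I (T.Xr a I s) u 1 (T.lor a I s).p).g1) (by norm_num)
      (fun b => by
        show (piQ kR a I (T.c.X kR a I s) u ((1000 : ℤ) : ℝ) (poly8 kR T.c.pl a I s)).g0 *
          dE.eval (vec4 a I s u) + (piQ kR a I (T.c.X kR a I s) u ((1000 : ℤ) : ℝ)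
          (poly8 kR T.c.pl a I s)).g1 * (T.nE b).eval (vec4 a I s u) = _
        rw [thousand, ← Xr_mul, show poly8 kR T.c.pl a I s = 1000 * (T.lor a I s).p by
          simp only [lor, Pt.map, Cell.lo]; ring, piQ_scale, ev_dE])
      (h.qp false)
    rw [P.val_p] at k
    exact sub_nonneg.1 (nonneg_of_mul_nonneg_left k dp)
  · have k := lin_at m hH (e := T.eQp true) (c := 1000 ^ 2)
      (g0 := -(piQ kR a I (T.Xr a I s) u 1 (T.hir a I s).p).g0)
      (g1 := -(piQ kR a I (T.Xr a I s) u 1 (T.hir a I s).p).g1) (by norm_num)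
      (fun b => by
        show (((0 : ℤ) : ℝ) - (piQ kR a I (T.c.X kR a I s) u ((1000 : ℤ) : ℝ)
          (poly8 kR T.c.ph a I s)).g0) * dE.eval (vec4 a I s u) + (((0 : ℤ) : ℝ) -
          (piQ kR a I (T.c.X kR a I s) u ((1000 : ℤ) : ℝ) (poly8 kR T.c.ph a I s)).g1) *
          (T.nE b).eval (vec4 a I s u) = _
        rw [thousand, ← Xr_mul, show poly8 kR T.c.ph a I s = 1000 * (T.hir a I s).p by
          simp only [hir, Pt.map, Cell.hi]; ring, piQ_scale, ev_dE]
        push_cast; ring)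
      (h.qp true)
    have e := P.val_p (T.hir a I s).p
    simp only [shift, range]
    exact sub_nonpos.1 (nonpos_of_mul_nonpos_left (by linarith) dp)
  · have k := lin_at m hH (e := T.eQT false) (c := 1000 ^ 2)
      (g0 := (timeQ kR a I (T.Xr a I s) u 1 (T.lor a I s).T).g0)
      (g1 := (timeQ kR a I (T.Xr a I s) u 1 (T.lor a I s).T).g1) (by norm_num)
      (fun b => by
        show (timeQ kR a I (T.c.X kR a I s) u ((1000 : ℤ) : ℝ) (poly8 kR T.c.Tl a I s)).g0 *
          dE.eval (vec4 a I s u) + (timeQ kR a I (T.c.X kR a I s) u ((1000 : ℤ) : ℝ)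
          (poly8 kR T.c.Tl a I s)).g1 * (T.nE b).eval (vec4 a I s u) = _
        rw [thousand, ← Xr_mul, show poly8 kR T.c.Tl a I s = 1000 * (T.lor a I s).T by
          simp only [lor, Pt.map, Cell.lo]; ring, timeQ_scale, ev_dE])
      (h.qT false)
    rw [P.val_T] at k
    exact sub_nonneg.1 (nonneg_of_mul_nonneg_left k P.hQ)
  · have k := lin_at m hH (e := T.eQT true) (c := 1000 ^ 2)
      (g0 := -(timeQ kR a I (T.Xr a I s) u 1 (T.hir a I s).T).g0)
      (g1 := -(timeQ kR a I (T.Xr a I s) u 1 (T.hir a I s).T).g1) (by norm_num)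
      (fun b => by
        show (((0 : ℤ) : ℝ) - (timeQ kR a I (T.c.X kR a I s) u ((1000 : ℤ) : ℝ)
          (poly8 kR T.c.Th a I s)).g0) * dE.eval (vec4 a I s u) + (((0 : ℤ) : ℝ) -
          (timeQ kR a I (T.c.X kR a I s) u ((1000 : ℤ) : ℝ) (poly8 kR T.c.Th a I s)).g1) *
          (T.nE b).eval (vec4 a I s u) = _
        rw [thousand, ← Xr_mul, show poly8 kR T.c.Th a I s = 1000 * (T.hir a I s).T by
          simp only [hir, Pt.map, Cell.hi]; ring, timeQ_scale, ev_dE]
        push_cast; ring)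
      (h.qT true)
    have e := P.val_T (T.hir a I s).T
    simp only [shift, range]
    exact sub_nonpos.1 (nonpos_of_mul_nonpos_left (by linarith) P.hQ)
  · have k := lin_at m hH (e := T.eQg false) (c := 1000 ^ 2)
      (g0 := (gamQ kR a I (T.Xr a I s) u 1 (T.lor a I s).g).g0)
      (g1 := (gamQ kR a I (T.Xr a I s) u 1 (T.lor a I s).g).g1) (by norm_num)
      (fun b => by
        show (gamQ kR a I (T.c.X kR a I s) u ((1000 : ℤ) : ℝ) (poly8 kR T.c.gl a I s)).g0 *
          dE.eval (vec4 a I s u) + (gamQ kR a I (T.c.X kR a I s) u ((1000 : ℤ) : ℝ)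
          (poly8 kR T.c.gl a I s)).g1 * (T.nE b).eval (vec4 a I s u) = _
        rw [thousand, ← Xr_mul, show poly8 kR T.c.gl a I s = 1000 * (T.lor a I s).g by
          simp only [lor, Pt.map, Cell.lo]; ring, gamQ_scale, ev_dE])
      (h.qg false)
    rw [P.val_g] at k
    exact sub_nonneg.1 (nonneg_of_mul_nonneg_left k dg)
  · have k := lin_at m hH (e := T.eQg true) (c := 1000 ^ 2)
      (g0 := -(gamQ kR a I (T.Xr a I s) u 1 (T.hir a I s).g).g0)
      (g1 := -(gamQ kR a I (T.Xr a I s) u 1 (T.hir a I s).g).g1) (by norm_num)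
      (fun b => by
        show (((0 : ℤ) : ℝ) - (gamQ kR a I (T.c.X kR a I s) u ((1000 : ℤ) : ℝ)
          (poly8 kR T.c.gh a I s)).g0) * dE.eval (vec4 a I s u) + (((0 : ℤ) : ℝ) -
          (gamQ kR a I (T.c.X kR a I s) u ((1000 : ℤ) : ℝ) (poly8 kR T.c.gh a I s)).g1) *
          (T.nE b).eval (vec4 a I s u) = _
        rw [thousand, ← Xr_mul, show poly8 kR T.c.gh a I s = 1000 * (T.hir a I s).g by
          simp only [hir, Pt.map, Cell.hi]; ring, gamQ_scale, ev_dE]
        push_cast; ring)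
      (h.qg true)
    have e := P.val_g (T.hir a I s).g
    simp only [shift, range]
    exact sub_nonpos.1 (nonpos_of_mul_nonpos_left (by linarith) dg)
  · have k := qual_at m hH (G := T.qQ false) (fun b => rfl) (fun b => rfl) (h.qq false)
      (h.qqs false)
    change 0 ≤ (omQ kR a I (T.c.X kR a I s) u ((1000 : ℤ) : ℝ) (T.c.w1 : ℝ)
      (poly8 kR T.c.ql a I s)).val H at k
    rw [thousand, ← Xr_mul, show poly8 kR T.c.ql a I s = 1000 * (T.lor a I s).q by
      simp only [lor, Pt.map, Cell.lo]; ring, show (T.c.w1 : ℝ) = 1000 * (T.rr a I s).w1 by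
      simp only [rr]; ring, omQ_scale] at k
    have e := P.val_q (T.rr a I s).w1 (T.lor a I s).q
    simp only [Quad.val] at k e
    simp only [shift, range]
    exact sub_nonneg.1 (nonneg_of_mul_nonneg_left
      (show 0 ≤ _ * _ by rw [← e]; linarith) dq)
  · have k := qual_at m hH (G := T.qQ true) (fun b => rfl) (fun b => rfl) (h.qq true)
      (h.qqs true)
    change 0 ≤ Quad.val ⟨((0 : ℤ) : ℝ) - (omQ kR a I (T.c.X kR a I s) u ((1000 : ℤ) : ℝ)
      (T.c.w1 : ℝ) (poly8 kR T.c.qh a I s)).g0, ((0 : ℤ) : ℝ) - (omQ kR a I (T.c.X kR a I s) u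
      ((1000 : ℤ) : ℝ) (T.c.w1 : ℝ) (poly8 kR T.c.qh a I s)).g1, ((0 : ℤ) : ℝ) -
      (omQ kR a I (T.c.X kR a I s) u ((1000 : ℤ) : ℝ) (T.c.w1 : ℝ)
      (poly8 kR T.c.qh a I s)).g2⟩ H at k
    rw [thousand, ← Xr_mul, show poly8 kR T.c.qh a I s = 1000 * (T.hir a I s).q by
      simp only [hir, Pt.map, Cell.hi]; ring, show (T.c.w1 : ℝ) = 1000 * (T.rr a I s).w1 by
      simp only [rr]; ring, omQ_scale] at k
    push_cast at k
    have e := P.val_q (T.rr a I s).w1 (T.hir a I s).q
    simp only [Quad.val] at k e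
    simp only [shift, range]
    exact sub_nonpos.1 (nonpos_of_mul_nonpos_left
      (show _ * _ ≤ 0 by rw [← e]; linarith) dq)

/-- **The point has a place between the two ends of `X`.** -/
theorem Ok.place (h : T.Ok) (P : Point a I X u H g W1) (ma : T.A.Mem a) (mI : T.B.Mem I)
    (mu : T.U.Mem u) (hH : T.Between a I X u H)
    (hE : 0 < exitQ kR T.low a I X u 1) : ∃ s, T.In a I s u ∧ T.Xr a I s = X := by
  have hl : poly3 kR T.c.xl a I ≤ 1000 * X := by
    by_contra hlt
    rw [not_le] at hlt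
    have hp : 0 < poly3 kR T.c.xl a I - 960 := by linarith [P.X0]
    set t := (1000 * X - 960) / (poly3 kR T.c.xl a I - 960) with ht
    have mt : segOne.Mem t := by
      have h0 : 0 ≤ t := div_nonneg (by linarith [P.X0]) hp.le
      have h1 : t ≤ 1 := by rw [ht, div_le_one hp]; linarith
      constructor <;> norm_num [segOne] <;> linarith
    have c := (In.mk ma mI mt mu).at4 h.xlo
    have ef : T.Xf.eval (vec4 a I t u) = 1000 * X := by
      show ((960 : ℤ) : ℝ) * (((1 : ℤ) : ℝ) - t) + poly3 kR T.c.xl a I * t = _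
      have : t * (poly3 kR T.c.xl a I - 960) = 1000 * X - 960 := div_mul_cancel₀ _ hp.ne'
      push_cast
      linarith
    change 0 ≤ ((0 : ℤ) : ℝ) - ((flowQ kR a I (T.Xf.eval (vec4 a I t u)) u ((1000 : ℤ) : ℝ)).g0 *
      dE.eval (vec4 a I t u) + (flowQ kR a I (T.Xf.eval (vec4 a I t u)) u ((1000 : ℤ) : ℝ)).g1 *
        endN kR T.m1 a I (T.Xf.eval (vec4 a I t u)) u ((1000 : ℤ) : ℝ)) at c
    rw [ef, thousand, ev_dE, endN_scale] at c
    have es : flowQ kR a I (1000 * X) u 1000 =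
        ⟨1000 ^ 2 * (flowQ kR a I X u 1).g0, 1000 ^ 2 * (flowQ kR a I X u 1).g1, 0⟩ := by
      simp only [flowQ]
      rw [← piQ_scale]
      congr 1
      simp only [kR]; push_cast; ring
    rw [es] at c
    push_cast at c
    have f := mul_pos P.flow_pos hH.D
    linarith [mul_le_mul_of_nonneg_left hH.hi P.flow_slope]
  have hh : 1000 * X ≤ poly3 kR T.c.xh a I := by
    by_contra hlt
    rw [not_le] at hlt
    have mt : segOne.Mem (0 : ℝ) := by constructor <;> norm_num [segOne]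
    have c := (In.mk ma mI mt mu).at4 h.xhi
    have ev : (exitQ Ex.num T.low aE IE (poly3 Ex.num T.c.xh aE IE) uE oE).eval (vec4 a I 0 u) =
        exitQ kR T.low a I (poly3 kR T.c.xh a I) u ((1000 : ℤ) : ℝ) := by
      cases T.low <;> rfl
    change 0 ≤ ((0 : ℤ) : ℝ) - (exitQ Ex.num T.low aE IE _ uE oE).eval (vec4 a I 0 u) at c
    rw [ev] at c
    rw [thousand] at c
    push_cast at c
    have hde : 0 < 50 - 100 * a * u - 25 * (I * u * (2 + 3 * u)) := by
      have := mul_le_mul P.a1 P.u1.le P.u0.le (by norm_num)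
      have h1 : I * u ≤ 1 / 20 := (mul_le_of_le_one_right P.I0.le P.u1.le).trans P.I1
      have h2 := mul_le_mul h1 (show 2 + 3 * u ≤ 5 by linarith [P.u1])
        (by linarith [P.u0]) (by norm_num)
      linarith
    simp only [exitQ, kR] at c hE
    push_cast at c hE
    linarith [mul_lt_mul_of_pos_left hlt hde]
  set w := poly3 kR T.c.xh a I - poly3 kR T.c.xl a I with hw
  refine ⟨(1000 * X - poly3 kR T.c.xl a I) / w, ⟨ma, mI, ?_, mu⟩, ?_⟩
  · rcases eq_or_lt_of_le (show 0 ≤ w by linarith) with e | e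
    · rw [← e, div_zero]; constructor <;> norm_num [segOne]
    · have h0 : 0 ≤ (1000 * X - poly3 kR T.c.xl a I) / w := div_nonneg (by linarith) e.le
      have h1 : (1000 * X - poly3 kR T.c.xl a I) / w ≤ 1 := by rw [div_le_one e]; linarith
      constructor <;> norm_num [segOne] <;> linarith
  · simp only [Xr, Cell.X, kR]
    push_cast
    rcases eq_or_lt_of_le (show 0 ≤ w by linarith) with e | e
    · rw [← e, div_zero]; simp; linarith
    · have := div_mul_cancel₀ (1000 * X - poly3 kR T.c.xl a I) e.ne'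
      rw [div_eq_iff (by norm_num : (1000 : ℝ) ≠ 0)]
      simp only [hw, kR] at this ⊢
      linarith

end Ctx

end Vale.Agent.P100.Calib.Mid
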