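import Vale.Agent.P100.Calib.SlabWaistDet

/-!
# The closed signs from the three dominant rows

With `σ = a³ b I²` the entries are `σ` times the forms of the scaled entries. The multiplier is
`σ (MG - δ)`; the last condition becomes a bound on the linear part `LG`.
-/

set_option linter.unusedVariables false
set_option linter.unusedSimpArgs false

namespace Vale.Agent.P100.Calib.Mid

/-- A symmetric matrix of three rows, dominant for some weights, has positive determinant. -/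
theorem det3_pos {p q r x y z l2 l3 : ℝ} (h2 : 0 < l2) (h3 : 0 < l3)
    (r1 : |x| * l2 + |y| * l3 < p) (r2 : |x| + |z| * l3 < q * l2) (r3 : |y| + |z| * l2 < r * l3) :
    0 < p * q - x ^ 2 ∧ 0 < p * q * r - p * z ^ 2 - q * y ^ 2 - r * x ^ 2 + 2 * x * y * z := by
  have key : -(|x| * |y| * |z|) ≤ x * y * z := by
    rw [← abs_mul, ← abs_mul]; exact neg_abs_le _
  rw [← sq_abs x, ← sq_abs y, ← sq_abs z]
  have hX := abs_nonneg x
  have hY := abs_nonneg y
  have hZ := abs_nonneg z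
  generalize |x| = X at *
  generalize |y| = Y at *
  generalize |z| = Z at *
  obtain ⟨e1, he1, rfl⟩ : ∃ e, 0 < e ∧ X * l2 + Y * l3 + e = p :=
    ⟨p - (X * l2 + Y * l3), by linarith, by ring⟩
  obtain ⟨e2, he2, hq⟩ : ∃ e, 0 < e ∧ X + Z * l3 + e = q * l2 :=
    ⟨q * l2 - (X + Z * l3), by linarith, by ring⟩
  obtain ⟨e3, he3, hr⟩ : ∃ e, 0 < e ∧ Y + Z * l2 + e = r * l3 :=
    ⟨r * l3 - (Y + Z * l2), by linarith, by ring⟩
  obtain rfl : q = (X + Z * l3 + e2) / l2 := by rw [hq]; field_simp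
  obtain rfl : r = (Y + Z * l2 + e3) / l3 := by rw [hr]; field_simp
  constructor
  · have e : (X * l2 + Y * l3 + e1) * ((X + Z * l3 + e2) / l2) - X ^ 2 =
        ((X * l2 + Y * l3) * (Z * l3 + e2) + Y * l3 * X + e1 * (X + Z * l3 + e2)) / l2 := by
      field_simp; ring
    rw [e]; positivity
  · have e : (X * l2 + Y * l3 + e1) * ((X + Z * l3 + e2) / l2) * ((Y + Z * l2 + e3) / l3) -
        (X * l2 + Y * l3 + e1) * Z ^ 2 - (X + Z * l3 + e2) / l2 * Y ^ 2 -
          (Y + Z * l2 + e3) / l3 * X ^ 2 - 2 * (X * Y * Z) =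
        (e1 * ((X + e2) * (Y + Z * l2 + e3) + Z * l3 * (Y + e3)) +
          e2 * ((X * l2) * (Y + Z * l2) + Y * l3 * (Z * l2) + (X * l2 + Y * l3) * e3) +
          e3 * (Z * l3 * (X * l2) + Y * l3 * (X + Z * l3))) / (l2 * l3) := by
      field_simp; ring
    have : 0 < (e1 * ((X + e2) * (Y + Z * l2 + e3) + Z * l3 * (Y + e3)) +
          e2 * ((X * l2) * (Y + Z * l2) + Y * l3 * (Z * l2) + (X * l2 + Y * l3) * e3) +
          e3 * (Z * l3 * (X * l2) + Y * l3 * (X + Z * l3))) / (l2 * l3) := by positivity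
    linarith

section
variable {a I X : ℝ} (z : Pt ℝ) (hI : I ≠ 0) (hb : 1 - 2 * I - a ≠ 0)
  (hd : 1 - 2 * I - 2 * a ≠ 0) (hS : 1 - 2 * I ≠ 0) {g W W1 R : ℝ} {t : ClosedGen.Num}
  (eW : g * W = midP a I z.p) (eW1 : g * W1 = midP a I z.p * z.q * I)
  (et : scNum g t = midNum a I X z.T z.g)

include hI hb hd hS eW eW1 et

theorem forms_at :
    let d := 1 - 2 * I - 2 * a
    let v := 2 * I * X
    let h := trueHats a I X z
    let w := wts kR a I X 1
    let s := a ^ 3 * (1 - 2 * I - a) * I ^ 2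
    ClosedGen.TGGS a d v g W W1 R t = s * fG w 1 h ∧
      ClosedGen.TEGS a d v g W W1 R t = s * fE kR w 1 h ∧
      2 * (ClosedGen.TEES a d v g W W1 R t + ClosedGen.TMGS a d v g W W1 R t) =
        s * fA kR w 1 h ∧
      2 * ClosedGen.TMGS a d v g W W1 R t = s * fM kR w 1 h ∧
      g * ClosedGen.TMES a d v g W W1 R t = a * I * h.N ∧
      g ^ 2 * ClosedGen.TMMS a d v g W W1 R t = h.M := by
  intro d v h w s
  have ec : t.c = a * (1 - 2 * I - a) := by
    have := congrArg ClosedGen.Num.c et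
    simpa [scNum, midNum] using this
  have ej : Closed.j1 a d = 1 - I := by simp only [Closed.j1, d]; ring
  refine ⟨?_, ?_, ?_, ?_, ?_, ?_⟩
  rotate_left 4
  · rw [TMES_sc, eW, eW1, et, TMES_true z hI hb hd hS]
  · rw [TMMS_sc, eW, eW1, et, TMMS_true z hI hb hd hS]
  all_goals
    simp only [ClosedGen.TGGS, ClosedGen.TEGS, ClosedGen.TEES, ClosedGen.TMGS]
    try rw [LGGS_sc]
    try rw [LEGS_sc]
    try rw [LEES_sc]
    try rw [LMGS_sc]
    try rw [gES_sc]
    try rw [gGS_sc]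
    try rw [gMS_sc]
    try rw [hES_sc]
    try rw [hGS_sc]
    try rw [hMS_sc]
    simp only [eW, eW1, et]
    simp only [d, v]
    try rw [LGGS_true z hI hb hd hS]
    try rw [LEGS_true z hI hb hd hS]
    try rw [LEES_true z hI hb hd hS]
    try rw [LMGS_true z hI hb hd hS]
    try rw [gES_true z hI hb hd hS]
    try rw [gGS_true z hI hb hd hS]
    try rw [gMS_true z hI hb hd hS]
    try rw [hES_true z hI hb hd hS]
    try rw [hGS_true z hI hb hd hS]
    try rw [hMS_true z hI hb hd hS]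
    simp only [fG, fE, fA, fM, wts, kR, h, w, s, d, v] at ej ⊢
    rw [ej, ec]
    push_cast
    ring

/-- **Dominant rows and the gap give the signs.** -/
theorem signs_of_rows {δ l2 l3 : ℝ} (ha : 0 < a) (hI0 : 0 < I) (hd0 : 0 < 1 - 2 * I - 2 * a)
    (hX : 0 < X) (hg : 0 < g) (h2 : 0 < l2) (h3 : 0 < l3) (hδ : 0 ≤ δ)
    (r1 : 2 * δ + 2 * l2 * (wts kR a I X 1).dQ * |fE kR (wts kR a I X 1) 1 (trueHats a I X z)| +
      2 * l3 * (wts kR a I X 1).bnQ * |(trueHats a I X z).N| <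
      fA kR (wts kR a I X 1) 1 (trueHats a I X z))
    (r2 : (wts kR a I X 1).d * |fE kR (wts kR a I X 1) 1 (trueHats a I X z)| + l3 * δ <
      4 * l2 * fG (wts kR a I X 1) 1 (trueHats a I X z))
    (r3 : (wts kR a I X 1).bn * |(trueHats a I X z).N| + l2 * δ <
      (wts kR a I X 1).C * (trueHats a I X z).M * l3)
    (r4 : 2 * δ < fM kR (wts kR a I X 1) 1 (trueHats a I X z))
    (gap : -(δ * (a ^ 3 * (1 - 2 * I - a) * I ^ 2) * R) ≤ 8 * a * (1 - 2 * I - a) * (2 * I * X) *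
      t.c * g * ClosedGen.LLGS a (1 - 2 * I - 2 * a) (2 * I * X) g W W1 R t) :
    ClosedGen.SignsMult a (1 - 2 * I - 2 * a) (2 * I * X) g W W1 R t := by
  obtain ⟨fg, fe, fa, fm, fn, fmm⟩ := forms_at z hI hb hd hS eW eW1 et (R := R)
  have ec : t.c = a * (1 - 2 * I - a) := by
    have := congrArg ClosedGen.Num.c et
    simpa [scNum, midNum] using this
  have hb0 : 0 < 1 - 2 * I - a := by linarith
  have eb : a + (1 - 2 * I - 2 * a) = 1 - 2 * I - a := by ring
  generalize hA : fA kR (wts kR a I X 1) 1 (trueHats a I X z) = FA at r1 fa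
  generalize hM : fM kR (wts kR a I X 1) 1 (trueHats a I X z) = FM at r4 fm
  generalize hE : fE kR (wts kR a I X 1) 1 (trueHats a I X z) = FE at r1 r2 fe
  generalize hG : fG (wts kR a I X 1) 1 (trueHats a I X z) = FG at r2 fg
  simp only [wts, kR] at r1 r2 r3
  push_cast at r1 r2 r3
  simp only [mul_one, one_mul] at r1 r2 r3
  generalize hN : (trueHats a I X z).N = FN at r1 r3 fn
  generalize hMM : (trueHats a I X z).M = FMM at r3 fmm
  obtain ⟨s, hs⟩ : ∃ s, s = a ^ 3 * (1 - 2 * I - a) * I ^ 2 := ⟨_, rfl⟩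
  have hs0 : 0 < s := by rw [hs]; positivity
  obtain ⟨Q, hQ⟩ : ∃ Q, Q = 1 + (1 - 2 * I - 2 * a) * (2 * I * X) := ⟨_, rfl⟩
  have hQ0 : 0 < Q := by rw [hQ]; positivity
  have ax : |(1 - 2 * I - 2 * a) * Q * FE| = (1 - 2 * I - 2 * a) * Q * |FE| := by
    rw [abs_mul, abs_of_pos (mul_pos hd0 hQ0)]
  have ay : |16 * (1 - 2 * I - a) * X * (1 - 2 * I - 2 * a) * Q * FN| =
      16 * (1 - 2 * I - a) * X * (1 - 2 * I - 2 * a) * Q * |FN| := by
    rw [abs_mul, abs_of_pos (show 0 < 16 * (1 - 2 * I - a) * X * (1 - 2 * I - 2 * a) * Q by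
      positivity)]
  have az : |Q * δ| = Q * δ := abs_of_nonneg (mul_nonneg hQ0.le hδ)
  obtain ⟨p1, p2⟩ := det3_pos (p := FA / 2 - δ) (q := 4 * Q * FG)
    (r := 64 * (1 - 2 * I - a) ^ 2 * X ^ 2 * (1 - 2 * I - 2 * a) ^ 2 * Q * FMM)
    (x := (1 - 2 * I - 2 * a) * Q * FE)
    (y := 16 * (1 - 2 * I - a) * X * (1 - 2 * I - 2 * a) * Q * FN) (z := Q * δ) h2 h3
    (by rw [ax, ay]; rw [hQ]; linarith)
    (by rw [ax, az]; linarith [mul_lt_mul_of_pos_left r2 hQ0])
    (by rw [ay, az]; linarith [mul_lt_mul_of_pos_left r3 hQ0])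
  refine ⟨ClosedGen.TMGS a (1 - 2 * I - 2 * a) (2 * I * X) g W W1 R t - s * δ, ?_, ?_, ?_, ?_, ?_⟩
  · rw [fg, ← hs]
    refine mul_pos hs0 ?_
    have : 0 ≤ (1 - 2 * I - 2 * a) * |FE| + l3 * δ := by positivity
    exact pos_of_mul_pos_right (show 0 < 4 * l2 * FG by linarith) (by positivity)
  · rw [← hs] at fg fe fa
    rw [fg, fe, ← hQ]
    refine lt_of_lt_of_eq (div_pos (mul_pos (mul_pos hs0 hs0) p1) hQ0) ?_
    rw [show ClosedGen.TEES a (1 - 2 * I - 2 * a) (2 * I * X) g W W1 R t = s * FA / 2 -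
      ClosedGen.TMGS a (1 - 2 * I - 2 * a) (2 * I * X) g W W1 R t by linarith]
    field_simp
    ring
  · simp only [ClosedGen.TDetS, eb, ← hQ, ec]
    rw [← hs] at fg fe fa
    rw [fg, fe]
    refine lt_of_lt_of_eq (div_pos (mul_pos (pow_pos hs0 3) p2) (pow_pos hQ0 2)) ?_
    have ee : ClosedGen.TEES a (1 - 2 * I - 2 * a) (2 * I * X) g W W1 R t =
        s * FA / 2 - ClosedGen.TMGS a (1 - 2 * I - 2 * a) (2 * I * X) g W W1 R t := by linarith
    rw [ee]
    generalize ClosedGen.TMES a _ _ g W W1 R t = TN at fn ⊢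
    generalize ClosedGen.TMMS a _ _ g W W1 R t = TM at fmm ⊢
    subst fmm hs
    obtain rfl : FN = g * TN / (a * I) := by rw [fn]; field_simp
    field_simp
    ring
  · rw [← hs] at fm
    linarith [mul_lt_mul_of_pos_left r4 hs0]
  · simp only [eb, sub_sub_cancel_left]
    rw [← hs] at gap
    linarith

end

end Vale.Agent.P100.Calib.Mid
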