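import Vale.Agent.P100.Calib.SlabWaistPlaced
import Vale.Agent.P100.Calib.SlabWaistSigns

/-!
# The checks of a cell give the signs at a point of the middle
-/

set_option linter.unusedVariables false
set_option linter.unusedSimpArgs false

namespace Vale.Agent.P100.Calib.Mid

open Pack

attribute [local instance] exAdd exSub exMul

theorem aff_nonneg {l r x c0 c1 : ℝ} (hl : l ≤ x) (hr : x ≤ r) (e0 : 0 ≤ c0 + c1 * l)
    (e1 : 0 ≤ c0 + c1 * r) : 0 ≤ c0 + c1 * x := by
  rcases le_total 0 c1 with h | h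
  · linarith [mul_le_mul_of_nonneg_left hl h]
  · linarith [mul_le_mul_of_nonpos_left hr h]

/-- A form linear in each of three variables is nonnegative in a box with nonnegative corners. -/
theorem lin3_nonneg {b : Range} {z : Pt ℝ} (m : b.Mem z) (f : Pt ℝ → ℝ) {c0 cp cT cg cx : ℝ}
    (e : ∀ x : Pt ℝ, f x = c0 + cp * x.p + cT * x.T + cg * x.g + cx * (x.T * x.g))
    (h : ∀ α β γ, 0 ≤ f (corner b.lo b.hi α β γ false)) : 0 ≤ f z := by
  have at_p : ∀ β γ, 0 ≤ c0 + cp * z.p + cT * (cond β b.hi.T b.lo.T) +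
      cg * (cond γ b.hi.g b.lo.g) + cx * (cond β b.hi.T b.lo.T * cond γ b.hi.g b.lo.g) := by
    intro β γ
    have h0 := h false β γ
    have h1 := h true β γ
    simp only [e, corner, cond] at h0 h1
    have := aff_nonneg m.p₀ m.p₁ (c1 := cp) (c0 := c0 + cT * (cond β b.hi.T b.lo.T) +
      cg * (cond γ b.hi.g b.lo.g) + cx * (cond β b.hi.T b.lo.T * cond γ b.hi.g b.lo.g))
      (by cases β <;> cases γ <;> simp only [cond] at h0 ⊢ <;> linarith)
      (by cases β <;> cases γ <;> simp only [cond] at h1 ⊢ <;> linarith)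
    linarith
  have at_T : ∀ γ, 0 ≤ c0 + cp * z.p + cT * z.T + cg * (cond γ b.hi.g b.lo.g) +
      cx * (z.T * cond γ b.hi.g b.lo.g) := by
    intro γ
    have h0 := at_p false γ
    have h1 := at_p true γ
    simp only [cond] at h0 h1
    have := aff_nonneg m.T₀ m.T₁ (c1 := cT + cx * cond γ b.hi.g b.lo.g)
      (c0 := c0 + cp * z.p + cg * (cond γ b.hi.g b.lo.g))
      (by cases γ <;> simp only [cond] at h0 ⊢ <;> linarith)
      (by cases γ <;> simp only [cond] at h1 ⊢ <;> linarith)
    linarith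
  have h0 := at_T false
  have h1 := at_T true
  simp only [cond] at h0 h1
  have := aff_nonneg m.g₀ m.g₁ (c1 := cg + cx * z.T) (c0 := c0 + cp * z.p + cT * z.T)
    (by linarith) (by linarith)
  rw [e]
  linarith

theorem abs_le_ends {l r x v : ℝ} (hl : l ≤ x) (hr : x ≤ r) (a1 : 0 ≤ v - l) (a2 : 0 ≤ v + l)
    (b1 : 0 ≤ v - r) (b2 : 0 ≤ v + r) : |x| ≤ v := by
  rw [abs_le]; constructor <;> linarith

theorem wts_good {a I X : ℝ} (ha : 0 ≤ a) (ha' : a ≤ 31 / 100) (hI : 0 ≤ I) (hI' : I ≤ 1 / 20)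
    (hX : 0 ≤ X) : (wts kR a I X 1).Good := by
  have : 0 ≤ 1 - 2 * I - a := by linarith
  have : 0 ≤ 1 - 2 * I - 2 * a := by linarith
  have : 0 ≤ 1 - I := by linarith
  constructor <;> simp only [wts, kR] <;> push_cast <;> simp only [mul_one, one_mul] <;>
    positivity

namespace Ctx

variable {T : Ctx} {a I s u X H g W1 : ℝ}

/-- The bounds of the intermediates. -/
noncomputable def vr (T : Ctx) : Pt ℝ := T.c.vm.map (fun v : ℤ => (v : ℝ) / 1000)

/-- A check of a bound at a corner. -/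
theorem bound_at (m : T.In a I s u) {e : Ex} {B' : ℤ} {z : Pt Ex} {f : Hats Ex → Ex}
    {f' : Hats ℝ → ℝ} {B x : ℝ} {i : Bool} (h : T.N3 (e + Ex.num (sgn i) * f (T.h z) - Ex.num 1))
    (he : e.eval (vec4 a I s 0) = sU * B) {y : Pt ℝ}
    (hz : z.map (·.eval (vec4 a I s 0)) = y.map (1000 * ·))
    (hf : ∀ k : Hats Ex, (f k).eval (vec4 a I s 0) = f' (k.map (·.eval (vec4 a I s 0))))
    (hs : ∀ k : Hats ℝ, f' (k.map (sU * ·)) = sU * f' k) :
    0 ≤ B + (sgn i : ℝ) * f' (hats (T.P.val a I (T.Xr a I s)) 1 (T.rr a I s).w1 y) := by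
  have b := m.at3 h
  change 0 ≤ e.eval (vec4 a I s 0) + ((sgn i : ℤ) : ℝ) * (f (T.h z)).eval (vec4 a I s 0) -
    ((1 : ℤ) : ℝ) at b
  rw [he, hf, ev_h hz, hs] at b
  push_cast at b
  refine scaled_nonneg sU_pos ?_
  linarith

/-- **The fitted entries keep to their bounds.** -/
theorem Ok.bounded (h : T.Ok) (m : T.In a I s u) {y : Pt ℝ} (hy : (T.range a I s).Mem y) :
    let k := hats (T.P.val a I (T.Xr a I s)) 1 (T.rr a I s).w1 y
    |k.gE| ≤ T.Br.gE ∧ |k.gG| ≤ T.Br.gG ∧ |k.hE| ≤ T.Br.hE ∧ |k.hG| ≤ T.Br.hG ∧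
      |k.hM| ≤ T.Br.hM ∧ |k.gM| ≤ T.Br.gM := by
  intro k
  have eB := ev_B (T := T) (a := a) (I := I) (s := s) (u := 0)
  set c := T.P.val a I (T.Xr a I s)
  set w := (T.rr a I s).w1
  refine ⟨?_, ?_, ?_, ?_, ?_, ?_⟩
  · have q : ∀ i, 0 ≤ T.Br.gE + (sgn i : ℝ) * k.gE := fun i =>
      lin3_nonneg hy (fun x => T.Br.gE + (sgn i : ℝ) * (hats c 1 w x).gE)
        (c0 := T.Br.gE + (sgn i : ℝ) * c.gE0) (cp := (sgn i : ℝ) * c.gEp) (cT := 0)
        (cg := (sgn i : ℝ) * c.gEg) (cx := (sgn i : ℝ) * c.gETg)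
        (fun x => by simp only [hats]; ring)
        (fun α β γ => bound_at (B' := 0) (x := 0) (f := Hats.gE) (f' := Hats.gE) m
          (h.hgE i α β γ) (congrArg Hats.gE eB) (ev_z α β γ false) (fun _ => rfl) (fun _ => rfl))
    exact abs_of_two (by simpa [sgn] using q true) (by have := q false; simp [sgn] at this; linarith)
  · have q : ∀ i, 0 ≤ T.Br.gG + (sgn i : ℝ) * k.gG := fun i =>
      lin3_nonneg hy (fun x => T.Br.gG + (sgn i : ℝ) * (hats c 1 w x).gG)
        (c0 := T.Br.gG + (sgn i : ℝ) * c.gG0) (cp := (sgn i : ℝ) * c.gGp) (cT := 0)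
        (cg := 0) (cx := 0)
        (fun x => by simp only [hats]; ring)
        (fun α β γ => by
          have := bound_at (B' := 0) (x := 0) (f := Hats.gG) (f' := Hats.gG) m
            (h.hgG i α) (congrArg Hats.gG eB) (ev_z α false false false) (fun _ => rfl)
            (fun _ => rfl)
          simpa only [hats, corner, range, c, w, k] using this)
    exact abs_of_two (by simpa [sgn] using q true) (by have := q false; simp [sgn] at this; linarith)
  · have q : ∀ i, 0 ≤ T.Br.hE + (sgn i : ℝ) * k.hE := fun i =>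
      lin3_nonneg hy (fun x => T.Br.hE + (sgn i : ℝ) * (hats c 1 w x).hE)
        (c0 := T.Br.hE + (sgn i : ℝ) * c.hE0) (cp := (sgn i : ℝ) * c.hEp) (cT := 0)
        (cg := 0) (cx := 0)
        (fun x => by simp only [hats]; ring)
        (fun α β γ => by
          have := bound_at (B' := 0) (x := 0) (f := Hats.hE) (f' := Hats.hE) m
            (h.hhE i α) (congrArg Hats.hE eB) (ev_z α false false false) (fun _ => rfl)
            (fun _ => rfl)
          simpa only [hats, corner, range, c, w, k] using this)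
    exact abs_of_two (by simpa [sgn] using q true) (by have := q false; simp [sgn] at this; linarith)
  · have q : ∀ i, 0 ≤ T.Br.hG + (sgn i : ℝ) * k.hG := fun i =>
      lin3_nonneg hy (fun x => T.Br.hG + (sgn i : ℝ) * (hats c 1 w x).hG)
        (c0 := T.Br.hG + (sgn i : ℝ) * c.hG0) (cp := (sgn i : ℝ) * c.hGp)
        (cT := (sgn i : ℝ) * c.hGT) (cg := 0) (cx := 0)
        (fun x => by simp only [hats]; ring)
        (fun α β γ => by
          have := bound_at (B' := 0) (x := 0) (f := Hats.hG) (f' := Hats.hG) m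
            (h.hhG i α β) (congrArg Hats.hG eB) (ev_z α β false false) (fun _ => rfl)
            (fun _ => rfl)
          simpa only [hats, corner, range, c, w, k] using this)
    exact abs_of_two (by simpa [sgn] using q true) (by have := q false; simp [sgn] at this; linarith)
  · have q : ∀ i, 0 ≤ T.Br.hM + (sgn i : ℝ) * k.hM := fun i =>
      lin3_nonneg hy (fun x => T.Br.hM + (sgn i : ℝ) * (hats c 1 w x).hM)
        (c0 := T.Br.hM + (sgn i : ℝ) * c.hM0) (cp := (sgn i : ℝ) * c.hMp) (cT := 0)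
        (cg := 0) (cx := 0)
        (fun x => by simp only [hats]; ring)
        (fun α β γ => by
          have := bound_at (B' := 0) (x := 0) (f := Hats.hM) (f' := Hats.hM) m
            (h.hhM i α) (congrArg Hats.hM eB) (ev_z α false false false) (fun _ => rfl)
            (fun _ => rfl)
          simpa only [hats, corner, range, c, w, k] using this)
    exact abs_of_two (by simpa [sgn] using q true) (by have := q false; simp [sgn] at this; linarith)
  · have q : ∀ i, 0 ≤ T.Br.gM + (sgn i : ℝ) * k.gM := fun i => by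
      have := bound_at (B' := 0) (x := 0) (f := Hats.gM) (f' := Hats.gM) m
        (h.hgM i) (congrArg Hats.gM eB) (ev_z false false false false) (fun _ => rfl)
        (fun _ => rfl)
      simpa only [hats, corner, range, c, w, k] using this
    exact abs_of_two (by simpa [sgn] using q true) (by have := q false; simp [sgn] at this; linarith)

/-- **The intermediates keep to their bounds.** -/
theorem Ok.size (h : T.Ok) (m : T.In a I s u) {y : Pt ℝ} (hy : (T.range a I s).Mem y) :
    |y.p| ≤ T.vr.p ∧ |y.T| ≤ T.vr.T ∧ |y.g| ≤ T.vr.g ∧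
      |y.q + (T.rr a I s).w1 * y.p| ≤ T.vr.q := by
  have gv : ∀ {e : Ex} {i : Bool} {v : ℤ} {x : ℝ},
      T.N3 (Ex.num v + Ex.num (sgn i) * e) → e.eval (vec4 a I s 0) = 1000 * x →
      0 ≤ (v : ℝ) / 1000 + (sgn i : ℝ) * x := by
    intro e i v x hn hx
    have b := m.at3 hn
    change 0 ≤ (v : ℝ) + ((sgn i : ℤ) : ℝ) * e.eval (vec4 a I s 0) at b
    rw [hx] at b
    linarith
  have ez := fun α β γ ν => ev_z (T := T) (a := a) (I := I) (s := s) (u := 0) α β γ ν
  refine ⟨?_, ?_, ?_, ?_⟩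
  · have p0 := gv (h.vp false false) (congrArg Pt.p (ez false false false false))
    have p1 := gv (h.vp true false) (congrArg Pt.p (ez false false false false))
    have p2 := gv (h.vp false true) (congrArg Pt.p (ez true false false false))
    have p3 := gv (h.vp true true) (congrArg Pt.p (ez true false false false))
    simp only [sgn, corner, cond] at p0 p1 p2 p3
    push_cast at p0 p1 p2 p3
    exact abs_le_ends hy.p₀ hy.p₁ (by simp only [vr, Pt.map, range]; linarith)
      (by simp only [vr, Pt.map, range]; linarith) (by simp only [vr, Pt.map, range]; linarith)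
      (by simp only [vr, Pt.map, range]; linarith)
  · have p0 := gv (h.vT false false) (congrArg Pt.T (ez false false false false))
    have p1 := gv (h.vT true false) (congrArg Pt.T (ez false false false false))
    have p2 := gv (h.vT false true) (congrArg Pt.T (ez false true false false))
    have p3 := gv (h.vT true true) (congrArg Pt.T (ez false true false false))
    simp only [sgn, corner, cond] at p0 p1 p2 p3
    push_cast at p0 p1 p2 p3
    exact abs_le_ends hy.T₀ hy.T₁ (by simp only [vr, Pt.map, range]; linarith)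
      (by simp only [vr, Pt.map, range]; linarith) (by simp only [vr, Pt.map, range]; linarith)
      (by simp only [vr, Pt.map, range]; linarith)
  · have p0 := gv (h.vg false false) (congrArg Pt.g (ez false false false false))
    have p1 := gv (h.vg true false) (congrArg Pt.g (ez false false false false))
    have p2 := gv (h.vg false true) (congrArg Pt.g (ez false false true false))
    have p3 := gv (h.vg true true) (congrArg Pt.g (ez false false true false))
    simp only [sgn, corner, cond] at p0 p1 p2 p3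
    push_cast at p0 p1 p2 p3
    exact abs_le_ends hy.g₀ hy.g₁ (by simp only [vr, Pt.map, range]; linarith)
      (by simp only [vr, Pt.map, range]; linarith) (by simp only [vr, Pt.map, range]; linarith)
      (by simp only [vr, Pt.map, range]; linarith)
  · have w : ∀ i α ν, 0 ≤ T.vr.q + (sgn i : ℝ) *
        ((cond ν (T.hir a I s).q (T.lor a I s).q) +
          (T.rr a I s).w1 * cond α (T.hir a I s).p (T.lor a I s).p) := by
      intro i α ν
      have b := m.at3 (h.vw i α ν)
      change 0 ≤ (T.c.vm.q : ℝ) * ((1000 : ℤ) : ℝ) + ((sgn i : ℤ) : ℝ) *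
        ((T.z α false false ν).q.eval (vec4 a I s 0) * ((1000 : ℤ) : ℝ) +
          (T.c.w1 : ℝ) * (T.z α false false ν).p.eval (vec4 a I s 0)) at b
      rw [show (T.z α false false ν).q.eval (vec4 a I s 0) = _ from
          congrArg Pt.q (ez α false false ν),
        show (T.z α false false ν).p.eval (vec4 a I s 0) = _ from
          congrArg Pt.p (ez α false false ν)] at b
      cases α <;> cases ν <;>
      · simp only [Pt.map, corner, cond] at b
        push_cast at b
        simp only [vr, Pt.map, rr, cond]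
        linarith
    have key : ∀ i, 0 ≤ T.vr.q + (sgn i : ℝ) * (y.q + (T.rr a I s).w1 * y.p) := by
      intro i
      have atq : ∀ α, 0 ≤ T.vr.q + (sgn i : ℝ) *
          (y.q + (T.rr a I s).w1 * cond α (T.hir a I s).p (T.lor a I s).p) := by
        intro α
        have := aff_nonneg hy.q₀ hy.q₁ (c1 := (sgn i : ℝ))
          (c0 := T.vr.q + (sgn i : ℝ) * ((T.rr a I s).w1 *
            cond α (T.hir a I s).p (T.lor a I s).p))
          (by have := w i α false; simp only [range, cond] at this ⊢; linarith)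
          (by have := w i α true; simp only [range, cond] at this ⊢; linarith)
        linarith
      have := aff_nonneg hy.p₀ hy.p₁ (c1 := (sgn i : ℝ) * (T.rr a I s).w1)
        (c0 := T.vr.q + (sgn i : ℝ) * y.q)
        (by have := atq false; simp only [range, cond] at this ⊢; linarith)
        (by have := atq true; simp only [range, cond] at this ⊢; linarith)
      linarith
    have k0 := key false
    have k1 := key true
    simp only [sgn, cond] at k0 k1
    push_cast at k0 k1
    exact abs_of_two (by linarith) (by linarith)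

/-- The errors of the coefficients are covered. -/
theorem Ok.errs (h : T.Ok) :
    let k := hats T.P.err 1 0 T.vr
    k.GG ≤ T.er.GG ∧ k.EG ≤ T.er.EG ∧ k.LE ≤ T.er.LE ∧ k.LM ≤ T.er.LM ∧ k.gE ≤ T.er.gE ∧
      k.gG ≤ T.er.gG ∧ k.hE ≤ T.er.hE ∧ k.hG ≤ T.er.hG ∧ k.hM ≤ T.er.hM ∧ k.N ≤ T.er.N ∧
      k.M ≤ T.er.M ∧ k.gM ≤ T.er.gM := by
  intro k
  have he := h.err
  simp only [errOk, Bool.and_eq_true, decide_eq_true_eq] at he
  obtain ⟨⟨⟨⟨⟨⟨⟨⟨⟨⟨⟨⟨⟨⟨⟨e1, e2⟩, e3⟩, e4⟩, e5⟩, e6⟩, e7⟩, e8⟩, e9⟩, e10⟩, e11⟩, e12⟩, -⟩, -⟩, -⟩, -⟩ := he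
  refine ⟨?_, ?_, ?_, ?_, ?_, ?_, ?_, ?_, ?_, ?_, ?_, ?_⟩
  · have q := (Int.cast_le (R := ℝ)).2 e1
    simp only [k, hats, Fit.err, Co.map, vr, Pt.map, er, Hats.map] at q ⊢
    push_cast at q; linarith
  · have q := (Int.cast_le (R := ℝ)).2 e2
    simp only [k, hats, Fit.err, Co.map, vr, Pt.map, er, Hats.map] at q ⊢
    push_cast at q; linarith
  · have q := (Int.cast_le (R := ℝ)).2 e3
    simp only [k, hats, Fit.err, Co.map, vr, Pt.map, er, Hats.map] at q ⊢
    push_cast at q; linarith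
  · have q := (Int.cast_le (R := ℝ)).2 e4
    simp only [k, hats, Fit.err, Co.map, vr, Pt.map, er, Hats.map] at q ⊢
    push_cast at q; linarith
  · have q := (Int.cast_le (R := ℝ)).2 e5
    simp only [k, hats, Fit.err, Co.map, vr, Pt.map, er, Hats.map] at q ⊢
    push_cast at q; linarith
  · have q := (Int.cast_le (R := ℝ)).2 e6
    simp only [k, hats, Fit.err, Co.map, vr, Pt.map, er, Hats.map] at q ⊢
    push_cast at q; linarith
  · have q := (Int.cast_le (R := ℝ)).2 e7
    simp only [k, hats, Fit.err, Co.map, vr, Pt.map, er, Hats.map] at q ⊢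
    push_cast at q; linarith
  · have q := (Int.cast_le (R := ℝ)).2 e8
    simp only [k, hats, Fit.err, Co.map, vr, Pt.map, er, Hats.map] at q ⊢
    push_cast at q; linarith
  · have q := (Int.cast_le (R := ℝ)).2 e9
    simp only [k, hats, Fit.err, Co.map, vr, Pt.map, er, Hats.map] at q ⊢
    push_cast at q; linarith
  · have q := (Int.cast_le (R := ℝ)).2 e10
    simp only [k, hats, Fit.err, Co.map, vr, Pt.map, er, Hats.map] at q ⊢
    push_cast at q; linarith
  · have q := (Int.cast_le (R := ℝ)).2 e11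
    simp only [k, hats, Fit.err, Co.map, vr, Pt.map, er, Hats.map] at q ⊢
    push_cast at q; linarith
  · have q := (Int.cast_le (R := ℝ)).2 e12
    simp only [k, hats, Fit.err, Co.map, vr, Pt.map, er, Hats.map] at q ⊢
    push_cast at q; linarith

/-- **The gap.** -/
theorem Ok.gap_low (h : T.Ok) (m : T.In a I s u) (P : Point a I X u H g W1) (hX : T.Xr a I s = X)
    (hH : T.Between a I X u H) (hE : 0 < exitQ kR T.low a I X u 1) :
    0 ≤ 64 * X * qnN kR a I X u 1 *
        (T.L.A0 kR a I X u 1 + T.L.A1 kR a I X u 1 * H + T.L.A2 kR a I X u 1 * H ^ 2) +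
      1000000 * (1 - 2 * I) * u * (T.rr a I s).dl *
        (den0 kR a I X 1 - den1 kR a I u 1 * H) := by
  subst hX
  have k := qual_at m hH (G := T.gQ) (fun b => rfl) (fun b => rfl) h.gap h.gaps
  have mu0 := m.at3 h.mu
  have nu0 := m.at3 h.nu
  change 0 ≤ poly8 kR T.c.mu a I s at mu0
  change 0 ≤ poly8 kR T.c.nu a I s at nu0
  have eE : (exitQ Ex.num T.low aE IE T.X uE oE).eval (vec4 a I s u) =
      1000 * exitQ kR T.low a I (T.Xr a I s) u 1 := by
    have : (exitQ Ex.num T.low aE IE T.X uE oE).eval (vec4 a I s u) =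
        exitQ kR T.low a I (T.c.X kR a I s) u ((1000 : ℤ) : ℝ) := by cases T.low <;> rfl
    rw [this, thousand, ← Xr_mul]
    cases T.low <;> simp only [exitQ, cond] <;> ring
  have e0 : (T.L.A0 Ex.num (oE * aE) (oE * IE) T.X uE oE).eval (vec4 a I s u) =
      1000 ^ 4 * T.L.A0 kR a I (T.Xr a I s) u 1 := by
    show T.L.A0 kR (((1000 : ℤ) : ℝ) * a) (((1000 : ℤ) : ℝ) * I) (T.c.X kR a I s) u
      ((1000 : ℤ) : ℝ) = _
    rw [thousand, ← Xr_mul]
    simp only [LLFit.A0, llCo, quart_scale, kR]; ring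
  have e1 : (T.L.A1 Ex.num (oE * aE) (oE * IE) T.X uE oE).eval (vec4 a I s u) =
      1000 ^ 4 * T.L.A1 kR a I (T.Xr a I s) u 1 := by
    show T.L.A1 kR (((1000 : ℤ) : ℝ) * a) (((1000 : ℤ) : ℝ) * I) (T.c.X kR a I s) u
      ((1000 : ℤ) : ℝ) = _
    rw [thousand, ← Xr_mul]
    simp only [LLFit.A1, llCo, quart_scale, kR]; ring
  have e2 : (T.L.A2 Ex.num (oE * aE) (oE * IE) T.X uE oE).eval (vec4 a I s u) =
      1000 ^ 4 * T.L.A2 kR a I (T.Xr a I s) u 1 := by
    show T.L.A2 kR (((1000 : ℤ) : ℝ) * a) (((1000 : ℤ) : ℝ) * I) (T.c.X kR a I s) u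
      ((1000 : ℤ) : ℝ) = _
    rw [thousand, ← Xr_mul]
    simp only [LLFit.A2, llCo, quart_scale, kR]; ring
  change 0 ≤ Quad.val
    (gapQ kR ((T.L.A0 Ex.num (oE * aE) (oE * IE) T.X uE oE).eval (vec4 a I s u))
      ((T.L.A1 Ex.num (oE * aE) (oE * IE) T.X uE oE).eval (vec4 a I s u))
      ((T.L.A2 Ex.num (oE * aE) (oE * IE) T.X uE oE).eval (vec4 a I s u))
      a I (T.c.X kR a I s) u ((1000 : ℤ) : ℝ) (poly10 kR T.c.dl a I s)
      (poly8 kR T.c.mu a I s) (poly8 kR T.c.nu a I s)
      ((exitQ Ex.num T.low aE IE T.X uE oE).eval (vec4 a I s u))) H at k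
  rw [e0, e1, e2, eE, thousand, ← Xr_mul,
    show poly10 kR T.c.dl a I s = 1000 * (T.rr a I s).dl by simp only [rr]; ring,
    show poly8 kR T.c.mu a I s = 1000 * (poly8 kR T.c.mu a I s / 1000) by ring,
    show poly8 kR T.c.nu a I s = 1000 * (poly8 kR T.c.nu a I s / 1000) by ring, gapQ_scale] at k
  have f := P.flow_pos
  have hm : 0 ≤ poly8 kR T.c.mu a I s / 1000 := by positivity
  have hn : 0 ≤ poly8 kR T.c.nu a I s / 1000 := by positivity
  refine nonneg_of_mul_nonneg_right (a := I) ?_ P.I0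
  simp only [Quad.val, gapQ, kR] at k
  push_cast at k
  linarith [mul_nonneg hm f.le, mul_nonneg (mul_nonneg hn P.I0.le) hE.le]

/-- **The checks of a cell give the signs.** -/
theorem Ok.signs (h : T.Ok) {A B C : Seg} (hP : T.P.Ok A B C) (hL : T.L.Ok A B C)
    (hC : ∀ X : ℝ, (T.x0 : ℝ) ≤ 1000 * X → 1000 * X ≤ T.x1 → C.Mem X)
    (P : Point a I X u H g W1) (ma : T.A.Mem a) (mI : T.B.Mem I) (mu : T.U.Mem u)
    (mA : A.Mem a) (mB : B.Mem I) (hH : T.Between a I X u H)
    (hE : 0 < exitQ kR T.low a I X u 1) :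
    ClosedGen.SignsMult a (1 - 2 * I - 2 * a) (2 * I * X) g (2 * I * H / (1 - 2 * I)) W1
      ((1 - 2 * I) * u / (2 * I)) (llNum a I X u H) := by
  obtain ⟨s, m, hX⟩ := h.place P ma mI mu hH hE
  have hX0 : 0 < X := by linarith [P.X0]
  have hW : (wts kR a I (T.Xr a I s) 1).Good :=
    wts_good P.a0.le P.a1 P.I0.le P.I1 (by rw [hX]; linarith)
  have hy := h.inside m P hX hH
  obtain ⟨l2, l3, dl, hc⟩ := h.checked m hW hy
  obtain ⟨b1, b2, b3, b4, b5, b6⟩ := h.bounded m hy
  obtain ⟨v1, v2, v3, v4⟩ := h.size m hy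
  have hx0 : (T.x0 : ℝ) ≤ 1000 * X := by
    have b := m.at3 h.X0
    change 0 ≤ T.c.X kR a I s - (T.x0 : ℝ) at b
    rw [← hX, Xr_mul]; linarith
  have hx1 : 1000 * X ≤ (T.x1 : ℝ) := by
    have b := m.at3 h.X1
    change 0 ≤ (T.x1 : ℝ) - T.c.X kR a I s at b
    rw [← hX, Xr_mul]; linarith
  have mC := hC X hx0 hx1
  have hI2 : I < 1 / 2 := by linarith [P.I1]
  have cn := hP.near mA mB mC hI2 P.hd P.a0.le
  obtain ⟨n1, n2, n3, n4, n5, n6, n7, n8, n9, n10, n11, n12⟩ := hats_near cn v1 v2 v3 v4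
  obtain ⟨e1, e2, e3, e4, e5, e6, e7, e8, e9, e10, e11, e12⟩ := h.errs
  have et : trueHats a I X (zPt a I X u H g W1) =
      hats (trueCo a I X) 1 (T.rr a I s).w1 (shift (T.rr a I s).w1 (zPt a I X u H g W1)) :=
    trueHats_eq a I X (T.rr a I s).w1 _
  rw [hX] at hc b1 b2 b3 b4 b5 b6 hW
  have near : Near T.Br T.er
      (hats (T.P.val a I X) 1 (T.rr a I s).w1 (shift (T.rr a I s).w1 (zPt a I X u H g W1)))
      (trueHats a I X (zPt a I X u H g W1)) := by
    rw [et]
    exact ⟨n1.trans e1, n2.trans e2, n3.trans e3, n4.trans e4, n5.trans e5, n6.trans e6,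
      n7.trans e7, n8.trans e8, n9.trans e9, n10.trans e10, n11.trans e11, n12.trans e12,
      b1, b2, b3, b4, b5, b6⟩
  obtain ⟨r1, r2, r3, r4⟩ := hc.true_rows hW near l2.le l3.le
  have hQ := P.hQ
  have hI := P.I0.ne'
  have hb := P.hb
  have hd := P.hd
  have hS := P.hS
  have eW : g * (2 * I * H / (1 - 2 * I)) = midP a I (zPt a I X u H g W1).p := by
    simp only [midP, zPt]; field_simp; ring
  have eW1 : g * W1 = midP a I (zPt a I X u H g W1).p * (zPt a I X u H g W1).q * I := by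
    rw [← eW]
    have := P.H0.ne'
    simp only [zPt]; field_simp
  have en : scNum g (llNum a I X u H) =
      midNum a I X (zPt a I X u H g W1).T (zPt a I X u H g W1).g := by
    simp only [scNum, llNum, midNum, zPt, ClosedGen.Num.mk.injEq, true_and, and_true, and_self]
    have hQ' := hQ.ne'
    generalize 1 + (1 - 2 * I - 2 * a) * (2 * I * X) = Q at hQ' ⊢
    refine ⟨?_, ?_, ?_, ?_⟩ <;> (field_simp; try ring)
  refine signs_of_rows (zPt a I X u H g W1) hI hb.ne' hd.ne' hS.ne' eW eW1 en P.a0 P.I0 hd hX0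
    P.g0 l2 l3 dl r1 r2 r3 r4 ?_
  have low := hL.low mA mB mC P.I0 hd P.a0.le hX0.le P.u0.le P.H0.le
  have gp := h.gap_low m P hX hH hE
  have enl := nLL_eq (u := u) (H := H) (g := g) (W1 := W1) hI hb.ne' hd.ne' hS.ne' hQ.ne'
  have hQ2 : 0 < 1 + 2 * (1 - 2 * I - 2 * a) * I * X := by linarith
  have hD : 0 < 20 * (1 - 2 * I) * (1 - 2 * I - 2 * a) *
      (1 + 2 * (1 - 2 * I - 2 * a) * I * X) := by positivity
  generalize hLG : ClosedGen.LLGS a (1 - 2 * I - 2 * a) (2 * I * X) g
    (2 * I * H / (1 - 2 * I)) W1 ((1 - 2 * I) * u / (2 * I)) (llNum a I X u H) = LG at enl ⊢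
  generalize hF : nLL a I X u H = F at enl low
  have eLG : LG = a * I * (F / (20 * (1 - 2 * I) * (1 - 2 * I - 2 * a) *
      (1 + 2 * (1 - 2 * I - 2 * a) * I * X))) := by
    rw [← mul_div_assoc, eq_div_iff hD.ne']; exact enl.symm
  rw [eLG, show (llNum a I X u H).c = a * (1 - 2 * I - a) from rfl]
  generalize F / _ = G at low ⊢
  have hg := P.g_eq
  have hD' := P.den
  generalize den0 kR a I X 1 - den1 kR a I u 1 * H = D at hg gp hD'
  generalize qnN kR a I X u 1 = qn at hg gp
  generalize T.L.A0 kR a I X u 1 + T.L.A1 kR a I X u 1 * H + T.L.A2 kR a I X u 1 * H ^ 2 = A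
    at low gp
  generalize (T.rr a I s).dl = δ at gp dl ⊢
  have hqn : 0 ≤ qn := by
    have : 0 ≤ g * (I * (1 - 2 * I - a) * D) :=
      mul_nonneg P.g0.le (mul_nonneg (mul_nonneg P.I0.le hb.le) hD'.le)
    linarith
  have key : 0 ≤ 64 * X * qn * G + (1 - 2 * I) * u * δ * D := by
    have := mul_le_mul_of_nonneg_left low (show 0 ≤ 64 * X * qn by positivity)
    linarith
  refine sub_nonneg.1 (nonneg_of_mul_nonneg_left ?_ hD')
  have : 0 ≤ a ^ 3 * (1 - 2 * I - a) * I / 2 := by
    have := P.a0; have := P.I0; positivity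
  refine le_trans (mul_nonneg this key) (le_of_eq ?_)
  have e2 : 2 * qn = g * (I * (1 - 2 * I - a) * D) := hg.symm
  have hS2 : δ * (a ^ 3 * (1 - 2 * I - a) * I ^ 2) * ((1 - 2 * I) * u / (2 * I)) =
      δ * (a ^ 3 * (1 - 2 * I - a) * I) * ((1 - 2 * I) * u) / 2 := by field_simp
  rw [hS2]
  linear_combination (16 * a ^ 3 * (1 - 2 * I - a) * I * X * G) * e2

end Ctx

end Vale.Agent.P100.Calib.Mid
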