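import Vale.Agent.P100.Calib.SlabWaistChart

/-!
# A place of the middle of the tail, and the signs there from a cell
-/

set_option linter.unusedVariables false

namespace Vale.Agent.P100.Calib.Mid

open Closed

/-- `H` of the chart at a place. -/
noncomputable def siteH (a I X u t : ℝ) : ℝ :=
  chH (1 - 2 * I - 2 * a) (1 - 2 * I) u (2 * I * X) t

/-- What is known on an orbit at a place of the middle. -/
structure Site (a I X u t : ℝ) : Prop where
  a0 : 0 < a
  a1 : a ≤ 31 / 100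
  I0 : 0 < I
  I1 : I ≤ 1 / 20
  facts : All.ChartFacts (1 - 2 * I - 2 * a) (1 - 2 * I) u (2 * I * X) t
  D : 0 < endD kR a I u 1
  lo : endN kR 0 a I X u 1 ≤ siteH a I X u t * endD kR a I u 1
  hi : siteH a I X u t * endD kR a I u 1 ≤ endN kR 2 a I X u 1
  exit : 0 < exitQ kR false a I X u 1
  exitLow : a ≤ 1 / 10 → 0 < exitQ kR true a I X u 1

/-- **The signs at a place in a cell.** -/
theorem Site.cell {a I X u t : ℝ} (s : Site a I X u t) {T : Ctx} (h : T.Ok) {A C : Seg}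
    (hP : T.P.Ok A ⟨0, 50, 1000⟩ C) (hL : T.L.Ok A ⟨0, 50, 1000⟩ C)
    (hC : C = ⟨T.x0, T.x1, 1000⟩) (hB : T.B = ⟨0, 1, 20⟩) (ma : T.A.Mem a) (mA : A.Mem a)
    (mu : T.U.Mem u) (hlow : T.low = true → a ≤ 1 / 10)
    (h0 : endN kR T.m0 a I X u 1 ≤ siteH a I X u t * endD kR a I u 1)
    (h1 : siteH a I X u t * endD kR a I u 1 ≤ endN kR T.m1 a I X u 1) :
    All.ChartSigns (1 - 2 * I - 2 * a) (1 - 2 * I) u (2 * I * X) t := by
  have P := point_of_chart s.a0 s.a1 s.I0 s.I1 s.facts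
  have mI : T.B.Mem I := by
    rw [hB]
    constructor <;> push_cast <;> linarith [s.I0, s.I1]
  have mB : Seg.Mem ⟨0, 50, 1000⟩ I := by
    constructor <;> push_cast <;> linarith [s.I0, s.I1]
  have hX : ∀ Y : ℝ, (T.x0 : ℝ) ≤ 1000 * Y → 1000 * Y ≤ T.x1 → C.Mem Y := by
    intro Y y0 y1
    rw [hC]
    constructor <;> push_cast <;> linarith
  have hE : 0 < exitQ kR T.low a I X u 1 := by
    rcases hl : T.low with _ | _
    · exact s.exit
    · exact s.exitLow (hlow hl)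
  exact chartSigns_of s.a0 s.a1 s.I0 s.I1
    (h.signs hP hL hX P ma mI mu mA mB ⟨s.D, h0, h1⟩ hE)

end Vale.Agent.P100.Calib.Mid
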