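import Vale.Agent.P100.Calib.SlabWaistSite
import Vale.Agent.P100.Calib.SlabWaistFitA
import Vale.Agent.P100.Calib.SlabWaistFitAw
import Vale.Agent.P100.Calib.SlabWaistFitB
import Vale.Agent.P100.Calib.SlabWaistFitBw
import Vale.Agent.P100.Calib.SlabWaistFitC
import Vale.Agent.P100.Calib.SlabWaistFitCw
import Vale.Agent.P100.Calib.SlabWaistChk00
import Vale.Agent.P100.Calib.SlabWaistChk01
import Vale.Agent.P100.Calib.SlabWaistChk02
import Vale.Agent.P100.Calib.SlabWaistChk03
import Vale.Agent.P100.Calib.SlabWaistChk04
import Vale.Agent.P100.Calib.SlabWaistChk05
import Vale.Agent.P100.Calib.SlabWaistChk06
import Vale.Agent.P100.Calib.SlabWaistChk07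
import Vale.Agent.P100.Calib.SlabWaistChk08
import Vale.Agent.P100.Calib.SlabWaistChk09
import Vale.Agent.P100.Calib.SlabWaistChk10
import Vale.Agent.P100.Calib.SlabWaistChk11
import Vale.Agent.P100.Calib.SlabWaistChk12
import Vale.Agent.P100.Calib.SlabWaistChk13
import Vale.Agent.P100.Calib.SlabWaistChk14
import Vale.Agent.P100.Calib.SlabWaistChk15
import Vale.Agent.P100.Calib.SlabWaistChk16
import Vale.Agent.P100.Calib.SlabWaistChk17
import Vale.Agent.P100.Calib.SlabWaistChk18
import Vale.Agent.P100.Calib.SlabWaistChk19
import Vale.Agent.P100.Calib.SlabWaistChk20
import Vale.Agent.P100.Calib.SlabWaistChk21
import Vale.Agent.P100.Calib.SlabWaistChk22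
import Vale.Agent.P100.Calib.SlabWaistChk23
import Vale.Agent.P100.Calib.SlabWaistChk24
import Vale.Agent.P100.Calib.SlabWaistChk25
import Vale.Agent.P100.Calib.SlabWaistChk26
import Vale.Agent.P100.Calib.SlabWaistChk27
import Vale.Agent.P100.Calib.SlabWaistChk28
import Vale.Agent.P100.Calib.SlabWaistChk29
import Vale.Agent.P100.Calib.SlabWaistChk30
import Vale.Agent.P100.Calib.SlabWaistChk31
import Vale.Agent.P100.Calib.SlabWaistChk32
import Vale.Agent.P100.Calib.SlabWaistChk33
import Vale.Agent.P100.Calib.SlabWaistChk34
import Vale.Agent.P100.Calib.SlabWaistChk35
import Vale.Agent.P100.Calib.SlabWaistChk36
import Vale.Agent.P100.Calib.SlabWaistChk37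
import Vale.Agent.P100.Calib.SlabWaistChk38
import Vale.Agent.P100.Calib.SlabWaistChk39
import Vale.Agent.P100.Calib.SlabWaistChk40
import Vale.Agent.P100.Calib.SlabWaistChk41
import Vale.Agent.P100.Calib.SlabWaistChk42
import Vale.Agent.P100.Calib.SlabWaistChk43
import Vale.Agent.P100.Calib.SlabWaistChk44
import Vale.Agent.P100.Calib.SlabWaistChk45
import Vale.Agent.P100.Calib.SlabWaistChk46
import Vale.Agent.P100.Calib.SlabWaistChk47
import Vale.Agent.P100.Calib.SlabWaistChk48

/-!
# The signs in the middle of the tail

The cells cover `a ≤ 31/100`, `3/5 ≤ u ≤ 91/100` between the two bands.
-/

set_option linter.unusedVariables false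
set_option maxHeartbeats 4000000

namespace Vale.Agent.P100.Calib.Mid

open Closed

/-- **The signs at every place of the middle.** -/
theorem signs_middle {a I X u t : ℝ} (s : Site a I X u t) (hu0 : 3 / 5 ≤ u)
    (hu1 : u ≤ 91 / 100) :
    All.ChartSigns (1 - 2 * I - 2 * a) (1 - 2 * I) u (2 * I * X) t := by
  have ha0 := s.a0
  have ha1 := s.a1
  rcases le_total a (21 / 100 : ℝ) with h | h
  · rcases le_total a (1 / 10 : ℝ) with h | h
    · rcases le_total u (89 / 100 : ℝ) with h | h
      · rcases le_total u (21 / 25 : ℝ) with h | h
        · rcases le_total u (4 / 5 : ℝ) with h | h
          · exact (s.cell ctx00_ok fitA_ok llfA_ok rfl rfl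
              (by constructor <;> norm_num [ctx00] <;> linarith)
              (by constructor <;> norm_num [segAA] <;> linarith)
              (by constructor <;> norm_num [ctx00] <;> linarith)
              (fun _ => by linarith) s.lo s.hi)
          · exact (s.cell ctx01_ok fitA_ok llfA_ok rfl rfl
              (by constructor <;> norm_num [ctx01] <;> linarith)
              (by constructor <;> norm_num [segAA] <;> linarith)
              (by constructor <;> norm_num [ctx01] <;> linarith)
              (fun _ => by linarith) s.lo s.hi)
        · rcases le_total a (1 / 20 : ℝ) with h | h
          · rcases le_total u (87 / 100 : ℝ) with h | h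
            · exact (s.cell ctx02_ok fitA_ok llfA_ok rfl rfl
                (by constructor <;> norm_num [ctx02] <;> linarith)
                (by constructor <;> norm_num [segAA] <;> linarith)
                (by constructor <;> norm_num [ctx02] <;> linarith)
                (fun _ => by linarith) s.lo s.hi)
            · rcases le_total (siteH a I X u t * endD kR a I u 1) (endN kR 1 a I X u 1) with hm | hm
              · exact (s.cell ctx03_ok fitA_ok llfA_ok rfl rfl
                  (by constructor <;> norm_num [ctx03] <;> linarith)
                  (by constructor <;> norm_num [segAA] <;> linarith)
                  (by constructor <;> norm_num [ctx03] <;> linarith)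
                  (fun _ => by linarith) s.lo hm)
              · exact (s.cell ctx04_ok fitA_ok llfA_ok rfl rfl
                  (by constructor <;> norm_num [ctx04] <;> linarith)
                  (by constructor <;> norm_num [segAA] <;> linarith)
                  (by constructor <;> norm_num [ctx04] <;> linarith)
                  (fun _ => by linarith) hm s.hi)
          · rcases le_total u (22 / 25 : ℝ) with h | h
            · exact (s.cell ctx08_ok fitA_ok llfA_ok rfl rfl
                (by constructor <;> norm_num [ctx08] <;> linarith)
                (by constructor <;> norm_num [segAA] <;> linarith)
                (by constructor <;> norm_num [ctx08] <;> linarith)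
                (fun _ => by linarith) s.lo s.hi)
            · exact (s.cell ctx09_ok fitA_ok llfA_ok rfl rfl
                (by constructor <;> norm_num [ctx09] <;> linarith)
                (by constructor <;> norm_num [segAA] <;> linarith)
                (by constructor <;> norm_num [ctx09] <;> linarith)
                (fun _ => by linarith) s.lo s.hi)
      · rcases le_total a (1 / 20 : ℝ) with h | h
        · rcases le_total u (9 / 10 : ℝ) with h | h
          · rcases le_total (siteH a I X u t * endD kR a I u 1) (endN kR 1 a I X u 1) with hm | hm
            · rcases le_total a (1 / 40 : ℝ) with h | h
              · exact (s.cell ctx05_ok fitA_ok llfA_ok rfl rfl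
                  (by constructor <;> norm_num [ctx05] <;> linarith)
                  (by constructor <;> norm_num [segAA] <;> linarith)
                  (by constructor <;> norm_num [ctx05] <;> linarith)
                  (fun _ => by linarith) s.lo hm)
              · exact (s.cell ctx06_ok fitA_ok llfA_ok rfl rfl
                  (by constructor <;> norm_num [ctx06] <;> linarith)
                  (by constructor <;> norm_num [segAA] <;> linarith)
                  (by constructor <;> norm_num [ctx06] <;> linarith)
                  (fun _ => by linarith) s.lo hm)
            · exact (s.cell ctx07_ok fitA_ok llfA_ok rfl rfl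
                (by constructor <;> norm_num [ctx07] <;> linarith)
                (by constructor <;> norm_num [segAA] <;> linarith)
                (by constructor <;> norm_num [ctx07] <;> linarith)
                (fun _ => by linarith) hm s.hi)
          · rcases le_total a (1 / 40 : ℝ) with h | h
            · rcases le_total (siteH a I X u t * endD kR a I u 1) (endN kR 1 a I X u 1) with hm | hm
              · exact (s.cell ctx31_ok fitA_ok llfA_ok rfl rfl
                  (by constructor <;> norm_num [ctx31] <;> linarith)
                  (by constructor <;> norm_num [segAA] <;> linarith)
                  (by constructor <;> norm_num [ctx31] <;> linarith)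
                  (fun _ => by linarith) s.lo hm)
              · exact (s.cell ctx32_ok fitA_ok llfA_ok rfl rfl
                  (by constructor <;> norm_num [ctx32] <;> linarith)
                  (by constructor <;> norm_num [segAA] <;> linarith)
                  (by constructor <;> norm_num [ctx32] <;> linarith)
                  (fun _ => by linarith) hm s.hi)
            · rcases le_total (siteH a I X u t * endD kR a I u 1) (endN kR 1 a I X u 1) with hm | hm
              · exact (s.cell ctx33_ok fitA_ok llfA_ok rfl rfl
                  (by constructor <;> norm_num [ctx33] <;> linarith)
                  (by constructor <;> norm_num [segAA] <;> linarith)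
                  (by constructor <;> norm_num [ctx33] <;> linarith)
                  (fun _ => by linarith) s.lo hm)
              · exact (s.cell ctx34_ok fitA_ok llfA_ok rfl rfl
                  (by constructor <;> norm_num [ctx34] <;> linarith)
                  (by constructor <;> norm_num [segAA] <;> linarith)
                  (by constructor <;> norm_num [ctx34] <;> linarith)
                  (fun _ => by linarith) hm s.hi)
        · rcases le_total u (9 / 10 : ℝ) with h | h
          · exact (s.cell ctx10_ok fitA_ok llfA_ok rfl rfl
              (by constructor <;> norm_num [ctx10] <;> linarith)
              (by constructor <;> norm_num [segAA] <;> linarith)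
              (by constructor <;> norm_num [ctx10] <;> linarith)
              (fun _ => by linarith) s.lo s.hi)
          · rcases le_total (siteH a I X u t * endD kR a I u 1) (endN kR 1 a I X u 1) with hm | hm
            · exact (s.cell ctx35_ok fitAw_ok llfAw_ok rfl rfl
                (by constructor <;> norm_num [ctx35] <;> linarith)
                (by constructor <;> norm_num [segAA] <;> linarith)
                (by constructor <;> norm_num [ctx35] <;> linarith)
                (fun _ => by linarith) s.lo hm)
            · exact (s.cell ctx36_ok fitAw_ok llfAw_ok rfl rfl
                (by constructor <;> norm_num [ctx36] <;> linarith)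
                (by constructor <;> norm_num [segAA] <;> linarith)
                (by constructor <;> norm_num [ctx36] <;> linarith)
                (fun _ => by linarith) hm s.hi)
    · rcases le_total u (89 / 100 : ℝ) with h | h
      · rcases le_total u (21 / 25 : ℝ) with h | h
        · rcases le_total u (39 / 50 : ℝ) with h | h
          · exact (s.cell ctx11_ok fitB_ok llfB_ok rfl rfl
              (by constructor <;> norm_num [ctx11] <;> linarith)
              (by constructor <;> norm_num [segAB] <;> linarith)
              (by constructor <;> norm_num [ctx11] <;> linarith)
              (fun h => absurd h (by simp [ctx11])) s.lo s.hi)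
          · exact (s.cell ctx12_ok fitB_ok llfB_ok rfl rfl
              (by constructor <;> norm_num [ctx12] <;> linarith)
              (by constructor <;> norm_num [segAB] <;> linarith)
              (by constructor <;> norm_num [ctx12] <;> linarith)
              (fun h => absurd h (by simp [ctx12])) s.lo s.hi)
        · rcases le_total a (31 / 200 : ℝ) with h | h
          · rcases le_total u (87 / 100 : ℝ) with h | h
            · exact (s.cell ctx13_ok fitB_ok llfB_ok rfl rfl
                (by constructor <;> norm_num [ctx13] <;> linarith)
                (by constructor <;> norm_num [segAB] <;> linarith)
                (by constructor <;> norm_num [ctx13] <;> linarith)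
                (fun h => absurd h (by simp [ctx13])) s.lo s.hi)
            · exact (s.cell ctx14_ok fitB_ok llfB_ok rfl rfl
                (by constructor <;> norm_num [ctx14] <;> linarith)
                (by constructor <;> norm_num [segAB] <;> linarith)
                (by constructor <;> norm_num [ctx14] <;> linarith)
                (fun h => absurd h (by simp [ctx14])) s.lo s.hi)
          · exact (s.cell ctx17_ok fitB_ok llfB_ok rfl rfl
              (by constructor <;> norm_num [ctx17] <;> linarith)
              (by constructor <;> norm_num [segAB] <;> linarith)
              (by constructor <;> norm_num [ctx17] <;> linarith)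
              (fun h => absurd h (by simp [ctx17])) s.lo s.hi)
      · rcases le_total a (31 / 200 : ℝ) with h | h
        · rcases le_total a (16 / 125 : ℝ) with h | h
          · rcases le_total u (9 / 10 : ℝ) with h | h
            · exact (s.cell ctx15_ok fitB_ok llfB_ok rfl rfl
                (by constructor <;> norm_num [ctx15] <;> linarith)
                (by constructor <;> norm_num [segAB] <;> linarith)
                (by constructor <;> norm_num [ctx15] <;> linarith)
                (fun h => absurd h (by simp [ctx15])) s.lo s.hi)
            · rcases le_total (siteH a I X u t * endD kR a I u 1) (endN kR 1 a I X u 1) with hm | hm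
              · exact (s.cell ctx37_ok fitB_ok llfB_ok rfl rfl
                  (by constructor <;> norm_num [ctx37] <;> linarith)
                  (by constructor <;> norm_num [segAB] <;> linarith)
                  (by constructor <;> norm_num [ctx37] <;> linarith)
                  (fun h => absurd h (by simp [ctx37])) s.lo hm)
              · exact (s.cell ctx38_ok fitB_ok llfB_ok rfl rfl
                  (by constructor <;> norm_num [ctx38] <;> linarith)
                  (by constructor <;> norm_num [segAB] <;> linarith)
                  (by constructor <;> norm_num [ctx38] <;> linarith)
                  (fun h => absurd h (by simp [ctx38])) hm s.hi)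
          · rcases le_total u (9 / 10 : ℝ) with h | h
            · exact (s.cell ctx16_ok fitB_ok llfB_ok rfl rfl
                (by constructor <;> norm_num [ctx16] <;> linarith)
                (by constructor <;> norm_num [segAB] <;> linarith)
                (by constructor <;> norm_num [ctx16] <;> linarith)
                (fun h => absurd h (by simp [ctx16])) s.lo s.hi)
            · rcases le_total (siteH a I X u t * endD kR a I u 1) (endN kR 1 a I X u 1) with hm | hm
              · exact (s.cell ctx39_ok fitB_ok llfB_ok rfl rfl
                  (by constructor <;> norm_num [ctx39] <;> linarith)
                  (by constructor <;> norm_num [segAB] <;> linarith)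
                  (by constructor <;> norm_num [ctx39] <;> linarith)
                  (fun h => absurd h (by simp [ctx39])) s.lo hm)
              · exact (s.cell ctx40_ok fitB_ok llfB_ok rfl rfl
                  (by constructor <;> norm_num [ctx40] <;> linarith)
                  (by constructor <;> norm_num [segAB] <;> linarith)
                  (by constructor <;> norm_num [ctx40] <;> linarith)
                  (fun h => absurd h (by simp [ctx40])) hm s.hi)
        · rcases le_total u (9 / 10 : ℝ) with h | h
          · exact (s.cell ctx18_ok fitB_ok llfB_ok rfl rfl
              (by constructor <;> norm_num [ctx18] <;> linarith)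
              (by constructor <;> norm_num [segAB] <;> linarith)
              (by constructor <;> norm_num [ctx18] <;> linarith)
              (fun h => absurd h (by simp [ctx18])) s.lo s.hi)
          · rcases le_total a (91 / 500 : ℝ) with h | h
            · exact (s.cell ctx41_ok fitB_ok llfB_ok rfl rfl
                (by constructor <;> norm_num [ctx41] <;> linarith)
                (by constructor <;> norm_num [segAB] <;> linarith)
                (by constructor <;> norm_num [ctx41] <;> linarith)
                (fun h => absurd h (by simp [ctx41])) s.lo s.hi)
            · exact (s.cell ctx42_ok fitBw_ok llfBw_ok rfl rfl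
                (by constructor <;> norm_num [ctx42] <;> linarith)
                (by constructor <;> norm_num [segAB] <;> linarith)
                (by constructor <;> norm_num [ctx42] <;> linarith)
                (fun h => absurd h (by simp [ctx42])) s.lo s.hi)
  · rcases le_total u (22 / 25 : ℝ) with h | h
    · rcases le_total u (163 / 200 : ℝ) with h | h
      · rcases le_total u (77 / 100 : ℝ) with h | h
        · exact (s.cell ctx19_ok fitC_ok llfC_ok rfl rfl
            (by constructor <;> norm_num [ctx19] <;> linarith)
            (by constructor <;> norm_num [segAC] <;> linarith)
            (by constructor <;> norm_num [ctx19] <;> linarith)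
            (fun h => absurd h (by simp [ctx19])) s.lo s.hi)
        · exact (s.cell ctx20_ok fitC_ok llfC_ok rfl rfl
            (by constructor <;> norm_num [ctx20] <;> linarith)
            (by constructor <;> norm_num [segAC] <;> linarith)
            (by constructor <;> norm_num [ctx20] <;> linarith)
            (fun h => absurd h (by simp [ctx20])) s.lo s.hi)
      · rcases le_total u (17 / 20 : ℝ) with h | h
        · exact (s.cell ctx21_ok fitC_ok llfC_ok rfl rfl
            (by constructor <;> norm_num [ctx21] <;> linarith)
            (by constructor <;> norm_num [segAC] <;> linarith)
            (by constructor <;> norm_num [ctx21] <;> linarith)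
            (fun h => absurd h (by simp [ctx21])) s.lo s.hi)
        · rcases le_total a (13 / 50 : ℝ) with h | h
          · rcases le_total (siteH a I X u t * endD kR a I u 1) (endN kR 1 a I X u 1) with hm | hm
            · exact (s.cell ctx22_ok fitC_ok llfC_ok rfl rfl
                (by constructor <;> norm_num [ctx22] <;> linarith)
                (by constructor <;> norm_num [segAC] <;> linarith)
                (by constructor <;> norm_num [ctx22] <;> linarith)
                (fun h => absurd h (by simp [ctx22])) s.lo hm)
            · exact (s.cell ctx23_ok fitC_ok llfC_ok rfl rfl
                (by constructor <;> norm_num [ctx23] <;> linarith)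
                (by constructor <;> norm_num [segAC] <;> linarith)
                (by constructor <;> norm_num [ctx23] <;> linarith)
                (fun h => absurd h (by simp [ctx23])) hm s.hi)
          · rcases le_total (siteH a I X u t * endD kR a I u 1) (endN kR 1 a I X u 1) with hm | hm
            · exact (s.cell ctx24_ok fitC_ok llfC_ok rfl rfl
                (by constructor <;> norm_num [ctx24] <;> linarith)
                (by constructor <;> norm_num [segAC] <;> linarith)
                (by constructor <;> norm_num [ctx24] <;> linarith)
                (fun h => absurd h (by simp [ctx24])) s.lo hm)
            · exact (s.cell ctx25_ok fitC_ok llfC_ok rfl rfl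
                (by constructor <;> norm_num [ctx25] <;> linarith)
                (by constructor <;> norm_num [segAC] <;> linarith)
                (by constructor <;> norm_num [ctx25] <;> linarith)
                (fun h => absurd h (by simp [ctx25])) hm s.hi)
    · rcases le_total a (13 / 50 : ℝ) with h | h
      · rcases le_total u (9 / 10 : ℝ) with h | h
        · rcases le_total u (89 / 100 : ℝ) with h | h
          · exact (s.cell ctx26_ok fitC_ok llfC_ok rfl rfl
              (by constructor <;> norm_num [ctx26] <;> linarith)
              (by constructor <;> norm_num [segAC] <;> linarith)
              (by constructor <;> norm_num [ctx26] <;> linarith)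
              (fun h => absurd h (by simp [ctx26])) s.lo s.hi)
          · exact (s.cell ctx27_ok fitC_ok llfC_ok rfl rfl
              (by constructor <;> norm_num [ctx27] <;> linarith)
              (by constructor <;> norm_num [segAC] <;> linarith)
              (by constructor <;> norm_num [ctx27] <;> linarith)
              (fun h => absurd h (by simp [ctx27])) s.lo s.hi)
        · rcases le_total a (47 / 200 : ℝ) with h | h
          · exact (s.cell ctx43_ok fitC_ok llfC_ok rfl rfl
              (by constructor <;> norm_num [ctx43] <;> linarith)
              (by constructor <;> norm_num [segAC] <;> linarith)
              (by constructor <;> norm_num [ctx43] <;> linarith)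
              (fun h => absurd h (by simp [ctx43])) s.lo s.hi)
          · exact (s.cell ctx44_ok fitC_ok llfC_ok rfl rfl
              (by constructor <;> norm_num [ctx44] <;> linarith)
              (by constructor <;> norm_num [segAC] <;> linarith)
              (by constructor <;> norm_num [ctx44] <;> linarith)
              (fun h => absurd h (by simp [ctx44])) s.lo s.hi)
      · rcases le_total u (9 / 10 : ℝ) with h | h
        · rcases le_total u (89 / 100 : ℝ) with h | h
          · rcases le_total (siteH a I X u t * endD kR a I u 1) (endN kR 1 a I X u 1) with hm | hm
            · exact (s.cell ctx28_ok fitC_ok llfC_ok rfl rfl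
                (by constructor <;> norm_num [ctx28] <;> linarith)
                (by constructor <;> norm_num [segAC] <;> linarith)
                (by constructor <;> norm_num [ctx28] <;> linarith)
                (fun h => absurd h (by simp [ctx28])) s.lo hm)
            · exact (s.cell ctx29_ok fitC_ok llfC_ok rfl rfl
                (by constructor <;> norm_num [ctx29] <;> linarith)
                (by constructor <;> norm_num [segAC] <;> linarith)
                (by constructor <;> norm_num [ctx29] <;> linarith)
                (fun h => absurd h (by simp [ctx29])) hm s.hi)
          · exact (s.cell ctx30_ok fitC_ok llfC_ok rfl rfl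
              (by constructor <;> norm_num [ctx30] <;> linarith)
              (by constructor <;> norm_num [segAC] <;> linarith)
              (by constructor <;> norm_num [ctx30] <;> linarith)
              (fun h => absurd h (by simp [ctx30])) s.lo s.hi)
        · rcases le_total a (57 / 200 : ℝ) with h | h
          · rcases le_total (siteH a I X u t * endD kR a I u 1) (endN kR 1 a I X u 1) with hm | hm
            · exact (s.cell ctx45_ok fitC_ok llfC_ok rfl rfl
                (by constructor <;> norm_num [ctx45] <;> linarith)
                (by constructor <;> norm_num [segAC] <;> linarith)
                (by constructor <;> norm_num [ctx45] <;> linarith)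
                (fun h => absurd h (by simp [ctx45])) s.lo hm)
            · exact (s.cell ctx46_ok fitC_ok llfC_ok rfl rfl
                (by constructor <;> norm_num [ctx46] <;> linarith)
                (by constructor <;> norm_num [segAC] <;> linarith)
                (by constructor <;> norm_num [ctx46] <;> linarith)
                (fun h => absurd h (by simp [ctx46])) hm s.hi)
          · rcases le_total (siteH a I X u t * endD kR a I u 1) (endN kR 1 a I X u 1) with hm | hm
            · exact (s.cell ctx47_ok fitCw_ok llfCw_ok rfl rfl
                (by constructor <;> norm_num [ctx47] <;> linarith)
                (by constructor <;> norm_num [segAC] <;> linarith)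
                (by constructor <;> norm_num [ctx47] <;> linarith)
                (fun h => absurd h (by simp [ctx47])) s.lo hm)
            · exact (s.cell ctx48_ok fitCw_ok llfCw_ok rfl rfl
                (by constructor <;> norm_num [ctx48] <;> linarith)
                (by constructor <;> norm_num [segAC] <;> linarith)
                (by constructor <;> norm_num [ctx48] <;> linarith)
                (fun h => absurd h (by simp [ctx48])) hm s.hi)

end Vale.Agent.P100.Calib.Mid
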